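import Mathlib.Algebra.BigOperators.Group.Finset.Defs
import Mathlib.Data.Complex.Basic
import Mathlib.Data.Fin.VecNotation
import Mathlib.Data.Fintype.Basic

/-! # P250 module G7: definitions of the model algebra -/

open Complex

namespace P250

noncomputable section

/-- standard hermitian product on `ℂ × ℂ` -/
def ip (ξ η : ℂ × ℂ) : ℂ := ξ.1 * starRingEnd ℂ η.1 + ξ.2 * starRingEnd ℂ η.2

/-- diagonal hermitian form -/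
def cdiag (c1 c2 : ℝ) (ξ η : ℂ × ℂ) : ℂ :=
  c1 * ξ.1 * starRingEnd ℂ η.1 + c2 * ξ.2 * starRingEnd ℂ η.2

/-- components -/
def cmp (ξ : ℂ × ℂ) : Fin 2 → ℂ := ![ξ.1, ξ.2]

/-- `k`-th component of the (2,1) part -/
def c21k (a3 : Fin 2 → Fin 2 → Fin 2 → ℂ) (k : Fin 2) (ξ ξ' : ℂ × ℂ) : ℂ :=
  ∑ i, ∑ j, a3 i j k * cmp ξ i * cmp ξ' j

/-- the (2,1) part -/
def c21 (a3 : Fin 2 → Fin 2 → Fin 2 → ℂ) (ξ ξ' η : ℂ × ℂ) : ℂ :=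
  ∑ k, c21k a3 k ξ ξ' * starRingEnd ℂ (cmp η k)

/-- the (2,2) part -/
def c22 (a4 : Fin 2 → Fin 2 → Fin 2 → Fin 2 → ℂ) (ξ ξ' η η' : ℂ × ℂ) : ℂ :=
  ∑ i, ∑ j, ∑ k, ∑ l, a4 i j k l * cmp ξ i * cmp ξ' j * starRingEnd ℂ (cmp η k)
    * starRingEnd ℂ (cmp η' l)

/-- second derivatives of the potential at the normalised point -/
def m11 (A s c1 c2 : ℝ) (u v : (ℂ × ℂ) × ℂ) : ℂ :=
  A * ip u.1 v.1 + s * cdiag c1 c2 u.1 v.1 + s * (1 + s) * (u.2 * starRingEnd ℂ v.2)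

/-- fourth derivatives of type (2,2) -/
def m22 (A s c1 c2 : ℝ) (a3 : Fin 2 → Fin 2 → Fin 2 → ℂ)
    (a4 : Fin 2 → Fin 2 → Fin 2 → Fin 2 → ℂ) (u u' v v' : (ℂ × ℂ) × ℂ) : ℂ :=
  A * (ip u.1 v.1 * ip u'.1 v'.1 + ip u.1 v'.1 * ip u'.1 v.1)
  + s * (1 + s) * ((1 + 2 * s) ^ 2 + 2 * s * (1 + s)) *
      (u.2 * u'.2 * starRingEnd ℂ v.2 * starRingEnd ℂ v'.2)
  + s * (1 + s) * (1 + 2 * s) *
      (cdiag c1 c2 u.1 v.1 * u'.2 * starRingEnd ℂ v'.2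
        + cdiag c1 c2 u.1 v'.1 * u'.2 * starRingEnd ℂ v.2
        + cdiag c1 c2 u'.1 v.1 * u.2 * starRingEnd ℂ v'.2
        + cdiag c1 c2 u'.1 v'.1 * u.2 * starRingEnd ℂ v.2)
  + s * (1 + s) *
      (cdiag c1 c2 u.1 v.1 * cdiag c1 c2 u'.1 v'.1 + cdiag c1 c2 u.1 v'.1 * cdiag c1 c2 u'.1 v.1
        + c21 a3 u.1 u'.1 v.1 * starRingEnd ℂ v'.2 + c21 a3 u.1 u'.1 v'.1 * starRingEnd ℂ v.2
        + starRingEnd ℂ (c21 a3 v.1 v'.1 u.1) * u'.2 + starRingEnd ℂ (c21 a3 v.1 v'.1 u'.1) * u.2)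
  + s * c22 a4 u.1 u'.1 v.1 v'.1

/-- third derivatives of type (2,1) -/
def m21 (s c1 c2 : ℝ) (a3 : Fin 2 → Fin 2 → Fin 2 → ℂ) (u u' v : (ℂ × ℂ) × ℂ) : ℂ :=
  s * (1 + s) * (1 + 2 * s) * (u.2 * u'.2 * starRingEnd ℂ v.2)
  + s * (1 + s) * (u.2 * cdiag c1 c2 u'.1 v.1 + u'.2 * cdiag c1 c2 u.1 v.1)
  + s * c21 a3 u.1 u'.1 v.1

/-- the Christoffel vector: `m11 (mGam u u') v = m21 u u' v` -/
def mGam (A s c1 c2 : ℝ) (a3 : Fin 2 → Fin 2 → Fin 2 → ℂ) (u u' : (ℂ × ℂ) × ℂ) : (ℂ × ℂ) × ℂ :=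
  (((s * (1 + s) * c1 * (u.2 * u'.1.1 + u'.2 * u.1.1) + s * c21k a3 0 u.1 u'.1) / (A + s * c1),
    (s * (1 + s) * c2 * (u.2 * u'.1.2 + u'.2 * u.1.2) + s * c21k a3 1 u.1 u'.1) / (A + s * c2)),
   (1 + 2 * s) * u.2 * u'.2)

/-- the curvature numerator of the model -/
def mN (A s c1 c2 : ℝ) (a3 : Fin 2 → Fin 2 → Fin 2 → ℂ)
    (a4 : Fin 2 → Fin 2 → Fin 2 → Fin 2 → ℂ) (u v : (ℂ × ℂ) × ℂ) : ℝ :=
  (1 / 2 : ℝ) * (m22 A s c1 c2 a3 a4 u u v v).re + (1 / 2 : ℝ) * (m22 A s c1 c2 a3 a4 v v u u).re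
    - (m22 A s c1 c2 a3 a4 u v u v).re
    + (m11 A s c1 c2 (mGam A s c1 c2 a3 u v) (mGam A s c1 c2 a3 u v)).re
    - (m11 A s c1 c2 (mGam A s c1 c2 a3 u u) (mGam A s c1 c2 a3 v v)).re

/-- squared area of the model -/
def mArea (A s c1 c2 : ℝ) (u v : (ℂ × ℂ) × ℂ) : ℝ :=
  (m11 A s c1 c2 u u).re * (m11 A s c1 c2 v v).re - (m11 A s c1 c2 u v).re ^ 2

/-- the eigenvalue `E = -c ((1+2s) A + s² c) / (A + s c)` of the mixed curvature -/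
def mE (A s c : ℝ) : ℝ := -c * ((1 + 2 * s) * A + s ^ 2 * c) / (A + s * c)

/-- main part of `2 mN` in terms of `H = -i (u v^* - v u^*)`:
`B11 = 2 Im (u1 conj v1)`, `B22 = 2 Im (u2 conj v2)`, `β = |u1 conj v2 - v1 conj u2|²`,
`η_i = s(1+s) |u_i conj λ' - v_i conj λ|²`, `t = 2 s (1+s) Im (λ conj λ')`. -/
def Qmain (A s c1 c2 B11 B22 β η1 η2 t : ℝ) : ℝ :=
  -A * ((B11 + B22) ^ 2 + B11 ^ 2 + B22 ^ 2 + 2 * β)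
  - s * (1 + s) * ((c1 * B11 + c2 * B22) ^ 2 + c1 ^ 2 * B11 ^ 2 + c2 ^ 2 * B22 ^ 2
      + 2 * c1 * c2 * β)
  + 2 * (t * (mE A s c1 * B11 + mE A s c2 * B22) + mE A s c1 * η1 + mE A s c2 * η2)
  - 2 * t ^ 2

/-- the norm of `H` -/
def Hnorm (A s c1 c2 B11 B22 β η1 η2 t : ℝ) : ℝ :=
  (A + s * c1) ^ 2 * B11 ^ 2 + (A + s * c2) ^ 2 * B22 ^ 2 + 2 * (A + s * c1) * (A + s * c2) * β
    + 2 * ((A + s * c1) * η1 + (A + s * c2) * η2) + t ^ 2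

end

end P250
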