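import Mathlib.Algebra.BigOperators.Fin
import Mathlib.Algebra.Order.Star.Real
import Mathlib.Analysis.Complex.Norm
import Mathlib.Tactic.Positivity
import Vale.Agent.Lib.P250.AlgDefs

/-! # P250 module G7a: Christoffel vector; area versus norm -/

open Complex

namespace P250

noncomputable section

theorem m11_mGam {A s c1 c2 : ℝ} (hA : 0 < A) (hs : 0 < s) (h1 : 0 < c1) (h2 : 0 < c2)
    (a3 : Fin 2 → Fin 2 → Fin 2 → ℂ) (u u' v : (ℂ × ℂ) × ℂ) :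
    m11 A s c1 c2 (mGam A s c1 c2 a3 u u') v = m21 s c1 c2 a3 u u' v := by
  have g1 : (A : ℂ) + s * c1 ≠ 0 := by
    have h : (0 : ℝ) < A + s * c1 := by positivity
    exact_mod_cast h.ne'
  have g2 : (A : ℂ) + s * c2 ≠ 0 := by
    have h : (0 : ℝ) < A + s * c2 := by positivity
    exact_mod_cast h.ne'
  have e : c21 a3 u.1 u'.1 v.1 = c21k a3 0 u.1 u'.1 * starRingEnd ℂ v.1.1
      + c21k a3 1 u.1 u'.1 * starRingEnd ℂ v.1.2 := by
    simp [c21, cmp, Fin.sum_univ_two]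
  unfold m11 m21 mGam ip cdiag
  rw [e]
  generalize c21k a3 0 u.1 u'.1 = x
  generalize c21k a3 1 u.1 u'.1 = y
  simp only
  field_simp
  ring

private theorem m11_re (A s c1 c2 : ℝ) (u v : (ℂ × ℂ) × ℂ) :
    (m11 A s c1 c2 u v).re = (A + s * c1) * (u.1.1.re * v.1.1.re + u.1.1.im * v.1.1.im)
      + (A + s * c2) * (u.1.2.re * v.1.2.re + u.1.2.im * v.1.2.im)
      + s * (1 + s) * (u.2.re * v.2.re + u.2.im * v.2.im) := by
  simp [m11, ip, cdiag]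
  ring

private theorem ns_sub (a b c d : ℂ) :
    ‖a * starRingEnd ℂ b - c * starRingEnd ℂ d‖ ^ 2 =
      (a.re * b.re + a.im * b.im - c.re * d.re - c.im * d.im) ^ 2
        + (a.im * b.re - a.re * b.im - c.im * d.re + c.re * d.im) ^ 2 := by
  rw [← Complex.normSq_eq_norm_sq, Complex.normSq_apply]
  simp
  ring

/-- the imaginary part of `m11` -/
private def mim (A s c1 c2 : ℝ) (u v : (ℂ × ℂ) × ℂ) : ℝ :=
  (A + s * c1) * (u.1.1.im * v.1.1.re - u.1.1.re * v.1.1.im)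
      + (A + s * c2) * (u.1.2.im * v.1.2.re - u.1.2.re * v.1.2.im)
      + s * (1 + s) * (u.2.im * v.2.re - u.2.re * v.2.im)

private theorem Hnorm_eq (A s c1 c2 : ℝ) (u v : (ℂ × ℂ) × ℂ) :
    Hnorm A s c1 c2 (2 * (u.1.1 * starRingEnd ℂ v.1.1).im) (2 * (u.1.2 * starRingEnd ℂ v.1.2).im)
        (‖u.1.1 * starRingEnd ℂ v.1.2 - v.1.1 * starRingEnd ℂ u.1.2‖ ^ 2)
        (s * (1 + s) * ‖u.1.1 * starRingEnd ℂ v.2 - v.1.1 * starRingEnd ℂ u.2‖ ^ 2)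
        (s * (1 + s) * ‖u.1.2 * starRingEnd ℂ v.2 - v.1.2 * starRingEnd ℂ u.2‖ ^ 2)
        (2 * (s * (1 + s)) * (u.2 * starRingEnd ℂ v.2).im) =
      2 * mArea A s c1 c2 u v + 2 * mim A s c1 c2 u v ^ 2 := by
  rw [ns_sub, ns_sub, ns_sub]
  unfold Hnorm mArea mim
  rw [m11_re, m11_re, m11_re]
  simp only [Complex.mul_im, Complex.conj_re, Complex.conj_im]
  ring

private theorem mim_le {A s c1 c2 : ℝ} (hA : 0 < A) (hs : 0 < s) (h1 : 0 < c1) (h2 : 0 < c2)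
    (u v : (ℂ × ℂ) × ℂ) : mim A s c1 c2 u v ^ 2 ≤ mArea A s c1 c2 u v := by
  have g1 : (0 : ℝ) < A + s * c1 := by positivity
  have g2 : (0 : ℝ) < A + s * c2 := by positivity
  have g3 : (0 : ℝ) < s * (1 + s) := by positivity
  have e : mArea A s c1 c2 u v - mim A s c1 c2 u v ^ 2 =
      (A + s * c1) * (A + s * c2) *
        ((u.1.1.re * v.1.2.re - u.1.1.im * v.1.2.im - u.1.2.re * v.1.1.re
            + u.1.2.im * v.1.1.im) ^ 2
          + (u.1.1.re * v.1.2.im + u.1.1.im * v.1.2.re - u.1.2.re * v.1.1.im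
            - u.1.2.im * v.1.1.re) ^ 2)
      + (A + s * c1) * (s * (1 + s)) *
        ((u.1.1.re * v.2.re - u.1.1.im * v.2.im - u.2.re * v.1.1.re
            + u.2.im * v.1.1.im) ^ 2
          + (u.1.1.re * v.2.im + u.1.1.im * v.2.re - u.2.re * v.1.1.im
            - u.2.im * v.1.1.re) ^ 2)
      + (A + s * c2) * (s * (1 + s)) *
        ((u.1.2.re * v.2.re - u.1.2.im * v.2.im - u.2.re * v.1.2.re
            + u.2.im * v.1.2.im) ^ 2
          + (u.1.2.re * v.2.im + u.1.2.im * v.2.re - u.2.re * v.1.2.im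
            - u.2.im * v.1.2.re) ^ 2) := by
    unfold mArea mim
    rw [m11_re, m11_re, m11_re]
    ring
  have h : 0 ≤ mArea A s c1 c2 u v - mim A s c1 c2 u v ^ 2 := by
    rw [e]
    positivity
  linarith

/-- G7d: `2 area ≤ |H|² ≤ 4 area`. -/
theorem Hnorm_area {A s c1 c2 : ℝ} (hA : 0 < A) (hs : 0 < s) (h1 : 0 < c1) (h2 : 0 < c2)
    (u v : (ℂ × ℂ) × ℂ) :
    2 * mArea A s c1 c2 u v ≤
      Hnorm A s c1 c2 (2 * (u.1.1 * starRingEnd ℂ v.1.1).im) (2 * (u.1.2 * starRingEnd ℂ v.1.2).im)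
        (‖u.1.1 * starRingEnd ℂ v.1.2 - v.1.1 * starRingEnd ℂ u.1.2‖ ^ 2)
        (s * (1 + s) * ‖u.1.1 * starRingEnd ℂ v.2 - v.1.1 * starRingEnd ℂ u.2‖ ^ 2)
        (s * (1 + s) * ‖u.1.2 * starRingEnd ℂ v.2 - v.1.2 * starRingEnd ℂ u.2‖ ^ 2)
        (2 * (s * (1 + s)) * (u.2 * starRingEnd ℂ v.2).im) ∧
      Hnorm A s c1 c2 (2 * (u.1.1 * starRingEnd ℂ v.1.1).im) (2 * (u.1.2 * starRingEnd ℂ v.1.2).im)
        (‖u.1.1 * starRingEnd ℂ v.1.2 - v.1.1 * starRingEnd ℂ u.1.2‖ ^ 2)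
        (s * (1 + s) * ‖u.1.1 * starRingEnd ℂ v.2 - v.1.1 * starRingEnd ℂ u.2‖ ^ 2)
        (s * (1 + s) * ‖u.1.2 * starRingEnd ℂ v.2 - v.1.2 * starRingEnd ℂ u.2‖ ^ 2)
        (2 * (s * (1 + s)) * (u.2 * starRingEnd ℂ v.2).im) ≤ 4 * mArea A s c1 c2 u v := by
  rw [Hnorm_eq]
  have h := mim_le hA hs h1 h2 u v
  have h' := sq_nonneg (mim A s c1 c2 u v)
  constructor <;> linarith

end

end P250
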