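import Mathlib.Algebra.Order.Star.Real
import Mathlib.Analysis.CStarAlgebra.Classes
import Mathlib.Tactic.Positivity
import Vale.Agent.Lib.P250.AlgDefs

/-! # P250 module G7b: mN versus Qmain -/

open Complex
namespace P250

theorem mE_eq {A s c : ℝ} (h : A + s * c ≠ 0) :
    mE A s c = -c * (1 + 2 * s) + s * (1 + s) * c ^ 2 * (A + s * c)⁻¹ := by
  unfold mE
  have key : (A + s * c) * (A + s * c)⁻¹ = 1 := mul_inv_cancel₀ h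
  rw [div_eq_mul_inv]
  linear_combination (-c * (1 + 2 * s)) * key

theorem m11_div {A s c1 c2 : ℝ} (h1 : A + s * c1 ≠ 0) (h2 : A + s * c2 ≠ 0) (a b c a' b' c' : ℂ) :
    m11 A s c1 c2 ((a / (A + s * c1), b / (A + s * c2)), c) ((a' / (A + s * c1), b' / (A + s * c2)), c')
      = a * starRingEnd ℂ a' * ((A + s * c1)⁻¹ : ℝ) + b * starRingEnd ℂ b' * ((A + s * c2)⁻¹ : ℝ)
        + s * (1 + s) * (c * starRingEnd ℂ c') := by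
  have h1' : (A + s * c1 : ℂ) ≠ 0 := by exact_mod_cast h1
  have h2' : (A + s * c2 : ℂ) ≠ 0 := by exact_mod_cast h2
  unfold m11 ip cdiag
  simp only [map_div₀, map_add, map_mul, Complex.conj_ofReal]
  push_cast
  field_simp
  ring

/-- the matrix `H` (base block), `H i k = -i (u_i conj v_k - v_i conj u_k)` -/
noncomputable def HH (ξ η : ℂ × ℂ) (i k : Fin 2) : ℂ :=
  -I * (cmp ξ i * starRingEnd ℂ (cmp η k) - cmp η i * starRingEnd ℂ (cmp ξ k))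

/-- base-vertical entries -/
noncomputable def hh (u v : (ℂ × ℂ) × ℂ) (i : Fin 2) : ℂ :=
  -I * (cmp u.1 i * starRingEnd ℂ v.2 - cmp v.1 i * starRingEnd ℂ u.2)

theorem c22_HH (a4 : Fin 2 → Fin 2 → Fin 2 → Fin 2 → ℂ)
    (h1 : ∀ i j k l, a4 i j k l = a4 j i k l) (h2 : ∀ i j k l, a4 i j k l = a4 i j l k)
    (ξ η : ℂ × ℂ) :
    c22 a4 ξ ξ η η + c22 a4 η η ξ ξ - 2 * c22 a4 ξ η ξ η
      = -∑ i, ∑ j, ∑ k, ∑ l, a4 i j k l * HH ξ η i k * HH ξ η j l := by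
  have e1 := h1 0 1 0 0
  have e2 := h1 0 1 0 1
  have e3 := h1 0 1 1 0
  have e4 := h1 0 1 1 1
  have f1 := h2 0 0 0 1
  have f2 := h2 0 1 0 1
  have f3 := h2 1 0 0 1
  have f4 := h2 1 1 0 1
  simp only [c22, HH, cmp, Fin.sum_univ_two, Matrix.cons_val_zero, Matrix.cons_val_one]
  rw [← e1, ← e2, ← e3, ← e4, ← f1, ← f2, ← f4]
  have hI : I ^ 2 = -1 := Complex.I_sq
  ring_nf
  rw [hI]
  ring

theorem c21k_HH (a3 : Fin 2 → Fin 2 → Fin 2 → ℂ) (h1 : ∀ i j k, a3 i j k = a3 j i k)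
    (k : Fin 2) (ξ η : ℂ × ℂ) :
    2 * (c21k a3 k ξ η * starRingEnd ℂ (c21k a3 k ξ η))
      - c21k a3 k ξ ξ * starRingEnd ℂ (c21k a3 k η η)
      - c21k a3 k η η * starRingEnd ℂ (c21k a3 k ξ ξ)
      = ∑ i, ∑ j, ∑ l, ∑ m, a3 i j k * starRingEnd ℂ (a3 l m k) * HH ξ η i l * HH ξ η j m := by
  have e1 := h1 0 1 k
  simp only [c21k, HH, cmp, Fin.sum_univ_two, Matrix.cons_val_zero, Matrix.cons_val_one]
  rw [← e1]
  simp only [map_add, map_mul]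
  have hI : I ^ 2 = -1 := Complex.I_sq
  ring_nf
  rw [hI]
  ring

/-- mixed term from the fourth derivatives -/
theorem mixed_a (a3 : Fin 2 → Fin 2 → Fin 2 → ℂ) (h1 : ∀ i j k, a3 i j k = a3 j i k)
    (u v : (ℂ × ℂ) × ℂ) :
    c21 a3 u.1 u.1 v.1 * starRingEnd ℂ v.2 + c21 a3 v.1 v.1 u.1 * starRingEnd ℂ u.2
      - c21 a3 u.1 v.1 u.1 * starRingEnd ℂ v.2 - c21 a3 u.1 v.1 v.1 * starRingEnd ℂ u.2
      = -∑ i, ∑ j, ∑ k, a3 i j k * hh u v i * HH u.1 v.1 j k := by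
  have e0 := h1 0 1 0
  have e1 := h1 0 1 1
  simp only [c21, c21k, HH, hh, cmp, Fin.sum_univ_two, Matrix.cons_val_zero, Matrix.cons_val_one]
  rw [← e0, ← e1]
  have hI : I ^ 2 = -1 := Complex.I_sq
  ring_nf
  rw [hI]
  ring

/-- mixed term from the Christoffel part, component `k` -/
theorem mixed_b (a3 : Fin 2 → Fin 2 → Fin 2 → ℂ) (h1 : ∀ i j k, a3 i j k = a3 j i k)
    (k : Fin 2) (u v : (ℂ × ℂ) × ℂ) :
    (u.2 * cmp v.1 k + v.2 * cmp u.1 k) * starRingEnd ℂ (c21k a3 k u.1 v.1)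
      - u.2 * cmp u.1 k * starRingEnd ℂ (c21k a3 k v.1 v.1)
      - v.2 * cmp v.1 k * starRingEnd ℂ (c21k a3 k u.1 u.1)
      = ∑ i, ∑ j, starRingEnd ℂ (a3 i j k) * HH u.1 v.1 k i * starRingEnd ℂ (hh u v j) := by
  have e1 := h1 0 1 k
  have hI : I ^ 2 = -1 := Complex.I_sq
  fin_cases k <;>
  · simp only [c21k, HH, hh, cmp, Fin.sum_univ_two, Matrix.cons_val_zero, Matrix.cons_val_one,
      Fin.zero_eta, Fin.mk_one]
    simp only [Fin.zero_eta, Fin.mk_one] at e1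
    rw [← e1]
    simp only [map_add, map_mul, map_sub, map_neg, Complex.conj_conj, Complex.conj_I]
    ring_nf
    rw [hI]
    ring

/-- the full complex expression of `2 mN` -/
noncomputable def brk (A s c1 c2 : ℝ) (a3 : Fin 2 → Fin 2 → Fin 2 → ℂ)
    (a4 : Fin 2 → Fin 2 → Fin 2 → Fin 2 → ℂ) (u v : (ℂ × ℂ) × ℂ) : ℂ :=
  m22 A s c1 c2 a3 a4 u u v v + m22 A s c1 c2 a3 a4 v v u u - 2 * m22 A s c1 c2 a3 a4 u v u v
    + 2 * m11 A s c1 c2 (mGam A s c1 c2 a3 u v) (mGam A s c1 c2 a3 u v)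
    - m11 A s c1 c2 (mGam A s c1 c2 a3 u u) (mGam A s c1 c2 a3 v v)
    - m11 A s c1 c2 (mGam A s c1 c2 a3 v v) (mGam A s c1 c2 a3 u u)

/-- complex version of `Qmain` -/
noncomputable def Qc (A s c1 c2 g1 g2 B11 B22 β η1 η2 t : ℂ) : ℂ :=
  -A * ((B11 + B22) ^ 2 + B11 ^ 2 + B22 ^ 2 + 2 * β)
  - s * (1 + s) * ((c1 * B11 + c2 * B22) ^ 2 + c1 ^ 2 * B11 ^ 2 + c2 ^ 2 * B22 ^ 2
      + 2 * c1 * c2 * β)
  + 2 * (t * ((-c1 * (1 + 2 * s) + s * (1 + s) * c1 ^ 2 * g1) * B11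
        + (-c2 * (1 + 2 * s) + s * (1 + s) * c2 ^ 2 * g2) * B22)
      + (-c1 * (1 + 2 * s) + s * (1 + s) * c1 ^ 2 * g1) * η1
      + (-c2 * (1 + 2 * s) + s * (1 + s) * c2 ^ 2 * g2) * η2)
  - 2 * t ^ 2

set_option maxRecDepth 20000 in
theorem brk_eq {A s c1 c2 : ℝ} (h1 : A + s * c1 ≠ 0) (h2 : A + s * c2 ≠ 0)
    (a3 : Fin 2 → Fin 2 → Fin 2 → ℂ) (a4 : Fin 2 → Fin 2 → Fin 2 → Fin 2 → ℂ)
    (u v : (ℂ × ℂ) × ℂ) :
    brk A s c1 c2 a3 a4 u v =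
      Qc A s c1 c2 ((A + s * c1)⁻¹ : ℝ) ((A + s * c2)⁻¹ : ℝ) (HH u.1 v.1 0 0) (HH u.1 v.1 1 1)
        (HH u.1 v.1 0 1 * HH u.1 v.1 1 0)
        (s * (1 + s) * (hh u v 0 * starRingEnd ℂ (hh u v 0)))
        (s * (1 + s) * (hh u v 1 * starRingEnd ℂ (hh u v 1)))
        (s * (1 + s) * (-I * (u.2 * starRingEnd ℂ v.2 - v.2 * starRingEnd ℂ u.2)))
      + s * (c22 a4 u.1 u.1 v.1 v.1 + c22 a4 v.1 v.1 u.1 u.1 - 2 * c22 a4 u.1 v.1 u.1 v.1)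
      + 2 * (s * (1 + s)) *
        ((c21 a3 u.1 u.1 v.1 * starRingEnd ℂ v.2 + c21 a3 v.1 v.1 u.1 * starRingEnd ℂ u.2
          - c21 a3 u.1 v.1 u.1 * starRingEnd ℂ v.2 - c21 a3 u.1 v.1 v.1 * starRingEnd ℂ u.2)
        + starRingEnd ℂ (c21 a3 u.1 u.1 v.1 * starRingEnd ℂ v.2
          + c21 a3 v.1 v.1 u.1 * starRingEnd ℂ u.2
          - c21 a3 u.1 v.1 u.1 * starRingEnd ℂ v.2 - c21 a3 u.1 v.1 v.1 * starRingEnd ℂ u.2))
      + s ^ 2 * ((A + s * c1)⁻¹ : ℝ) *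
        (2 * (c21k a3 0 u.1 v.1 * starRingEnd ℂ (c21k a3 0 u.1 v.1))
        - c21k a3 0 u.1 u.1 * starRingEnd ℂ (c21k a3 0 v.1 v.1)
        - c21k a3 0 v.1 v.1 * starRingEnd ℂ (c21k a3 0 u.1 u.1))
      + s ^ 2 * ((A + s * c2)⁻¹ : ℝ) *
        (2 * (c21k a3 1 u.1 v.1 * starRingEnd ℂ (c21k a3 1 u.1 v.1))
        - c21k a3 1 u.1 u.1 * starRingEnd ℂ (c21k a3 1 v.1 v.1)
        - c21k a3 1 v.1 v.1 * starRingEnd ℂ (c21k a3 1 u.1 u.1))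
      + 2 * s * (s * (1 + s)) * c1 * ((A + s * c1)⁻¹ : ℝ) *
        (((u.2 * cmp v.1 0 + v.2 * cmp u.1 0) * starRingEnd ℂ (c21k a3 0 u.1 v.1)
          - u.2 * cmp u.1 0 * starRingEnd ℂ (c21k a3 0 v.1 v.1)
          - v.2 * cmp v.1 0 * starRingEnd ℂ (c21k a3 0 u.1 u.1))
        + starRingEnd ℂ ((u.2 * cmp v.1 0 + v.2 * cmp u.1 0) * starRingEnd ℂ (c21k a3 0 u.1 v.1)
          - u.2 * cmp u.1 0 * starRingEnd ℂ (c21k a3 0 v.1 v.1)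
          - v.2 * cmp v.1 0 * starRingEnd ℂ (c21k a3 0 u.1 u.1)))
      + 2 * s * (s * (1 + s)) * c2 * ((A + s * c2)⁻¹ : ℝ) *
        (((u.2 * cmp v.1 1 + v.2 * cmp u.1 1) * starRingEnd ℂ (c21k a3 1 u.1 v.1)
          - u.2 * cmp u.1 1 * starRingEnd ℂ (c21k a3 1 v.1 v.1)
          - v.2 * cmp v.1 1 * starRingEnd ℂ (c21k a3 1 u.1 u.1))
        + starRingEnd ℂ ((u.2 * cmp v.1 1 + v.2 * cmp u.1 1) * starRingEnd ℂ (c21k a3 1 u.1 v.1)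
          - u.2 * cmp u.1 1 * starRingEnd ℂ (c21k a3 1 v.1 v.1)
          - v.2 * cmp v.1 1 * starRingEnd ℂ (c21k a3 1 u.1 u.1))) := by
  unfold brk mGam
  rw [m11_div h1 h2, m11_div h1 h2, m11_div h1 h2]
  simp only [m22, ip, cdiag, Qc, HH, hh, cmp, Matrix.cons_val_zero, Matrix.cons_val_one,
    map_add, map_mul, map_sub, map_neg, Complex.conj_conj, Complex.conj_I, Complex.conj_ofReal,
    map_one, map_ofNat]
  generalize ((A + s * c1)⁻¹ : ℝ) = g1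
  generalize ((A + s * c2)⁻¹ : ℝ) = g2
  have hI : I ^ 2 = -1 := Complex.I_sq
  ring_nf
  simp only [hI]
  ring

theorem m11_herm (A s c1 c2 : ℝ) (u v : (ℂ × ℂ) × ℂ) :
    starRingEnd ℂ (m11 A s c1 c2 u v) = m11 A s c1 c2 v u := by
  simp only [m11, ip, cdiag, map_add, map_mul, Complex.conj_conj, Complex.conj_ofReal, map_one]
  ring

theorem two_mN (A s c1 c2 : ℝ) (a3 : Fin 2 → Fin 2 → Fin 2 → ℂ)
    (a4 : Fin 2 → Fin 2 → Fin 2 → Fin 2 → ℂ) (u v : (ℂ × ℂ) × ℂ) :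
    2 * mN A s c1 c2 a3 a4 u v = (brk A s c1 c2 a3 a4 u v).re := by
  have h := congrArg Complex.re (m11_herm A s c1 c2 (mGam A s c1 c2 a3 u u) (mGam A s c1 c2 a3 v v))
  rw [Complex.conj_re] at h
  unfold mN brk
  simp only [Complex.add_re, Complex.sub_re, Complex.mul_re, Complex.re_ofNat, Complex.im_ofNat]
  rw [← h]
  ring

theorem HH_00 (ξ η : ℂ × ℂ) : HH ξ η 0 0 = ((2 * (ξ.1 * starRingEnd ℂ η.1).im : ℝ) : ℂ) := by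
  simp only [HH, cmp, Matrix.cons_val_zero]
  apply Complex.ext <;> simp <;> ring

theorem HH_11 (ξ η : ℂ × ℂ) : HH ξ η 1 1 = ((2 * (ξ.2 * starRingEnd ℂ η.2).im : ℝ) : ℂ) := by
  simp only [HH, cmp, Matrix.cons_val_one]
  apply Complex.ext <;> simp <;> ring

theorem HH_conj (ξ η : ℂ × ℂ) (i k : Fin 2) : starRingEnd ℂ (HH ξ η i k) = HH ξ η k i := by
  simp only [HH, map_mul, map_sub, map_neg, Complex.conj_conj, Complex.conj_I]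
  ring

theorem HH_norm01 (ξ η : ℂ × ℂ) :
    ‖HH ξ η 0 1‖ ^ 2 = ‖ξ.1 * starRingEnd ℂ η.2 - η.1 * starRingEnd ℂ ξ.2‖ ^ 2 := by
  simp [HH, cmp]

theorem HH_0110 (ξ η : ℂ × ℂ) : HH ξ η 0 1 * HH ξ η 1 0 =
    ((‖ξ.1 * starRingEnd ℂ η.2 - η.1 * starRingEnd ℂ ξ.2‖ ^ 2 : ℝ) : ℂ) := by
  rw [← HH_conj ξ η 0 1, Complex.mul_conj, Complex.normSq_eq_norm_sq, HH_norm01]

theorem det_neg (ξ η : ℂ × ℂ) :
    (2 * (ξ.1 * starRingEnd ℂ η.1).im) * (2 * (ξ.2 * starRingEnd ℂ η.2).im) ≤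
      ‖ξ.1 * starRingEnd ℂ η.2 - η.1 * starRingEnd ℂ ξ.2‖ ^ 2 := by
  have h : ((‖ξ.1 * starRingEnd ℂ η.2 - η.1 * starRingEnd ℂ ξ.2‖ ^ 2 -
      (2 * (ξ.1 * starRingEnd ℂ η.1).im) * (2 * (ξ.2 * starRingEnd ℂ η.2).im) : ℝ) : ℂ) =
      ((‖ξ.1 * η.2 - η.1 * ξ.2‖ ^ 2 : ℝ) : ℂ) := by
    rw [Complex.ofReal_sub, ← HH_0110, Complex.ofReal_mul, ← HH_00, ← HH_11,
      ← Complex.normSq_eq_norm_sq, ← Complex.mul_conj]
    simp only [HH, cmp, Matrix.cons_val_zero, Matrix.cons_val_one, map_sub, map_mul]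
    have hI : I ^ 2 = -1 := Complex.I_sq
    ring_nf
    simp only [hI]
    ring
  have h2 := Complex.ofReal_injective h
  have : 0 ≤ ‖ξ.1 * η.2 - η.1 * ξ.2‖ ^ 2 := by positivity
  linarith

theorem hh_norm (u v : (ℂ × ℂ) × ℂ) :
    ‖hh u v 0‖ ^ 2 = ‖u.1.1 * starRingEnd ℂ v.2 - v.1.1 * starRingEnd ℂ u.2‖ ^ 2 ∧
    ‖hh u v 1‖ ^ 2 = ‖u.1.2 * starRingEnd ℂ v.2 - v.1.2 * starRingEnd ℂ u.2‖ ^ 2 := by
  simp [hh, cmp]

theorem tt_eq (a b : ℂ) : (-I * (a * starRingEnd ℂ b - b * starRingEnd ℂ a)) =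
    ((2 * (a * starRingEnd ℂ b).im : ℝ) : ℂ) := by
  apply Complex.ext <;> simp <;> ring

theorem Qc_eq {A s c1 c2 : ℝ} (h1 : A + s * c1 ≠ 0) (h2 : A + s * c2 ≠ 0)
    (u v : (ℂ × ℂ) × ℂ) :
    Qc A s c1 c2 ((A + s * c1)⁻¹ : ℝ) ((A + s * c2)⁻¹ : ℝ) (HH u.1 v.1 0 0) (HH u.1 v.1 1 1)
        (HH u.1 v.1 0 1 * HH u.1 v.1 1 0)
        (s * (1 + s) * (hh u v 0 * starRingEnd ℂ (hh u v 0)))
        (s * (1 + s) * (hh u v 1 * starRingEnd ℂ (hh u v 1)))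
        (s * (1 + s) * (-I * (u.2 * starRingEnd ℂ v.2 - v.2 * starRingEnd ℂ u.2)))
    = ((Qmain A s c1 c2 (2 * (u.1.1 * starRingEnd ℂ v.1.1).im) (2 * (u.1.2 * starRingEnd ℂ v.1.2).im)
        (‖u.1.1 * starRingEnd ℂ v.1.2 - v.1.1 * starRingEnd ℂ u.1.2‖ ^ 2)
        (s * (1 + s) * ‖u.1.1 * starRingEnd ℂ v.2 - v.1.1 * starRingEnd ℂ u.2‖ ^ 2)
        (s * (1 + s) * ‖u.1.2 * starRingEnd ℂ v.2 - v.1.2 * starRingEnd ℂ u.2‖ ^ 2)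
        (2 * (s * (1 + s)) * (u.2 * starRingEnd ℂ v.2).im) : ℝ) : ℂ) := by
  rw [HH_0110, HH_00, HH_11, Complex.mul_conj, Complex.mul_conj, Complex.normSq_eq_norm_sq,
    Complex.normSq_eq_norm_sq, (hh_norm u v).1, (hh_norm u v).2, tt_eq]
  unfold Qmain Qc
  rw [mE_eq h1, mE_eq h2]
  push_cast
  ring

/-- `B11² + B22² + 2β` as the squared norm of `H` -/
noncomputable def Bn (ξ η : ℂ × ℂ) : ℝ :=
  (2 * (ξ.1 * starRingEnd ℂ η.1).im) ^ 2 + (2 * (ξ.2 * starRingEnd ℂ η.2).im) ^ 2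
    + 2 * ‖ξ.1 * starRingEnd ℂ η.2 - η.1 * starRingEnd ℂ ξ.2‖ ^ 2

theorem HH_le (ξ η : ℂ × ℂ) (i k : Fin 2) : ‖HH ξ η i k‖ ≤ Real.sqrt (Bn ξ η) := by
  apply Real.le_sqrt_of_sq_le
  have h0 : ‖HH ξ η 0 0‖ ^ 2 = (2 * (ξ.1 * starRingEnd ℂ η.1).im) ^ 2 := by
    rw [HH_00, Complex.norm_real, Real.norm_eq_abs, sq_abs]
  have h1 : ‖HH ξ η 1 1‖ ^ 2 = (2 * (ξ.2 * starRingEnd ℂ η.2).im) ^ 2 := by
    rw [HH_11, Complex.norm_real, Real.norm_eq_abs, sq_abs]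
  have h2 := HH_norm01 ξ η
  have h3 : ‖HH ξ η 1 0‖ ^ 2 = ‖HH ξ η 0 1‖ ^ 2 := by
    rw [← HH_conj ξ η 0 1, Complex.norm_conj]
  have p0 := sq_nonneg (2 * (ξ.1 * starRingEnd ℂ η.1).im)
  have p1 := sq_nonneg (2 * (ξ.2 * starRingEnd ℂ η.2).im)
  have p2 := sq_nonneg ‖ξ.1 * starRingEnd ℂ η.2 - η.1 * starRingEnd ℂ ξ.2‖
  unfold Bn
  fin_cases i <;> fin_cases k <;> simp only [Fin.zero_eta, Fin.mk_one] <;> nlinarith

theorem hh_le (u v : (ℂ × ℂ) × ℂ) {F : ℝ} (hF : 0 < F) (i : Fin 2) :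
    Real.sqrt F * ‖hh u v i‖ ≤ Real.sqrt
      (F * ‖u.1.1 * starRingEnd ℂ v.2 - v.1.1 * starRingEnd ℂ u.2‖ ^ 2 +
       F * ‖u.1.2 * starRingEnd ℂ v.2 - v.1.2 * starRingEnd ℂ u.2‖ ^ 2) := by
  apply Real.le_sqrt_of_sq_le
  rw [mul_pow, Real.sq_sqrt hF.le]
  obtain ⟨h0, h1⟩ := hh_norm u v
  have p0 : 0 ≤ F * ‖hh u v 0‖ ^ 2 := by positivity
  have p1 : 0 ≤ F * ‖hh u v 1‖ ^ 2 := by positivity
  rw [← h0, ← h1]
  fin_cases i <;> simp only [Fin.zero_eta, Fin.mk_one] <;> linarith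

theorem sum4_le {a : Fin 2 → Fin 2 → Fin 2 → Fin 2 → ℂ} {C b : ℝ} (hb : 0 ≤ b) (hC : 0 ≤ C)
    (ha : ∀ i j k l, ‖a i j k l‖ ≤ C) {x : Fin 2 → Fin 2 → ℂ} (hx : ∀ i j, ‖x i j‖ ≤ b) :
    ‖∑ i, ∑ j, ∑ k, ∑ l, a i j k l * x i k * x j l‖ ≤ 16 * C * b ^ 2 := by
  have h1 : ∀ i j k l, ‖a i j k l * x i k * x j l‖ ≤ C * b * b := by
    intro i j k l
    rw [norm_mul, norm_mul]
    exact mul_le_mul (mul_le_mul (ha i j k l) (hx i k) (norm_nonneg _) hC) (hx j l)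
      (norm_nonneg _) (by positivity)
  calc ‖∑ i, ∑ j, ∑ k, ∑ l, a i j k l * x i k * x j l‖
      ≤ ∑ i : Fin 2, ∑ j : Fin 2, ∑ k : Fin 2, ∑ l : Fin 2, C * b * b := by
        refine norm_sum_le_of_le _ fun i _ => norm_sum_le_of_le _ fun j _ =>
          norm_sum_le_of_le _ fun k _ => norm_sum_le_of_le _ fun l _ => h1 i j k l
    _ = 16 * C * b ^ 2 := by simp; ring

set_option maxHeartbeats 1600000 in
theorem mN_eq (C1 : ℝ) (hC1 : 0 < C1) : ∃ C2 : ℝ, 0 < C2 ∧ ∀ (A s c1 c2 c0 : ℝ), 0 < A → 0 < s →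
    0 < c0 → c0 ≤ c1 → c0 ≤ c2 → c1 ≤ C1 → c2 ≤ C1 →
    ∀ (a3 : Fin 2 → Fin 2 → Fin 2 → ℂ) (a4 : Fin 2 → Fin 2 → Fin 2 → Fin 2 → ℂ),
    (∀ i j k, a3 i j k = a3 j i k) → (∀ i j k, ‖a3 i j k‖ ≤ C1) →
    (∀ i j k l, a4 i j k l = a4 j i k l) → (∀ i j k l, a4 i j k l = a4 i j l k) →
    (∀ i j k l, ‖a4 i j k l‖ ≤ C1) →
    ∀ u v : (ℂ × ℂ) × ℂ, ∀ B11 B22 β η1 η2 t : ℝ,
    B11 = 2 * (u.1.1 * starRingEnd ℂ v.1.1).im → B22 = 2 * (u.1.2 * starRingEnd ℂ v.1.2).im →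
    β = ‖u.1.1 * starRingEnd ℂ v.1.2 - v.1.1 * starRingEnd ℂ u.1.2‖ ^ 2 →
    η1 = s * (1 + s) * ‖u.1.1 * starRingEnd ℂ v.2 - v.1.1 * starRingEnd ℂ u.2‖ ^ 2 →
    η2 = s * (1 + s) * ‖u.1.2 * starRingEnd ℂ v.2 - v.1.2 * starRingEnd ℂ u.2‖ ^ 2 →
    t = 2 * (s * (1 + s)) * (u.2 * starRingEnd ℂ v.2).im →
    B11 * B22 ≤ β ∧
    |2 * mN A s c1 c2 a3 a4 u v - Qmain A s c1 c2 B11 B22 β η1 η2 t| ≤
      C2 * (s + s ^ 2 / (A + c0 * s)) * (B11 ^ 2 + B22 ^ 2 + 2 * β)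
      + C2 * Real.sqrt (s * (1 + s)) * Real.sqrt (B11 ^ 2 + B22 ^ 2 + 2 * β)
        * Real.sqrt (η1 + η2) := by
  refine ⟨100 * C1 + 32 * C1 ^ 2, by positivity, ?_⟩
  intro A s c1 c2 c0 hA hs hc0 h1 h2 _ _ a3 a4 hs3 hb3 hs4 hs4' hb4 u v B11 B22 β η1 η2 t
    hB11 hB22 hβ hη1 hη2 ht
  have hG1 : 0 < A + s * c1 := by have := hc0.trans_le h1; positivity
  have hG2 : 0 < A + s * c2 := by have := hc0.trans_le h2; positivity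
  subst hB11 hB22 hβ hη1 hη2 ht
  refine ⟨det_neg u.1 v.1, ?_⟩
  have hbrk := brk_eq hG1.ne' hG2.ne' a3 a4 u v
  rw [Qc_eq hG1.ne' hG2.ne', c22_HH a4 hs4 hs4', mixed_a a3 hs3, c21k_HH a3 hs3, c21k_HH a3 hs3,
    mixed_b a3 hs3, mixed_b a3 hs3] at hbrk
  have hF : 0 < s * (1 + s) := by positivity
  have hBnn : (2 * (u.1.1 * starRingEnd ℂ v.1.1).im) ^ 2 + (2 * (u.1.2 * starRingEnd ℂ v.1.2).im) ^ 2
    + 2 * ‖u.1.1 * starRingEnd ℂ v.1.2 - v.1.1 * starRingEnd ℂ u.1.2‖ ^ 2 = Bn u.1 v.1 := rfl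
  rw [hBnn]
  set η := s * (1 + s) * ‖u.1.1 * starRingEnd ℂ v.2 - v.1.1 * starRingEnd ℂ u.2‖ ^ 2 +
    s * (1 + s) * ‖u.1.2 * starRingEnd ℂ v.2 - v.1.2 * starRingEnd ℂ u.2‖ ^ 2 with hη
  set b := Real.sqrt (Bn u.1 v.1) with hb
  have hBn0 : 0 ≤ Bn u.1 v.1 := by unfold Bn; positivity
  have hb2 : b ^ 2 = Bn u.1 v.1 := Real.sq_sqrt hBn0
  have hb0 : 0 ≤ b := Real.sqrt_nonneg _
  have hHH : ∀ i k, ‖HH u.1 v.1 i k‖ ≤ b := HH_le u.1 v.1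
  set f := Real.sqrt (s * (1 + s)) with hf
  have hf0 : 0 < f := Real.sqrt_pos.mpr hF
  have hf2 : f ^ 2 = s * (1 + s) := Real.sq_sqrt hF.le
  set q := Real.sqrt η with hq
  have hhh : ∀ i, f * ‖hh u v i‖ ≤ q := hh_le u v hF
  have hq0 : 0 ≤ q := Real.sqrt_nonneg _
  -- the four error terms
  set T4 := ∑ i, ∑ j, ∑ k, ∑ l, a4 i j k l * HH u.1 v.1 i k * HH u.1 v.1 j l with hT4
  set X := ∑ i, ∑ j, ∑ k, a3 i j k * hh u v i * HH u.1 v.1 j k with hX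
  set R0 := ∑ i, ∑ j, ∑ l, ∑ m, a3 i j 0 * starRingEnd ℂ (a3 l m 0) * HH u.1 v.1 i l * HH u.1 v.1 j m
    with hR0
  set R1 := ∑ i, ∑ j, ∑ l, ∑ m, a3 i j 1 * starRingEnd ℂ (a3 l m 1) * HH u.1 v.1 i l * HH u.1 v.1 j m
    with hR1
  set Y0 := ∑ i, ∑ j, starRingEnd ℂ (a3 i j 0) * HH u.1 v.1 0 i * starRingEnd ℂ (hh u v j) with hY0
  set Y1 := ∑ i, ∑ j, starRingEnd ℂ (a3 i j 1) * HH u.1 v.1 1 i * starRingEnd ℂ (hh u v j) with hY1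
  have bT4 : ‖T4‖ ≤ 16 * C1 * b ^ 2 := sum4_le hb0 hC1.le hb4 hHH
  have bR : ∀ k : Fin 2, ‖∑ i, ∑ j, ∑ l, ∑ m, a3 i j k * starRingEnd ℂ (a3 l m k) *
      HH u.1 v.1 i l * HH u.1 v.1 j m‖ ≤ 16 * C1 ^ 2 * b ^ 2 := by
    intro k
    refine sum4_le (a := fun i j l m => a3 i j k * starRingEnd ℂ (a3 l m k)) hb0 (by positivity)
      ?_ hHH
    intro i j l m
    rw [norm_mul, Complex.norm_conj, sq]
    exact mul_le_mul (hb3 _ _ _) (hb3 _ _ _) (norm_nonneg _) hC1.le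
  have bX : f * ‖X‖ ≤ 8 * C1 * b * q := by
    have h3 : ∀ i j k, ‖a3 i j k * hh u v i * HH u.1 v.1 j k‖ ≤ C1 * ‖hh u v i‖ * b := by
      intro i j k
      rw [norm_mul, norm_mul]
      exact mul_le_mul (mul_le_mul_of_nonneg_right (hb3 i j k) (norm_nonneg _)) (hHH j k)
        (norm_nonneg _) (by positivity)
    have h4 : ‖X‖ ≤ ∑ i : Fin 2, ∑ j : Fin 2, ∑ k : Fin 2, C1 * ‖hh u v i‖ * b :=
      norm_sum_le_of_le _ fun i _ => norm_sum_le_of_le _ fun j _ =>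
        norm_sum_le_of_le _ fun k _ => h3 i j k
    have h5 : f * (∑ i : Fin 2, ∑ j : Fin 2, ∑ k : Fin 2, C1 * ‖hh u v i‖ * b) =
        4 * C1 * b * (f * ‖hh u v 0‖) + 4 * C1 * b * (f * ‖hh u v 1‖) := by
      simp [Fin.sum_univ_two]; ring
    have h6 := mul_le_mul_of_nonneg_left h4 hf0.le
    rw [h5] at h6
    have h7 := mul_le_mul_of_nonneg_left (hhh 0) (by positivity : 0 ≤ 4 * C1 * b)
    have h8 := mul_le_mul_of_nonneg_left (hhh 1) (by positivity : 0 ≤ 4 * C1 * b)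
    linarith
  have bY : ∀ k : Fin 2, f * ‖∑ i, ∑ j, starRingEnd ℂ (a3 i j k) * HH u.1 v.1 k i *
      starRingEnd ℂ (hh u v j)‖ ≤ 4 * C1 * b * q := by
    intro k
    have h3 : ∀ i j, ‖starRingEnd ℂ (a3 i j k) * HH u.1 v.1 k i * starRingEnd ℂ (hh u v j)‖
        ≤ C1 * b * ‖hh u v j‖ := by
      intro i j
      rw [norm_mul, norm_mul, Complex.norm_conj, Complex.norm_conj]
      exact mul_le_mul_of_nonneg_right (mul_le_mul (hb3 i j k) (hHH k i) (norm_nonneg _) hC1.le)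
        (norm_nonneg _)
    have h4 : ‖∑ i, ∑ j, starRingEnd ℂ (a3 i j k) * HH u.1 v.1 k i * starRingEnd ℂ (hh u v j)‖
        ≤ ∑ i : Fin 2, ∑ j : Fin 2, C1 * b * ‖hh u v j‖ :=
      norm_sum_le_of_le _ fun i _ => norm_sum_le_of_le _ fun j _ => h3 i j
    have h5 : f * (∑ i : Fin 2, ∑ j : Fin 2, C1 * b * ‖hh u v j‖) =
        2 * C1 * b * (f * ‖hh u v 0‖) + 2 * C1 * b * (f * ‖hh u v 1‖) := by
      simp [Fin.sum_univ_two]; ring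
    have h6 := mul_le_mul_of_nonneg_left h4 hf0.le
    rw [h5] at h6
    have h7 := mul_le_mul_of_nonneg_left (hhh 0) (by positivity : 0 ≤ 2 * C1 * b)
    have h8 := mul_le_mul_of_nonneg_left (hhh 1) (by positivity : 0 ≤ 2 * C1 * b)
    linarith
  -- assemble
  have hre := congrArg Complex.re hbrk
  rw [← two_mN] at hre
  have hdiff : 2 * mN A s c1 c2 a3 a4 u v -
      Qmain A s c1 c2 (2 * (u.1.1 * starRingEnd ℂ v.1.1).im) (2 * (u.1.2 * starRingEnd ℂ v.1.2).im)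
        (‖u.1.1 * starRingEnd ℂ v.1.2 - v.1.1 * starRingEnd ℂ u.1.2‖ ^ 2)
        (s * (1 + s) * ‖u.1.1 * starRingEnd ℂ v.2 - v.1.1 * starRingEnd ℂ u.2‖ ^ 2)
        (s * (1 + s) * ‖u.1.2 * starRingEnd ℂ v.2 - v.1.2 * starRingEnd ℂ u.2‖ ^ 2)
        (2 * (s * (1 + s)) * (u.2 * starRingEnd ℂ v.2).im)
      = -(s * T4.re) - 4 * f ^ 2 * X.re + s ^ 2 * (A + s * c1)⁻¹ * R0.re
        + s ^ 2 * (A + s * c2)⁻¹ * R1.re
        + 4 * f ^ 2 * (s * c1 * (A + s * c1)⁻¹) * Y0.re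
        + 4 * f ^ 2 * (s * c2 * (A + s * c2)⁻¹) * Y1.re := by
    rw [hre, hf2]
    have e1 : ∀ (r : ℝ) (z : ℂ), ((r : ℂ) * z).re = r * z.re := fun r z => by simp
    have hX' : (2 * ((s : ℂ) * (1 + s)) * (-X + starRingEnd ℂ (-X))).re = -4 * (s * (1 + s)) * X.re := by
      have : 2 * ((s : ℂ) * (1 + s)) * (-X + starRingEnd ℂ (-X)) =
        ((2 * (s * (1 + s)) : ℝ) : ℂ) * (-X + starRingEnd ℂ (-X)) := by push_cast; ring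
      rw [this, e1, Complex.add_re, Complex.conj_re, Complex.neg_re]; ring
    have hR' : ∀ (g : ℝ) (R : ℂ), ((s : ℂ) ^ 2 * (g : ℝ) * R).re = s ^ 2 * g * R.re := by
      intro g R
      have : (s : ℂ) ^ 2 * (g : ℝ) * R = ((s ^ 2 * g : ℝ) : ℂ) * R := by push_cast; ring
      rw [this, e1]
    have hY' : ∀ (c g : ℝ) (Y : ℂ), (2 * (s : ℂ) * (s * (1 + s)) * c * (g : ℝ) *
        (Y + starRingEnd ℂ Y)).re = 4 * (s * (1 + s)) * (s * c * g) * Y.re := by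
      intro c g Y
      have : 2 * (s : ℂ) * (s * (1 + s)) * c * (g : ℝ) * (Y + starRingEnd ℂ Y) =
        ((2 * s * (s * (1 + s)) * c * g : ℝ) : ℂ) * (Y + starRingEnd ℂ Y) := by push_cast; ring
      rw [this, e1, Complex.add_re, Complex.conj_re]; ring
    simp only [Complex.add_re]
    rw [hX', hR', hR', hY', hY', Complex.ofReal_re]
    have hT' : ((s : ℂ) * -T4).re = -(s * T4.re) := by rw [e1, Complex.neg_re]; ring
    rw [hT']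
    ring
  rw [hdiff]
  have g1 : s ^ 2 * (A + s * c1)⁻¹ ≤ s ^ 2 / (A + c0 * s) := by
    rw [div_eq_mul_inv]
    refine mul_le_mul_of_nonneg_left (inv_anti₀ (by positivity) ?_) (by positivity)
    nlinarith
  have g2 : s ^ 2 * (A + s * c2)⁻¹ ≤ s ^ 2 / (A + c0 * s) := by
    rw [div_eq_mul_inv]
    refine mul_le_mul_of_nonneg_left (inv_anti₀ (by positivity) ?_) (by positivity)
    nlinarith
  have k1 : s * c1 * (A + s * c1)⁻¹ ≤ 1 := by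
    rw [← div_eq_mul_inv, div_le_one hG1]; linarith
  have k2 : s * c2 * (A + s * c2)⁻¹ ≤ 1 := by
    rw [← div_eq_mul_inv, div_le_one hG2]; linarith
  have k1' : 0 ≤ s * c1 * (A + s * c1)⁻¹ := by have := hc0.trans_le h1; positivity
  have k2' : 0 ≤ s * c2 * (A + s * c2)⁻¹ := by have := hc0.trans_le h2; positivity
  have g1' : 0 ≤ s ^ 2 * (A + s * c1)⁻¹ := by positivity
  have g2' : 0 ≤ s ^ 2 * (A + s * c2)⁻¹ := by positivity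
  have r1 : |s * T4.re| ≤ s * (16 * C1 * b ^ 2) := by
    rw [abs_mul, abs_of_pos hs]
    exact mul_le_mul_of_nonneg_left ((Complex.abs_re_le_norm _).trans bT4) hs.le
  have r2 : |4 * f ^ 2 * X.re| ≤ 4 * f * (8 * C1 * b * q) := by
    rw [show 4 * f ^ 2 * X.re = 4 * f * (f * X.re) by ring, abs_mul, abs_mul f,
      abs_of_pos hf0, abs_of_pos (by positivity : 0 < 4 * f)]
    refine mul_le_mul_of_nonneg_left (le_trans ?_ bX) (by positivity)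
    exact mul_le_mul_of_nonneg_left (Complex.abs_re_le_norm _) hf0.le
  have r3 : ∀ (G : ℝ) (R : ℂ), 0 ≤ G → G ≤ s ^ 2 / (A + c0 * s) → ‖R‖ ≤ 16 * C1 ^ 2 * b ^ 2 →
      |G * R.re| ≤ s ^ 2 / (A + c0 * s) * (16 * C1 ^ 2 * b ^ 2) := by
    intro G R hG0 hG hR
    rw [abs_mul, abs_of_nonneg hG0]
    exact mul_le_mul hG ((Complex.abs_re_le_norm _).trans hR) (abs_nonneg _) (by positivity)
  have r4 : ∀ (G : ℝ) (Y : ℂ), 0 ≤ G → G ≤ 1 → f * ‖Y‖ ≤ 4 * C1 * b * q →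
      |4 * f ^ 2 * G * Y.re| ≤ 4 * f * (4 * C1 * b * q) := by
    intro G Y hG0 hG hY
    rw [show 4 * f ^ 2 * G * Y.re = 4 * f * (G * (f * Y.re)) by ring, abs_mul, abs_mul G,
      abs_mul f, abs_of_pos hf0, abs_of_pos (by positivity : 0 < 4 * f), abs_of_nonneg hG0]
    refine mul_le_mul_of_nonneg_left ?_ (by positivity)
    have h9 : f * |Y.re| ≤ 4 * C1 * b * q :=
      (mul_le_mul_of_nonneg_left (Complex.abs_re_le_norm _) hf0.le).trans hY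
    calc G * (f * |Y.re|) ≤ 1 * (f * |Y.re|) :=
          mul_le_mul_of_nonneg_right hG (by positivity)
      _ ≤ _ := by rw [one_mul]; exact h9
  have s1 := r3 _ R0 g1' g1 (bR 0)
  have s2 := r3 _ R1 g2' g2 (bR 1)
  have s3 := r4 _ Y0 k1' k1 (bY 0)
  have s4 := r4 _ Y1 k2' k2 (bY 1)
  rw [← hb2]
  set W := s ^ 2 / (A + c0 * s) with hW
  have hW0 : 0 ≤ W := by positivity
  have t1 := abs_le.mp r1
  have t2 := abs_le.mp r2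
  have t3 := abs_le.mp s1
  have t4 := abs_le.mp s2
  have t5 := abs_le.mp s3
  have t6 := abs_le.mp s4
  have z1 : 0 ≤ f * b * q := by positivity
  have z2 : 0 ≤ C1 * (f * b * q) := by positivity
  have z3 : 0 ≤ C1 ^ 2 * (f * b * q) := by positivity
  have z4 : 0 ≤ C1 * (s * b ^ 2) := by positivity
  have z5 : 0 ≤ C1 ^ 2 * (s * b ^ 2) := by positivity
  have z6 : 0 ≤ C1 * (W * b ^ 2) := by positivity
  rw [abs_le]
  constructor <;> linarith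

end P250
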