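import Mathlib
import Vale.Agent.Lib.P250.AlgDefs

/-! # P250 module G7c: negativity of Qmain -/

open Complex

namespace P250

noncomputable section

/-- a square of an affine function is bounded by its values at the end points -/
private theorem AlgC_conv (p M K x y R : ℝ) (hp : p ≤ K) (hM : K ≤ M)
    (h1 : (p * x + y) ^ 2 ≤ R) (h2 : (M * x + y) ^ 2 ≤ R) : (K * x + y) ^ 2 ≤ R := by
  have hR : 0 ≤ R := (sq_nonneg _).trans h1
  have e1 := Real.abs_le_sqrt h1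
  have e2 := Real.abs_le_sqrt h2
  rw [abs_le] at e1 e2
  have key : |K * x + y| ≤ Real.sqrt R := by
    rw [abs_le]
    rcases le_total 0 x with hx | hx
    · constructor
      · nlinarith [mul_le_mul_of_nonneg_right hp hx]
      · nlinarith [mul_le_mul_of_nonneg_right hM hx]
    · constructor
      · nlinarith [mul_le_mul_of_nonpos_right hM hx]
      · nlinarith [mul_le_mul_of_nonpos_right hp hx]
  have := sq_le_sq' (abs_le.1 key).1 (abs_le.1 key).2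
  rwa [Real.sq_sqrt hR] at this

/-- the key quadratic inequality -/
private theorem AlgC_key (p q K1 K2 x1 x2 b : ℝ) (hp : 0 < p) (hq0 : 0 ≤ q) (hq1 : q ≤ 1)
    (h1 : p ≤ K1) (h1' : K1 ≤ (2 - q) * p) (h2 : p ≤ K2) (h2' : K2 ≤ (2 - q) * p)
    (hb : 0 ≤ b) (hx : x1 * x2 ≤ b) :
    (K1 * x1 + K2 * x2) ^ 2 ≤
      2 * ((1 - q / 2) ^ 2 * p ^ 2) * ((x1 + x2) ^ 2 + x1 ^ 2 + x2 ^ 2 + 2 * b) := by
  obtain ⟨M, hM⟩ : ∃ M, M = (2 - q) * p := ⟨_, rfl⟩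
  rw [← hM] at h1' h2'
  have hM2 : M ≤ 2 * p := by nlinarith
  have hMp : p ≤ M := h1.trans h1'
  have hM0 : 0 < M := hp.trans_le hMp
  have e : 2 * ((1 - q / 2) ^ 2 * p ^ 2) = M ^ 2 / 2 := by rw [hM]; ring
  rw [e]
  rcases le_total 0 (x1 * x2) with hxx | hxx
  · have a1 : K1 ^ 2 ≤ M ^ 2 := by nlinarith
    have a2 : K2 ^ 2 ≤ M ^ 2 := by nlinarith
    have a3 : K1 * K2 ≤ M ^ 2 := by nlinarith [mul_nonneg (sub_nonneg.2 h1') (sub_nonneg.2 h2')]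
    have b1 := mul_le_mul_of_nonneg_right a1 (sq_nonneg x1)
    have b2 := mul_le_mul_of_nonneg_right a2 (sq_nonneg x2)
    have b3 := mul_le_mul_of_nonneg_right a3 hxx
    have b4 : M ^ 2 * (x1 * x2) ≤ M ^ 2 * b := mul_le_mul_of_nonneg_left hx (sq_nonneg M)
    linarith
  · have hR : M ^ 2 * (x1 ^ 2 + x2 ^ 2 + x1 * x2) ≤
        M ^ 2 / 2 * ((x1 + x2) ^ 2 + x1 ^ 2 + x2 ^ 2 + 2 * b) := by
      have : 0 ≤ M ^ 2 * b := mul_nonneg (sq_nonneg M) hb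
      linarith
    refine le_trans ?_ hR
    have hpM : p ^ 2 ≤ M ^ 2 := by nlinarith
    have hpM2 : M ^ 2 ≤ 2 * (M * p) := by nlinarith
    have c1 : M ^ 2 * (x1 * x2) ≤ 0 := mul_nonpos_of_nonneg_of_nonpos (sq_nonneg M) hxx
    have c2 : 2 * (M * p) * (x1 * x2) ≤ M ^ 2 * (x1 * x2) :=
      mul_le_mul_of_nonpos_right hpM2 hxx
    have c3 := mul_le_mul_of_nonneg_right hpM (sq_nonneg x1)
    have c4 := mul_le_mul_of_nonneg_right hpM (sq_nonneg x2)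
    have c5 := mul_le_mul_of_nonneg_right hpM (sq_nonneg (x1 + x2))
    have v1 : ∀ K, p ≤ K → K ≤ M → (K * x1 + p * x2) ^ 2 ≤ M ^ 2 * (x1 ^ 2 + x2 ^ 2 + x1 * x2) := by
      intro K hK hK'
      refine AlgC_conv p M K x1 (p * x2) _ hK hK' ?_ ?_
      · linarith
      · linarith
    have v2 : ∀ K, p ≤ K → K ≤ M → (K * x1 + M * x2) ^ 2 ≤ M ^ 2 * (x1 ^ 2 + x2 ^ 2 + x1 * x2) := by
      intro K hK hK'
      refine AlgC_conv p M K x1 (M * x2) _ hK hK' ?_ ?_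
      · linarith
      · linarith
    have := AlgC_conv p M K2 x2 (K1 * x1) (M ^ 2 * (x1 ^ 2 + x2 ^ 2 + x1 * x2)) h2 h2'
      (by have := v1 K1 h1 h1'; rwa [add_comm] at this)
      (by have := v2 K1 h1 h1'; rwa [add_comm] at this)
    rwa [add_comm] at this

/-- the coefficient `K` -/
private def AlgK (A s c : ℝ) : ℝ := ((1 + 2 * s) * A + s ^ 2 * c) / (A + s * c)

private theorem AlgK_mE (A s c : ℝ) : mE A s c = -(c * AlgK A s c) := by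
  unfold mE AlgK
  rw [← mul_div_assoc]
  ring

private theorem AlgK_lower (A s c : ℝ) (hs : 0 < s) (hc : 0 < c) (hA : c ≤ A) :
    1 + s ≤ AlgK A s c := by
  have hA0 : 0 < A := hc.trans_le hA
  have hG : 0 < A + s * c := by positivity
  unfold AlgK
  rw [le_div_iff₀ hG]
  nlinarith [mul_nonneg hs.le (sub_nonneg.2 hA)]

private theorem AlgK_upper (A s c : ℝ) (hs : 0 < s) (hc : 0 < c) (hA : c ≤ A) :
    AlgK A s c ≤ (2 - 1 / (1 + s)) * (1 + s) := by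
  have hA0 : 0 < A := hc.trans_le hA
  have hG : 0 < A + s * c := by positivity
  have hp : 0 < 1 + s := by positivity
  have e : (2 - 1 / (1 + s)) * (1 + s) = 1 + 2 * s := by
    field_simp
    ring
  unfold AlgK
  rw [e, div_le_iff₀ hG]
  nlinarith [mul_pos hs hc, mul_pos (mul_pos hs hs) hc]

private theorem AlgK_upper' (A s c c0 η : ℝ) (hs : 0 < s) (hc0 : 0 < c0) (hc : c0 ≤ c)
    (hA : c ≤ A) (hη : 0 < η) (hsA : η * A ≤ s) :
    AlgK A s c ≤ (2 - η * c0 / (1 + η * c0)) * (1 + s) := by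
  have hc' : 0 < c := hc0.trans_le hc
  have hA0 : 0 < A := hc'.trans_le hA
  have hG : 0 < A + s * c := by positivity
  have hp : 0 < 1 + s := by positivity
  obtain ⟨q, hq⟩ : ∃ q, q = η * c0 / (1 + η * c0) := ⟨_, rfl⟩
  have hd : 0 < 1 + η * c0 := by positivity
  have hqe : q * (1 + η * c0) = η * c0 := by rw [hq]; field_simp
  have hq0 : 0 < q := by rw [hq]; positivity
  have hq1 : q < 1 := by
    rw [hq, div_lt_one hd]; linarith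
  rw [← hq]
  unfold AlgK
  rw [div_le_iff₀ hG]
  -- need q (A + sc + sA + s²c) ≤ A + 2sc + s²c
  have key : q * (A + s * c) ≤ s * c := by
    have h1 : q ≤ η * c * (1 - q) := by
      have : η * c0 * (1 - q) ≤ η * c * (1 - q) := by
        apply mul_le_mul_of_nonneg_right _ (by linarith)
        exact mul_le_mul_of_nonneg_left hc hη.le
      linarith
    have h2 : q * A ≤ η * A * c * (1 - q) := by nlinarith
    have h3 : η * A * c * (1 - q) ≤ s * c * (1 - q) := by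
      apply mul_le_mul_of_nonneg_right _ (by linarith)
      exact mul_le_mul_of_nonneg_right hsA hc'.le
    linarith
  have k1 : s * (q * (A + s * c)) ≤ s * (s * c) := mul_le_mul_of_nonneg_left key hs.le
  have k2 : q * A ≤ A := by nlinarith
  have k3 : q * (s * c) ≤ s * c := by nlinarith [mul_pos hs hc']
  have k4 := mul_pos hs hc'
  linarith

private theorem AlgC_t (Y t ε : ℝ) (h0 : 0 ≤ ε) (h1 : ε ≤ 1) :
    -2 * t ^ 2 - 2 * t * Y ≤ -ε * t ^ 2 + (1 / 2) * Y ^ 2 * (1 + ε) := by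
  nlinarith [mul_nonneg h0 (sq_nonneg (t + Y)), mul_nonneg (sub_nonneg.2 h1) (sq_nonneg (2 * t + Y))]

/-- the mixed error term -/
private theorem AlgC_mix (C2 c0 s S h : ℝ) (hC2 : 0 < C2) (hc0 : 0 < c0) (hs : 0 < s)
    (hS : 0 ≤ S) (hh : 0 ≤ h) :
    C2 * Real.sqrt (s * (1 + s)) * Real.sqrt S * Real.sqrt h ≤
      c0 * (1 + s) * h + C2 ^ 2 / (4 * c0) * s * S := by
  have hp : 0 < 1 + s := by positivity
  obtain ⟨u, hu⟩ : ∃ u, u = Real.sqrt S := ⟨_, rfl⟩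
  obtain ⟨v, hv⟩ : ∃ v, v = Real.sqrt h := ⟨_, rfl⟩
  obtain ⟨r, hr⟩ : ∃ r, r = Real.sqrt s := ⟨_, rfl⟩
  obtain ⟨w, hw⟩ : ∃ w, w = Real.sqrt (1 + s) := ⟨_, rfl⟩
  have hu2 : u ^ 2 = S := by rw [hu]; exact Real.sq_sqrt hS
  have hv2 : v ^ 2 = h := by rw [hv]; exact Real.sq_sqrt hh
  have hr2 : r ^ 2 = s := by rw [hr]; exact Real.sq_sqrt hs.le
  have hw2 : w ^ 2 = 1 + s := by rw [hw]; exact Real.sq_sqrt hp.le
  rw [Real.sqrt_mul hs.le, ← hu, ← hv, ← hr, ← hw]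
  have e1 : c0 * (1 + s) * h = c0 * (w * v) ^ 2 := by
    rw [mul_pow, hw2, hv2]; ring
  have e2 : C2 ^ 2 / (4 * c0) * s * S = (C2 * r * u) ^ 2 / (4 * c0) := by
    rw [mul_pow, mul_pow, hr2, hu2]; ring
  rw [e1, e2]
  have : c0 * (w * v) ^ 2 + (C2 * r * u) ^ 2 / (4 * c0) - C2 * (r * w) * u * v =
      (2 * c0 * (w * v) - C2 * r * u) ^ 2 / (4 * c0) := by
    field_simp
    ring
  have h4 : 0 ≤ (2 * c0 * (w * v) - C2 * r * u) ^ 2 / (4 * c0) := by positivity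
  linarith

/-- common reduction: everything except the comparison of the coefficients of `S` -/
private theorem AlgC_red (A s c0 c1 c2 C1 D C2 ε B11 B22 β η1 η2 t err : ℝ)
    (hC2 : 0 < C2) (hc0 : 0 < c0) (h1 : c0 ≤ c1) (h2 : c0 ≤ c2) (h1' : c1 ≤ C1) (h2' : c2 ≤ C1)
    (hA : C1 ≤ A) (hs : 0 < s) (hD : D = C2 + C2 / c0 + C2 ^ 2 / (4 * c0))
    (hε0 : 0 ≤ ε) (hε1 : ε ≤ 1) (hβ : 0 ≤ β) (hη1 : 0 ≤ η1) (hη2 : 0 ≤ η2)
    (hB : B11 * B22 ≤ β) (q : ℝ) (hq0 : 0 ≤ q) (hq1 : q ≤ 1)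
    (hK1 : AlgK A s c1 ≤ (2 - q) * (1 + s)) (hK2 : AlgK A s c2 ≤ (2 - q) * (1 + s))
    (herr : |err| ≤ C2 * (s + s ^ 2 / (A + c0 * s)) * (B11 ^ 2 + B22 ^ 2 + 2 * β)
      + C2 * Real.sqrt (s * (1 + s)) * Real.sqrt (B11 ^ 2 + B22 ^ 2 + 2 * β)
        * Real.sqrt (η1 + η2)) :
    Qmain A s c1 c2 B11 B22 β η1 η2 t + err ≤
      -A * (B11 ^ 2 + B22 ^ 2 + 2 * β)
      + (-(s * (1 + s)) + (1 - q / 2) ^ 2 * (1 + s) ^ 2 * (1 + ε)) *
        ((c1 * B11 + c2 * B22) ^ 2 + (c1 * B11) ^ 2 + (c2 * B22) ^ 2 + 2 * (c1 * c2 * β))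
      + D * s * (B11 ^ 2 + B22 ^ 2 + 2 * β) - ε * t ^ 2 - c0 * (1 + s) * (η1 + η2) := by
  have hc1 : 0 < c1 := hc0.trans_le h1
  have hc2 : 0 < c2 := hc0.trans_le h2
  have hA0 : 0 < A := (hc1.trans_le h1').trans_le hA
  have hp : 0 < 1 + s := by positivity
  obtain ⟨S, hS⟩ : ∃ S, S = B11 ^ 2 + B22 ^ 2 + 2 * β := ⟨_, rfl⟩
  have hS0 : 0 ≤ S := by rw [hS]; positivity
  rw [← hS] at herr ⊢
  obtain ⟨Y, hY⟩ : ∃ Y, Y = AlgK A s c1 * (c1 * B11) + AlgK A s c2 * (c2 * B22) := ⟨_, rfl⟩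
  obtain ⟨W, hW⟩ : ∃ W, W = (c1 * B11 + c2 * B22) ^ 2 + (c1 * B11) ^ 2 + (c2 * B22) ^ 2
    + 2 * (c1 * c2 * β) := ⟨_, rfl⟩
  have hb : 0 ≤ c1 * c2 * β := by positivity
  have hx : (c1 * B11) * (c2 * B22) ≤ c1 * c2 * β := by
    have := mul_le_mul_of_nonneg_left hB (mul_pos hc1 hc2).le
    linarith
  have L1 := AlgK_lower A s c1 hs hc1 (h1'.trans hA)
  have L2 := AlgK_lower A s c2 hs hc2 (h2'.trans hA)
  have hkey := AlgC_key (1 + s) q (AlgK A s c1) (AlgK A s c2) (c1 * B11) (c2 * B22)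
    (c1 * c2 * β) hp hq0 hq1 L1 hK1 L2 hK2 hb hx
  rw [← hY, ← hW] at hkey
  rw [← hW]
  have ht := AlgC_t Y t ε hε0 hε1
  have hY2 : (1 / 2) * Y ^ 2 * (1 + ε) ≤ (1 - q / 2) ^ 2 * (1 + s) ^ 2 * (1 + ε) * W := by
    have := mul_le_mul_of_nonneg_right hkey (show (0 : ℝ) ≤ (1 + ε) / 2 by positivity)
    linarith
  have hQ : Qmain A s c1 c2 B11 B22 β η1 η2 t =
      -A * ((B11 + B22) ^ 2 + S) - s * (1 + s) * W + (-2 * t ^ 2 - 2 * t * Y)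
      - 2 * (c1 * AlgK A s c1 * η1 + c2 * AlgK A s c2 * η2) := by
    unfold Qmain
    rw [AlgK_mE, AlgK_mE, hS, hW, hY]
    ring
  have hη : c0 * (1 + s) * (η1 + η2) ≤ c1 * AlgK A s c1 * η1 + c2 * AlgK A s c2 * η2 := by
    have e1 : c0 * (1 + s) ≤ c1 * AlgK A s c1 := mul_le_mul h1 L1 hp.le hc1.le
    have e2 : c0 * (1 + s) ≤ c2 * AlgK A s c2 := mul_le_mul h2 L2 hp.le hc2.le
    have f1 := mul_le_mul_of_nonneg_right e1 hη1
    have f2 := mul_le_mul_of_nonneg_right e2 hη2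
    linarith
  have hmix := AlgC_mix C2 c0 s S (η1 + η2) hC2 hc0 hs hS0 (add_nonneg hη1 hη2)
  have hfrac : s ^ 2 / (A + c0 * s) ≤ s / c0 := by
    have hd : 0 < A + c0 * s := by positivity
    rw [div_le_div_iff₀ hd hc0]
    have h3 := (mul_pos hs hA0).le
    linarith
  have herr2 : err ≤ D * s * S + c0 * (1 + s) * (η1 + η2) := by
    have h3 : C2 * (s + s ^ 2 / (A + c0 * s)) * S ≤ (C2 + C2 / c0) * s * S := by
      apply mul_le_mul_of_nonneg_right _ hS0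
      have := mul_le_mul_of_nonneg_left hfrac hC2.le
      have e : C2 * (s / c0) = C2 / c0 * s := by ring
      linarith
    have h4 := le_abs_self err
    have h5 : D * s * S = (C2 + C2 / c0) * s * S + C2 ^ 2 / (4 * c0) * s * S := by
      rw [hD]; ring
    linarith
  have hA2 : 0 ≤ A * (B11 + B22) ^ 2 := by positivity
  have h6 : -A * ((B11 + B22) ^ 2 + S) = -(A * (B11 + B22) ^ 2) + -A * S := by ring
  have h7 : (-(s * (1 + s)) + (1 - q / 2) ^ 2 * (1 + s) ^ 2 * (1 + ε)) * W =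
      -(s * (1 + s) * W) + (1 - q / 2) ^ 2 * (1 + s) ^ 2 * (1 + ε) * W := by ring
  rw [hQ, h6, h7]
  linarith

/-- bound for `Hnorm` -/
private theorem AlgC_H (A s c0 c1 c2 C1 B11 B22 β η1 η2 t : ℝ)
    (hc0 : 0 < c0) (h1 : c0 ≤ c1) (h2 : c0 ≤ c2) (h1' : c1 ≤ C1) (h2' : c2 ≤ C1)
    (hA : C1 ≤ A) (hs : 0 < s) (hβ : 0 ≤ β) (hη1 : 0 ≤ η1) (hη2 : 0 ≤ η2) :
    Hnorm A s c1 c2 B11 B22 β η1 η2 t ≤
      (A + C1) ^ 2 * (1 + s) ^ 2 * (B11 ^ 2 + B22 ^ 2 + 2 * β)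
      + 2 * ((A + C1) * (1 + s)) * (η1 + η2) + t ^ 2 := by
  have hc1 : 0 < c1 := hc0.trans_le h1
  have hc2 : 0 < c2 := hc0.trans_le h2
  have hC1 : 0 < C1 := hc1.trans_le h1'
  have hA0 : 0 < A := hC1.trans_le hA
  obtain ⟨P, hP⟩ : ∃ P, P = (A + C1) * (1 + s) := ⟨_, rfl⟩
  have hP0 : 0 < P := by rw [hP]; positivity
  have e1 : A + s * c1 ≤ P := by
    rw [hP]; nlinarith [mul_pos hA0 hs, mul_le_mul_of_nonneg_left h1' hs.le]
  have e2 : A + s * c2 ≤ P := by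
    rw [hP]; nlinarith [mul_pos hA0 hs, mul_le_mul_of_nonneg_left h2' hs.le]
  have g1 : 0 < A + s * c1 := by positivity
  have g2 : 0 < A + s * c2 := by positivity
  have f1 : (A + s * c1) ^ 2 ≤ P ^ 2 := by nlinarith
  have f2 : (A + s * c2) ^ 2 ≤ P ^ 2 := by nlinarith
  have f3 : (A + s * c1) * (A + s * c2) ≤ P ^ 2 := by nlinarith
  have k1 := mul_le_mul_of_nonneg_right f1 (sq_nonneg B11)
  have k2 := mul_le_mul_of_nonneg_right f2 (sq_nonneg B22)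
  have k3 := mul_le_mul_of_nonneg_right f3 hβ
  have k4 := mul_le_mul_of_nonneg_right e1 hη1
  have k5 := mul_le_mul_of_nonneg_right e2 hη2
  have e : (A + C1) ^ 2 * (1 + s) ^ 2 = P ^ 2 := by rw [hP]; ring
  rw [e, ← hP]
  unfold Hnorm
  linarith

/-- the region of small `s` -/
private theorem AlgC_small (A s C1 D ε η a S h W t Q H c0 : ℝ) (hA0 : 0 < A)
    (hp : 0 < s) (hD0 : 0 < D) (hηD : D * η = 1 / 4) (hη0 : 0 < η) (hε0 : 0 < ε)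
    (hε2 : ε * (24 * C1 ^ 2 * (1 + η * A) ^ 2) ≤ A) (hAC2 : 6 * C1 ^ 2 ≤ A)
    (ha0 : 0 < a) (a1 : a ≤ ε) (a4 : a * (2 * (A + C1) ^ 2 * (1 + η * A) ^ 2) ≤ A)
    (hS0 : 0 ≤ S) (hW0 : 0 ≤ W) (hWup : W ≤ 3 * C1 ^ 2 * S) (hsA : s ≤ η * A)
    (hH : a * H ≤ a * (A + C1) ^ 2 * (1 + s) ^ 2 * S + c0 * (1 + s) * h + a * t ^ 2)
    (hred : Q ≤ -A * S + (-(s * (1 + s)) + (s * (1 + s) + 1 / 4) * (1 + ε)) * W
      + D * s * S - ε * t ^ 2 - c0 * (1 + s) * h) :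
    Q ≤ -(a * H) := by
  have hps : 1 + s ≤ 1 + η * A := by linarith
  have hps2 : (1 + s) ^ 2 ≤ (1 + η * A) ^ 2 := pow_le_pow_left₀ (by positivity) hps 2
  have e2 : s * (1 + s) + 1 / 4 ≤ (1 + η * A) ^ 2 := by linarith
  have e3 : (-(s * (1 + s)) + (s * (1 + s) + 1 / 4) * (1 + ε)) * W ≤
      A / 8 * S + 3 / 4 * C1 ^ 2 * S := by
    have f1 : -(s * (1 + s)) + (s * (1 + s) + 1 / 4) * (1 + ε) ≤
        1 / 4 + ε * (1 + η * A) ^ 2 := by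
      have := mul_le_mul_of_nonneg_left e2 hε0.le
      linarith
    have f2 := mul_le_mul_of_nonneg_right f1 hW0
    have f3 : (1 / 4 + ε * (1 + η * A) ^ 2) * W ≤
        (1 / 4 + ε * (1 + η * A) ^ 2) * (3 * C1 ^ 2 * S) :=
      mul_le_mul_of_nonneg_left hWup (by positivity)
    have f4 := mul_le_mul_of_nonneg_right hε2 hS0
    have f5 : (1 / 4 + ε * (1 + η * A) ^ 2) * (3 * C1 ^ 2 * S) =
        ε * (24 * C1 ^ 2 * (1 + η * A) ^ 2) * S / 8 + 3 / 4 * C1 ^ 2 * S := by ring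
    linarith
  have e4 : 3 / 4 * C1 ^ 2 * S ≤ A / 8 * S := by
    have := mul_le_mul_of_nonneg_right hAC2 hS0
    linarith
  have e5 : D * s * S ≤ A / 4 * S := by
    apply mul_le_mul_of_nonneg_right _ hS0
    calc D * s ≤ D * (η * A) := mul_le_mul_of_nonneg_left hsA hD0.le
      _ = D * η * A := by ring
      _ = A / 4 := by rw [hηD]; ring
  have e6 : a * (A + C1) ^ 2 * (1 + s) ^ 2 * S ≤ A / 2 * S := by
    apply mul_le_mul_of_nonneg_right _ hS0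
    have : a * (A + C1) ^ 2 * (1 + s) ^ 2 ≤ a * (A + C1) ^ 2 * (1 + η * A) ^ 2 :=
      mul_le_mul_of_nonneg_left hps2 (by positivity)
    linarith
  have e7 : a * t ^ 2 ≤ ε * t ^ 2 := mul_le_mul_of_nonneg_right a1 (sq_nonneg t)
  linarith

/-- the region of large `s` -/
private theorem AlgC_large (A s C1 D q a S h W t Q H c0 : ℝ) (hA0 : 0 < A)
    (hs : 0 < s) (hq0 : 0 < q) (hq1 : q ≤ 1)
    (a2 : a ≤ q / 2) (a5 : a * (8 * (A + C1) ^ 2) ≤ q * c0 ^ 2)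
    (hS0 : 0 ≤ S) (hW0 : 0 ≤ W) (hWlo : c0 ^ 2 * S ≤ W)
    (hqs : 4 ≤ q * s) (hDs : 8 * D ≤ q * c0 ^ 2 * s)
    (hH : a * H ≤ a * (A + C1) ^ 2 * (1 + s) ^ 2 * S + c0 * (1 + s) * h + a * t ^ 2)
    (hred : Q ≤ -A * S + (-(s * (1 + s)) + (1 - q / 2) ^ 2 * (1 + s) ^ 2 * (1 + q / 2)) * W
      + D * s * S - q / 2 * t ^ 2 - c0 * (1 + s) * h) :
    Q ≤ -(a * H) := by
  have hp : 0 < 1 + s := by positivity
  have hp2 : 0 < (1 + s) ^ 2 := by positivity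
  have g1 : (1 - q / 2) ^ 2 * (1 + q / 2) ≤ 1 - q / 2 := by
    have h1 : (1 - q / 2) * (1 + q / 2) ≤ 1 := by nlinarith
    have h3 : 0 ≤ 1 - q / 2 := by linarith
    have h4 := mul_le_mul_of_nonneg_left h1 h3
    calc (1 - q / 2) ^ 2 * (1 + q / 2) = (1 - q / 2) * ((1 - q / 2) * (1 + q / 2)) := by ring
      _ ≤ (1 - q / 2) * 1 := h4
      _ = 1 - q / 2 := by ring
  have g3 : (1 + s) ≤ q / 4 * (1 + s) ^ 2 := by
    have h1 : 4 ≤ q * (1 + s) := by linarith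
    have h2 := mul_le_mul_of_nonneg_right h1 hp.le
    have h3 : q * (1 + s) * (1 + s) = 4 * (q / 4 * (1 + s) ^ 2) := by ring
    linarith
  have g2 : -(s * (1 + s)) + (1 - q / 2) ^ 2 * (1 + s) ^ 2 * (1 + q / 2) ≤
      -(q / 4) * (1 + s) ^ 2 := by
    have h1 := mul_le_mul_of_nonneg_right g1 hp2.le
    have h2 : (1 - q / 2) ^ 2 * (1 + s) ^ 2 * (1 + q / 2) =
        (1 - q / 2) ^ 2 * (1 + q / 2) * (1 + s) ^ 2 := by ring
    have h3 : -(s * (1 + s)) = -(1 + s) ^ 2 + (1 + s) := by ring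
    have h4 : (1 - q / 2) * (1 + s) ^ 2 = (1 + s) ^ 2 - 2 * (q / 4 * (1 + s) ^ 2) := by ring
    rw [h2, h3]
    linarith
  have g4 : (-(s * (1 + s)) + (1 - q / 2) ^ 2 * (1 + s) ^ 2 * (1 + q / 2)) * W ≤
      -(q / 4 * (1 + s) ^ 2 * (c0 ^ 2 * S)) := by
    have f1 := mul_le_mul_of_nonneg_right g2 hW0
    have f2 : q / 4 * (1 + s) ^ 2 * (c0 ^ 2 * S) ≤ q / 4 * (1 + s) ^ 2 * W :=
      mul_le_mul_of_nonneg_left hWlo (by positivity)
    have f3 : -(q / 4) * (1 + s) ^ 2 * W = -(q / 4 * (1 + s) ^ 2 * W) := by ring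
    linarith
  have g5 : D * s * S ≤ q / 8 * (1 + s) ^ 2 * (c0 ^ 2 * S) := by
    have f1 : 8 * D * s ≤ q * c0 ^ 2 * s * s := mul_le_mul_of_nonneg_right hDs hs.le
    have f2 : q * c0 ^ 2 * s * s ≤ q * c0 ^ 2 * (1 + s) ^ 2 := by
      have h4 : s * s ≤ (1 + s) ^ 2 := by linarith
      have h5 := mul_le_mul_of_nonneg_left h4 (show 0 ≤ q * c0 ^ 2 by positivity)
      linarith
    have f3 := mul_le_mul_of_nonneg_right (f1.trans f2) hS0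
    have f4 : q / 8 * (1 + s) ^ 2 * (c0 ^ 2 * S) = q * c0 ^ 2 * (1 + s) ^ 2 * S / 8 := by ring
    linarith
  have g6 : a * (A + C1) ^ 2 * (1 + s) ^ 2 * S ≤ q / 8 * (1 + s) ^ 2 * (c0 ^ 2 * S) := by
    have h1 := mul_le_mul_of_nonneg_right a5 (mul_nonneg hp2.le hS0)
    have h2 : a * (8 * (A + C1) ^ 2) * ((1 + s) ^ 2 * S) =
      8 * (a * (A + C1) ^ 2 * (1 + s) ^ 2 * S) := by ring
    have h3 : q * c0 ^ 2 * ((1 + s) ^ 2 * S) = 8 * (q / 8 * (1 + s) ^ 2 * (c0 ^ 2 * S)) := by ring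
    linarith
  have g7 : a * t ^ 2 ≤ q / 2 * t ^ 2 := mul_le_mul_of_nonneg_right a2 (sq_nonneg t)
  have g8 : 0 ≤ A * S := by positivity
  have g9 : q / 4 * (1 + s) ^ 2 * (c0 ^ 2 * S) = 2 * (q / 8 * (1 + s) ^ 2 * (c0 ^ 2 * S)) := by ring
  linarith

/-- the choice of the constant `a` -/
private theorem AlgC_a (A C1 c0 q ε η : ℝ) (hA : 0 < A) (hC1 : 0 < C1) (hc0 : 0 < c0)
    (hq : 0 < q) (hε : 0 < ε) (hη : 0 < η) : ∃ a : ℝ, 0 < a ∧ a ≤ ε ∧ a ≤ q / 2 ∧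
      a * (2 * (A + C1)) ≤ c0 ∧ a * (2 * (A + C1) ^ 2 * (1 + η * A) ^ 2) ≤ A ∧
      a * (8 * (A + C1) ^ 2) ≤ q * c0 ^ 2 := by
  refine ⟨min (min ε (q / 2)) (min (c0 / (2 * (A + C1)))
    (min (A / (2 * (A + C1) ^ 2 * (1 + η * A) ^ 2)) (q * c0 ^ 2 / (8 * (A + C1) ^ 2)))),
    ?_, ?_, ?_, ?_, ?_, ?_⟩
  · exact lt_min (lt_min hε (by positivity)) (lt_min (by positivity)
      (lt_min (by positivity) (by positivity)))
  · exact (min_le_left _ _).trans (min_le_left _ _)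
  · exact (min_le_left _ _).trans (min_le_right _ _)
  · exact (le_div_iff₀ (by positivity)).1 ((min_le_right _ _).trans (min_le_left _ _))
  · exact (le_div_iff₀ (by positivity)).1
      ((min_le_right _ _).trans ((min_le_right _ _).trans (min_le_left _ _)))
  · exact (le_div_iff₀ (by positivity)).1
      ((min_le_right _ _).trans ((min_le_right _ _).trans (min_le_right _ _)))

/-- bounds for `W` -/
private theorem AlgC_W (c0 c1 c2 C1 B11 B22 β : ℝ) (hc0 : 0 < c0) (h1 : c0 ≤ c1) (h2 : c0 ≤ c2)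
    (h1' : c1 ≤ C1) (h2' : c2 ≤ C1) (hβ : 0 ≤ β) :
    (c1 * B11 + c2 * B22) ^ 2 + (c1 * B11) ^ 2 + (c2 * B22) ^ 2 + 2 * (c1 * c2 * β) ≤
      3 * C1 ^ 2 * (B11 ^ 2 + B22 ^ 2 + 2 * β) ∧
    c0 ^ 2 * (B11 ^ 2 + B22 ^ 2 + 2 * β) ≤
      (c1 * B11 + c2 * B22) ^ 2 + (c1 * B11) ^ 2 + (c2 * B22) ^ 2 + 2 * (c1 * c2 * β) := by
  have hc1 : 0 < c1 := hc0.trans_le h1
  have hc2 : 0 < c2 := hc0.trans_le h2
  constructor
  · have e1 : c1 ^ 2 ≤ C1 ^ 2 := by nlinarith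
    have e2 : c2 ^ 2 ≤ C1 ^ 2 := by nlinarith
    have e3 : c1 * c2 ≤ C1 ^ 2 := by nlinarith
    have k1 := mul_le_mul_of_nonneg_right e1 (sq_nonneg B11)
    have k2 := mul_le_mul_of_nonneg_right e2 (sq_nonneg B22)
    have k3 := mul_le_mul_of_nonneg_right e3 hβ
    have k4 : 0 ≤ C1 ^ 2 * β := by positivity
    have k5 := sq_nonneg (c1 * B11 - c2 * B22)
    linarith
  · have e1 : c0 ^ 2 ≤ c1 ^ 2 := by nlinarith
    have e2 : c0 ^ 2 ≤ c2 ^ 2 := by nlinarith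
    have e3 : c0 ^ 2 ≤ c1 * c2 := by nlinarith
    have k1 := mul_le_mul_of_nonneg_right e1 (sq_nonneg B11)
    have k2 := mul_le_mul_of_nonneg_right e2 (sq_nonneg B22)
    have k3 := mul_le_mul_of_nonneg_right e3 hβ
    have k5 := sq_nonneg (c1 * B11 + c2 * B22)
    linarith

/-- G7b: the main inequality (real variables only). -/
theorem Qmain_neg (C2 c0 C1 : ℝ) (hC2 : 0 < C2) (hc0 : 0 < c0) (hC1 : c0 ≤ C1) :
    ∃ A0 : ℝ, 0 < A0 ∧ ∀ A : ℝ, A0 ≤ A → ∃ a : ℝ, 0 < a ∧ ∀ s c1 c2 : ℝ, 0 < s → c0 ≤ c1 →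
    c0 ≤ c2 → c1 ≤ C1 → c2 ≤ C1 → ∀ B11 B22 β η1 η2 t err : ℝ, 0 ≤ β → 0 ≤ η1 → 0 ≤ η2 →
    B11 * B22 ≤ β →
    |err| ≤ C2 * (s + s ^ 2 / (A + c0 * s)) * (B11 ^ 2 + B22 ^ 2 + 2 * β)
      + C2 * Real.sqrt (s * (1 + s)) * Real.sqrt (B11 ^ 2 + B22 ^ 2 + 2 * β)
        * Real.sqrt (η1 + η2) →
    Qmain A s c1 c2 B11 B22 β η1 η2 t + err ≤ -a * Hnorm A s c1 c2 B11 B22 β η1 η2 t := by
  have hC10 : 0 < C1 := hc0.trans_le hC1
  obtain ⟨D, hD⟩ : ∃ D, D = C2 + C2 / c0 + C2 ^ 2 / (4 * c0) := ⟨_, rfl⟩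
  have hD0 : 0 < D := by rw [hD]; positivity
  obtain ⟨η, hη⟩ : ∃ η, η = 1 / (4 * D) := ⟨_, rfl⟩
  have hη0 : 0 < η := by rw [hη]; positivity
  have hηD : D * η = 1 / 4 := by rw [hη]; field_simp
  obtain ⟨q, hq⟩ : ∃ q, q = η * c0 / (1 + η * c0) := ⟨_, rfl⟩
  have hq0 : 0 < q := by rw [hq]; positivity
  have hq1 : q ≤ 1 := by
    rw [hq]
    exact (div_le_one (by positivity)).2 (by linarith)
  refine ⟨C1 + 6 * C1 ^ 2 + 4 / (q * η) + 8 * D / (q * c0 ^ 2 * η), by positivity, ?_⟩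
  intro A hA
  have r1 : 0 < 4 / (q * η) := by positivity
  have r2 : 0 < 8 * D / (q * c0 ^ 2 * η) := by positivity
  have r3 : 0 < 6 * C1 ^ 2 := by positivity
  have hAC : C1 ≤ A := by linarith
  have hAC2 : 6 * C1 ^ 2 ≤ A := by linarith
  have hA0 : 0 < A := hC10.trans_le hAC
  have hAq : 4 ≤ q * (η * A) := by
    have h3 : 4 / (q * η) ≤ A := by linarith
    rw [div_le_iff₀ (by positivity)] at h3
    linarith
  have hAD : 8 * D ≤ q * c0 ^ 2 * (η * A) := by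
    have h3 : 8 * D / (q * c0 ^ 2 * η) ≤ A := by linarith
    rw [div_le_iff₀ (by positivity)] at h3
    linarith
  obtain ⟨ε, hε⟩ : ∃ ε, ε = min 1 (A / (24 * C1 ^ 2 * (1 + η * A) ^ 2)) := ⟨_, rfl⟩
  have hε0 : 0 < ε := by rw [hε]; exact lt_min one_pos (by positivity)
  have hε1 : ε ≤ 1 := by rw [hε]; exact min_le_left _ _
  have hε2 : ε * (24 * C1 ^ 2 * (1 + η * A) ^ 2) ≤ A := by
    have h3 : ε ≤ A / (24 * C1 ^ 2 * (1 + η * A) ^ 2) := by rw [hε]; exact min_le_right _ _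
    rwa [le_div_iff₀ (by positivity)] at h3
  obtain ⟨a, ha0, a1, a2, a3, a4, a5⟩ := AlgC_a A C1 c0 q ε η hA0 hC10 hc0 hq0 hε0 hη0
  refine ⟨a, ha0, ?_⟩
  intro s c1 c2 hs h1 h2 h1' h2' B11 B22 β η1 η2 t err hβ hη1 hη2 hB herr
  have hc1 : 0 < c1 := hc0.trans_le h1
  have hc2 : 0 < c2 := hc0.trans_le h2
  have hp : 0 < 1 + s := by positivity
  have hH := AlgC_H A s c0 c1 c2 C1 B11 B22 β η1 η2 t hc0 h1 h2 h1' h2' hAC hs hβ hη1 hη2
  obtain ⟨hWup, hWlo⟩ := AlgC_W c0 c1 c2 C1 B11 B22 β hc0 h1 h2 h1' h2' hβ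
  have hS0 : 0 ≤ B11 ^ 2 + B22 ^ 2 + 2 * β := by positivity
  have hh0 : 0 ≤ η1 + η2 := by positivity
  have hW0 : 0 ≤ (c1 * B11 + c2 * B22) ^ 2 + (c1 * B11) ^ 2 + (c2 * B22) ^ 2
    + 2 * (c1 * c2 * β) := by positivity
  have hHa : a * Hnorm A s c1 c2 B11 B22 β η1 η2 t ≤
      a * (A + C1) ^ 2 * (1 + s) ^ 2 * (B11 ^ 2 + B22 ^ 2 + 2 * β)
        + c0 * (1 + s) * (η1 + η2) + a * t ^ 2 := by
    have m1 := mul_le_mul_of_nonneg_left hH ha0.le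
    have m2 := mul_le_mul_of_nonneg_right a3 (mul_nonneg hp.le hh0)
    linarith
  rw [neg_mul]
  rcases le_total s (η * A) with hsA | hsA
  · -- small s
    have hq' : 0 ≤ 1 / (1 + s) := by positivity
    have hq'' : 1 / (1 + s) ≤ 1 := by
      rw [div_le_one hp]; linarith
    have hred := AlgC_red A s c0 c1 c2 C1 D C2 ε B11 B22 β η1 η2 t err hC2 hc0 h1 h2 h1' h2' hAC
      hs hD hε0.le hε1 hβ hη1 hη2 hB (1 / (1 + s)) hq' hq''
      (AlgK_upper A s c1 hs hc1 (h1'.trans hAC)) (AlgK_upper A s c2 hs hc2 (h2'.trans hAC)) herr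
    have e1 : (1 - 1 / (1 + s) / 2) ^ 2 * (1 + s) ^ 2 = s * (1 + s) + 1 / 4 := by
      field_simp
      ring
    rw [e1] at hred
    exact AlgC_small A s C1 D ε η a _ _ _ t _ _ c0 hA0 hs hD0 hηD hη0 hε0 hε2 hAC2 ha0 a1 a4
      hS0 hW0 hWup hsA hHa hred
  · -- large s
    have U1 := AlgK_upper' A s c1 c0 η hs hc0 h1 (h1'.trans hAC) hη0 hsA
    have U2 := AlgK_upper' A s c2 c0 η hs hc0 h2 (h2'.trans hAC) hη0 hsA
    rw [← hq] at U1 U2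
    have hred := AlgC_red A s c0 c1 c2 C1 D C2 (q / 2) B11 B22 β η1 η2 t err hC2 hc0 h1 h2 h1' h2'
      hAC hs hD (by positivity) (by linarith) hβ hη1 hη2 hB q hq0.le hq1 U1 U2 herr
    have hqs : 4 ≤ q * s := hAq.trans (mul_le_mul_of_nonneg_left hsA hq0.le)
    have hDs : 8 * D ≤ q * c0 ^ 2 * s := hAD.trans (mul_le_mul_of_nonneg_left hsA (by positivity))
    exact AlgC_large A s C1 D q a _ _ _ t _ _ c0 hA0 hs hq0 hq1 a2 a5 hS0 hW0 hWlo hqs hDs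
      hHa hred

end

end P250
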