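import Mathlib.Algebra.Order.Star.Real
import Mathlib.Tactic.Positivity
import Vale.Agent.Lib.P250.AlgDefs

/-! # P250 module G7d: lower bound of Qmain -/

open Complex

namespace P250

noncomputable section

/-- the number `s` is at most `G / c0` -/
private theorem algD_s {A c0 s : ℝ} (hA : 0 < A) (hc0 : 0 < c0) :
    s ≤ (1 / c0) * (A + c0 * s) := by
  have h : (1 / c0) * (A + c0 * s) = A / c0 + s := by
    field_simp
  rw [h]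
  have : 0 < A / c0 := by positivity
  linarith

private theorem algD_one {A c0 s : ℝ} (hA : 0 < A) (hc0 : 0 < c0) (hs : 0 < s) :
    1 ≤ (1 / A) * (A + c0 * s) := by
  have h : (1 / A) * (A + c0 * s) = 1 + c0 * s / A := by
    field_simp
  rw [h]
  have : 0 < c0 * s / A := by positivity
  linarith

/-- `s (1 + s) ≤ N G²` -/
private theorem algD_ss {A c0 s : ℝ} (hA : 0 < A) (hc0 : 0 < c0) (hs : 0 < s) :
    s * (1 + s) ≤ (1 / c0) * (1 / A + 1 / c0) * (A + c0 * s) ^ 2 := by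
  have h1 := algD_s (s := s) hA hc0
  have h2 := algD_one hA hc0 hs
  have hG : 0 < A + c0 * s := by positivity
  calc s * (1 + s) ≤ ((1 / c0) * (A + c0 * s)) *
        ((1 / A) * (A + c0 * s) + (1 / c0) * (A + c0 * s)) := by
        apply mul_le_mul h1 (add_le_add h2 h1) (by positivity) (by positivity)
    _ = (1 / c0) * (1 / A + 1 / c0) * (A + c0 * s) ^ 2 := by ring

/-- `|mE| ≤ M G` -/
private theorem algD_mE {A c0 C1 s c : ℝ} (hA : 0 < A) (hc0 : 0 < c0) (hs : 0 < s) (hc : c0 ≤ c)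
    (hC : c ≤ C1) : |mE A s c| ≤ (C1 * (1 / A + 2 / c0)) * (A + c0 * s) := by
  have hcp : 0 < c := hc0.trans_le hc
  have hGc : 0 < A + s * c := by positivity
  have hG : 0 < A + c0 * s := by positivity
  have h1 : |mE A s c| = c * ((1 + 2 * s) * A + s ^ 2 * c) / (A + s * c) := by
    unfold mE
    rw [neg_mul, neg_div, abs_neg, abs_of_nonneg (by positivity)]
  have h2 : c * ((1 + 2 * s) * A + s ^ 2 * c) / (A + s * c) ≤ c * (1 + 2 * s) := by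
    rw [div_le_iff₀ hGc]
    have : 0 ≤ c * (s * c + s ^ 2 * c) := by positivity
    linarith
  have h3 : 1 + 2 * s ≤ (1 / A + 2 / c0) * (A + c0 * s) := by
    have e1 := algD_s (s := s) hA hc0
    have e2 := algD_one hA hc0 hs
    have e3 : (1 / A + 2 / c0) * (A + c0 * s) =
        (1 / A) * (A + c0 * s) + 2 * ((1 / c0) * (A + c0 * s)) := by ring
    rw [e3]
    linarith
  rw [h1]
  calc c * ((1 + 2 * s) * A + s ^ 2 * c) / (A + s * c) ≤ c * (1 + 2 * s) := h2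
    _ ≤ C1 * ((1 / A + 2 / c0) * (A + c0 * s)) := by
        apply mul_le_mul hC h3 (by positivity) (hcp.le.trans hC)
    _ = (C1 * (1 / A + 2 / c0)) * (A + c0 * s) := by ring

/-- the error term -/
private theorem algD_err {A c0 C2 s Bn Hn : ℝ} (hA : 0 < A) (hc0 : 0 < c0) (hC2 : 0 < C2)
    (hs : 0 < s) (hBn : 0 ≤ Bn) (hHn : 0 ≤ Hn) :
    C2 * (s + s ^ 2 / (A + c0 * s)) * Bn
      + C2 * Real.sqrt (s * (1 + s)) * Real.sqrt Bn * Real.sqrt Hn ≤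
    (C2 * ((1 + 1 / c0) * (1 / c0) * (1 / A)) + C2 * ((1 / c0) * (1 / A + 1 / c0))) *
      ((A + c0 * s) ^ 2 * Bn) + C2 * (1 / A) * ((A + c0 * s) * Hn) := by
  have hG : 0 < A + c0 * s := by positivity
  have h1 : s + s ^ 2 / (A + c0 * s) ≤ (1 + 1 / c0) * (1 / c0) * (1 / A) * (A + c0 * s) ^ 2 := by
    have e1 : s ^ 2 / (A + c0 * s) ≤ s * (1 / c0) := by
      rw [div_le_iff₀ hG]
      have e2 := algD_s (s := s) hA hc0
      calc s ^ 2 = s * s := by ring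
        _ ≤ s * ((1 / c0) * (A + c0 * s)) := mul_le_mul_of_nonneg_left e2 hs.le
        _ = s * (1 / c0) * (A + c0 * s) := by ring
    have e3 := algD_s (s := s) hA hc0
    have e4 := algD_one hA hc0 hs
    have e5 : s ≤ (1 / c0) * (1 / A) * (A + c0 * s) ^ 2 := by
      calc s = s * 1 := by ring
        _ ≤ ((1 / c0) * (A + c0 * s)) * ((1 / A) * (A + c0 * s)) :=
            mul_le_mul e3 e4 (by norm_num) (by positivity)
        _ = (1 / c0) * (1 / A) * (A + c0 * s) ^ 2 := by ring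
    calc s + s ^ 2 / (A + c0 * s) ≤ s + s * (1 / c0) := by linarith
      _ = (1 + 1 / c0) * s := by ring
      _ ≤ (1 + 1 / c0) * ((1 / c0) * (1 / A) * (A + c0 * s) ^ 2) :=
          mul_le_mul_of_nonneg_left e5 (by positivity)
      _ = (1 + 1 / c0) * (1 / c0) * (1 / A) * (A + c0 * s) ^ 2 := by ring
  have h2 : Real.sqrt (s * (1 + s)) * Real.sqrt Bn * Real.sqrt Hn ≤
      (1 / c0) * (1 / A + 1 / c0) * (A + c0 * s) ^ 2 * Bn + (1 / A) * (A + c0 * s) * Hn := by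
    have hss : 0 ≤ s * (1 + s) := by positivity
    have e1 : Real.sqrt (s * (1 + s)) * Real.sqrt Bn * Real.sqrt Hn ≤
        (s * (1 + s)) * Bn + Hn := by
      have f1 : (Real.sqrt (s * (1 + s)) * Real.sqrt Bn) ^ 2 = (s * (1 + s)) * Bn := by
        rw [mul_pow, Real.sq_sqrt hss, Real.sq_sqrt hBn]
      have f2 : (Real.sqrt Hn) ^ 2 = Hn := Real.sq_sqrt hHn
      nlinarith [sq_nonneg (Real.sqrt (s * (1 + s)) * Real.sqrt Bn - Real.sqrt Hn),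
        sq_nonneg (Real.sqrt (s * (1 + s)) * Real.sqrt Bn + Real.sqrt Hn)]
    have e2 : (s * (1 + s)) * Bn ≤ (1 / c0) * (1 / A + 1 / c0) * (A + c0 * s) ^ 2 * Bn :=
      mul_le_mul_of_nonneg_right (algD_ss hA hc0 hs) hBn
    have e3 : Hn ≤ (1 / A) * (A + c0 * s) * Hn := by
      calc Hn = 1 * Hn := by ring
        _ ≤ (1 / A) * (A + c0 * s) * Hn := mul_le_mul_of_nonneg_right (algD_one hA hc0 hs) hHn
    linarith
  have h3 : C2 * (s + s ^ 2 / (A + c0 * s)) * Bn ≤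
      C2 * ((1 + 1 / c0) * (1 / c0) * (1 / A)) * ((A + c0 * s) ^ 2 * Bn) := by
    calc C2 * (s + s ^ 2 / (A + c0 * s)) * Bn ≤
        C2 * ((1 + 1 / c0) * (1 / c0) * (1 / A) * (A + c0 * s) ^ 2) * Bn := by
          apply mul_le_mul_of_nonneg_right _ hBn
          exact mul_le_mul_of_nonneg_left h1 hC2.le
      _ = C2 * ((1 + 1 / c0) * (1 / c0) * (1 / A)) * ((A + c0 * s) ^ 2 * Bn) := by ring
  have h4 := mul_le_mul_of_nonneg_left h2 hC2.le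
  calc C2 * (s + s ^ 2 / (A + c0 * s)) * Bn
      + C2 * Real.sqrt (s * (1 + s)) * Real.sqrt Bn * Real.sqrt Hn
      = C2 * (s + s ^ 2 / (A + c0 * s)) * Bn
      + C2 * (Real.sqrt (s * (1 + s)) * Real.sqrt Bn * Real.sqrt Hn) := by ring
    _ ≤ C2 * ((1 + 1 / c0) * (1 / c0) * (1 / A)) * ((A + c0 * s) ^ 2 * Bn) +
        C2 * ((1 / c0) * (1 / A + 1 / c0) * (A + c0 * s) ^ 2 * Bn +
          (1 / A) * (A + c0 * s) * Hn) := add_le_add h3 h4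
    _ = (C2 * ((1 + 1 / c0) * (1 / c0) * (1 / A)) + C2 * ((1 / c0) * (1 / A + 1 / c0))) *
      ((A + c0 * s) ^ 2 * Bn) + C2 * (1 / A) * ((A + c0 * s) * Hn) := by ring

/-- the norm of `H` from below -/
private theorem algD_H {A c0 s c1 c2 B11 B22 β η1 η2 t : ℝ} (hA : 0 < A) (hc0 : 0 < c0)
    (hs : 0 < s) (h1 : c0 ≤ c1) (h2 : c0 ≤ c2) (hβ : 0 ≤ β) (hη1 : 0 ≤ η1) (hη2 : 0 ≤ η2) :
    (A + c0 * s) ^ 2 * (B11 ^ 2 + B22 ^ 2 + 2 * β) + 2 * ((A + c0 * s) * (η1 + η2)) + t ^ 2 ≤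
      Hnorm A s c1 c2 B11 B22 β η1 η2 t := by
  have hG : 0 < A + c0 * s := by positivity
  have e1 : A + c0 * s ≤ A + s * c1 := by nlinarith
  have e2 : A + c0 * s ≤ A + s * c2 := by nlinarith
  have f1 : (A + c0 * s) ^ 2 * B11 ^ 2 ≤ (A + s * c1) ^ 2 * B11 ^ 2 :=
    mul_le_mul_of_nonneg_right (pow_le_pow_left₀ hG.le e1 2) (sq_nonneg _)
  have f2 : (A + c0 * s) ^ 2 * B22 ^ 2 ≤ (A + s * c2) ^ 2 * B22 ^ 2 :=
    mul_le_mul_of_nonneg_right (pow_le_pow_left₀ hG.le e2 2) (sq_nonneg _)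
  have f3 : (A + c0 * s) ^ 2 * β ≤ (A + s * c1) * (A + s * c2) * β := by
    apply mul_le_mul_of_nonneg_right _ hβ
    rw [sq]
    exact mul_le_mul e1 e2 hG.le (hG.le.trans e1)
  have f4 : (A + c0 * s) * η1 ≤ (A + s * c1) * η1 := mul_le_mul_of_nonneg_right e1 hη1
  have f5 : (A + c0 * s) * η2 ≤ (A + s * c2) * η2 := mul_le_mul_of_nonneg_right e2 hη2
  unfold Hnorm
  linarith

/-- the first two terms -/
private theorem algD_T12 {A c0 C1 s c1 c2 B11 B22 β : ℝ} (hA : 0 < A) (hc0 : 0 < c0)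
    (hs : 0 < s) (h1 : c0 ≤ c1) (h2 : c0 ≤ c2) (h1' : c1 ≤ C1) (h2' : c2 ≤ C1) (hβ : 0 ≤ β) :
    A * ((B11 + B22) ^ 2 + B11 ^ 2 + B22 ^ 2 + 2 * β)
      + s * (1 + s) * ((c1 * B11 + c2 * B22) ^ 2 + c1 ^ 2 * B11 ^ 2 + c2 ^ 2 * B22 ^ 2
        + 2 * c1 * c2 * β) ≤
    (3 * (1 / A) + 3 * C1 ^ 2 * ((1 / c0) * (1 / A + 1 / c0))) *
      ((A + c0 * s) ^ 2 * (B11 ^ 2 + B22 ^ 2 + 2 * β)) := by
  have hG : 0 < A + c0 * s := by positivity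
  have hBn : 0 ≤ B11 ^ 2 + B22 ^ 2 + 2 * β := by positivity
  have hc1 : 0 < c1 := hc0.trans_le h1
  have hc2 : 0 < c2 := hc0.trans_le h2
  have hC1 : 0 < C1 := hc1.trans_le h1'
  have e1 : (B11 + B22) ^ 2 + B11 ^ 2 + B22 ^ 2 + 2 * β ≤ 3 * (B11 ^ 2 + B22 ^ 2 + 2 * β) := by
    nlinarith [sq_nonneg (B11 - B22)]
  have e2 : A ≤ (1 / A) * (A + c0 * s) ^ 2 := by
    have f1 : A ≤ A + c0 * s := by
      have : 0 < c0 * s := by positivity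
      linarith
    calc A = (1 / A) * A ^ 2 := by field_simp
      _ ≤ (1 / A) * (A + c0 * s) ^ 2 := by
          apply mul_le_mul_of_nonneg_left (pow_le_pow_left₀ hA.le f1 2) (by positivity)
  have e3 : (c1 * B11 + c2 * B22) ^ 2 + c1 ^ 2 * B11 ^ 2 + c2 ^ 2 * B22 ^ 2
        + 2 * c1 * c2 * β ≤ 3 * C1 ^ 2 * (B11 ^ 2 + B22 ^ 2 + 2 * β) := by
    have f1 : c1 ^ 2 ≤ C1 ^ 2 := pow_le_pow_left₀ hc1.le h1' 2
    have f2 : c2 ^ 2 ≤ C1 ^ 2 := pow_le_pow_left₀ hc2.le h2' 2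
    have f3 : c1 * c2 ≤ C1 ^ 2 := by
      rw [sq]
      exact mul_le_mul h1' h2' hc2.le hC1.le
    have g1 : c1 ^ 2 * B11 ^ 2 ≤ C1 ^ 2 * B11 ^ 2 := mul_le_mul_of_nonneg_right f1 (sq_nonneg _)
    have g2 : c2 ^ 2 * B22 ^ 2 ≤ C1 ^ 2 * B22 ^ 2 := mul_le_mul_of_nonneg_right f2 (sq_nonneg _)
    have g3 : c1 * c2 * β ≤ C1 ^ 2 * β := mul_le_mul_of_nonneg_right f3 hβ
    have g4 : 0 ≤ C1 ^ 2 * β := by positivity
    nlinarith [sq_nonneg (c1 * B11 - c2 * B22)]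
  have e4 := algD_ss hA hc0 hs
  have k1 : A * ((B11 + B22) ^ 2 + B11 ^ 2 + B22 ^ 2 + 2 * β) ≤
      ((1 / A) * (A + c0 * s) ^ 2) * (3 * (B11 ^ 2 + B22 ^ 2 + 2 * β)) :=
    mul_le_mul e2 e1 (by positivity) (by positivity)
  have k2 : s * (1 + s) * ((c1 * B11 + c2 * B22) ^ 2 + c1 ^ 2 * B11 ^ 2 + c2 ^ 2 * B22 ^ 2
        + 2 * c1 * c2 * β) ≤ ((1 / c0) * (1 / A + 1 / c0) * (A + c0 * s) ^ 2) *
          (3 * C1 ^ 2 * (B11 ^ 2 + B22 ^ 2 + 2 * β)) :=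
    mul_le_mul e4 e3 (by positivity) (by positivity)
  linarith

/-- the mixed terms -/
private theorem algD_T3 {M G B11 B22 β η1 η2 t m1 m2 : ℝ} (hβ : 0 ≤ β) (hη1 : 0 ≤ η1) (hη2 : 0 ≤ η2) (h1 : |m1| ≤ M * G) (h2 : |m2| ≤ M * G) :
    -(2 * (t * (m1 * B11 + m2 * B22) + m1 * η1 + m2 * η2)) ≤
      M ^ 2 * (G ^ 2 * (B11 ^ 2 + B22 ^ 2 + 2 * β)) + 2 * M * (G * (η1 + η2)) + 2 * t ^ 2 := by
  have s1 : m1 ^ 2 ≤ (M * G) ^ 2 := sq_le_sq' (abs_le.mp h1).1 (abs_le.mp h1).2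
  have s2 : m2 ^ 2 ≤ (M * G) ^ 2 := sq_le_sq' (abs_le.mp h2).1 (abs_le.mp h2).2
  have e1 : -(2 * (t * (m1 * B11))) ≤ t ^ 2 + (M * G) ^ 2 * B11 ^ 2 := by
    have f1 : m1 ^ 2 * B11 ^ 2 ≤ (M * G) ^ 2 * B11 ^ 2 :=
      mul_le_mul_of_nonneg_right s1 (sq_nonneg _)
    nlinarith [sq_nonneg (t + m1 * B11)]
  have e2 : -(2 * (t * (m2 * B22))) ≤ t ^ 2 + (M * G) ^ 2 * B22 ^ 2 := by
    have f1 : m2 ^ 2 * B22 ^ 2 ≤ (M * G) ^ 2 * B22 ^ 2 :=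
      mul_le_mul_of_nonneg_right s2 (sq_nonneg _)
    nlinarith [sq_nonneg (t + m2 * B22)]
  have e3 : -(m1 * η1) ≤ M * G * η1 := by
    have := mul_le_mul_of_nonneg_right (abs_le.mp h1).1 hη1
    linarith
  have e4 : -(m2 * η2) ≤ M * G * η2 := by
    have := mul_le_mul_of_nonneg_right (abs_le.mp h2).1 hη2
    linarith
  have e5 : 0 ≤ M ^ 2 * (G ^ 2 * β) := by positivity
  linarith

private theorem algD_final {k1 k2 k3 M P Q T : ℝ} (hM : 0 ≤ M) (hk1 : 0 ≤ k1) (hk2 : 0 ≤ k2)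
    (hk3 : 0 ≤ k3) (hP : 0 ≤ P) (hQ : 0 ≤ Q) (hT : 0 ≤ T) :
    k1 * P + (M ^ 2 * P + 2 * M * Q + 2 * T) + 2 * T + (k2 * P + k3 * Q) ≤
      (k1 + M ^ 2 + M + k2 + k3 + 4) * (P + 2 * Q + T) := by
  have f1 : 0 ≤ (M + k3 + 4) * P := by positivity
  have f2 : 0 ≤ (2 * k1 + 2 * M ^ 2 + 2 * k2 + k3 + 8) * Q := by positivity
  have f3 : 0 ≤ (k1 + M ^ 2 + M + k2 + k3) * T := by positivity
  have f4 : (k1 + M ^ 2 + M + k2 + k3 + 4) * (P + 2 * Q + T) =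
      k1 * P + (M ^ 2 * P + 2 * M * Q + 2 * T) + 2 * T + (k2 * P + k3 * Q) +
      (M + k3 + 4) * P + (2 * k1 + 2 * M ^ 2 + 2 * k2 + k3 + 8) * Q +
      (k1 + M ^ 2 + M + k2 + k3) * T := by ring
  linarith

/-- G7c: the lower bound. -/
theorem Qmain_lower (C2 c0 C1 : ℝ) (hC2 : 0 < C2) (hc0 : 0 < c0) (hC1 : c0 ≤ C1) (A : ℝ)
    (hA : 0 < A) : ∃ b : ℝ, 0 < b ∧ ∀ s c1 c2 : ℝ, 0 < s → c0 ≤ c1 →
    c0 ≤ c2 → c1 ≤ C1 → c2 ≤ C1 → ∀ B11 B22 β η1 η2 t err : ℝ, 0 ≤ β → 0 ≤ η1 → 0 ≤ η2 →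
    |err| ≤ C2 * (s + s ^ 2 / (A + c0 * s)) * (B11 ^ 2 + B22 ^ 2 + 2 * β)
      + C2 * Real.sqrt (s * (1 + s)) * Real.sqrt (B11 ^ 2 + B22 ^ 2 + 2 * β)
        * Real.sqrt (η1 + η2) →
    -b * Hnorm A s c1 c2 B11 B22 β η1 η2 t ≤ Qmain A s c1 c2 B11 B22 β η1 η2 t + err := by
  have hC1p : 0 < C1 := hc0.trans_le hC1
  obtain ⟨k1, hk1⟩ : ∃ k1 : ℝ, k1 = 3 * (1 / A) + 3 * C1 ^ 2 * ((1 / c0) * (1 / A + 1 / c0)) :=
    ⟨_, rfl⟩
  obtain ⟨M, hM⟩ : ∃ M : ℝ, M = C1 * (1 / A + 2 / c0) := ⟨_, rfl⟩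
  obtain ⟨k2, hk2⟩ : ∃ k2 : ℝ, k2 = C2 * ((1 + 1 / c0) * (1 / c0) * (1 / A)) +
    C2 * ((1 / c0) * (1 / A + 1 / c0)) := ⟨_, rfl⟩
  obtain ⟨k3, hk3⟩ : ∃ k3 : ℝ, k3 = C2 * (1 / A) := ⟨_, rfl⟩
  have hk1p : 0 ≤ k1 := by rw [hk1]; positivity
  have hMp : 0 ≤ M := by rw [hM]; positivity
  have hk2p : 0 ≤ k2 := by rw [hk2]; positivity
  have hk3p : 0 ≤ k3 := by rw [hk3]; positivity
  refine ⟨k1 + M ^ 2 + M + k2 + k3 + 4, by positivity, ?_⟩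
  intro s c1 c2 hs h1 h2 h1' h2' B11 B22 β η1 η2 t err hβ hη1 hη2 herr
  have hG : 0 < A + c0 * s := by positivity
  have hBn : 0 ≤ B11 ^ 2 + B22 ^ 2 + 2 * β := by positivity
  have hHn : 0 ≤ η1 + η2 := by positivity
  have e1 := algD_T12 (B11 := B11) (B22 := B22) hA hc0 hs h1 h2 h1' h2' hβ
  rw [← hk1] at e1
  have m1 := algD_mE hA hc0 hs h1 h1'
  have m2 := algD_mE hA hc0 hs h2 h2'
  rw [← hM] at m1 m2
  have e2 := algD_T3 (B11 := B11) (B22 := B22) (t := t) hβ hη1 hη2 m1 m2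
  have e3 := herr.trans (algD_err hA hc0 hC2 hs hBn hHn)
  rw [← hk2, ← hk3] at e3
  have e4 := algD_H (B11 := B11) (B22 := B22) (t := t) hA hc0 hs h1 h2 hβ hη1 hη2
  have e5 : -|err| ≤ err := neg_abs_le err
  obtain ⟨P, hP⟩ : ∃ P : ℝ, P = (A + c0 * s) ^ 2 * (B11 ^ 2 + B22 ^ 2 + 2 * β) := ⟨_, rfl⟩
  obtain ⟨Q, hQ⟩ : ∃ Q : ℝ, Q = (A + c0 * s) * (η1 + η2) := ⟨_, rfl⟩
  obtain ⟨T, hT⟩ : ∃ T : ℝ, T = t ^ 2 := ⟨_, rfl⟩
  have hPp : 0 ≤ P := by rw [hP]; positivity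
  have hQp : 0 ≤ Q := by rw [hQ]; positivity
  have hTp : 0 ≤ T := by rw [hT]; positivity
  rw [← hP] at e1 e2 e3 e4
  rw [← hQ] at e2 e3 e4
  rw [← hT] at e2 e4
  have hb : 0 ≤ k1 + M ^ 2 + M + k2 + k3 + 4 := by positivity
  have e6 := mul_le_mul_of_nonneg_left e4 hb
  have e7 : -Qmain A s c1 c2 B11 B22 β η1 η2 t ≤ k1 * P + (M ^ 2 * P + 2 * M * Q + 2 * T) +
      2 * T := by
    unfold Qmain
    rw [← hT]
    linarith
  have e8 : k1 * P + (M ^ 2 * P + 2 * M * Q + 2 * T) + 2 * T + (k2 * P + k3 * Q) ≤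
      (k1 + M ^ 2 + M + k2 + k3 + 4) * (P + 2 * Q + T) := by
    exact algD_final hMp hk1p hk2p hk3p hPp hQp hTp
  linarith

end

end P250
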