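import Mathlib
import Vale.Agent.Lib.P250.AlgA
import Vale.Agent.Lib.P250.AlgB
import Vale.Agent.Lib.P250.AlgC
import Vale.Agent.Lib.P250.AlgD

/-! # P250 module G7: pinching of the model algebra (assembly) -/

open Complex

namespace P250

noncomputable section

/-- G7: pinching of the model. -/
theorem model_algebra (c0 C1 : ℝ) (hc0 : 0 < c0) (hC1 : c0 ≤ C1) :
    ∃ A0 : ℝ, 0 < A0 ∧ ∀ A : ℝ, A0 ≤ A → ∃ a b : ℝ, 0 < a ∧ a ≤ b ∧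
    ∀ s c1 c2 : ℝ, 0 < s → c0 ≤ c1 → c0 ≤ c2 → c1 ≤ C1 → c2 ≤ C1 →
    ∀ (a3 : Fin 2 → Fin 2 → Fin 2 → ℂ) (a4 : Fin 2 → Fin 2 → Fin 2 → Fin 2 → ℂ),
    (∀ i j k, a3 i j k = a3 j i k) → (∀ i j k, ‖a3 i j k‖ ≤ C1) →
    (∀ i j k l, a4 i j k l = a4 j i k l) → (∀ i j k l, a4 i j k l = a4 i j l k) →
    (∀ i j k l, ‖a4 i j k l‖ ≤ C1) →
    ∀ u v : (ℂ × ℂ) × ℂ, -b * mArea A s c1 c2 u v ≤ mN A s c1 c2 a3 a4 u v ∧
      mN A s c1 c2 a3 a4 u v ≤ -a * mArea A s c1 c2 u v := by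
  have hC1p : 0 < C1 := hc0.trans_le hC1
  obtain ⟨C2, hC2, hN⟩ := mN_eq C1 hC1p
  obtain ⟨A0, hA0, hneg⟩ := Qmain_neg C2 c0 C1 hC2 hc0 hC1
  refine ⟨A0, hA0, fun A hA => ?_⟩
  have hAp : 0 < A := hA0.trans_le hA
  obtain ⟨a, ha, hneg'⟩ := hneg A hA
  obtain ⟨b, hb, hlow⟩ := Qmain_lower C2 c0 C1 hC2 hc0 hC1 A hAp
  refine ⟨a, max a (2 * b), ha, le_max_left _ _, ?_⟩
  intro s c1 c2 hs h1 h2 h1' h2' a3 a4 hs3 hb3 hs4 hs4' hb4 u v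
  obtain ⟨hBβ, herr⟩ := hN A s c1 c2 c0 hAp hs hc0 h1 h2 h1' h2' a3 a4 hs3 hb3 hs4 hs4' hb4 u v
    _ _ _ _ _ _ rfl rfl rfl rfl rfl rfl
  have hss : 0 < s * (1 + s) := by positivity
  have hβ0 : 0 ≤ ‖u.1.1 * starRingEnd ℂ v.1.2 - v.1.1 * starRingEnd ℂ u.1.2‖ ^ 2 := by positivity
  have hη1 : 0 ≤ s * (1 + s) * ‖u.1.1 * starRingEnd ℂ v.2 - v.1.1 * starRingEnd ℂ u.2‖ ^ 2 := by
    positivity
  have hη2 : 0 ≤ s * (1 + s) * ‖u.1.2 * starRingEnd ℂ v.2 - v.1.2 * starRingEnd ℂ u.2‖ ^ 2 := by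
    positivity
  have hn := hneg' s c1 c2 hs h1 h2 h1' h2' _ _ _ _ _
    (2 * (s * (1 + s)) * (u.2 * starRingEnd ℂ v.2).im) _ hβ0 hη1 hη2 hBβ herr
  have hl := hlow s c1 c2 hs h1 h2 h1' h2' _ _ _ _ _
    (2 * (s * (1 + s)) * (u.2 * starRingEnd ℂ v.2).im) _ hβ0 hη1 hη2 herr
  obtain ⟨hA1, hA2⟩ := Hnorm_area hAp hs (hc0.trans_le h1) (hc0.trans_le h2) u v
  rw [add_sub_cancel] at hn hl
  have hmax : 2 * b ≤ max a (2 * b) := le_max_right _ _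
  have hbm : 0 < max a (2 * b) := ha.trans_le (le_max_left _ _)
  have hArea0 : 0 ≤ mArea A s c1 c2 u v := by
    have : 2 * mArea A s c1 c2 u v ≤ 4 * mArea A s c1 c2 u v := hA1.trans hA2
    linarith
  constructor
  · have := mul_le_mul_of_nonneg_left hA2 hb.le
    have h3 := mul_le_mul_of_nonneg_right hmax hArea0
    linarith
  · have := mul_le_mul_of_nonneg_left hA1 ha.le
    linarith

end

end P250
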