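import Mathlib.Analysis.Calculus.ContDiff.Defs
import Mathlib.Analysis.InnerProductSpace.Basic

/-!
# P250: Riemannian and Kaehler geometry on open subsets of a complex vector space

All notions are the classical ones, written in the global coordinates of the ambient vector space.
-/

open scoped ContDiff
open Complex

namespace P250

variable {E : Type*} [NormedAddCommGroup E] [NormedSpace ℂ E]

/-- `g` is a smooth Riemannian metric on the open set `M`. -/
structure IsRiemannianMetric (M : Set E) (g : E → E →L[ℝ] E →L[ℝ] ℝ) : Prop where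
  smooth : ContDiffOn ℝ ∞ g M
  symm : ∀ p ∈ M, ∀ u v : E, g p u v = g p v u
  pos : ∀ p ∈ M, ∀ u : E, u ≠ 0 → 0 < g p u u

/-- `g` is a smooth Kaehler metric on the open set `M`: a Riemannian metric, invariant under the
complex structure `J u = I • u`, whose fundamental form `ω (v, w) = g (J v, w)` is closed:
`dω (u, v, w) = D_u ω (v, w) + D_v ω (w, u) + D_w ω (u, v) = 0`. -/
structure IsKahlerMetric (M : Set E) (g : E → E →L[ℝ] E →L[ℝ] ℝ) : Prop
    extends IsRiemannianMetric M g where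
  hermitian : ∀ p ∈ M, ∀ u v : E, g p (I • u) (I • v) = g p u v
  closed : ∀ p ∈ M, ∀ u v w : E,
    fderiv ℝ g p u (I • v) w + fderiv ℝ g p v (I • w) u + fderiv ℝ g p w (I • u) v = 0

/-- `Γ` is the Levi-Civita connection of `g` on the open set `M`, i.e. `∇_u V = D_u V + Γ (u, V)`
is torsion free and metric. (It is unique.) -/
structure IsLeviCivita (M : Set E) (g : E → E →L[ℝ] E →L[ℝ] ℝ)
    (Γ : E → E →L[ℝ] E →L[ℝ] E) : Prop where
  smooth : ContDiffOn ℝ ∞ Γ M
  torsion_free : ∀ p ∈ M, ∀ u v : E, Γ p u v = Γ p v u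
  metric : ∀ p ∈ M, ∀ u v w : E,
    fderiv ℝ g p u v w = g p (Γ p u v) w + g p v (Γ p u w)

/-- The curvature tensor `R (u, v) w` of the connection `∇_u V = D_u V + Γ (u, V)`. -/
noncomputable def curvatureTensor (Γ : E → E →L[ℝ] E →L[ℝ] E) (p u v w : E) : E :=
  fderiv ℝ Γ p u v w - fderiv ℝ Γ p v u w + Γ p u (Γ p v w) - Γ p v (Γ p u w)

/-- The sectional curvature of the real two-plane spanned by `u` and `v` at `p`. -/
noncomputable def sectionalCurvature (g : E → E →L[ℝ] E →L[ℝ] ℝ) (Γ : E → E →L[ℝ] E →L[ℝ] E)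
    (p u v : E) : ℝ :=
  g p (curvatureTensor Γ p u v v) u / (g p u u * g p v v - g p u v ^ 2)

/-- Negative pinching: all sectional curvatures lie between two negative constants. -/
def IsNegativelyPinched (M : Set E) (g : E → E →L[ℝ] E →L[ℝ] ℝ)
    (Γ : E → E →L[ℝ] E →L[ℝ] E) : Prop :=
  ∃ a b : ℝ, 0 < a ∧ a ≤ b ∧ ∀ p ∈ M, ∀ u v : E, LinearIndependent ℝ ![u, v] →
    -b ≤ sectionalCurvature g Γ p u v ∧ sectionalCurvature g Γ p u v ≤ -a

/-- Geodesic completeness: every geodesic (solution of `γ'' + Γ (γ', γ') = 0`) with prescribed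
initial point and velocity is defined for all times and stays in `M`. -/
def IsGeodesicallyComplete (M : Set E) (Γ : E → E →L[ℝ] E →L[ℝ] E) : Prop :=
  ∀ p ∈ M, ∀ v : E, ∃ c : ℝ → E, c 0 = p ∧ deriv c 0 = v ∧ ∀ t : ℝ, c t ∈ M ∧
    DifferentiableAt ℝ c t ∧ HasDerivAt (deriv c) (-(Γ (c t) (deriv c t) (deriv c t))) t

/-- `M` and `D` are biholomorphic open sets. -/
def AreBiholomorphic {F : Type*} [NormedAddCommGroup F] [NormedSpace ℂ F]
    (M : Set E) (D : Set F) : Prop :=
  ∃ (f : E → F) (h : F → E), DifferentiableOn ℂ f M ∧ DifferentiableOn ℂ h D ∧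
    Set.MapsTo f M D ∧ Set.MapsTo h D M ∧ Set.LeftInvOn h f M ∧ Set.RightInvOn h f D

end P250
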