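import Mathlib.Algebra.Order.Ring.Star
import Mathlib.Analysis.CStarAlgebra.Classes
import Mathlib.Analysis.ODE.ExistUnique
import Mathlib.Geometry.Manifold.PartitionOfUnity
import Mathlib.LinearAlgebra.Complex.FiniteDimensional
import Mathlib.Topology.UniformSpace.Uniformizable
import Vale.Agent.Lib.P250.GeoCore

/-! # P250 module G11: geodesic completeness from a Lipschitz exhaustion function -/

open scoped ContDiff Topology Manifold NNReal
open Complex Set

namespace P250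

section aux

variable {F : Type*} [NormedAddCommGroup F] [NormedSpace ℝ F] [FiniteDimensional ℝ F]

private theorem cutoff_exists {K U : Set F} (hK : IsCompact K) (hU : IsOpen U) (hKU : K ⊆ U) :
    ∃ (χ : F → ℝ) (K' : Set F), ContDiff ℝ ∞ χ ∧ IsCompact K' ∧ K' ⊆ U ∧
      (∀ x ∉ K', χ x = 0) ∧ (∀ x ∈ K, χ x = 1) ∧ ∀ x, 0 ≤ χ x ∧ χ x ≤ 1 := by
  obtain ⟨K', hK'c, hKK', hK'U⟩ := exists_compact_between hK hU hKU
  obtain ⟨f, h1, h0, hf⟩ := exists_contMDiffMap_one_nhds_of_subset_interior (n := (⊤ : ℕ∞))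
    (𝓘(ℝ, F)) hK.isClosed hKK'
  refine ⟨f, K', ?_, hK'c, hK'U, h0, ?_, fun x => hf x⟩
  · exact f.contMDiff.contDiff
  · intro x hx
    exact h1.self_of_nhdsSet x hx

/-- global solutions on `(-T, T)` for compactly supported `C^1` fields -/
private theorem exists_sol {Y : F → F} (hY : ContDiff ℝ 1 Y) (hs : HasCompactSupport Y) (z0 : F)
    {T : ℝ} (hT : 0 < T) :
    ∃ z : ℝ → F, z 0 = z0 ∧ ∀ t ∈ Ioo (-T) T, HasDerivAt z (Y (z t)) t := by
  obtain ⟨K, hK⟩ := hY.lipschitzWith_of_hasCompactSupport hs one_ne_zero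
  obtain ⟨L, hL⟩ := hs.exists_bound_of_continuous hY.continuous
  have hL0 : 0 ≤ L := (norm_nonneg _).trans (hL z0)
  have hPL : IsPicardLindelof (fun _ : ℝ => Y) (tmin := -T) (tmax := T)
      ⟨0, by constructor <;> linarith⟩ z0 (⟨L * T, by positivity⟩ : ℝ≥0) 0 ⟨L, hL0⟩ K := by
    refine ⟨fun t _ => hK.lipschitzOnWith, fun x _ => continuousOn_const, fun t _ x _ => hL x, ?_⟩
    have h1 : max (T - 0) (0 - -T) = T := by simp
    change L * max (T - 0) (0 - -T) ≤ L * T - 0
    rw [h1, sub_zero]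
  obtain ⟨z, hz0, hz⟩ := hPL.exists_eq_forall_mem_Icc_hasDerivWithinAt₀
  refine ⟨z, hz0, fun t ht => ?_⟩
  exact (hz t (Ioo_subset_Icc_self ht)).hasDerivAt (Icc_mem_nhds ht.1 ht.2)

end aux

variable {E : Type*} [NormedAddCommGroup E] [NormedSpace ℂ E] [FiniteDimensional ℂ E]

private theorem energy_deriv {M : Set E} (hM : IsOpen M)
    {g : E → E →L[ℝ] E →L[ℝ] ℝ} (hg : IsRiemannianMetric M g)
    {Γ : E → E →L[ℝ] E →L[ℝ] E} (h : IsLeviCivita M g Γ)
    {c w : ℝ → E} {x : ℝ} {t : ℝ} (hc : HasDerivAt c (x • w t) t)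
    (hw : HasDerivAt w (-(x • Γ (c t) (w t) (w t))) t) (hct : c t ∈ M) :
    HasDerivAt (fun s => g (c s) (w s) (w s)) 0 t := by
  have hgd : HasFDerivAt g (fderiv ℝ g (c t)) (c t) := by
    have h1 : ContDiffAt ℝ ∞ g (c t) := hg.smooth.contDiffAt (hM.mem_nhds hct)
    exact (h1.differentiableAt (by simp)).hasFDerivAt
  have h1 : HasDerivAt (fun s => g (c s)) (fderiv ℝ g (c t) (x • w t)) t :=
    HasFDerivAt.comp_hasDerivAt (𝕜 := ℝ) (l := g) (f := c) t hgd hc
  have h2 := (h1.clm_apply hw).clm_apply hw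
  refine h2.congr_deriv ?_
  have hm := h.metric (c t) hct (w t) (w t) (w t)
  have hs := hg.symm (c t) hct (w t) (Γ (c t) (w t) (w t))
  simp only [map_smul, map_neg, ContinuousLinearMap.add_apply, ContinuousLinearMap.smul_apply,
    ContinuousLinearMap.neg_apply, smul_eq_mul]
  rw [hm, hs]
  ring

private theorem apriori {M : Set E} (hM : IsOpen M)
    {g : E → E →L[ℝ] E →L[ℝ] ℝ} (hg : IsRiemannianMetric M g)
    {Γ : E → E →L[ℝ] E →L[ℝ] E} (h : IsLeviCivita M g Γ) (κ : E → ℝ) (C : ℝ) (hC0 : 0 ≤ C)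
    (hκ : ContDiffOn ℝ 1 κ M) (hC : ∀ p ∈ M, ∀ u : E, |fderiv ℝ κ p u| ≤ C * Real.sqrt (g p u u))
    (hcomp : ∀ c : ℝ, IsCompact {p | p ∈ M ∧ κ p ≤ c})
    {c w : ℝ → E} {χ : ℝ → ℝ} (hχ : ∀ t, 0 ≤ χ t ∧ χ t ≤ 1) {T : ℝ} (hT : 0 ≤ T)
    (hc : ∀ t ∈ Icc 0 T, HasDerivAt c (χ t • w t) t)
    (hw : ∀ t ∈ Icc 0 T, HasDerivAt w (-(χ t • Γ (c t) (w t) (w t))) t) (h0 : c 0 ∈ M) :
    ∀ t ∈ Icc 0 T, c t ∈ M ∧ g (c t) (w t) (w t) = g (c 0) (w 0) (w 0) ∧
      κ (c t) ≤ κ (c 0) + C * Real.sqrt (g (c 0) (w 0) (w 0)) * t := by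
  set E0 := g (c 0) (w 0) (w 0) with hE0
  have hcc : ContinuousOn c (Icc 0 T) := fun t ht => (hc t ht).continuousAt.continuousWithinAt
  have hwc : ContinuousOn w (Icc 0 T) := fun t ht => (hw t ht).continuousAt.continuousWithinAt
  set S : Set ℝ := {t | c t ∈ M ∧ g (c t) (w t) (w t) = E0 ∧
      κ (c t) ≤ κ (c 0) + C * Real.sqrt E0 * t} with hS
  suffices hsub : Icc 0 T ⊆ S from fun t ht => hsub ht
  apply IsClosed.Icc_subset_of_forall_exists_gt
  · -- closedness
    rw [← isSeqClosed_iff_isClosed]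
    intro u t hu hut
    have htI : t ∈ Icc 0 T := isClosed_Icc.mem_of_tendsto hut
      (Filter.Eventually.of_forall fun n => (hu n).2)
    have huI : ∀ n, u n ∈ Icc 0 T := fun n => (hu n).2
    have hctend : Filter.Tendsto (fun n => c (u n)) Filter.atTop (𝓝 (c t)) :=
      ((hc t htI).continuousAt.tendsto).comp hut
    have hwtend : Filter.Tendsto (fun n => w (u n)) Filter.atTop (𝓝 (w t)) :=
      ((hw t htI).continuousAt.tendsto).comp hut
    have hcM : c t ∈ {p | p ∈ M ∧ κ p ≤ κ (c 0) + C * Real.sqrt E0 * T} := by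
      refine (hcomp _).isClosed.mem_of_tendsto hctend (Filter.Eventually.of_forall fun n => ?_)
      refine ⟨(hu n).1.1, (hu n).1.2.2.trans ?_⟩
      have : C * Real.sqrt E0 * u n ≤ C * Real.sqrt E0 * T :=
        mul_le_mul_of_nonneg_left (huI n).2 (by positivity)
      linarith
    have hctM : c t ∈ M := hcM.1
    have hκc : ContinuousAt κ (c t) := (hκ.contDiffAt (hM.mem_nhds hctM)).continuousAt
    have hgc : ContinuousAt g (c t) := (hg.smooth.contDiffAt (hM.mem_nhds hctM)).continuousAt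
    refine ⟨⟨hctM, ?_, ?_⟩, htI⟩
    · have h1 : Filter.Tendsto (fun n => g (c (u n)) (w (u n)) (w (u n))) Filter.atTop
          (𝓝 (g (c t) (w t) (w t))) := by
        have h2 : ContinuousAt (fun s => g (c s)) t :=
          ContinuousAt.comp (f := c) (g := g) hgc (hc t htI).continuousAt
        have h3 : ContinuousAt (fun s => g (c s) (w s) (w s)) t :=
          (h2.clm_apply (hw t htI).continuousAt).clm_apply (hw t htI).continuousAt
        exact h3.tendsto.comp hut
      have h3 : (fun n => g (c (u n)) (w (u n)) (w (u n))) = fun _ => E0 := by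
        funext n
        exact (hu n).1.2.1
      rw [h3] at h1
      exact (tendsto_nhds_unique h1 tendsto_const_nhds)
    · refine le_of_tendsto_of_tendsto (hκc.tendsto.comp hctend)
        (tendsto_const_nhds.add (hut.const_mul _)) (Filter.Eventually.of_forall fun n => ?_)
      exact (hu n).1.2.2
  · refine ⟨h0, rfl, by simp⟩
  · rintro t ⟨⟨htM, htE, htκ⟩, ht⟩ y hy
    -- a small interval where `c` stays in `M`
    have htI : t ∈ Icc 0 T := Ico_subset_Icc_self ht
    have hev : ∀ᶠ s in 𝓝 t, c s ∈ M := (hc t htI).continuousAt.eventually_mem (hM.mem_nhds htM)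
    obtain ⟨ε, hε, hball⟩ := Metric.eventually_nhds_iff.1 hev
    set s1 := min (min y T) (t + ε / 2) with hs1
    have hts1 : t < s1 := by
      refine lt_min (lt_min hy ht.2) (by linarith)
    have hs1T : s1 ≤ T := (min_le_left _ _).trans (min_le_right _ _)
    have hs1y : s1 ≤ y := (min_le_left _ _).trans (min_le_left _ _)
    have hs1ε : s1 ≤ t + ε / 2 := min_le_right _ _
    have hM' : ∀ s ∈ Icc t s1, c s ∈ M := by
      intro s hs
      apply hball
      rw [Real.dist_eq, abs_of_nonneg (by linarith [hs.1])]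
      linarith [hs.2]
    have hI' : ∀ s ∈ Icc t s1, s ∈ Icc 0 T := fun s hs => ⟨htI.1.trans hs.1, hs.2.trans hs1T⟩
    have hEd : ∀ s ∈ Icc t s1, HasDerivAt (fun s => g (c s) (w s) (w s)) 0 s := fun s hs =>
      energy_deriv hM hg h (hc s (hI' s hs)) (hw s (hI' s hs)) (hM' s hs)
    have hEconst : ∀ s ∈ Icc t s1, g (c s) (w s) (w s) = E0 := by
      intro s hs
      rcases eq_or_lt_of_le hs.1 with heq | hlt
      · rw [← heq]; exact htE
      · obtain ⟨ξ, hξ, hξe⟩ := exists_hasDerivAt_eq_slope (fun s => g (c s) (w s) (w s))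
          (fun _ => 0) hlt
          (fun r hr => (hEd r ⟨hr.1, hr.2.trans hs.2⟩).continuousAt.continuousWithinAt)
          (fun r hr => hEd r ⟨hr.1.le, hr.2.le.trans hs.2⟩)
        have hne : s - t ≠ 0 := by linarith
        have := (div_eq_zero_iff.1 hξe.symm).resolve_right hne
        linarith
    refine ⟨s1, ⟨hM' s1 ⟨hts1.le, le_rfl⟩, hEconst s1 ⟨hts1.le, le_rfl⟩, ?_⟩, hts1, hs1y⟩
    have hκd : ∀ s ∈ Icc t s1, HasDerivAt (fun s => κ (c s)) (fderiv ℝ κ (c s) (χ s • w s)) s := by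
      intro s hs
      have h1 : HasFDerivAt κ (fderiv ℝ κ (c s)) (c s) :=
        ((hκ.contDiffAt (hM.mem_nhds (hM' s hs))).differentiableAt (by simp)).hasFDerivAt
      exact h1.comp_hasDerivAt s (hc s (hI' s hs))
    obtain ⟨ξ, hξ, hξe⟩ := exists_hasDerivAt_eq_slope (fun s => κ (c s))
      (fun s => fderiv ℝ κ (c s) (χ s • w s)) hts1
      (fun r hr => (hκd r hr).continuousAt.continuousWithinAt)
      (fun r hr => hκd r (Ioo_subset_Icc_self hr))
    have hξI := Ioo_subset_Icc_self hξ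
    have hbound : fderiv ℝ κ (c ξ) (χ ξ • w ξ) ≤ C * Real.sqrt E0 := by
      rw [map_smul, smul_eq_mul]
      have h1 := hC (c ξ) (hM' ξ hξI) (w ξ)
      rw [hEconst ξ hξI] at h1
      have h2 := le_abs_self (fderiv ℝ κ (c ξ) (w ξ))
      have h3 : 0 ≤ C * Real.sqrt E0 := by positivity
      calc χ ξ * fderiv ℝ κ (c ξ) (w ξ) ≤ χ ξ * (C * Real.sqrt E0) :=
            mul_le_mul_of_nonneg_left (h2.trans h1) (hχ ξ).1
        _ ≤ 1 * (C * Real.sqrt E0) := mul_le_mul_of_nonneg_right (hχ ξ).2 h3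
        _ = _ := one_mul _
    have hpos : 0 < s1 - t := by linarith
    rw [hξe, div_le_iff₀ hpos] at hbound
    show κ (c s1) ≤ κ (c 0) + C * Real.sqrt E0 * s1
    nlinarith [hbound, htκ]

private theorem compact_tube {M : Set E} (hM : IsOpen M)
    {g : E → E →L[ℝ] E →L[ℝ] ℝ} (hg : IsRiemannianMetric M g) (κ : E → ℝ)
    (hcomp : ∀ c : ℝ, IsCompact {p | p ∈ M ∧ κ p ≤ c}) (a b : ℝ) :
    ∃ K : Set (E × E), IsCompact K ∧ K ⊆ M ×ˢ univ ∧
      ∀ z : E × E, z.1 ∈ M → κ z.1 ≤ a → g z.1 z.2 z.2 = b → z ∈ K := by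
  set K1 := {p | p ∈ M ∧ κ p ≤ a} with hK1
  have hK1c : IsCompact K1 := hcomp a
  have : ProperSpace E := FiniteDimensional.proper ℂ E
  have hQc : ContinuousOn (fun z : E × E => g z.1 z.2 z.2) (K1 ×ˢ univ) := by
    have h1 : ContinuousOn (fun z : E × E => g z.1) (K1 ×ˢ univ) :=
      (hg.smooth.continuousOn).comp continuousOn_fst (fun z hz => hz.1.1)
    exact (h1.clm_apply continuousOn_snd).clm_apply continuousOn_snd
  have hSc : IsCompact (K1 ×ˢ Metric.sphere (0 : E) 1) := hK1c.prod (isCompact_sphere _ _)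
  obtain ⟨lam, hlam, hlb⟩ : ∃ lam : ℝ, 0 < lam ∧ ∀ p ∈ K1, ∀ u : E, lam * ‖u‖ ^ 2 ≤ g p u u := by
    rcases (K1 ×ˢ Metric.sphere (0 : E) 1).eq_empty_or_nonempty with hemp | hne
    · refine ⟨1, one_pos, fun p hp u => ?_⟩
      by_cases hu : u = 0
      · simp [hu]
      · exfalso
        have hun : ‖u‖ ≠ 0 := norm_ne_zero_iff.2 hu
        have : (p, (‖u‖⁻¹ : ℝ) • u) ∈ K1 ×ˢ Metric.sphere (0 : E) 1 := by
          refine ⟨hp, ?_⟩
          simp [norm_smul, hun]
        rw [hemp] at this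
        exact this
    · obtain ⟨z, hz, hmin⟩ := hSc.exists_isMinOn hne (hQc.mono (prod_mono_right (subset_univ _)))
      have hz2 : z.2 ≠ 0 := by
        intro h0
        have := hz.2
        simp [h0] at this
      refine ⟨g z.1 z.2 z.2, hg.pos z.1 hz.1.1 z.2 hz2, fun p hp u => ?_⟩
      by_cases hu : u = 0
      · simp [hu]
      · have hun : ‖u‖ ≠ 0 := norm_ne_zero_iff.2 hu
        have hmem : (p, (‖u‖⁻¹ : ℝ) • u) ∈ K1 ×ˢ Metric.sphere (0 : E) 1 := by
          refine ⟨hp, ?_⟩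
          simp [norm_smul, hun]
        have h1 : g z.1 z.2 z.2 ≤ g p ((‖u‖⁻¹ : ℝ) • u) ((‖u‖⁻¹ : ℝ) • u) := hmin hmem
        have h2 : g p ((‖u‖⁻¹ : ℝ) • u) ((‖u‖⁻¹ : ℝ) • u) = ‖u‖⁻¹ * (‖u‖⁻¹ * g p u u) := by
          simp only [map_smul, ContinuousLinearMap.smul_apply, smul_eq_mul]
        rw [h2] at h1
        have h3 : 0 < ‖u‖ ^ 2 := by positivity
        calc g z.1 z.2 z.2 * ‖u‖ ^ 2 ≤ ‖u‖⁻¹ * (‖u‖⁻¹ * g p u u) * ‖u‖ ^ 2 :=
              mul_le_mul_of_nonneg_right h1 h3.le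
          _ = g p u u := by field_simp
  set R := Real.sqrt (|b| / lam) with hR
  have hKc : IsCompact (K1 ×ˢ Metric.closedBall (0 : E) R) := hK1c.prod (isCompact_closedBall _ _)
  refine ⟨K1 ×ˢ Metric.closedBall (0 : E) R, hKc, fun z hz => ⟨hz.1.1, mem_univ _⟩, ?_⟩
  intro z hz1 hz2 hz3
  refine ⟨⟨hz1, hz2⟩, ?_⟩
  rw [mem_closedBall_zero_iff, hR]
  apply Real.le_sqrt_of_sq_le
  rw [le_div_iff₀ hlam]
  have := hlb z.1 ⟨hz1, hz2⟩ z.2
  rw [hz3] at this
  linarith [le_abs_self b]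

/-- Along a geodesic `g (c', c')` is constant, so `κ ∘ c` is Lipschitz, so on a bounded time
interval the geodesic stays in a compact subset of `M` with bounded velocity; the solution of the
smooth first order system `(c, w)' = (w, -Γ(w,w))` extends (Picard-Lindeloef with uniform time on
compact sets). -/
theorem geodesicallyComplete_of_exhaustion {M : Set E} (hM : IsOpen M)
    {g : E → E →L[ℝ] E →L[ℝ] ℝ} (hg : IsRiemannianMetric M g)
    {Γ : E → E →L[ℝ] E →L[ℝ] E} (h : IsLeviCivita M g Γ) (κ : E → ℝ) (C : ℝ)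
    (hκ : ContDiffOn ℝ 1 κ M) (hC : ∀ p ∈ M, ∀ u : E, |fderiv ℝ κ p u| ≤ C * Real.sqrt (g p u u))
    (hcomp : ∀ c : ℝ, IsCompact {p | p ∈ M ∧ κ p ≤ c}) : IsGeodesicallyComplete M Γ := by
  intro p hp v
  -- nonnegative constant
  have hC' : ∀ p ∈ M, ∀ u : E, |fderiv ℝ κ p u| ≤ |C| * Real.sqrt (g p u u) := fun p hp u =>
    (hC p hp u).trans (mul_le_mul_of_nonneg_right (le_abs_self C) (Real.sqrt_nonneg _))
  set X : E × E → E × E := fun z => (z.2, -(Γ z.1 z.2 z.2)) with hX
  set U : Set (E × E) := M ×ˢ univ with hU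
  have hUo : IsOpen U := hM.prod isOpen_univ
  have hXs : ContDiffOn ℝ ∞ X U := by
    have h1 : ContDiffOn ℝ ∞ (fun z : E × E => Γ z.1) U :=
      h.smooth.comp contDiffOn_fst (fun z hz => hz.1)
    exact contDiffOn_snd.prodMk ((h1.clm_apply contDiffOn_snd).clm_apply contDiffOn_snd).neg
  set E0 := g p v v with hE0
  -- compact sets
  have hKex : ∀ n : ℕ, ∃ K : Set (E × E), IsCompact K ∧ K ⊆ U ∧
      ∀ z : E × E, z.1 ∈ M → κ z.1 ≤ κ p + |C| * Real.sqrt E0 * n → g z.1 z.2 z.2 = E0 → z ∈ K :=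
    fun n => compact_tube hM hg κ hcomp _ _
  choose K hKc hKU hKmem using hKex
  have hYex : ∀ n : ℕ, ∃ (χ : E × E → ℝ), (ContDiff ℝ 1 fun z => χ z • X z) ∧
      HasCompactSupport (fun z => χ z • X z) ∧ (∀ z ∈ K n, χ z = 1) ∧
      ∀ z, 0 ≤ χ z ∧ χ z ≤ 1 := by
    intro n
    obtain ⟨χ, K', hχ, hK'c, hK'U, h0, h1, h01⟩ := cutoff_exists (hKc n) hUo (hKU n)
    refine ⟨χ, ?_, ?_, h1, h01⟩
    · rw [contDiff_iff_contDiffAt]
      intro z
      by_cases hz : z ∈ U
      · have := (hXs.contDiffAt (hUo.mem_nhds hz))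
        exact ((hχ.contDiffAt.smul this).of_le (by simp))
      · have hz' : z ∈ K'ᶜ := fun hzK => hz (hK'U hzK)
        have hev : (fun z => χ z • X z) =ᶠ[𝓝 z] fun _ => 0 := by
          filter_upwards [hK'c.isClosed.isOpen_compl.mem_nhds hz'] with y hy
          simp [h0 y hy]
        exact contDiffAt_const.congr_of_eventuallyEq hev
    · apply HasCompactSupport.intro hK'c
      intro z hz
      simp [h0 z hz]
  choose χ hYs hYc hχ1 hχ01 using hYex
  -- solutions
  have hzex : ∀ n : ℕ, ∃ z : ℝ → E × E, z 0 = (p, v) ∧ ∀ t ∈ Icc (-(n : ℝ)) n,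
      z t ∈ K n ∧ HasDerivAt z (X (z t)) t := by
    intro n
    obtain ⟨z, hz0, hz⟩ := exists_sol (hYs n) (hYc n) (p, v) (T := (n : ℝ) + 1) (by positivity)
    have hfst : ∀ t ∈ Ioo (-((n : ℝ) + 1)) ((n : ℝ) + 1),
        HasDerivAt (fun s => (z s).1) (χ n (z t) • (z t).2) t := by
      intro t ht
      exact (hz t ht).fst
    have hsnd : ∀ t ∈ Ioo (-((n : ℝ) + 1)) ((n : ℝ) + 1),
        HasDerivAt (fun s => (z s).2) (-(χ n (z t) • Γ (z t).1 (z t).2 (z t).2)) t := by
      intro t ht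
      have h3 : (χ n (z t) • X (z t)).2 = -(χ n (z t) • Γ (z t).1 (z t).2 (z t).2) := by
        simp [hX]
      rw [← h3]
      exact (hz t ht).snd
    have hsub : Icc (0 : ℝ) n ⊆ Ioo (-((n : ℝ) + 1)) ((n : ℝ) + 1) := by
      intro t ht
      constructor <;> linarith [ht.1, ht.2]
    have hfor := apriori hM hg h κ |C| (abs_nonneg C) hκ hC' hcomp
      (c := fun s => (z s).1) (w := fun s => (z s).2) (χ := fun s => χ n (z s))
      (fun t => hχ01 n (z t)) (T := n) (Nat.cast_nonneg n)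
      (fun t ht => hfst t (hsub ht)) (fun t ht => hsnd t (hsub ht)) (by simpa [hz0] using hp)
    have hbac := apriori hM hg h κ |C| (abs_nonneg C) hκ hC' hcomp
      (c := fun s => (z (-s)).1) (w := fun s => -(z (-s)).2) (χ := fun s => χ n (z (-s)))
      (fun t => hχ01 n (z (-t))) (T := n) (Nat.cast_nonneg n)
      (fun t ht => by
        have h1 := (hfst (-t) ⟨by linarith [(hsub ht).2], by linarith [(hsub ht).1]⟩)
        have h2 := HasDerivAt.scomp t h1 (hasDerivAt_neg t)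
        simpa [Function.comp_def] using h2)
      (fun t ht => by
        have h1 := (hsnd (-t) ⟨by linarith [(hsub ht).2], by linarith [(hsub ht).1]⟩)
        have h2 := (HasDerivAt.scomp t h1 (hasDerivAt_neg t)).neg
        have h3 : (-((fun s => (z s).2) ∘ Neg.neg)) = fun s : ℝ => -(z (-s)).2 := rfl
        rw [h3] at h2
        simpa using h2) (by simpa [hz0] using hp)
    refine ⟨z, hz0, fun t ht => ?_⟩
    have hKt : z t ∈ K n := by
      rcases le_total 0 t with h0t | ht0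
      · obtain ⟨h1, h2, h3⟩ := hfor t ⟨h0t, ht.2⟩
        simp only [hz0] at h1 h2 h3
        refine hKmem n (z t) h1 (h3.trans ?_) h2
        have : |C| * Real.sqrt E0 * t ≤ |C| * Real.sqrt E0 * n :=
          mul_le_mul_of_nonneg_left ht.2 (by positivity)
        linarith
      · obtain ⟨h1, h2, h3⟩ := hbac (-t) ⟨by linarith, by linarith [ht.1]⟩
        simp only [neg_neg, neg_zero, hz0, map_neg, ContinuousLinearMap.neg_apply] at h1 h2 h3
        refine hKmem n (z t) h1 (h3.trans ?_) h2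
        have : |C| * Real.sqrt E0 * (-t) ≤ |C| * Real.sqrt E0 * n :=
          mul_le_mul_of_nonneg_left (by linarith [ht.1]) (by positivity)
        linarith
    refine ⟨hKt, ?_⟩
    have := hz t ⟨by linarith [ht.1], by linarith [ht.2]⟩
    rwa [hχ1 n (z t) hKt, one_smul] at this
  choose z hz0 hz using hzex
  -- uniqueness
  have huniq : ∀ n m : ℕ, n ≤ m → ∀ t ∈ Icc (-(n : ℝ)) n, z n t = z m t := by
    intro n m hnm t ht
    rcases Nat.eq_zero_or_pos n with hn0 | hn0
    · have ht0 : t = 0 := by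
        subst hn0
        simp only [Nat.cast_zero, neg_zero, Icc_self, mem_singleton_iff] at ht
        exact ht
      rw [ht0, hz0, hz0]
    · have hnr : (0 : ℝ) < n := by exact_mod_cast hn0
      have hnm' : (n : ℝ) ≤ m := by exact_mod_cast hnm
      -- choose the cutoff for the union of compact sets
      obtain ⟨χ', K', hχ', hK'c, hK'U, h0', h1', h01'⟩ :=
        cutoff_exists ((hKc n).union (hKc m)) hUo (union_subset (hKU n) (hKU m))
      have hY1 : ContDiff ℝ 1 fun z => χ' z • X z := by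
        rw [contDiff_iff_contDiffAt]
        intro z
        by_cases hz : z ∈ U
        · have := (hXs.contDiffAt (hUo.mem_nhds hz))
          exact ((hχ'.contDiffAt.smul this).of_le (by simp))
        · have hz' : z ∈ K'ᶜ := fun hzK => hz (hK'U hzK)
          have hev : (fun z => χ' z • X z) =ᶠ[𝓝 z] fun _ => 0 := by
            filter_upwards [hK'c.isClosed.isOpen_compl.mem_nhds hz'] with y hy
            simp [h0' y hy]
          exact contDiffAt_const.congr_of_eventuallyEq hev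
      have hY2 : HasCompactSupport (fun z => χ' z • X z) := by
        apply HasCompactSupport.intro hK'c
        intro z hz
        simp [h0' z hz]
      obtain ⟨L, hL⟩ := hY1.lipschitzWith_of_hasCompactSupport hY2 one_ne_zero
      have heq := ODE_solution_unique_of_mem_Icc (v := fun _ z => χ' z • X z) (s := fun _ => univ)
        (K := L) (f := z n) (g := z m) (a := -(n : ℝ)) (b := n) (t₀ := 0)
        (fun t _ => hL.lipschitzOnWith) ⟨by linarith, hnr⟩
        (fun t ht => (hz n t ht).2.continuousAt.continuousWithinAt)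
        (fun t ht => by
          have h1 := hz n t (Ioo_subset_Icc_self ht)
          rw [h1' _ (Or.inl h1.1), one_smul]
          exact h1.2) (fun t _ => mem_univ _)
        (fun t ht => (hz m t ⟨by linarith [ht.1], by linarith [ht.2]⟩).2.continuousAt.continuousWithinAt)
        (fun t ht => by
          have h1 := hz m t ⟨by linarith [ht.1], by linarith [ht.2]⟩
          rw [h1' _ (Or.inr h1.1), one_smul]
          exact h1.2) (fun t _ => mem_univ _) (by rw [hz0, hz0])
      exact heq ht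
  -- the glued solution
  set N : ℝ → ℕ := fun t => ⌊|t|⌋₊ + 1 with hN
  have hNt : ∀ t : ℝ, |t| < N t := by
    intro t
    simp only [hN]
    push_cast
    exact Nat.lt_floor_add_one _
  have hNle : ∀ (t : ℝ) (m : ℕ), |t| < m → N t ≤ m := by
    intro t m htm
    have : ⌊|t|⌋₊ < m := (Nat.floor_lt (abs_nonneg t)).2 htm
    simp only [hN]
    omega
  set Z : ℝ → E × E := fun t => z (N t) t with hZ
  have hZeq : ∀ (t : ℝ) (m : ℕ), |t| < m → Z t = z m t := by
    intro t m htm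
    refine huniq (N t) m (hNle t m htm) t ?_
    rw [mem_Icc, ← abs_le]
    exact (hNt t).le
  have hZd : ∀ t : ℝ, (Z t).1 ∈ M ∧ HasDerivAt Z (X (Z t)) t := by
    intro t
    have hmem : t ∈ Icc (-(N t : ℝ)) (N t) := by
      rw [mem_Icc, ← abs_le]
      exact (hNt t).le
    have h1 := hz (N t) t hmem
    refine ⟨(hKU (N t) h1.1).1, ?_⟩
    have hev : Z =ᶠ[𝓝 t] z (N t) := by
      have : ∀ᶠ s : ℝ in 𝓝 t, |s| < N t := (continuous_abs.continuousAt.eventually_lt
        continuousAt_const (hNt t))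
      filter_upwards [this] with s hs
      exact hZeq s _ hs
    exact h1.2.congr_of_eventuallyEq hev
  have hc1 : ∀ t, HasDerivAt (fun s => (Z s).1) (Z t).2 t := fun t => (hZd t).2.fst
  have hc2 : ∀ t, HasDerivAt (fun s => (Z s).2) (-(Γ (Z t).1 (Z t).2 (Z t).2)) t :=
    fun t => (hZd t).2.snd
  have hder : deriv (fun s => (Z s).1) = fun s => (Z s).2 := funext fun t => (hc1 t).deriv
  have hZ0 : Z 0 = (p, v) := hz0 _
  refine ⟨fun s => (Z s).1, ?_, ?_, fun t => ⟨(hZd t).1, (hc1 t).differentiableAt, ?_⟩⟩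
  · simp [hZ0]
  · rw [hder]; simp [hZ0]
  · rw [hder]
    exact hc2 t

end P250
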