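import Mathlib.Analysis.CStarAlgebra.Classes
import Vale.Agent.Lib.P250.GeoCore

/-!
# P250: metrics with a potential
-/

open scoped ContDiff
open Complex

namespace P250

variable {E : Type*} [NormedAddCommGroup E] [NormedSpace ℂ E]

/-! ## Metrics with a potential -/

/-- Multiplication by `I` as a real continuous linear map. -/
noncomputable def Jm (E : Type*) [NormedAddCommGroup E] [NormedSpace ℂ E] : E →L[ℝ] E :=
  (I • ContinuousLinearMap.id ℂ E : E →L[ℂ] E).restrictScalars ℝ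

/-- The Kaehler form of the potential `Φ`, as a symmetric bilinear form:
`(1/4) (D²Φ (u, v) + D²Φ (J u, J v)) = Re (∂ ∂bar Φ) (u, v)`. -/
noncomputable def potMetric (Φ : E → ℝ) (p : E) : E →L[ℝ] E →L[ℝ] ℝ :=
  (1 / 4 : ℝ) • (fderiv ℝ (fderiv ℝ Φ) p +
    (fderiv ℝ (fderiv ℝ Φ) p).bilinearComp (Jm E) (Jm E))

/-- curvature numerator -/
noncomputable def curvNum (g : E → E →L[ℝ] E →L[ℝ] ℝ) (Γ : E → E →L[ℝ] E →L[ℝ] E)
    (p u v : E) : ℝ := g p (curvatureTensor Γ p u v v) u

/-- squared area -/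
noncomputable def area2 (g : E → E →L[ℝ] E →L[ℝ] ℝ) (p u v : E) : ℝ :=
  g p u u * g p v v - g p u v ^ 2

end P250
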