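import Mathlib.Analysis.InnerProductSpace.Calculus
import Mathlib.Analysis.SpecialFunctions.Log.Deriv
import Mathlib.Order.CompletePartialOrder
import Vale.Agent.Lib.P250.GeoDefs

/-! # P250 module H1: Levi form of the Hartogs potential -/

open scoped ContDiff
open Complex Metric Set

namespace P250

/-- the (1,0)-derivative of a real function -/
noncomputable def delta10 (φ : ℂ × ℂ → ℝ) (y ξ : ℂ × ℂ) : ℂ :=
  (1 / 2 : ℂ) * ((fderiv ℝ φ y ξ : ℂ) - I * (fderiv ℝ φ y (I • ξ) : ℂ))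

private theorem ha_line {E : Type*} [NormedAddCommGroup E] [NormedSpace ℝ E] (p u : E) (t : ℝ) :
    HasDerivAt (fun t : ℝ => p + t • u) u t := by
  simpa using ((hasDerivAt_id t).smul_const u).const_add p

private theorem ha_line_tendsto {E : Type*} [NormedAddCommGroup E] [NormedSpace ℝ E] (p u : E) :
    Filter.Tendsto (fun t : ℝ => p + t • u) (nhds 0) (nhds p) := by
  have h : Continuous fun t : ℝ => p + t • u := by fun_prop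
  simpa using h.tendsto 0

private theorem ha_first {E : Type*} [NormedAddCommGroup E] [NormedSpace ℝ E] {Φ : E → ℝ} {p : E}
    (hΦ : ContDiffAt ℝ 2 Φ p) (u : E) : ∀ᶠ t in nhds (0 : ℝ),
      HasDerivAt (fun t => Φ (p + t • u)) (fderiv ℝ Φ (p + t • u) u) t := by
  have h1 : ∀ᶠ x in nhds p, ContDiffAt ℝ 2 Φ x := hΦ.eventually (by simp)
  have h2 := (ha_line_tendsto p u).eventually h1
  filter_upwards [h2] with t ht
  exact (ht.differentiableAt (by norm_num)).hasFDerivAt.comp_hasDerivAt t (ha_line p u t)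

private theorem ha_snd {E : Type*} [NormedAddCommGroup E] [NormedSpace ℝ E] {Φ : E → ℝ} {p : E}
    (hΦ : ContDiffAt ℝ 2 Φ p) (u : E) :
    HasDerivAt (fun t : ℝ => fderiv ℝ Φ (p + t • u) u) (fderiv ℝ (fderiv ℝ Φ) p u u) 0 := by
  have h1 : ContDiffAt ℝ 1 (fderiv ℝ Φ) p := hΦ.fderiv_right (by norm_num)
  have h2 : HasFDerivAt (fderiv ℝ Φ) (fderiv ℝ (fderiv ℝ Φ) p) (p + (0 : ℝ) • u) := by
    simpa using (h1.differentiableAt (by norm_num)).hasFDerivAt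
  have h3 := h2.comp_hasDerivAt (0 : ℝ) (ha_line p u 0)
  have h4 := h3.clm_apply (hasDerivAt_const (0 : ℝ) u)
  simpa using h4

private theorem ha_second {E : Type*} [NormedAddCommGroup E] [NormedSpace ℝ E] {Φ : E → ℝ}
    {p u : E} (hΦ : ContDiffAt ℝ 2 Φ p) {g1 : ℝ → ℝ} {g2 : ℝ}
    (h1 : ∀ᶠ t in nhds (0 : ℝ), HasDerivAt (fun t => Φ (p + t • u)) (g1 t) t)
    (h2 : HasDerivAt g1 g2 0) : fderiv ℝ (fderiv ℝ Φ) p u u = g2 := by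
  have heq : g1 =ᶠ[nhds 0] fun t => fderiv ℝ Φ (p + t • u) u := by
    filter_upwards [h1, ha_first hΦ u] with t a b using a.unique b
  exact ((ha_snd hΦ u).congr_of_eventuallyEq heq).unique h2

private theorem ha_normsq (ζ η : ℂ) (t : ℝ) :
    HasDerivAt (fun t : ℝ => ‖ζ + t • η‖ ^ 2)
      (2 * (ζ.re * η.re + ζ.im * η.im) + 2 * t * (η.re ^ 2 + η.im ^ 2)) t := by
  have h0 : (fun t : ℝ => ‖ζ + t • η‖ ^ 2) =
      fun t : ℝ => (ζ.re + t * η.re) ^ 2 + (ζ.im + t * η.im) ^ 2 := by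
    ext t
    rw [← Complex.normSq_eq_norm_sq, Complex.normSq_apply]
    simp
    ring
  rw [h0]
  have h1 : HasDerivAt (fun t : ℝ => ζ.re + t * η.re) η.re t := by
    simpa using ((hasDerivAt_id t).mul_const η.re).const_add ζ.re
  have h2 : HasDerivAt (fun t : ℝ => ζ.im + t * η.im) η.im t := by
    simpa using ((hasDerivAt_id t).mul_const η.im).const_add ζ.im
  have h3 := (h1.pow 2).add (h2.pow 2)
  refine h3.congr_deriv ?_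
  push_cast
  ring

private theorem ha_d2 {U : Set (ℂ × ℂ)} (hU : IsOpen U) {φ : ℂ × ℂ → ℝ}
    (hφ : ContDiffOn ℝ ∞ φ U) {p : (ℂ × ℂ) × ℂ} (hp : p.1 ∈ U)
    (hT : ‖p.2‖ ^ 2 * Real.exp (φ p.1) < 1) (u : (ℂ × ℂ) × ℂ) :
    fderiv ℝ (fderiv ℝ (fun q : (ℂ × ℂ) × ℂ => -Real.log (1 - ‖q.2‖ ^ 2 * Real.exp (φ q.1)))) p u u =
      Real.exp (φ p.1) * (2 * (u.2.re ^ 2 + u.2.im ^ 2)
          + 2 * (2 * (p.2.re * u.2.re + p.2.im * u.2.im)) * fderiv ℝ φ p.1 u.1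
          + ‖p.2‖ ^ 2 * ((fderiv ℝ φ p.1 u.1) ^ 2 + fderiv ℝ (fderiv ℝ φ) p.1 u.1 u.1)) /
        (1 - ‖p.2‖ ^ 2 * Real.exp (φ p.1))
      + (Real.exp (φ p.1) * (2 * (p.2.re * u.2.re + p.2.im * u.2.im)
          + ‖p.2‖ ^ 2 * fderiv ℝ φ p.1 u.1)) ^ 2 /
        (1 - ‖p.2‖ ^ 2 * Real.exp (φ p.1)) ^ 2 := by
  obtain ⟨y, ζ⟩ := p
  obtain ⟨ξ, η⟩ := u
  simp only at hp hT ⊢
  have hφ2 : ContDiffAt ℝ 2 φ y :=
    ((hφ.contDiffAt (hU.mem_nhds hp))).of_le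
      (WithTop.coe_le_coe.2 le_top)
  have hne : (1 - ‖ζ‖ ^ 2 * Real.exp (φ y)) ≠ 0 := by
    have : 0 < 1 - ‖ζ‖ ^ 2 * Real.exp (φ y) := by linarith
    exact this.ne'
  have hΦ : ContDiffAt ℝ 2 (fun q : (ℂ × ℂ) × ℂ => -Real.log (1 - ‖q.2‖ ^ 2 * Real.exp (φ q.1)))
      (y, ζ) := by
    have h1 : ContDiffAt ℝ 2 (fun q : (ℂ × ℂ) × ℂ => φ q.1) (y, ζ) :=
      ContDiffAt.comp (y, ζ) (f := fun q : (ℂ × ℂ) × ℂ => q.1) hφ2 contDiffAt_fst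
    have h2 : ContDiffAt ℝ 2 (fun q : (ℂ × ℂ) × ℂ => ‖q.2‖ ^ 2) (y, ζ) :=
      (contDiff_snd.norm_sq ℝ).contDiffAt
    exact ((contDiffAt_const.sub (h2.mul h1.exp)).log hne).neg
  -- the functions along the line
  set φ1 : ℝ → ℝ := fun t => fderiv ℝ φ (y + t • ξ) ξ with hφ1
  have hline : ∀ᶠ t in nhds (0 : ℝ), HasDerivAt (fun t => φ (y + t • ξ)) (φ1 t) t :=
    ha_first hφ2 ξ
  have hφ1d : HasDerivAt φ1 (fderiv ℝ (fderiv ℝ φ) y ξ ξ) 0 := ha_snd hφ2 ξ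
  set N1 : ℝ → ℝ := fun t => 2 * (ζ.re * η.re + ζ.im * η.im) + 2 * t * (η.re ^ 2 + η.im ^ 2)
    with hN1
  set T : ℝ → ℝ := fun t => ‖ζ + t • η‖ ^ 2 * Real.exp (φ (y + t • ξ)) with hTdef
  set T1 : ℝ → ℝ := fun t => N1 t * Real.exp (φ (y + t • ξ)) +
    ‖ζ + t • η‖ ^ 2 * (Real.exp (φ (y + t • ξ)) * φ1 t) with hT1
  have hTd : ∀ᶠ t in nhds (0 : ℝ), HasDerivAt T (T1 t) t := by
    filter_upwards [hline] with t ht
    exact (ha_normsq ζ η t).mul ht.exp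
  have hTc : ∀ᶠ t in nhds (0 : ℝ), T t < 1 := by
    have h0 := hTd.self_of_nhds
    have h1 : T 0 < 1 := by
      simp only [hTdef, zero_smul, add_zero]
      exact hT
    exact h0.continuousAt.eventually_lt_const h1
  have h1 : ∀ᶠ t in nhds (0 : ℝ), HasDerivAt (fun t : ℝ =>
      (fun q : (ℂ × ℂ) × ℂ => -Real.log (1 - ‖q.2‖ ^ 2 * Real.exp (φ q.1)))
        ((y, ζ) + t • (ξ, η))) (T1 t / (1 - T t)) t := by
    filter_upwards [hTd, hTc] with t h2 h3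
    have h4 : (1 - T t) ≠ 0 := by
      have : 0 < 1 - T t := by linarith
      exact this.ne'
    have h5 := ((h2.const_sub 1).log h4).neg
    refine h5.congr_deriv ?_
    ring
  have hT0 : T 0 = ‖ζ‖ ^ 2 * Real.exp (φ y) := by simp [hTdef]
  have hN10 : N1 0 = 2 * (ζ.re * η.re + ζ.im * η.im) := by simp [hN1]
  have hφ10 : φ1 0 = fderiv ℝ φ y ξ := by simp [hφ1]
  have hT10 : T1 0 = Real.exp (φ y) * (2 * (ζ.re * η.re + ζ.im * η.im)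
      + ‖ζ‖ ^ 2 * fderiv ℝ φ y ξ) := by
    simp only [hT1, zero_smul, add_zero, hN10, hφ10]
    ring
  have hN1d : HasDerivAt N1 (2 * (η.re ^ 2 + η.im ^ 2)) 0 := by
    have h2 : HasDerivAt (fun t : ℝ => 2 * t * (η.re ^ 2 + η.im ^ 2))
        (2 * (η.re ^ 2 + η.im ^ 2)) 0 := by
      simpa using ((hasDerivAt_id (0 : ℝ)).const_mul 2).mul_const (η.re ^ 2 + η.im ^ 2)
    exact h2.const_add _
  have hEd := (hline.self_of_nhds).exp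
  have hNd := ha_normsq ζ η 0
  have hT1d : HasDerivAt T1 (Real.exp (φ y) * (2 * (η.re ^ 2 + η.im ^ 2)
          + 2 * (2 * (ζ.re * η.re + ζ.im * η.im)) * fderiv ℝ φ y ξ
          + ‖ζ‖ ^ 2 * ((fderiv ℝ φ y ξ) ^ 2 + fderiv ℝ (fderiv ℝ φ) y ξ ξ))) 0 := by
    have h2 := (hN1d.mul hEd).add (hNd.mul (hEd.mul hφ1d))
    refine h2.congr_deriv ?_
    simp only [Pi.mul_apply, hN10, hφ10, zero_smul, add_zero, mul_zero, zero_mul]
    ring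
  have hT1T : (1 - T 0) ≠ 0 := by
    rw [hT0]
    exact hne
  have h2 : HasDerivAt (fun t => T1 t / (1 - T t))
      (((Real.exp (φ y) * (2 * (η.re ^ 2 + η.im ^ 2)
          + 2 * (2 * (ζ.re * η.re + ζ.im * η.im)) * fderiv ℝ φ y ξ
          + ‖ζ‖ ^ 2 * ((fderiv ℝ φ y ξ) ^ 2 + fderiv ℝ (fderiv ℝ φ) y ξ ξ))) * (1 - T 0) -
          T1 0 * (-(T1 0))) / (1 - T 0) ^ 2) 0 :=
    hT1d.div (hTd.self_of_nhds.const_sub 1) hT1T
  rw [ha_second hΦ h1 h2, hT0, hT10]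
  field_simp
  ring

/-- Levi form of `-log (1 - |ζ|² e^φ)`. -/
theorem hartogs_metric {U : Set (ℂ × ℂ)} (hU : IsOpen U) {φ : ℂ × ℂ → ℝ}
    (hφ : ContDiffOn ℝ ∞ φ U) {p : (ℂ × ℂ) × ℂ} (hp : p.1 ∈ U)
    (hT : ‖p.2‖ ^ 2 * Real.exp (φ p.1) < 1) (u : (ℂ × ℂ) × ℂ) :
    potMetric (fun q : (ℂ × ℂ) × ℂ => -Real.log (1 - ‖q.2‖ ^ 2 * Real.exp (φ q.1))) p u u =
      ‖p.2‖ ^ 2 * Real.exp (φ p.1) / (1 - ‖p.2‖ ^ 2 * Real.exp (φ p.1)) *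
        potMetric φ p.1 u.1 u.1
      + Real.exp (φ p.1) / (1 - ‖p.2‖ ^ 2 * Real.exp (φ p.1)) ^ 2 *
        ‖u.2 + p.2 * delta10 φ p.1 u.1‖ ^ 2 := by
  have hJ : ∀ v : (ℂ × ℂ) × ℂ, Jm ((ℂ × ℂ) × ℂ) v = I • v := fun v => rfl
  have hJ2 : ∀ v : ℂ × ℂ, Jm (ℂ × ℂ) v = I • v := fun v => rfl
  have h1 : ∀ v : (ℂ × ℂ) × ℂ,
      potMetric (fun q : (ℂ × ℂ) × ℂ => -Real.log (1 - ‖q.2‖ ^ 2 * Real.exp (φ q.1))) p v v =
      1 / 4 * (fderiv ℝ (fderiv ℝ (fun q : (ℂ × ℂ) × ℂ =>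
          -Real.log (1 - ‖q.2‖ ^ 2 * Real.exp (φ q.1)))) p v v +
        fderiv ℝ (fderiv ℝ (fun q : (ℂ × ℂ) × ℂ =>
          -Real.log (1 - ‖q.2‖ ^ 2 * Real.exp (φ q.1)))) p (I • v) (I • v)) := fun v => rfl
  have h2 : ∀ ξ : ℂ × ℂ, potMetric φ p.1 ξ ξ =
      1 / 4 * (fderiv ℝ (fderiv ℝ φ) p.1 ξ ξ + fderiv ℝ (fderiv ℝ φ) p.1 (I • ξ) (I • ξ)) :=
    fun v => rfl
  rw [h1, h2, ha_d2 hU hφ hp hT, ha_d2 hU hφ hp hT]
  obtain ⟨y, ζ⟩ := p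
  obtain ⟨ξ, η⟩ := u
  have h3 : (I • ((ξ, η) : (ℂ × ℂ) × ℂ)).1 = I • ξ := rfl
  have h4 : (I • ((ξ, η) : (ℂ × ℂ) × ℂ)).2 = I * η := rfl
  rw [h3, h4]
  simp only at hp hT ⊢
  have hne : (1 - ‖ζ‖ ^ 2 * Real.exp (φ y)) ≠ 0 := by
    have : 0 < 1 - ‖ζ‖ ^ 2 * Real.exp (φ y) := by linarith
    exact this.ne'
  have hnz : ‖ζ‖ ^ 2 = ζ.re ^ 2 + ζ.im ^ 2 := by
    rw [← Complex.normSq_eq_norm_sq, Complex.normSq_apply]
    ring
  have hX : ‖η + ζ * delta10 φ y ξ‖ ^ 2 =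
      (η.re ^ 2 + η.im ^ 2) + ((ζ.re * η.re + ζ.im * η.im) * fderiv ℝ φ y ξ
        - (ζ.re * η.im - ζ.im * η.re) * fderiv ℝ φ y (I • ξ))
      + 1 / 4 * (ζ.re ^ 2 + ζ.im ^ 2) *
        ((fderiv ℝ φ y ξ) ^ 2 + (fderiv ℝ φ y (I • ξ)) ^ 2) := by
    rw [← Complex.normSq_eq_norm_sq, Complex.normSq_apply]
    unfold delta10
    simp
    ring
  rw [hX]
  have hre : (I * η).re = -η.im := by simp
  have him : (I * η).im = η.re := by simp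
  rw [hre, him]
  set P := fderiv ℝ φ y ξ with hP
  set Q := fderiv ℝ φ y (I • ξ) with hQ
  set A := fderiv ℝ (fderiv ℝ φ) y ξ ξ with hA
  set B := fderiv ℝ (fderiv ℝ φ) y (I • ξ) (I • ξ) with hB
  set W := Real.exp (φ y) with hW
  rw [hnz] at hne ⊢
  field_simp
  ring

end P250
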