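import Vale.Agent.Lib.P250.BPC
import Vale.Agent.Lib.P250.HA

/-! # P250 module H2: the metric on M3 -/

open scoped ContDiff
open Complex Metric Set

namespace P250

private theorem HB_preopen : IsOpen {p : (ℂ × ℂ) × ℂ | p.1 ∈ U2} :=
  U2_open.preimage continuous_fst

private theorem HB_h_smooth {e δ : ℝ} (N : ℕ) (he : 0 < e) (he1 : e < 1) (hδ : 0 < δ) :
    ContDiffOn ℝ ∞ (fun p : (ℂ × ℂ) × ℂ => ‖p.2‖ ^ 2 * Real.exp (phiL e δ N 0 p.1))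
      {p : (ℂ × ℂ) × ℂ | p.1 ∈ U2} := by
  have h1 : ContDiff ℝ ∞ (fun p : (ℂ × ℂ) × ℂ => ‖p.2‖ ^ 2) :=
    (contDiff_norm_sq ℝ).comp contDiff_snd
  have h2 : ContDiffOn ℝ ∞ (fun p : (ℂ × ℂ) × ℂ => phiL e δ N 0 p.1)
      {p : (ℂ × ℂ) × ℂ | p.1 ∈ U2} :=
    (phiL_smooth N he he1 hδ).comp contDiff_fst.contDiffOn (fun p hp => hp)
  exact h1.contDiffOn.mul (Real.contDiff_exp.comp_contDiffOn h2)

theorem M3_open {e δ : ℝ} (N : ℕ) (he : 0 < e) (he1 : e < 1) (hδ : 0 < δ) :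
    IsOpen (M3 e δ N) := by
  have h := (HB_h_smooth N he he1 hδ).continuousOn.isOpen_inter_preimage HB_preopen
    (isOpen_Iio (a := (1 : ℝ)))
  exact h

private theorem HB_M3_sub {e δ : ℝ} {N : ℕ} : M3 e δ N ⊆ {p : (ℂ × ℂ) × ℂ | p.1 ∈ U2} :=
  fun _ hp => hp.1

private theorem HB_second_smooth {e δ : ℝ} (N : ℕ) (he : 0 < e) (he1 : e < 1) (hδ : 0 < δ) :
    ContDiffOn ℝ ∞ (fun p : (ℂ × ℂ) × ℂ =>
      -Real.log (1 - ‖p.2‖ ^ 2 * Real.exp (phiL e δ N 0 p.1))) (M3 e δ N) := by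
  have h1 : ContDiffOn ℝ ∞ (fun p : (ℂ × ℂ) × ℂ =>
      1 - ‖p.2‖ ^ 2 * Real.exp (phiL e δ N 0 p.1)) (M3 e δ N) :=
    contDiffOn_const.sub ((HB_h_smooth N he he1 hδ).mono HB_M3_sub)
  exact (h1.log (fun p hp => ne_of_gt (sub_pos.mpr hp.2))).neg

private theorem HB_first_smooth {A e δ : ℝ} (N : ℕ) :
    ContDiffOn ℝ ∞ (fun p : (ℂ × ℂ) × ℂ => A * (-Real.log (rho p.1))) (M3 e δ N) := by
  have h2 : ContDiffOn ℝ ∞ (fun p : (ℂ × ℂ) × ℂ => -Real.log (rho p.1)) (M3 e δ N) :=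
    logrho_smooth.comp contDiff_fst.contDiffOn (fun p hp => hp.1)
  exact contDiffOn_const.mul h2

theorem Pot_smooth {A e δ : ℝ} (N : ℕ) (he : 0 < e) (he1 : e < 1) (hδ : 0 < δ) :
    ContDiffOn ℝ ∞ (Pot A e δ N) (M3 e δ N) := by
  have h := (HB_first_smooth (A := A) N).add (HB_second_smooth N he he1 hδ)
  refine h.congr ?_
  intro p _
  unfold Pot
  ring

private theorem HB_fd_add {F : Type*} [NormedAddCommGroup F] [NormedSpace ℝ F]
    {Φ Ψ : F → ℝ} {M : Set F} (hM : IsOpen M) (h1 : ContDiffOn ℝ ∞ Φ M)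
    (h2 : ContDiffOn ℝ ∞ Ψ M) {p : F} (hp : p ∈ M) :
    fderiv ℝ (fderiv ℝ (fun q => Φ q + Ψ q)) p =
      fderiv ℝ (fderiv ℝ Φ) p + fderiv ℝ (fderiv ℝ Ψ) p := by
  have e1 : fderiv ℝ (fun q => Φ q + Ψ q) =ᶠ[nhds p] (fun q => fderiv ℝ Φ q + fderiv ℝ Ψ q) := by
    filter_upwards [hM.mem_nhds hp] with q hq
    exact fderiv_fun_add ((h1.contDiffAt (hM.mem_nhds hq)).differentiableAt (by simp))
      ((h2.contDiffAt (hM.mem_nhds hq)).differentiableAt (by simp))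
  rw [e1.fderiv_eq]
  have d1 : DifferentiableAt ℝ (fderiv ℝ Φ) p :=
    ((h1.fderiv_of_isOpen hM (m := ∞) (by simp)).contDiffAt (hM.mem_nhds hp)).differentiableAt
      (by simp)
  have d2 : DifferentiableAt ℝ (fderiv ℝ Ψ) p :=
    ((h2.fderiv_of_isOpen hM (m := ∞) (by simp)).contDiffAt (hM.mem_nhds hp)).differentiableAt
      (by simp)
  exact fderiv_fun_add d1 d2

private theorem HB_fd_mul {F : Type*} [NormedAddCommGroup F] [NormedSpace ℝ F]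
    {Φ : F → ℝ} {M : Set F} (hM : IsOpen M) (h1 : ContDiffOn ℝ ∞ Φ M) (A : ℝ)
    {p : F} (hp : p ∈ M) :
    fderiv ℝ (fderiv ℝ (fun q => A * Φ q)) p = A • fderiv ℝ (fderiv ℝ Φ) p := by
  have e1 : fderiv ℝ (fun q => A * Φ q) =ᶠ[nhds p] (fun q => A • fderiv ℝ Φ q) := by
    filter_upwards [hM.mem_nhds hp] with q hq
    exact fderiv_const_mul ((h1.contDiffAt (hM.mem_nhds hq)).differentiableAt (by simp)) A
  rw [e1.fderiv_eq]
  have d1 : DifferentiableAt ℝ (fderiv ℝ Φ) p :=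
    ((h1.fderiv_of_isOpen hM (m := ∞) (by simp)).contDiffAt (hM.mem_nhds hp)).differentiableAt
      (by simp)
  exact fderiv_fun_const_smul d1 A

theorem Pot_metric {A e δ : ℝ} (N : ℕ) (he : 0 < e) (he1 : e < 1) (hδ : 0 < δ)
    {p : (ℂ × ℂ) × ℂ} (hp : p ∈ M3 e δ N) (u : (ℂ × ℂ) × ℂ) :
    potMetric (Pot A e δ N) p u u =
      A * potMetric (fun y : ℂ × ℂ => -Real.log (rho y)) p.1 u.1 u.1
      + ‖p.2‖ ^ 2 * Real.exp (phiL e δ N 0 p.1) / (1 - ‖p.2‖ ^ 2 * Real.exp (phiL e δ N 0 p.1)) *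
        potMetric (phiL e δ N 0) p.1 u.1 u.1
      + Real.exp (phiL e δ N 0 p.1) / (1 - ‖p.2‖ ^ 2 * Real.exp (phiL e δ N 0 p.1)) ^ 2 *
        ‖u.2 + p.2 * delta10 (phiL e δ N 0) p.1 u.1‖ ^ 2 := by
  have hH := hartogs_metric U2_open (phiL_smooth (e := e) (δ := δ) N he he1 hδ) hp.1 hp.2 u
  have hsub : ContDiffOn ℝ ∞ (fun q : (ℂ × ℂ) × ℂ => -Real.log (rho q.1)) (M3 e δ N) :=
    logrho_smooth.comp contDiff_fst.contDiffOn (fun p hp => hp.1)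
  have hM := M3_open (e := e) (δ := δ) N he he1 hδ
  have hcomp : potMetric (fun q : (ℂ × ℂ) × ℂ => -Real.log (rho q.1)) p u u =
      potMetric (fun y : ℂ × ℂ => -Real.log (rho y)) p.1 u.1 u.1 := by
    have h := potMetric_comp (E := ℂ × ℂ) (E' := (ℂ × ℂ) × ℂ) U2_open HB_preopen
      (Φ := fun y : ℂ × ℂ => -Real.log (rho y)) logrho_smooth
      (F := fun q : (ℂ × ℂ) × ℂ => q.1) contDiff_fst.contDiffOn (fun q hq => hq)
      (p := p) hp.1 u u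
    have hf : fderiv ℝ (fun q : (ℂ × ℂ) × ℂ => q.1) p = ContinuousLinearMap.fst ℝ (ℂ × ℂ) ℂ :=
      fderiv_fst
    rw [hf] at h
    exact h
  have hPot : Pot A e δ N = fun q : (ℂ × ℂ) × ℂ => A * (-Real.log (rho q.1)) +
      (-Real.log (1 - ‖q.2‖ ^ 2 * Real.exp (phiL e δ N 0 q.1))) := by
    funext q
    unfold Pot
    ring
  have hadd := HB_fd_add hM (HB_first_smooth (A := A) N) (HB_second_smooth N he he1 hδ) hp
  have hmul := HB_fd_mul hM hsub A hp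
  rw [add_assoc, ← hH, ← hcomp, hPot, potMetric_apply, potMetric_apply, potMetric_apply, hadd,
    hmul]
  simp only [add_apply, smul_apply, smul_eq_mul]
  ring

theorem Pot_kahler {A e δ : ℝ} (N : ℕ) (hA : 0 < A) (he : 0 < e) (he1 : e < 1) (hδ : 0 < δ) :
    IsKahlerMetric (M3 e δ N) (potMetric (Pot A e δ N)) := by
  refine potMetric_kahler (M3_open N he he1 hδ) (Pot_smooth N he he1 hδ) ?_
  intro p hp u hu
  rw [Pot_metric N he he1 hδ hp u]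
  have hpos : 0 < 1 - ‖p.2‖ ^ 2 * Real.exp (phiL e δ N 0 p.1) := sub_pos.mpr hp.2
  have hr0 : 0 ≤ potMetric (fun y : ℂ × ℂ => -Real.log (rho y)) p.1 u.1 u.1 := by
    by_cases h : u.1 = 0
    · rw [h]; simp
    · exact (potMetric_logrho_pos hp.1 h).le
  have hphi : 0 ≤ potMetric (phiL e δ N 0) p.1 u.1 u.1 := by
    refine le_trans ?_ (phiL_psh N he he1 hδ hp.1 u.1)
    exact mul_nonneg (mul_nonneg (Nat.cast_nonneg N) hδ.le) hr0
  have h2 : 0 ≤ ‖p.2‖ ^ 2 * Real.exp (phiL e δ N 0 p.1) /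
      (1 - ‖p.2‖ ^ 2 * Real.exp (phiL e δ N 0 p.1)) * potMetric (phiL e δ N 0) p.1 u.1 u.1 := by
    positivity
  have h3 : 0 ≤ Real.exp (phiL e δ N 0 p.1) /
      (1 - ‖p.2‖ ^ 2 * Real.exp (phiL e δ N 0 p.1)) ^ 2 *
        ‖u.2 + p.2 * delta10 (phiL e δ N 0) p.1 u.1‖ ^ 2 := by
    positivity
  by_cases h : u.1 = 0
  · have hu2 : u.2 ≠ 0 := by
      intro h2
      exact hu (Prod.ext h h2)
    have hd : delta10 (phiL e δ N 0) p.1 u.1 = 0 := by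
      rw [h]
      simp [delta10]
    have h4 : 0 < Real.exp (phiL e δ N 0 p.1) /
      (1 - ‖p.2‖ ^ 2 * Real.exp (phiL e δ N 0 p.1)) ^ 2 *
        ‖u.2 + p.2 * delta10 (phiL e δ N 0) p.1 u.1‖ ^ 2 := by
      rw [hd, mul_zero, add_zero]
      have : 0 < ‖u.2‖ := norm_pos_iff.mpr hu2
      positivity
    have h5 : 0 ≤ A * potMetric (fun y : ℂ × ℂ => -Real.log (rho y)) p.1 u.1 u.1 :=
      mul_nonneg hA.le hr0
    linarith
  · have h5 : 0 < A * potMetric (fun y : ℂ × ℂ => -Real.log (rho y)) p.1 u.1 u.1 :=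
      mul_pos hA (potMetric_logrho_pos hp.1 h)
    linarith

end P250
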