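import Mathlib.Analysis.SpecialFunctions.Log.Basic

/-!
# P250: the base data of the counterexample
-/

open Complex

namespace P250

noncomputable section

/-- height function of the Siegel domain -/
def rho (y : ℂ × ℂ) : ℝ := y.2.im - ‖y.1‖ ^ 2

/-- the Siegel domain `Im w > |z|^2` -/
def U2 : Set (ℂ × ℂ) := {y | 0 < rho y}

/-- the Gaussian integer attached to a lattice index `b = (m, n, τ)` -/
def ga (b : ℤ × ℤ × ℤ) : ℂ := (b.1 : ℂ) + (b.2.1 : ℂ) * I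

/-- first chart coordinate at the lattice point `b` -/
def chZ (b : ℤ × ℤ × ℤ) (y : ℂ × ℂ) : ℂ := y.1 - ga b

/-- second chart coordinate at the lattice point `b` -/
def chW (b : ℤ × ℤ × ℤ) (y : ℂ × ℂ) : ℂ :=
  y.2 - 2 * I * (starRingEnd ℂ (ga b)) * y.1 + I * ((‖ga b‖ ^ 2 : ℝ) : ℂ) - (b.2.2 : ℂ)

/-- inverse of the chart `y ↦ (chZ b y, chW b y)` -/
def unch (b : ℤ × ℤ × ℤ) (y : ℂ × ℂ) : ℂ × ℂ :=
  (y.1 + ga b, y.2 + 2 * I * (starRingEnd ℂ (ga b)) * y.1 + I * ((‖ga b‖ ^ 2 : ℝ) : ℂ)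
    + (b.2.2 : ℂ))

/-- square root of the scale of generation `j` -/
def sg (e : ℝ) (j : ℤ) : ℝ := e ^ (5 * j)

/-- inverse dilation -/
def scl (σ : ℝ) (y : ℂ × ℂ) : ℂ × ℂ := (y.1 / (σ : ℂ), y.2 / ((σ ^ 2 : ℝ) : ℂ))

/-- normalised chart coordinate `t` of generation `j` at `b` -/
def tc (e : ℝ) (j : ℤ) (b : ℤ × ℤ × ℤ) (y : ℂ × ℂ) : ℂ := chZ b (scl (sg e j) y) / (e : ℂ)

/-- normalised chart coordinate `s` of generation `j` at `b` -/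
def sc (e : ℝ) (j : ℤ) (b : ℤ × ℤ × ℤ) (y : ℂ × ℂ) : ℂ :=
  -I * chW b (scl (sg e j) y) / ((e ^ 2 : ℝ) : ℂ)

/-- `v = 2 / (1 + s)` -/
def vv (s : ℂ) : ℂ := 2 / (1 + s)

/-- first homogeneous coordinate -/
def PP (s : ℂ) : ℂ := 1 - vv s ^ 4

/-- second homogeneous coordinate -/
def QQ (t s : ℂ) : ℂ := vv s ^ 4 * (1000 * PP s * t - 1)

/-- the local potential -/
def psi0 (t s : ℂ) : ℝ := Real.log (‖PP s‖ ^ 2 + ‖QQ t s‖ ^ 2)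

/-- the local potential of generation `j` at `b` -/
def psi (e : ℝ) (j : ℤ) (b : ℤ × ℤ × ℤ) (y : ℂ × ℂ) : ℝ := psi0 (tc e j b y) (sc e j b y)

/-- the sum of all generations `≥ K` -/
def phi (e : ℝ) (K : ℤ) (y : ℂ × ℂ) : ℝ :=
  ∑' i : ℕ × (ℤ × ℤ × ℤ), psi e (K + (i.1 : ℤ)) i.2 y

/-- the potential of the line bundle -/
def phiL (e δ : ℝ) (N : ℕ) (K : ℤ) (y : ℂ × ℂ) : ℝ :=
  N * phi e K y + N * δ * (-Real.log (rho y))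

/-- the Hartogs domain -/
def M3 (e δ : ℝ) (N : ℕ) : Set ((ℂ × ℂ) × ℂ) :=
  {p | p.1 ∈ U2 ∧ ‖p.2‖ ^ 2 * Real.exp (phiL e δ N 0 p.1) < 1}

/-- the Kaehler potential on the Hartogs domain -/
def Pot (A e δ : ℝ) (N : ℕ) (p : (ℂ × ℂ) × ℂ) : ℝ :=
  A * (-Real.log (rho p.1)) - Real.log (1 - ‖p.2‖ ^ 2 * Real.exp (phiL e δ N 0 p.1))

/-- complex conjugation on `ℂ × ℂ` -/
def cj (y : ℂ × ℂ) : ℂ × ℂ := (starRingEnd ℂ y.1, starRingEnd ℂ y.2)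

/-- the automorphism-type parametrisation of the Siegel domain centred at `y0` (Cayley transform,
dilation, Heisenberg translation) -/
def gam (y0 x : ℂ × ℂ) : ℂ × ℂ :=
  (y0.1 + (Real.sqrt (rho y0) : ℂ) * x.1 / (1 + x.2),
   y0.2 - 2 * I * (rho y0 : ℂ) * x.2 / (1 + x.2)
     + 2 * I * starRingEnd ℂ y0.1 * (Real.sqrt (rho y0) : ℂ) * x.1 / (1 + x.2))

/-- `s`-coordinate along the parametrisation -/
def Sx (t0 s0 : ℂ) (m : ℝ) (x : ℂ × ℂ) : ℂ :=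
  s0 - 2 * (m : ℂ) ^ 2 * x.2 / (1 + x.2) + 2 * starRingEnd ℂ t0 * m * x.1 / (1 + x.2)

/-- `t`-coordinate along the parametrisation -/
def Tx (t0 : ℂ) (m : ℝ) (x : ℂ × ℂ) : ℂ := t0 + m * x.1 / (1 + x.2)

/-- `P` along the parametrisation -/
def Px (t0 s0 : ℂ) (m : ℝ) (x : ℂ × ℂ) : ℂ := PP (Sx t0 s0 m x)

/-- `Q` along the parametrisation -/
def Qx (t0 s0 : ℂ) (m : ℝ) (x : ℂ × ℂ) : ℂ := QQ (Tx t0 m x) (Sx t0 s0 m x)

/-- polarised `|P|^2 + |Q|^2` -/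
def BB (t0 s0 : ℂ) (m : ℝ) (x y : ℂ × ℂ) : ℂ :=
  Px t0 s0 m x * Px (starRingEnd ℂ t0) (starRingEnd ℂ s0) m y
    + Qx t0 s0 m x * Qx (starRingEnd ℂ t0) (starRingEnd ℂ s0) m y

/-- normalised affine coordinate -/
def chi (t0 s0 : ℂ) (m : ℝ) (x : ℂ × ℂ) : ℂ :=
  (Px t0 s0 m x * Qx t0 s0 m 0 - Qx t0 s0 m x * Px t0 s0 m 0) / BB t0 s0 m x 0

end

end P250
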