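import Mathlib
import Vale.Agent.Lib.P250.Defs

/-! # P250 module H3: the exhaustion function (definition) -/

open scoped ContDiff
open Complex Metric Set

namespace P250

/-- the exhaustion function -/
noncomputable def kexh (e δ : ℝ) (N : ℕ) (p : (ℂ × ℂ) × ℂ) : ℝ :=
  Real.log (‖p.1.2 + I‖ ^ 2 / rho p.1) - Real.log (1 - ‖p.2‖ ^ 2 * Real.exp (phiL e δ N 0 p.1))

end P250
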