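import Mathlib
import Vale.Agent.Lib.P250.HB
import Vale.Agent.Lib.P250.HCdefs

/-! # P250 module H3: the exhaustion function is smooth and Lipschitz -/

open scoped ContDiff
open Complex Metric Set

namespace P250

private lemma HC_rho_deriv (y : ℂ × ℂ) :
    HasFDerivAt rho (Complex.imCLM.comp (ContinuousLinearMap.snd ℝ ℂ ℂ) -
      (2 • (innerSL ℝ y.1)).comp (ContinuousLinearMap.fst ℝ ℂ ℂ)) y := by
  have h1 : HasFDerivAt (fun y : ℂ × ℂ => y.2.im)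
      (Complex.imCLM.comp (ContinuousLinearMap.snd ℝ ℂ ℂ)) y :=
    (Complex.imCLM.comp (ContinuousLinearMap.snd ℝ ℂ ℂ)).hasFDerivAt
  have h2 : HasFDerivAt (fun y : ℂ × ℂ => ‖y.1‖ ^ 2)
      ((2 • (innerSL ℝ y.1)).comp (ContinuousLinearMap.fst ℝ ℂ ℂ)) y :=
    (hasStrictFDerivAt_norm_sq y.1).hasFDerivAt.comp y hasFDerivAt_fst
  exact h1.sub h2

private lemma HC_rho_smooth : ContDiff ℝ ∞ rho := by
  have h1 : ContDiff ℝ ∞ (fun y : ℂ × ℂ => y.2.im) :=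
    (Complex.imCLM.comp (ContinuousLinearMap.snd ℝ ℂ ℂ)).contDiff
  have h2 : ContDiff ℝ ∞ (fun y : ℂ × ℂ => ‖y.1‖ ^ 2) :=
    (contDiff_norm_sq ℝ).comp contDiff_fst
  exact h1.sub h2

private lemma HC_w_ne {y : ℂ × ℂ} (hy : y ∈ U2) : y.2 + I ≠ 0 := by
  intro h
  have h1 : 0 < rho y := hy
  have h2 := congrArg Complex.im h
  simp only [add_im, I_im, zero_im] at h2
  unfold rho at h1
  nlinarith [sq_nonneg ‖y.1‖]

theorem kexh_smooth {e δ : ℝ} (N : ℕ) (he : 0 < e) (he1 : e < 1) (hδ : 0 < δ) :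
    ContDiffOn ℝ 1 (kexh e δ N) (M3 e δ N) := by
  have hphi := phiL_smooth (e := e) (δ := δ) N he he1 hδ
  have hmap : MapsTo (fun p : (ℂ × ℂ) × ℂ => p.1) (M3 e δ N) U2 := fun p hp => hp.1
  have h1 : ContDiffOn ℝ 1 (fun p : (ℂ × ℂ) × ℂ => phiL e δ N 0 p.1) (M3 e δ N) :=
    (hphi.of_le (by exact_mod_cast le_top)).comp contDiff_fst.contDiffOn hmap
  have h2 : ContDiffOn ℝ 1 (fun p : (ℂ × ℂ) × ℂ => rho p.1) (M3 e δ N) :=
    ((HC_rho_smooth.of_le (by exact_mod_cast le_top)).comp contDiff_fst).contDiffOn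
  have h3 : ContDiffOn ℝ 1 (fun p : (ℂ × ℂ) × ℂ => ‖p.1.2 + I‖ ^ 2) (M3 e δ N) := by
    have : ContDiff ℝ 1 (fun p : (ℂ × ℂ) × ℂ => p.1.2 + I) :=
      (contDiff_snd.comp contDiff_fst).add contDiff_const
    exact ((contDiff_norm_sq ℝ).comp this).contDiffOn
  have h4 : ContDiffOn ℝ 1 (fun p : (ℂ × ℂ) × ℂ => ‖p.2‖ ^ 2) (M3 e δ N) :=
    ((contDiff_norm_sq ℝ).comp contDiff_snd).contDiffOn
  have h5 : ContDiffOn ℝ 1 (fun p : (ℂ × ℂ) × ℂ => Real.log (‖p.1.2 + I‖ ^ 2 / rho p.1))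
      (M3 e δ N) := by
    refine (h3.div h2 fun p hp => ?_).log fun p hp => ?_
    · exact (hp.1 : 0 < rho p.1).ne'
    · have h6 : 0 < rho p.1 := hp.1
      have h7 : 0 < ‖p.1.2 + I‖ := norm_pos_iff.2 (HC_w_ne hp.1)
      exact (div_pos (pow_pos h7 2) h6).ne'
  have h6 : ContDiffOn ℝ 1 (fun p : (ℂ × ℂ) × ℂ =>
      Real.log (1 - ‖p.2‖ ^ 2 * Real.exp (phiL e δ N 0 p.1))) (M3 e δ N) := by
    refine (contDiffOn_const.sub (h4.mul h1.exp)).log fun p hp => ?_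
    have h7 := hp.2
    exact (by linarith : (0 : ℝ) < 1 - ‖p.2‖ ^ 2 * Real.exp (phiL e δ N 0 p.1)).ne'
  exact h5.sub h6

private lemma le_of_sq_le_sq' {a b : ℝ} (h : a ^ 2 ≤ b ^ 2) (hb : 0 ≤ b) : a ≤ b := by
  by_contra hc
  push Not at hc
  nlinarith

private lemma HC_line {E : Type*} [NormedAddCommGroup E] [NormedSpace ℝ E] {f : E → ℝ}
    {L : E →L[ℝ] ℝ} {p : E} (h : HasFDerivAt f L p) (u : E) :
    HasDerivAt (fun t : ℝ => f (p + t • u)) (L u) 0 := by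
  have hl : HasDerivAt (fun t : ℝ => p + t • u) u 0 := by
    simpa using ((hasDerivAt_id (0 : ℝ)).smul_const u).const_add p
  have h' : HasFDerivAt f L (p + (0 : ℝ) • u) := by simpa using h
  exact h'.comp_hasDerivAt (0 : ℝ) hl

private lemma HC_base {y ξ : ℂ × ℂ} (hy : y ∈ U2) :
    |2 * inner ℝ (y.2 + I) ξ.2 / ‖y.2 + I‖ ^ 2 - (ξ.2.im - 2 * inner ℝ y.1 ξ.1) / rho y| ≤
      8 * Real.sqrt (potMetric (fun y : ℂ × ℂ => -Real.log (rho y)) y ξ ξ) := by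
  have hr : 0 < rho y := hy
  rw [potMetric_logrho hy ξ]
  set η : ℂ := ξ.2 / (2 * I) - starRingEnd ℂ y.1 * ξ.1 with hη
  set S : ℝ := Real.sqrt (‖η‖ ^ 2 / rho y ^ 2 + ‖ξ.1‖ ^ 2 / rho y) with hS
  have hS0 : 0 ≤ S := Real.sqrt_nonneg _
  have hS2 : S ^ 2 = ‖η‖ ^ 2 / rho y ^ 2 + ‖ξ.1‖ ^ 2 / rho y :=
    Real.sq_sqrt (by positivity)
  have hA : ‖η‖ ≤ S * rho y := by
    have h1 : ‖η‖ ^ 2 ≤ (S * rho y) ^ 2 := by
      rw [mul_pow, hS2]
      have h2 : (‖η‖ ^ 2 / rho y ^ 2 + ‖ξ.1‖ ^ 2 / rho y) * rho y ^ 2 =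
          ‖η‖ ^ 2 + ‖ξ.1‖ ^ 2 * rho y := by field_simp
      rw [h2]
      nlinarith [mul_nonneg (sq_nonneg ‖ξ.1‖) hr.le]
    exact le_of_sq_le_sq' h1 (by positivity)
  have hB : ‖ξ.1‖ ≤ S * Real.sqrt (rho y) := by
    have h1 : ‖ξ.1‖ ^ 2 ≤ (S * Real.sqrt (rho y)) ^ 2 := by
      rw [mul_pow, hS2, Real.sq_sqrt hr.le]
      have h2 : (‖η‖ ^ 2 / rho y ^ 2 + ‖ξ.1‖ ^ 2 / rho y) * rho y =
          ‖η‖ ^ 2 / rho y + ‖ξ.1‖ ^ 2 := by field_simp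
      rw [h2]
      have : 0 ≤ ‖η‖ ^ 2 / rho y := by positivity
      linarith
    exact le_of_sq_le_sq' h1 (by positivity)
  have hξ2 : ξ.2 = 2 * I * (η + starRingEnd ℂ y.1 * ξ.1) := by
    rw [hη]
    have : (2 * I : ℂ) ≠ 0 := by simp
    field_simp
    ring
  have him : ξ.2.im - 2 * inner ℝ y.1 ξ.1 = 2 * η.re := by
    rw [hη]
    have h1 : (ξ.2 / (2 * I)).re = ξ.2.im / 2 := by
      rw [show ξ.2 / (2 * I) = ξ.2 * (-I) / 2 by
        field_simp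
        rw [I_sq]; ring]
      rw [show (2 : ℂ) = ((2 : ℝ) : ℂ) by norm_num, Complex.div_ofReal_re]
      simp
    rw [Complex.sub_re, h1, Complex.inner]
    ring_nf
  have hn : ‖ξ.2‖ ≤ 2 * ‖η‖ + 2 * (‖y.1‖ * ‖ξ.1‖) := by
    rw [hξ2, norm_mul]
    have h1 : ‖(2 * I : ℂ)‖ = 2 := by simp
    rw [h1]
    have h2 := norm_add_le η (starRingEnd ℂ y.1 * ξ.1)
    rw [norm_mul, RCLike.norm_conj] at h2
    linarith
  have hw : rho y + ‖y.1‖ ^ 2 + 1 ≤ ‖y.2 + I‖ := by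
    have h1 := Complex.abs_im_le_norm (y.2 + I)
    have h2 : (y.2 + I).im = rho y + ‖y.1‖ ^ 2 + 1 := by
      simp [rho]
    rw [h2] at h1
    exact le_trans (le_abs_self _) h1
  set W : ℝ := ‖y.2 + I‖ with hW
  have hW0 : 0 < W := by nlinarith [sq_nonneg ‖y.1‖]
  have hq : 0 ≤ Real.sqrt (rho y) := Real.sqrt_nonneg _
  have hq2 : Real.sqrt (rho y) ^ 2 = rho y := Real.sq_sqrt hr.le
  have hin : |inner ℝ (y.2 + I) ξ.2| ≤ W * ‖ξ.2‖ := abs_real_inner_le_norm _ _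
  have h3 : |2 * inner ℝ (y.2 + I) ξ.2 / W ^ 2| ≤ 2 * ‖ξ.2‖ / W := by
    rw [abs_div, abs_mul, abs_of_pos (by positivity : (0:ℝ) < W ^ 2), abs_two,
      div_le_div_iff₀ (by positivity) hW0]
    nlinarith [mul_le_mul_of_nonneg_right hin hW0.le]
  have h4 : 2 * ‖ξ.2‖ / W ≤ 6 * S := by
    rw [div_le_iff₀ hW0]
    have h5 : ‖y.1‖ * ‖ξ.1‖ ≤ S * (‖y.1‖ * Real.sqrt (rho y)) := by
      have := mul_le_mul_of_nonneg_left hB (norm_nonneg y.1)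
      linarith [this]
    have h6 : 2 * (‖y.1‖ * Real.sqrt (rho y)) ≤ W := by
      nlinarith [sq_nonneg (‖y.1‖ - Real.sqrt (rho y))]
    have h7 : S * rho y ≤ S * W := by
      apply mul_le_mul_of_nonneg_left _ hS0
      nlinarith [sq_nonneg ‖y.1‖]
    nlinarith [mul_le_mul_of_nonneg_left h6 hS0]
  have h8 : |(ξ.2.im - 2 * inner ℝ y.1 ξ.1) / rho y| ≤ 2 * S := by
    rw [him, abs_div, abs_of_pos hr, div_le_iff₀ hr, abs_mul, abs_two]
    have := Complex.abs_re_le_norm η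
    linarith
  have h9 := abs_sub (2 * inner ℝ (y.2 + I) ξ.2 / W ^ 2)
    ((ξ.2.im - 2 * inner ℝ y.1 ξ.1) / rho y)
  linarith

theorem kexh_lip {A e δ : ℝ} (N : ℕ) (hA : 0 < A) (he : 0 < e) (he1 : e < 1) (hδ : 0 < δ) :
    ∃ C : ℝ, ∀ p ∈ M3 e δ N, ∀ u, |fderiv ℝ (kexh e δ N) p u| ≤
      C * Real.sqrt (potMetric (Pot A e δ N) p u u) := by
  refine ⟨8 / Real.sqrt A + 2, fun p hp u => ?_⟩
  have hp1 : p.1 ∈ U2 := hp.1
  have hr : 0 < rho p.1 := hp.1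
  have hT : ‖p.2‖ ^ 2 * Real.exp (phiL e δ N 0 p.1) < 1 := hp.2
  have hwn : p.1.2 + I ≠ 0 := HC_w_ne hp1
  have hW : 0 < ‖p.1.2 + I‖ := norm_pos_iff.2 hwn
  -- derivatives
  have hphi : HasFDerivAt (phiL e δ N 0) (fderiv ℝ (phiL e δ N 0) p.1) p.1 := by
    have h := phiL_smooth (e := e) (δ := δ) N he he1 hδ
    exact ((h.contDiffAt (U2_open.mem_nhds hp1)).differentiableAt (by simp)).hasFDerivAt
  have hfst : HasFDerivAt (fun p : (ℂ × ℂ) × ℂ => p.1)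
      (ContinuousLinearMap.fst ℝ (ℂ × ℂ) ℂ) p := hasFDerivAt_fst
  have hsnd : HasFDerivAt (fun p : (ℂ × ℂ) × ℂ => p.2)
      (ContinuousLinearMap.snd ℝ (ℂ × ℂ) ℂ) p := hasFDerivAt_snd
  have hw2 : HasFDerivAt (fun p : (ℂ × ℂ) × ℂ => p.1.2 + I)
      ((ContinuousLinearMap.snd ℝ ℂ ℂ).comp (ContinuousLinearMap.fst ℝ (ℂ × ℂ) ℂ)) p :=
    (((ContinuousLinearMap.snd ℝ ℂ ℂ).comp
      (ContinuousLinearMap.fst ℝ (ℂ × ℂ) ℂ)).hasFDerivAt (x := p)).add_const I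
  have e1 := HC_line (hphi.comp p hfst) u
  have e2 := HC_line ((HC_rho_deriv p.1).comp p hfst) u
  have e3 := HC_line ((hasStrictFDerivAt_norm_sq (p.1.2 + I)).hasFDerivAt.comp p hw2) u
  have e4 := HC_line ((hasStrictFDerivAt_norm_sq p.2).hasFDerivAt.comp p hsnd) u
  simp only [ContinuousLinearMap.comp_apply, _root_.sub_apply,
    _root_.smul_apply, innerSL_apply_apply, ContinuousLinearMap.coe_fst',
    ContinuousLinearMap.coe_snd', Complex.imCLM_apply, nsmul_eq_mul, Nat.cast_ofNat,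
    Function.comp_def] at e1 e2 e3 e4
  have hk : HasFDerivAt (kexh e δ N) (fderiv ℝ (kexh e δ N) p) p := by
    have h := kexh_smooth (e := e) (δ := δ) N he he1 hδ
    exact ((h.contDiffAt ((M3_open N he he1 hδ).mem_nhds hp)).differentiableAt
      (by simp)).hasFDerivAt
  have e5 := HC_line hk u
  have hq : rho (p + (0 : ℝ) • u).1 ≠ 0 := by simpa using hr.ne'
  have hq2 : ‖(p + (0 : ℝ) • u).1.2 + I‖ ^ 2 / rho (p + (0 : ℝ) • u).1 ≠ 0 := by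
    simpa using ⟨hwn, hr.ne'⟩
  have hq3 : 1 - ‖(p + (0 : ℝ) • u).2‖ ^ 2 * Real.exp (phiL e δ N 0 (p + (0 : ℝ) • u).1) ≠ 0 := by
    simp only [zero_smul, add_zero]
    linarith
  have e6 := ((e3.div e2 hq).log hq2).sub (((hasDerivAt_const (0 : ℝ) (1 : ℝ)).sub
    (e4.mul e1.exp)).log hq3)
  have e7 : HasDerivAt (fun t : ℝ => kexh e δ N (p + t • u)) _ 0 := e6
  have e8 := e5.unique e7
  simp only [zero_smul, add_zero, Pi.div_apply, Pi.sub_apply, Pi.mul_apply] at e8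
  -- the base part
  have hbase := HC_base (y := p.1) (ξ := u.1) hp1
  have hm0 : 0 ≤ potMetric (fun y : ℂ × ℂ => -Real.log (rho y)) p.1 u.1 u.1 := by
    rw [potMetric_logrho hp1]
    positivity
  have hmL : 0 ≤ potMetric (phiL e δ N 0) p.1 u.1 u.1 :=
    le_trans (by positivity) (phiL_psh N he he1 hδ hp1 u.1)
  have hPot := Pot_metric (A := A) N he he1 hδ hp u
  set m0 : ℝ := potMetric (fun y : ℂ × ℂ => -Real.log (rho y)) p.1 u.1 u.1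
  set mL : ℝ := potMetric (phiL e δ N 0) p.1 u.1 u.1
  set F : ℝ := fderiv ℝ (phiL e δ N 0) p.1 u.1 with hF
  set E : ℝ := Real.exp (phiL e δ N 0 p.1)
  have hE : 0 < E := Real.exp_pos _
  set V : ℂ := u.2 + p.2 * delta10 (phiL e δ N 0) p.1 u.1 with hV
  have hin : inner ℝ p.2 V = inner ℝ p.2 u.2 + ‖p.2‖ ^ 2 * F / 2 := by
    have h1 : (delta10 (phiL e δ N 0) p.1 u.1).re = F / 2 := by
      unfold delta10
      simp
      ring
    rw [hV, inner_add_right]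
    congr 1
    rw [Complex.inner]
    have h2 : p.2 * delta10 (phiL e δ N 0) p.1 u.1 * starRingEnd ℂ p.2 =
        ((‖p.2‖ ^ 2 : ℝ) : ℂ) * delta10 (phiL e δ N 0) p.1 u.1 := by
      have h3 : p.2 * starRingEnd ℂ p.2 = ((‖p.2‖ ^ 2 : ℝ) : ℂ) := by
        rw [Complex.mul_conj, Complex.normSq_eq_norm_sq]
      rw [← h3]
      ring
    rw [h2, Complex.re_ofReal_mul, h1]
    ring
  set T : ℝ := ‖p.2‖ ^ 2 * E with hTd
  have hT0 : 0 ≤ T := by positivity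
  have h1T : 0 < 1 - T := by linarith
  have hval : fderiv ℝ (kexh e δ N) p u =
      (2 * inner ℝ (p.1.2 + I) u.1.2 / ‖p.1.2 + I‖ ^ 2 -
        (u.1.2.im - 2 * inner ℝ p.1.1 u.1.1) / rho p.1) + 2 * E * inner ℝ p.2 V / (1 - T) := by
    rw [e8, hin]
    have hW' := hW.ne'
    have hr' := hr.ne'
    have h1T' := h1T.ne'
    field_simp
    ring
  have hvert : |2 * E * inner ℝ p.2 V / (1 - T)| ≤
      2 * Real.sqrt (E / (1 - T) ^ 2 * ‖V‖ ^ 2) := by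
    have h1 : |inner ℝ p.2 V| ≤ ‖p.2‖ * ‖V‖ := abs_real_inner_le_norm _ _
    have h2 : |2 * E * inner ℝ p.2 V / (1 - T)| ≤ 2 * (E * ‖p.2‖ * ‖V‖ / (1 - T)) := by
      rw [abs_div, abs_of_pos h1T, abs_mul, abs_of_pos (by positivity : (0 : ℝ) < 2 * E),
        div_le_iff₀ h1T]
      have h3 : 2 * (E * ‖p.2‖ * ‖V‖ / (1 - T)) * (1 - T) = 2 * E * (‖p.2‖ * ‖V‖) := by
        field_simp
      rw [h3]
      exact mul_le_mul_of_nonneg_left h1 (by positivity)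
    refine le_trans h2 ?_
    refine mul_le_mul_of_nonneg_left ?_ (by norm_num)
    refine Real.le_sqrt_of_sq_le ?_
    have h4 : (E * ‖p.2‖ * ‖V‖ / (1 - T)) ^ 2 = T * (E / (1 - T) ^ 2 * ‖V‖ ^ 2) := by
      rw [hTd]
      field_simp
    rw [h4]
    have h5 : 0 ≤ E / (1 - T) ^ 2 * ‖V‖ ^ 2 := by positivity
    nlinarith
  set M : ℝ := potMetric (Pot A e δ N) p u u
  have hvv : 0 ≤ E / (1 - T) ^ 2 * ‖V‖ ^ 2 := by positivity
  have hmid : 0 ≤ T / (1 - T) * mL := by positivity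
  have hM1 : m0 ≤ M / A := by
    rw [le_div_iff₀ hA]
    linarith [mul_comm A m0]
  have hM2 : E / (1 - T) ^ 2 * ‖V‖ ^ 2 ≤ M := by
    have : 0 ≤ A * m0 := by positivity
    linarith
  have hs1 : Real.sqrt m0 ≤ Real.sqrt M / Real.sqrt A := by
    rw [← Real.sqrt_div' M hA.le]
    exact Real.sqrt_le_sqrt hM1
  have hs2 := Real.sqrt_le_sqrt hM2
  rw [hval]
  have htri := abs_add_le (2 * inner ℝ (p.1.2 + I) u.1.2 / ‖p.1.2 + I‖ ^ 2 -
        (u.1.2.im - 2 * inner ℝ p.1.1 u.1.1) / rho p.1) (2 * E * inner ℝ p.2 V / (1 - T))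
  have hfin : (8 / Real.sqrt A + 2) * Real.sqrt M =
      8 * (Real.sqrt M / Real.sqrt A) + 2 * Real.sqrt M := by ring
  rw [hfin]
  linarith

end P250
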