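import Vale.Agent.Lib.P250.NF5

/-! # P250 module G13b: phiL is smooth -/

open scoped ContDiff
open Complex Metric Set

namespace P250

/-- explicit local inverse of `gam y0` -/
noncomputable def bpbInv (y0 y : ℂ × ℂ) : ℂ × ℂ :=
  ((y.1 - y0.1) / (Real.sqrt (rho y0) : ℂ) /
      (1 - I * ((y.2 - y0.2 - 2 * I * starRingEnd ℂ y0.1 * (y.1 - y0.1)) / (rho y0 : ℂ)) / 2),
   (I * ((y.2 - y0.2 - 2 * I * starRingEnd ℂ y0.1 * (y.1 - y0.1)) / (rho y0 : ℂ)) / 2) /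
      (1 - I * ((y.2 - y0.2 - 2 * I * starRingEnd ℂ y0.1 * (y.1 - y0.1)) / (rho y0 : ℂ)) / 2))

theorem bpbInv_self (y0 : ℂ × ℂ) : bpbInv y0 y0 = 0 := by
  simp [bpbInv]

theorem gam_bpbInv {y0 y : ℂ × ℂ} (hy0 : y0 ∈ U2)
    (h : 1 - I * ((y.2 - y0.2 - 2 * I * starRingEnd ℂ y0.1 * (y.1 - y0.1)) / (rho y0 : ℂ)) / 2 ≠ 0) :
    gam y0 (bpbInv y0 y) = y := by
  have hρ : 0 < rho y0 := hy0
  have hs : (Real.sqrt (rho y0) : ℂ) ≠ 0 := by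
    exact_mod_cast (Real.sqrt_pos.mpr hρ).ne'
  have hr : (rho y0 : ℂ) ≠ 0 := by exact_mod_cast hρ.ne'
  set W := (y.2 - y0.2 - 2 * I * starRingEnd ℂ y0.1 * (y.1 - y0.1)) / (rho y0 : ℂ) with hW
  have hW' : (rho y0 : ℂ) * W = y.2 - y0.2 - 2 * I * starRingEnd ℂ y0.1 * (y.1 - y0.1) := by
    rw [hW]; field_simp
  have h1 : 1 + (bpbInv y0 y).2 = 1 / (1 - I * W / 2) := by
    simp only [bpbInv, ← hW]
    rw [eq_div_iff h, add_mul, div_mul_cancel₀ _ h]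
    ring
  have h2 : (bpbInv y0 y).1 / (1 + (bpbInv y0 y).2) = (y.1 - y0.1) / (Real.sqrt (rho y0) : ℂ) := by
    rw [h1]
    simp only [bpbInv, ← hW]
    rw [div_div_eq_mul_div, div_one, div_mul_cancel₀ _ h]
  have h3 : (bpbInv y0 y).2 / (1 + (bpbInv y0 y).2) = I * W / 2 := by
    rw [h1]
    simp only [bpbInv, ← hW]
    rw [div_div_eq_mul_div, div_one, div_mul_cancel₀ _ h]
  have e1 : (gam y0 (bpbInv y0 y)).1 = y0.1 + (Real.sqrt (rho y0) : ℂ) *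
      ((bpbInv y0 y).1 / (1 + (bpbInv y0 y).2)) := by simp only [gam]; ring
  have e2 : (gam y0 (bpbInv y0 y)).2 = y0.2 - 2 * I * (rho y0 : ℂ) *
      ((bpbInv y0 y).2 / (1 + (bpbInv y0 y).2)) + 2 * I * starRingEnd ℂ y0.1 *
      ((Real.sqrt (rho y0) : ℂ) * ((bpbInv y0 y).1 / (1 + (bpbInv y0 y).2))) := by
    simp only [gam]; ring
  have hsq : (Real.sqrt (rho y0) : ℂ) * ((y.1 - y0.1) / (Real.sqrt (rho y0) : ℂ)) = y.1 - y0.1 := by
    field_simp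
  refine Prod.ext ?_ ?_
  · rw [e1, h2, hsq]; ring
  · rw [e2, h3, h2, hsq]
    have hI : I * I = -1 := Complex.I_mul_I
    linear_combination (-(rho y0 : ℂ) * W) * hI + hW'

theorem phiL_smooth {e δ : ℝ} (N : ℕ) (he : 0 < e) (he1 : e < 1) (hδ : 0 < δ) :
    ContDiffOn ℝ ∞ (phiL e δ N 0) U2 := by
  obtain ⟨r0, hr0, hr1, hNF⟩ := exists_NF
  obtain ⟨C0, hC0, hNF⟩ := hNF e δ N he he1 hδ
  intro y0 hy0
  obtain ⟨h, fh, H⟩ := hNF y0 hy0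
  apply ContDiffAt.contDiffWithinAt
  have hρ : 0 < rho y0 := hy0
  have hden : (1 - I * ((y0.2 - y0.2 - 2 * I * starRingEnd ℂ y0.1 * (y0.1 - y0.1)) /
      (rho y0 : ℂ)) / 2) ≠ 0 := by simp
  have hs : (Real.sqrt (rho y0) : ℂ) ≠ 0 := by
    exact_mod_cast (Real.sqrt_pos.mpr hρ).ne'
  have hr : (rho y0 : ℂ) ≠ 0 := by exact_mod_cast hρ.ne'
  have hdenc : ContDiff ℂ ∞ (fun y : ℂ × ℂ => (1 - I * ((y.2 - y0.2 - 2 * I * starRingEnd ℂ y0.1 *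
      (y.1 - y0.1)) / (rho y0 : ℂ)) / 2)) := by fun_prop
  have hinv : ContDiffAt ℂ ∞ (bpbInv y0) y0 := by
    unfold bpbInv
    refine ContDiffAt.prodMk ?_ ?_
    · exact ContDiffAt.div (by fun_prop) hdenc.contDiffAt hden
    · exact ContDiffAt.div (by fun_prop) hdenc.contDiffAt hden
  have hinvR : ContDiffAt ℝ ∞ (bpbInv y0) y0 := hinv.restrict_scalars ℝ
  have hball : ∀ᶠ y in nhds y0, bpbInv y0 y ∈ ball (0 : ℂ × ℂ) r0 := by
    have hc := hinvR.continuousAt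
    have : ball (0 : ℂ × ℂ) r0 ∈ nhds (bpbInv y0 y0) := by
      rw [bpbInv_self]; exact ball_mem_nhds _ hr0
    exact hc this
  have hne : ∀ᶠ y in nhds y0, (1 - I * ((y.2 - y0.2 - 2 * I * starRingEnd ℂ y0.1 *
      (y.1 - y0.1)) / (rho y0 : ℂ)) / 2) ≠ 0 :=
    hdenc.continuous.continuousAt.eventually_ne hden
  have hev : phiL e δ N 0 =ᶠ[nhds y0] fun y => 2 * (h (bpbInv y0 y)).re +
      (fh (bpbInv y0 y, cj (bpbInv y0 y))).re := by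
    filter_upwards [hball, hne] with y hy1 hy2
    rw [← H.decomp _ hy1, gam_bpbInv hy0 hy2]
  refine ContDiffAt.congr_of_eventuallyEq ?_ hev
  have h0 : bpbInv y0 y0 ∈ ball (0 : ℂ × ℂ) r0 := by
    rw [bpbInv_self]; exact mem_ball_self hr0
  have hh : ContDiffAt ℝ ∞ h (bpbInv y0 y0) :=
    (H.h_smooth.contDiffAt (isOpen_ball.mem_nhds h0)).restrict_scalars ℝ
  have hf0 : ((bpbInv y0 y0, cj (bpbInv y0 y0)) : (ℂ × ℂ) × (ℂ × ℂ)) ∈
      ball (0 : (ℂ × ℂ) × (ℂ × ℂ)) r0 := by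
    rw [bpbInv_self]
    have : cj (0 : ℂ × ℂ) = 0 := by simp [cj]
    rw [this]
    exact mem_ball_self hr0
  have hf : ContDiffAt ℝ ∞ fh (bpbInv y0 y0, cj (bpbInv y0 y0)) :=
    (H.f_smooth.contDiffAt (isOpen_ball.mem_nhds hf0)).restrict_scalars ℝ
  have hcj : ContDiff ℝ ∞ cj := by
    unfold cj
    exact (Complex.conjCLE.contDiff.comp contDiff_fst).prodMk
      (Complex.conjCLE.contDiff.comp contDiff_snd)
  have hre : ContDiff ℝ ∞ Complex.re := Complex.reCLM.contDiff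
  have t1 : ContDiffAt ℝ ∞ (fun y => (h (bpbInv y0 y)).re) y0 :=
    hre.contDiffAt.comp y0 (hh.comp y0 hinvR)
  have t2 : ContDiffAt ℝ ∞ (fun y => (fh (bpbInv y0 y, cj (bpbInv y0 y))).re) y0 := by
    refine hre.contDiffAt.comp y0 ?_
    have : ContDiffAt ℝ ∞ (fun y => ((bpbInv y0 y, cj (bpbInv y0 y)) : (ℂ × ℂ) × (ℂ × ℂ))) y0 :=
      hinvR.prodMk (hcj.contDiffAt.comp y0 hinvR)
    exact ContDiffAt.comp y0 hf this
  exact (contDiffAt_const.mul t1).add t2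

end P250
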