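import Mathlib
import Vale.Agent.Lib.P250.BPB
import Vale.Agent.Lib.P250.HCdefs

/-! # P250 module H4: the exhaustion function is proper -/

open scoped ContDiff
open Complex Metric Set

namespace P250

private theorem hd_rho_cont : Continuous rho := by
  unfold rho
  fun_prop

/-- basic estimates on the sublevel set -/
private theorem hd_base {y : ℂ × ℂ} (hy : y ∈ U2) {c : ℝ}
    (h : ‖y.2 + I‖ ^ 2 / rho y ≤ Real.exp c) :
    Real.exp (-c) ≤ rho y ∧ ‖y.2‖ ≤ Real.exp c + 1 ∧ ‖y.1‖ ^ 2 ≤ Real.exp c := by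
  have hr : 0 < rho y := hy
  have hec := Real.exp_pos c
  have h1 : ‖y.2 + I‖ ^ 2 ≤ Real.exp c * rho y := (div_le_iff₀ hr).mp h
  have him : (y.2 + I).im = y.2.im + 1 := by simp
  have h2 : y.2.im + 1 ≤ ‖y.2 + I‖ := by
    rw [← him]
    exact (le_abs_self _).trans (Complex.abs_im_le_norm _)
  have hrho : rho y = y.2.im - ‖y.1‖ ^ 2 := rfl
  have hz : 0 ≤ ‖y.1‖ ^ 2 := by positivity
  have himpos : 0 < y.2.im := by linarith
  have hle : rho y ≤ ‖y.2 + I‖ := by linarith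
  have hnpos : 1 ≤ ‖y.2 + I‖ := by linarith
  have h3 : ‖y.2 + I‖ ≤ Real.exp c := by
    have h4 : ‖y.2 + I‖ * ‖y.2 + I‖ ≤ Real.exp c * ‖y.2 + I‖ := by
      calc ‖y.2 + I‖ * ‖y.2 + I‖ = ‖y.2 + I‖ ^ 2 := by ring
        _ ≤ Real.exp c * rho y := h1
        _ ≤ Real.exp c * ‖y.2 + I‖ := mul_le_mul_of_nonneg_left hle hec.le
    exact le_of_mul_le_mul_right h4 (by linarith)
  refine ⟨?_, ?_, ?_⟩
  · rw [Real.exp_neg, inv_le_iff_one_le_mul₀ hec]
    have h5 : 1 ≤ ‖y.2 + I‖ ^ 2 := by nlinarith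
    linarith
  · have h6 : ‖y.2‖ ≤ ‖y.2 + I‖ + ‖(I : ℂ)‖ := by
      have := norm_sub_le (y.2 + I) I
      simpa using this
    have h7 : ‖(I : ℂ)‖ = 1 := by simp
    linarith
  · linarith

theorem kexh_compact {e δ : ℝ} (N : ℕ) (he : 0 < e) (he1 : e < 1) (hδ : 0 < δ) (c : ℝ) :
    IsCompact {p | p ∈ M3 e δ N ∧ kexh e δ N p ≤ c} := by
  set K : Set (ℂ × ℂ) := {y | Real.exp (-c) ≤ rho y ∧ ‖y.2‖ ≤ Real.exp c + 1 ∧
    ‖y.1‖ ^ 2 ≤ Real.exp c} with hK
  have hKclosed : IsClosed K := by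
    have h1 : IsClosed {y : ℂ × ℂ | Real.exp (-c) ≤ rho y} :=
      isClosed_le continuous_const hd_rho_cont
    have h2 : IsClosed {y : ℂ × ℂ | ‖y.2‖ ≤ Real.exp c + 1} :=
      isClosed_le (by fun_prop) continuous_const
    have h3 : IsClosed {y : ℂ × ℂ | ‖y.1‖ ^ 2 ≤ Real.exp c} :=
      isClosed_le (by fun_prop) continuous_const
    exact h1.inter (h2.inter h3)
  have hKcomp : IsCompact K := by
    refine IsCompact.of_isClosed_subset
      ((isCompact_closedBall (0 : ℂ) (1 + Real.exp c)).prod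
        (isCompact_closedBall (0 : ℂ) (Real.exp c + 1))) hKclosed ?_
    rintro y ⟨-, h2, h3⟩
    refine ⟨?_, ?_⟩
    · simp only [mem_closedBall, dist_zero_right]
      nlinarith [norm_nonneg y.1]
    · simpa [mem_closedBall, dist_zero_right] using h2
  have hKU : K ⊆ U2 := by
    rintro y ⟨h1, -, -⟩
    exact (Real.exp_pos _).trans_le h1
  have hphi : ContinuousOn (phiL e δ N 0) U2 := (phiL_smooth N he he1 hδ).continuousOn
  have hphiK : ContinuousOn (phiL e δ N 0) K := hphi.mono hKU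
  obtain ⟨B, hB⟩ := hKcomp.bddBelow_image hphiK
  have hB' : ∀ y ∈ K, B ≤ phiL e δ N 0 y := fun y hy => hB ⟨y, hy, rfl⟩
  set Q : Set ((ℂ × ℂ) × ℂ) := K ×ˢ closedBall (0 : ℂ) (1 + Real.exp (-B)) with hQ
  have hQcomp : IsCompact Q := hKcomp.prod (isCompact_closedBall _ _)
  -- the function `1 - ‖v‖² exp φ`
  have hG : ContinuousOn
      (fun p : (ℂ × ℂ) × ℂ => 1 - ‖p.2‖ ^ 2 * Real.exp (phiL e δ N 0 p.1)) Q := by
    have h1 : ContinuousOn (fun p : (ℂ × ℂ) × ℂ => phiL e δ N 0 p.1) Q :=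
      hphiK.comp continuousOn_fst (fun p hp => hp.1)
    exact continuousOn_const.sub
      ((continuous_snd.norm.pow 2).continuousOn.mul (Real.continuous_exp.comp_continuousOn h1))
  set Q1 : Set ((ℂ × ℂ) × ℂ) :=
    Q ∩ (fun p : (ℂ × ℂ) × ℂ => 1 - ‖p.2‖ ^ 2 * Real.exp (phiL e δ N 0 p.1)) ⁻¹'
      (Ici (Real.exp (-c))) with hQ1
  have hQ1closed : IsClosed Q1 := hG.preimage_isClosed_of_isClosed hQcomp.isClosed isClosed_Ici
  have hQ1Q : Q1 ⊆ Q := inter_subset_left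
  have hkc : ContinuousOn (kexh e δ N) Q1 := by
    have h1 : ContinuousOn (fun p : (ℂ × ℂ) × ℂ => ‖p.1.2 + I‖ ^ 2 / rho p.1) Q1 := by
      refine ContinuousOn.div (by fun_prop) (hd_rho_cont.comp continuous_fst).continuousOn ?_
      intro p hp
      exact (hKU hp.1.1 : 0 < rho p.1).ne'
    have h2 : ContinuousOn (fun p : (ℂ × ℂ) × ℂ =>
        Real.log (‖p.1.2 + I‖ ^ 2 / rho p.1)) Q1 := by
      refine h1.log ?_
      intro p hp
      have hr : 0 < rho p.1 := hKU hp.1.1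
      have him : 0 < p.1.2.im := by
        have hrho : rho p.1 = p.1.2.im - ‖p.1.1‖ ^ 2 := rfl
        have hz : 0 ≤ ‖p.1.1‖ ^ 2 := by positivity
        linarith
      have hne : p.1.2 + I ≠ 0 := by
        intro h0
        have := congrArg Complex.im h0
        simp at this
        linarith
      have : 0 < ‖p.1.2 + I‖ := norm_pos_iff.mpr hne
      positivity
    have h3 : ContinuousOn (fun p : (ℂ × ℂ) × ℂ =>
        Real.log (1 - ‖p.2‖ ^ 2 * Real.exp (phiL e δ N 0 p.1))) Q1 := by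
      refine (hG.mono hQ1Q).log ?_
      intro p hp
      exact ((Real.exp_pos _).trans_le hp.2).ne'
    exact h2.sub h3
  have hfin : IsClosed (Q1 ∩ kexh e δ N ⁻¹' (Iic c)) :=
    hkc.preimage_isClosed_of_isClosed hQ1closed isClosed_Iic
  have heq : {p | p ∈ M3 e δ N ∧ kexh e δ N p ≤ c} = Q1 ∩ kexh e δ N ⁻¹' (Iic c) := by
    ext p
    constructor
    · rintro ⟨⟨hpU, hpv⟩, hpk⟩
      have hr : 0 < rho p.1 := hpU
      have hrho : rho p.1 = p.1.2.im - ‖p.1.1‖ ^ 2 := rfl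
      have hz : 0 ≤ ‖p.1.1‖ ^ 2 := by positivity
      have him : 0 < p.1.2.im := by linarith
      have h2 : p.1.2.im + 1 ≤ ‖p.1.2 + I‖ := by
        have him' : (p.1.2 + I).im = p.1.2.im + 1 := by simp
        rw [← him']
        exact (le_abs_self _).trans (Complex.abs_im_le_norm _)
      have hnpos : 1 ≤ ‖p.1.2 + I‖ := by linarith
      have hq1 : 1 ≤ ‖p.1.2 + I‖ ^ 2 / rho p.1 := by
        rw [one_le_div hr]
        nlinarith
      have hlog1 : 0 ≤ Real.log (‖p.1.2 + I‖ ^ 2 / rho p.1) := Real.log_nonneg hq1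
      have hvn : 0 ≤ ‖p.2‖ ^ 2 * Real.exp (phiL e δ N 0 p.1) := by positivity
      have hg0 : 0 < 1 - ‖p.2‖ ^ 2 * Real.exp (phiL e δ N 0 p.1) := by linarith
      have hlog2 : Real.log (1 - ‖p.2‖ ^ 2 * Real.exp (phiL e δ N 0 p.1)) ≤ 0 :=
        Real.log_nonpos hg0.le (by linarith)
      have hk : Real.log (‖p.1.2 + I‖ ^ 2 / rho p.1) -
        Real.log (1 - ‖p.2‖ ^ 2 * Real.exp (phiL e δ N 0 p.1)) ≤ c := hpk
      have hA : ‖p.1.2 + I‖ ^ 2 / rho p.1 ≤ Real.exp c :=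
        (Real.log_le_iff_le_exp (by linarith)).mp (by linarith)
      have hBd : Real.exp (-c) ≤ 1 - ‖p.2‖ ^ 2 * Real.exp (phiL e δ N 0 p.1) :=
        (Real.le_log_iff_exp_le hg0).mp (by linarith)
      have hpK : p.1 ∈ K := hd_base hpU hA
      refine ⟨⟨⟨hpK, ?_⟩, hBd⟩, hpk⟩
      have hb := hB' p.1 hpK
      have hE : Real.exp B ≤ Real.exp (phiL e δ N 0 p.1) := Real.exp_le_exp.mpr hb
      have hv2 : ‖p.2‖ ^ 2 * Real.exp B ≤ 1 := by
        have := mul_le_mul_of_nonneg_left hE (by positivity : (0 : ℝ) ≤ ‖p.2‖ ^ 2)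
        linarith
      have hv3 : ‖p.2‖ ^ 2 ≤ Real.exp (-B) := by
        rw [Real.exp_neg, ← one_div, le_div_iff₀ (Real.exp_pos B)]
        exact hv2
      simp only [mem_closedBall, dist_zero_right]
      nlinarith [norm_nonneg p.2]
    · rintro ⟨⟨⟨hpK, hpB⟩, hpG⟩, hpk⟩
      refine ⟨⟨hKU hpK, ?_⟩, hpk⟩
      have h1 : Real.exp (-c) ≤ 1 - ‖p.2‖ ^ 2 * Real.exp (phiL e δ N 0 p.1) := hpG
      have h2 := Real.exp_pos (-c)
      linarith
  rw [heq]
  exact hQcomp.of_isClosed_subset hfin (inter_subset_left.trans hQ1Q)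

end P250
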