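import Mathlib.Analysis.Calculus.ContDiff.FiniteDimension
import Mathlib.Analysis.Calculus.FDeriv.Symmetric
import Mathlib.Geometry.Manifold.IsManifold.Basic
import Mathlib.LinearAlgebra.Complex.FiniteDimensional
import Vale.Agent.Lib.P250.GeoDefs

/-! # P250 module G4a: potential metrics are Kaehler -/

open scoped ContDiff
open Complex Set

namespace P250

variable {E : Type*} [NormedAddCommGroup E] [NormedSpace ℂ E] [FiniteDimensional ℂ E]
variable {E' : Type*} [NormedAddCommGroup E'] [NormedSpace ℂ E'] [FiniteDimensional ℂ E']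

theorem potMetric_apply (Φ : E → ℝ) (p u v : E) :
    potMetric Φ p u v = (1 / 4 : ℝ) * (fderiv ℝ (fderiv ℝ Φ) p u v
      + fderiv ℝ (fderiv ℝ Φ) p (I • u) (I • v)) := by
  rfl

theorem potMetric_smooth {M : Set E} (hM : IsOpen M) {Φ : E → ℝ} (hΦ : ContDiffOn ℝ ∞ Φ M) :
    ContDiffOn ℝ ∞ (potMetric Φ) M := by
  have h1 : ContDiffOn ℝ ∞ (fderiv ℝ Φ) M := hΦ.fderiv_of_isOpen hM (by simp)
  have h2 : ContDiffOn ℝ ∞ (fderiv ℝ (fderiv ℝ Φ)) M := h1.fderiv_of_isOpen hM (by simp)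
  refine contDiffOn_clm_apply.2 fun x => contDiffOn_clm_apply.2 fun y => ?_
  have h3 : ∀ x y : E, ContDiffOn ℝ ∞ (fun p => fderiv ℝ (fderiv ℝ Φ) p x y) M := fun x y =>
    (h2.clm_apply contDiffOn_const).clm_apply contDiffOn_const
  have h4 : ContDiffOn ℝ ∞ (fun p => (1 / 4 : ℝ) * (fderiv ℝ (fderiv ℝ Φ) p x y
      + fderiv ℝ (fderiv ℝ Φ) p (I • x) (I • y))) M :=
    contDiffOn_const.mul ((h3 x y).add (h3 (I • x) (I • y)))
  exact h4

private theorem potA_snd_symm {F : Type*} [NormedAddCommGroup F] [NormedSpace ℝ F]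
    {M : Set E} (hM : IsOpen M) {f : E → F} (hf : ContDiffOn ℝ ∞ f M)
    {p : E} (hp : p ∈ M) (u v : E) :
    fderiv ℝ (fderiv ℝ f) p u v = fderiv ℝ (fderiv ℝ f) p v u := by
  have h : ContDiffAt ℝ ∞ f p := hf.contDiffAt (hM.mem_nhds hp)
  have h2 : IsSymmSndFDerivAt ℝ f p := h.isSymmSndFDerivAt
    (by rw [minSmoothness_of_isRCLikeNormedField]; exact ENat.LEInfty.out)
  exact h2 u v

private theorem potA_apply_fderiv {M : Set E} (hM : IsOpen M)
    {g : E → E →L[ℝ] E →L[ℝ] ℝ} (hg : ContDiffOn ℝ ∞ g M) {p : E} (hp : p ∈ M) (x y : E) :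
    DifferentiableAt ℝ (fun q => g q x y) p ∧
      ∀ u, fderiv ℝ (fun q => g q x y) p u = fderiv ℝ g p u x y := by
  have hd : DifferentiableAt ℝ g p :=
    (hg.contDiffAt (hM.mem_nhds hp)).differentiableAt (by simp)
  have h1 : HasFDerivAt (fun q => g q x) ((fderiv ℝ g p).flip x) p := by
    have h := hd.hasFDerivAt.clm_apply (hasFDerivAt_const x p)
    refine h.congr_fderiv ?_
    ext u v
    simp
  have h2 : HasFDerivAt (fun q => g q x y) (((fderiv ℝ g p).flip x).flip y) p := by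
    have h := h1.clm_apply (hasFDerivAt_const y p)
    refine h.congr_fderiv ?_
    ext u
    simp
  exact ⟨h2.differentiableAt, fun u => by rw [h2.fderiv]; rfl⟩

/-- A positive definite potential metric is Kaehler. -/
theorem potMetric_kahler {M : Set E} (hM : IsOpen M) {Φ : E → ℝ} (hΦ : ContDiffOn ℝ ∞ Φ M)
    (hpos : ∀ p ∈ M, ∀ u : E, u ≠ 0 → 0 < potMetric Φ p u u) :
    IsKahlerMetric M (potMetric Φ) := by
  have h1 : ContDiffOn ℝ ∞ (fderiv ℝ Φ) M := hΦ.fderiv_of_isOpen hM (by simp)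
  have h2 : ContDiffOn ℝ ∞ (fderiv ℝ (fderiv ℝ Φ)) M := h1.fderiv_of_isOpen hM (by simp)
  have hII : ∀ u : E, I • I • u = -u := by
    intro u
    rw [smul_smul, I_mul_I, neg_one_smul]
  have hsymm : ∀ p ∈ M, ∀ u v : E,
      fderiv ℝ (fderiv ℝ Φ) p u v = fderiv ℝ (fderiv ℝ Φ) p v u :=
    fun p hp u v => potA_snd_symm hM hΦ hp u v
  have h3a : ∀ p ∈ M, ∀ u v w : E, fderiv ℝ (fderiv ℝ (fderiv ℝ Φ)) p u v w
      = fderiv ℝ (fderiv ℝ (fderiv ℝ Φ)) p v u w := by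
    intro p hp u v w
    rw [potA_snd_symm hM h1 hp u v]
  have h3b : ∀ p ∈ M, ∀ u v w : E, fderiv ℝ (fderiv ℝ (fderiv ℝ Φ)) p u v w
      = fderiv ℝ (fderiv ℝ (fderiv ℝ Φ)) p u w v := by
    intro p hp u v w
    have ha := potA_apply_fderiv hM h2 hp v w
    have hb := potA_apply_fderiv hM h2 hp w v
    have he : (fun q => fderiv ℝ (fderiv ℝ Φ) q v w)
        =ᶠ[nhds p] fun q => fderiv ℝ (fderiv ℝ Φ) q w v := by
      filter_upwards [hM.mem_nhds hp] with q hq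
      exact hsymm q hq v w
    rw [← ha.2 u, ← hb.2 u, he.fderiv_eq]
  have hd : ∀ p ∈ M, ∀ u x y : E, fderiv ℝ (potMetric Φ) p u x y
      = (1 / 4 : ℝ) * (fderiv ℝ (fderiv ℝ (fderiv ℝ Φ)) p u x y
        + fderiv ℝ (fderiv ℝ (fderiv ℝ Φ)) p u (I • x) (I • y)) := by
    intro p hp u x y
    have ha := potA_apply_fderiv hM (potMetric_smooth hM hΦ) hp x y
    have hb := potA_apply_fderiv hM h2 hp x y
    have hc := potA_apply_fderiv hM h2 hp (I • x) (I • y)
    rw [← ha.2 u, ← hb.2 u, ← hc.2 u]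
    have he : (fun q => potMetric Φ q x y) = fun q => (1 / 4 : ℝ) *
        (fderiv ℝ (fderiv ℝ Φ) q x y + fderiv ℝ (fderiv ℝ Φ) q (I • x) (I • y)) := rfl
    rw [he, fderiv_const_mul (hb.1.fun_add hc.1), fderiv_fun_add hb.1 hc.1]
    rfl
  refine ⟨⟨potMetric_smooth hM hΦ, ?_, hpos⟩, ?_, ?_⟩
  · intro p hp u v
    rw [potMetric_apply, potMetric_apply, hsymm p hp u v, hsymm p hp (I • u) (I • v)]
  · intro p hp u v
    rw [potMetric_apply, potMetric_apply, hII, hII]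
    simp only [map_neg, ContinuousLinearMap.neg_apply, neg_neg]
    ring
  · intro p hp u v w
    rw [hd p hp, hd p hp, hd p hp, hII, hII, hII]
    simp only [map_neg, ContinuousLinearMap.neg_apply]
    have e1 : fderiv ℝ (fderiv ℝ (fderiv ℝ Φ)) p u (I • v) w
        = fderiv ℝ (fderiv ℝ (fderiv ℝ Φ)) p w u (I • v) := by
      rw [h3b p hp u (I • v) w, h3a p hp u w (I • v)]
    have e2 : fderiv ℝ (fderiv ℝ (fderiv ℝ Φ)) p v (I • w) u
        = fderiv ℝ (fderiv ℝ (fderiv ℝ Φ)) p u v (I • w) := by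
      rw [h3b p hp v (I • w) u, h3a p hp v u (I • w)]
    have e3 : fderiv ℝ (fderiv ℝ (fderiv ℝ Φ)) p w (I • u) v
        = fderiv ℝ (fderiv ℝ (fderiv ℝ Φ)) p v w (I • u) := by
      rw [h3b p hp w (I • u) v, h3a p hp w v (I • u)]
    rw [e1, e2, e3]
    ring

/-- The value only depends on the germ. -/
theorem potMetric_congr {Φ Ψ : E → ℝ} {p : E} (h : Φ =ᶠ[nhds p] Ψ) :
    potMetric Φ p = potMetric Ψ p := by
  unfold potMetric
  rw [h.fderiv.fderiv_eq]

end P250
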