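import Mathlib.Analysis.SpecialFunctions.Log.Deriv
import Vale.Agent.Lib.P250.Defs
import Vale.Agent.Lib.P250.PotA

/-! # P250 module G13a: the Siegel domain and -log rho -/

open scoped ContDiff
open Complex Metric Set

namespace P250

private theorem bpa_rho_eq : rho = fun y : ℂ × ℂ =>
    y.2.im - (y.1.re ^ 2 + y.1.im ^ 2) := by
  funext y
  unfold rho
  rw [Complex.sq_norm, Complex.normSq_apply]
  ring

private theorem bpa_rho_contDiff : ContDiff ℝ ∞ rho := by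
  rw [bpa_rho_eq]
  have h1 : ContDiff ℝ ∞ (fun y : ℂ × ℂ => y.2.im) :=
    imCLM.contDiff.comp contDiff_snd
  have h2 : ContDiff ℝ ∞ (fun y : ℂ × ℂ => y.1.re) :=
    reCLM.contDiff.comp contDiff_fst
  have h3 : ContDiff ℝ ∞ (fun y : ℂ × ℂ => y.1.im) :=
    imCLM.contDiff.comp contDiff_fst
  exact h1.sub ((h2.pow 2).add (h3.pow 2))

theorem U2_open : IsOpen U2 :=
  isOpen_lt continuous_const bpa_rho_contDiff.continuous

theorem U2_convex : Convex ℝ U2 := by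
  intro x hx y hy a b ha hb hab
  have hx' : 0 < x.2.im - (x.1.re ^ 2 + x.1.im ^ 2) := by
    have : 0 < rho x := hx
    rwa [bpa_rho_eq] at this
  have hy' : 0 < y.2.im - (y.1.re ^ 2 + y.1.im ^ 2) := by
    have : 0 < rho y := hy
    rwa [bpa_rho_eq] at this
  change 0 < rho (a • x + b • y)
  rw [bpa_rho_eq]
  simp only [Prod.fst_add, Prod.snd_add, Prod.smul_fst, Prod.smul_snd, Complex.add_re,
    Complex.add_im, Complex.real_smul, Complex.re_ofReal_mul, Complex.im_ofReal_mul]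
  have hb' : b = 1 - a := by linarith
  have h1 : (a * x.1.re + b * y.1.re) ^ 2 ≤ a * x.1.re ^ 2 + b * y.1.re ^ 2 := by
    have : 0 ≤ a * b * (x.1.re - y.1.re) ^ 2 := by positivity
    subst hb'
    nlinarith
  have h2 : (a * x.1.im + b * y.1.im) ^ 2 ≤ a * x.1.im ^ 2 + b * y.1.im ^ 2 := by
    have : 0 ≤ a * b * (x.1.im - y.1.im) ^ 2 := by positivity
    subst hb'
    nlinarith
  have h3 : 0 < a * (x.2.im - (x.1.re ^ 2 + x.1.im ^ 2)) +
      b * (y.2.im - (y.1.re ^ 2 + y.1.im ^ 2)) := by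
    rcases ha.eq_or_lt with h | h
    · have hb1 : b = 1 := by linarith
      rw [← h, hb1]
      linarith
    · have := mul_pos h hx'
      have := mul_nonneg hb hy'.le
      linarith
  linarith

theorem U2_nonempty : U2.Nonempty := by
  refine ⟨(0, I), ?_⟩
  change 0 < rho (0, I)
  simp [rho]

theorem logrho_smooth : ContDiffOn ℝ ∞ (fun y : ℂ × ℂ => -Real.log (rho y)) U2 := by
  refine ContDiffOn.neg (ContDiffOn.log bpa_rho_contDiff.contDiffOn ?_)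
  intro y hy
  exact (show 0 < rho y from hy).ne'

/-- derivative of `rho` -/
private noncomputable def bpaD (y : ℂ × ℂ) : ℂ × ℂ →L[ℝ] ℝ :=
  imCLM.comp (ContinuousLinearMap.snd ℝ ℂ ℂ)
    - ((2 * y.1.re) • (reCLM.comp (ContinuousLinearMap.fst ℝ ℂ ℂ))
      + (2 * y.1.im) • (imCLM.comp (ContinuousLinearMap.fst ℝ ℂ ℂ)))

/-- derivative of `bpaD` -/
private noncomputable def bpaD2 : ℂ × ℂ →L[ℝ] ℂ × ℂ →L[ℝ] ℝ :=
  -(((2 : ℝ) • (reCLM.comp (ContinuousLinearMap.fst ℝ ℂ ℂ))).smulRight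
      (reCLM.comp (ContinuousLinearMap.fst ℝ ℂ ℂ))
    + ((2 : ℝ) • (imCLM.comp (ContinuousLinearMap.fst ℝ ℂ ℂ))).smulRight
      (imCLM.comp (ContinuousLinearMap.fst ℝ ℂ ℂ)))

private theorem bpa_hasFDerivAt_rho (y : ℂ × ℂ) : HasFDerivAt rho (bpaD y) y := by
  rw [bpa_rho_eq]
  have h1 : HasFDerivAt (fun y : ℂ × ℂ => y.2.im)
      (imCLM.comp (ContinuousLinearMap.snd ℝ ℂ ℂ)) y :=
    (imCLM.comp (ContinuousLinearMap.snd ℝ ℂ ℂ)).hasFDerivAt
  have h2 : HasFDerivAt (fun y : ℂ × ℂ => y.1.re)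
      (reCLM.comp (ContinuousLinearMap.fst ℝ ℂ ℂ)) y :=
    (reCLM.comp (ContinuousLinearMap.fst ℝ ℂ ℂ)).hasFDerivAt
  have h3 : HasFDerivAt (fun y : ℂ × ℂ => y.1.im)
      (imCLM.comp (ContinuousLinearMap.fst ℝ ℂ ℂ)) y :=
    (imCLM.comp (ContinuousLinearMap.fst ℝ ℂ ℂ)).hasFDerivAt
  have h4 := h1.sub ((h2.pow 2).add (h3.pow 2))
  refine h4.congr_fderiv ?_
  ext u <;> simp [bpaD]

private theorem bpa_hasFDerivAt_D (y : ℂ × ℂ) : HasFDerivAt bpaD bpaD2 y := by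
  have h2 : HasFDerivAt (fun y : ℂ × ℂ => 2 * y.1.re)
      ((2 : ℝ) • (reCLM.comp (ContinuousLinearMap.fst ℝ ℂ ℂ))) y := by
    have := (reCLM.comp (ContinuousLinearMap.fst ℝ ℂ ℂ)).hasFDerivAt (x := y)
    exact this.const_mul 2
  have h3 : HasFDerivAt (fun y : ℂ × ℂ => 2 * y.1.im)
      ((2 : ℝ) • (imCLM.comp (ContinuousLinearMap.fst ℝ ℂ ℂ))) y := by
    have := (imCLM.comp (ContinuousLinearMap.fst ℝ ℂ ℂ)).hasFDerivAt (x := y)
    exact this.const_mul 2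
  have h4 := (hasFDerivAt_const (imCLM.comp (ContinuousLinearMap.snd ℝ ℂ ℂ)) y).sub
    ((h2.smul_const (reCLM.comp (ContinuousLinearMap.fst ℝ ℂ ℂ))).add
      (h3.smul_const (imCLM.comp (ContinuousLinearMap.fst ℝ ℂ ℂ))))
  refine h4.congr_fderiv ?_
  unfold bpaD2
  rw [zero_sub]

private theorem bpa_fderiv {y : ℂ × ℂ} (hy : y ∈ U2) :
    fderiv ℝ (fun y : ℂ × ℂ => -Real.log (rho y)) y = (-(rho y)⁻¹) • bpaD y := by
  have h1 := ((bpa_hasFDerivAt_rho y).log (show 0 < rho y from hy).ne').neg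
  have h2 := h1.fderiv
  have h3 : (fun y : ℂ × ℂ => -Real.log (rho y)) = -fun x => Real.log (rho x) := rfl
  rw [h3, h2]
  exact (neg_smul _ _).symm

private theorem bpa_fderiv2 {y : ℂ × ℂ} (hy : y ∈ U2) (u v : ℂ × ℂ) :
    fderiv ℝ (fderiv ℝ (fun y : ℂ × ℂ => -Real.log (rho y))) y u v =
      bpaD y u * bpaD y v / rho y ^ 2 - bpaD2 u v / rho y := by
  have hr : rho y ≠ 0 := (show 0 < rho y from hy).ne'
  have h1 : fderiv ℝ (fun y : ℂ × ℂ => -Real.log (rho y)) =ᶠ[nhds y]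
      fun y => (-(rho y)⁻¹) • bpaD y := by
    filter_upwards [U2_open.mem_nhds hy] with z hz
    exact bpa_fderiv hz
  have h2 : HasFDerivAt (fun y => -(rho y)⁻¹) (-(-(rho y ^ 2)⁻¹ • bpaD y)) y :=
    ((hasDerivAt_inv hr).comp_hasFDerivAt y (bpa_hasFDerivAt_rho y)).neg
  have h3 : HasFDerivAt (fun y => (-(rho y)⁻¹) • bpaD y) _ y := h2.smul (bpa_hasFDerivAt_D y)
  rw [h1.fderiv_eq, h3.fderiv]
  simp only [_root_.add_apply, _root_.smul_apply, ContinuousLinearMap.smulRight_apply,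
    _root_.neg_apply, smul_eq_mul]
  field_simp
  ring

/-- The Bergman-type metric of the Siegel domain. -/
theorem potMetric_logrho {y : ℂ × ℂ} (hy : y ∈ U2) (ξ : ℂ × ℂ) :
    potMetric (fun y : ℂ × ℂ => -Real.log (rho y)) y ξ ξ =
      ‖ξ.2 / (2 * I) - starRingEnd ℂ y.1 * ξ.1‖ ^ 2 / rho y ^ 2 + ‖ξ.1‖ ^ 2 / rho y := by
  have hr : rho y ≠ 0 := (show 0 < rho y from hy).ne'
  rw [potMetric_apply, bpa_fderiv2 hy, bpa_fderiv2 hy]
  have e1 : ξ.2 / (2 * I) - starRingEnd ℂ y.1 * ξ.1 =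
      ⟨ξ.2.im / 2 - (y.1.re * ξ.1.re + y.1.im * ξ.1.im),
        -ξ.2.re / 2 - (y.1.re * ξ.1.im - y.1.im * ξ.1.re)⟩ := by
    have hI : ξ.2 / (2 * I) = -(ξ.2 * I) / 2 := by
      rw [div_eq_div_iff (by simp) (by norm_num)]
      linear_combination (2 * ξ.2) * I_sq
    rw [hI]
    apply Complex.ext
    · simp
    · simp
      ring
  rw [e1, Complex.sq_norm, Complex.sq_norm, Complex.normSq_apply, Complex.normSq_apply]
  simp only [bpaD, bpaD2, _root_.add_apply, _root_.smul_apply,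
    ContinuousLinearMap.smulRight_apply, _root_.neg_apply, _root_.sub_apply, smul_eq_mul,
    ContinuousLinearMap.comp_apply, ContinuousLinearMap.coe_fst', ContinuousLinearMap.coe_snd',
    reCLM_apply, imCLM_apply, Prod.smul_fst, Prod.smul_snd, Complex.mul_re, Complex.mul_im,
    Complex.I_re, Complex.I_im]
  field_simp
  ring

theorem potMetric_logrho_pos {y : ℂ × ℂ} (hy : y ∈ U2) {ξ : ℂ × ℂ} (hξ : ξ ≠ 0) :
    0 < potMetric (fun y : ℂ × ℂ => -Real.log (rho y)) y ξ ξ := by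
  have hr : 0 < rho y := hy
  rw [potMetric_logrho hy]
  by_cases h1 : ξ.1 = 0
  · have h2 : ξ.2 ≠ 0 := by
      intro h2
      exact hξ (Prod.ext h1 h2)
    have h3 : ξ.2 / (2 * I) - starRingEnd ℂ y.1 * ξ.1 ≠ 0 := by
      rw [h1, mul_zero, sub_zero]
      exact div_ne_zero h2 (by simp)
    have h4 : 0 < ‖ξ.2 / (2 * I) - starRingEnd ℂ y.1 * ξ.1‖ := norm_pos_iff.mpr h3
    positivity
  · have h4 : 0 < ‖ξ.1‖ := norm_pos_iff.mpr h1
    positivity

end P250
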