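import Mathlib
import Vale.Agent.Lib.P250.BPA

/-! # P250 module H5: M3 is contractible -/

open scoped ContDiff
open Complex Metric Set

namespace P250

private theorem he_mem {e δ : ℝ} {N : ℕ} {p : (ℂ × ℂ) × ℂ} (hp : p ∈ M3 e δ N) (t : unitInterval) :
    (p.1, ((t : ℝ) : ℂ) * p.2) ∈ M3 e δ N := by
  refine ⟨hp.1, ?_⟩
  refine lt_of_le_of_lt ?_ hp.2
  apply mul_le_mul_of_nonneg_right _ (Real.exp_pos _).le
  have h1 : ‖((t : ℝ) : ℂ) * p.2‖ ≤ ‖p.2‖ := by
    rw [norm_mul, Complex.norm_real, Real.norm_eq_abs, abs_of_nonneg t.2.1]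
    exact mul_le_of_le_one_left (norm_nonneg _) t.2.2
  exact pow_le_pow_left₀ (norm_nonneg _) h1 2

private theorem he_mem0 {e δ : ℝ} {N : ℕ} {y : ℂ × ℂ} (hy : y ∈ U2) :
    ((y, 0) : (ℂ × ℂ) × ℂ) ∈ M3 e δ N := by
  refine ⟨hy, ?_⟩
  show ‖(0 : ℂ)‖ ^ 2 * Real.exp (phiL e δ N 0 y) < 1
  rw [norm_zero]
  norm_num

/-- `M3` retracts onto the convex set `U2`. -/
theorem M3_contractible {e δ : ℝ} (N : ℕ) (he : 0 < e) (he1 : e < 1) (hδ : 0 < δ) :
    ContractibleSpace (M3 e δ N) := by
  have : ContractibleSpace U2 := U2_convex.contractibleSpace U2_nonempty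
  have hto : Continuous (fun p : M3 e δ N => (⟨p.1.1, p.2.1⟩ : U2)) :=
    Continuous.subtype_mk (continuous_fst.comp continuous_subtype_val) _
  have hinv : Continuous (fun y : U2 => (⟨(y.1, 0), he_mem0 y.2⟩ : M3 e δ N)) :=
    Continuous.subtype_mk (continuous_subtype_val.prodMk continuous_const) _
  have hH : Continuous (fun q : unitInterval × M3 e δ N =>
      (⟨(q.2.1.1, ((q.1 : ℝ) : ℂ) * q.2.1.2), he_mem q.2.2 q.1⟩ : M3 e δ N)) := by
    apply Continuous.subtype_mk
    have h1 : Continuous (fun q : unitInterval × M3 e δ N => q.2.1) :=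
      continuous_subtype_val.comp continuous_snd
    have h2 : Continuous (fun q : unitInterval × M3 e δ N => ((q.1 : ℝ) : ℂ)) :=
      Complex.continuous_ofReal.comp (continuous_subtype_val.comp continuous_fst)
    exact (continuous_fst.comp h1).prodMk (h2.mul (continuous_snd.comp h1))
  let eqv : ContinuousMap.HomotopyEquiv (M3 e δ N) U2 :=
    { toFun := ⟨_, hto⟩
      invFun := ⟨_, hinv⟩
      left_inv := ⟨{
        toFun := fun q => ⟨(q.2.1.1, ((q.1 : ℝ) : ℂ) * q.2.1.2), he_mem q.2.2 q.1⟩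
        continuous_toFun := hH
        map_zero_left := fun p => by
          apply Subtype.ext
          show (p.1.1, (((0 : unitInterval) : ℝ) : ℂ) * p.1.2) = (p.1.1, (0 : ℂ))
          simp
        map_one_left := fun p => by
          apply Subtype.ext
          show (p.1.1, (((1 : unitInterval) : ℝ) : ℂ) * p.1.2) = p.1
          simp }⟩
      right_inv := by
        have h1 : (⟨_, hto⟩ : C(M3 e δ N, U2)).comp (⟨_, hinv⟩ : C(U2, M3 e δ N)) =
            ContinuousMap.id U2 := by
          ext y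
          · rfl
          · rfl
        rw [h1] }
  exact eqv.contractibleSpace

end P250
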