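import Vale.Agent.Lib.P250.JBA

/-! # P250 module JBb: the bound of the Jacobian -/

open scoped ContDiff
open Complex Metric Set

namespace P250

private theorem norm_cj (x : ℂ × ℂ) : ‖cj x‖ = ‖x‖ := by
  unfold cj
  rw [Prod.norm_mk, RCLike.norm_conj, RCLike.norm_conj]
  rfl

/-- derivative of the parametrisation at the origin -/
private noncomputable def Dg (y : ℂ × ℂ) : ℂ × ℂ →L[ℂ] ℂ × ℂ :=
  ((Real.sqrt (rho y) : ℂ) • ContinuousLinearMap.fst ℂ ℂ ℂ).prod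
    ((-(2 * I * (rho y : ℂ))) • ContinuousLinearMap.snd ℂ ℂ ℂ +
      (2 * I * starRingEnd ℂ y.1 * (Real.sqrt (rho y) : ℂ)) • ContinuousLinearMap.fst ℂ ℂ ℂ)

private theorem hasFDerivAt_quot1 :
    HasFDerivAt (fun x : ℂ × ℂ => x.1 / (1 + x.2)) (ContinuousLinearMap.fst ℂ ℂ ℂ) 0 := by
  have h1 : HasFDerivAt (fun x : ℂ × ℂ => x.1) (ContinuousLinearMap.fst ℂ ℂ ℂ) 0 :=
    (ContinuousLinearMap.fst ℂ ℂ ℂ).hasFDerivAt
  have h2 : DifferentiableAt ℂ (fun x : ℂ × ℂ => (1 + x.2)⁻¹) 0 := by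
    apply DifferentiableAt.inv
    · fun_prop
    · simp
  have h3 := h1.mul h2.hasFDerivAt
  have e1 : (fun x : ℂ × ℂ => x.1 / (1 + x.2)) = (fun x : ℂ × ℂ => x.1 * (1 + x.2)⁻¹) := by
    funext x
    rw [div_eq_mul_inv]
  rw [e1]
  refine h3.congr_fderiv (ContinuousLinearMap.ext fun v => ?_)
  simp

private theorem hasFDerivAt_quot2 :
    HasFDerivAt (fun x : ℂ × ℂ => x.2 / (1 + x.2)) (ContinuousLinearMap.snd ℂ ℂ ℂ) 0 := by
  have h1 : HasFDerivAt (fun x : ℂ × ℂ => x.2) (ContinuousLinearMap.snd ℂ ℂ ℂ) 0 :=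
    (ContinuousLinearMap.snd ℂ ℂ ℂ).hasFDerivAt
  have h2 : DifferentiableAt ℂ (fun x : ℂ × ℂ => (1 + x.2)⁻¹) 0 := by
    apply DifferentiableAt.inv
    · fun_prop
    · simp
  have h3 := h1.mul h2.hasFDerivAt
  have e1 : (fun x : ℂ × ℂ => x.2 / (1 + x.2)) = (fun x : ℂ × ℂ => x.2 * (1 + x.2)⁻¹) := by
    funext x
    rw [div_eq_mul_inv]
  rw [e1]
  refine h3.congr_fderiv (ContinuousLinearMap.ext fun v => ?_)
  simp

private theorem gam_eq (y x : ℂ × ℂ) : gam y x =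
    (y.1 + (Real.sqrt (rho y) : ℂ) * (x.1 / (1 + x.2)),
      y.2 + ((-(2 * I * (rho y : ℂ))) * (x.2 / (1 + x.2)) +
        (2 * I * starRingEnd ℂ y.1 * (Real.sqrt (rho y) : ℂ)) * (x.1 / (1 + x.2)))) := by
  unfold gam
  ext1
  · simp only
    ring
  · simp only
    ring

private theorem gam_hasFDerivAt (y : ℂ × ℂ) : HasFDerivAt (gam y) (Dg y) 0 := by
  have e1 : gam y = fun x => (y.1 + (Real.sqrt (rho y) : ℂ) * (x.1 / (1 + x.2)),
      y.2 + ((-(2 * I * (rho y : ℂ))) * (x.2 / (1 + x.2)) +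
        (2 * I * starRingEnd ℂ y.1 * (Real.sqrt (rho y) : ℂ)) * (x.1 / (1 + x.2)))) := by
    funext x
    exact gam_eq y x
  rw [e1]
  unfold Dg
  apply HasFDerivAt.prodMk
  · exact (hasFDerivAt_quot1.const_mul _).const_add _
  · exact ((hasFDerivAt_quot2.const_mul _).add (hasFDerivAt_quot1.const_mul _)).const_add _

private theorem gam_differentiableAt (y : ℂ × ℂ) {x : ℂ × ℂ} (hx : ‖x‖ < 1) :
    DifferentiableAt ℂ (gam y) x := by
  have h1 : 1 + x.2 ≠ 0 := one_add_x_ne hx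
  have e1 : gam y = fun x => (y.1 + (Real.sqrt (rho y) : ℂ) * (x.1 / (1 + x.2)),
      y.2 + ((-(2 * I * (rho y : ℂ))) * (x.2 / (1 + x.2)) +
        (2 * I * starRingEnd ℂ y.1 * (Real.sqrt (rho y) : ℂ)) * (x.1 / (1 + x.2)))) := by
    funext x
    exact gam_eq y x
  have d0 : DifferentiableAt ℂ (fun x : ℂ × ℂ => 1 + x.2) x :=
    differentiableAt_snd.const_add 1
  have d3 : DifferentiableAt ℂ (fun x : ℂ × ℂ => (1 + x.2)⁻¹) x := d0.inv h1
  have d1 : DifferentiableAt ℂ (fun x : ℂ × ℂ => x.1 / (1 + x.2)) x := by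
    simp only [div_eq_mul_inv]
    exact differentiableAt_fst.mul d3
  have d2 : DifferentiableAt ℂ (fun x : ℂ × ℂ => x.2 / (1 + x.2)) x := by
    simp only [div_eq_mul_inv]
    exact differentiableAt_snd.mul d3
  rw [e1]
  apply DifferentiableAt.prodMk
  · exact (d1.const_mul _).const_add _
  · exact ((d2.const_mul _).add (d1.const_mul _)).const_add _

private theorem det_Dg (y : ℂ × ℂ) : (Dg y).det =
    (Real.sqrt (rho y) : ℂ) * (-(2 * I * (rho y : ℂ))) := by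
  unfold ContinuousLinearMap.det
  rw [← LinearMap.det_toMatrix (Module.Basis.finTwoProd ℂ), Matrix.det_fin_two]
  simp [LinearMap.toMatrix_apply, Dg]

/-- derivative of the comparison map at the origin -/
private noncomputable def DD (y : ℂ × ℂ) (k : ℂ) : (ℂ × ℂ) × ℂ →L[ℂ] (ℂ × ℂ) × ℂ :=
  ((Dg y).comp (ContinuousLinearMap.fst ℂ (ℂ × ℂ) ℂ)).prod
    (k • ContinuousLinearMap.snd ℂ (ℂ × ℂ) ℂ)

private theorem det_DD (y : ℂ × ℂ) (k : ℂ) : (DD y k).det =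
    (Real.sqrt (rho y) : ℂ) * (-(2 * I * (rho y : ℂ))) * k := by
  rw [← det_Dg]
  have e1 : ((DD y k : (ℂ × ℂ) × ℂ →L[ℂ] (ℂ × ℂ) × ℂ) : (ℂ × ℂ) × ℂ →ₗ[ℂ] (ℂ × ℂ) × ℂ) =
      LinearMap.prodMap ((Dg y : ℂ × ℂ →L[ℂ] ℂ × ℂ) : ℂ × ℂ →ₗ[ℂ] ℂ × ℂ)
        (k • (LinearMap.id : ℂ →ₗ[ℂ] ℂ)) := by
    ext <;> simp [DD]
  unfold ContinuousLinearMap.det
  rw [e1, LinearMap.det_prodMap]
  congr 1
  simp

private theorem phi_hasFDerivAt (y : ℂ × ℂ) (c : ℂ) (h : ℂ × ℂ → ℂ)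
    (hh : DifferentiableAt ℂ h 0) :
    HasFDerivAt (fun p : (ℂ × ℂ) × ℂ => (gam y p.1, c * Complex.exp (-h p.1) * p.2))
      (DD y (c * Complex.exp (-h 0))) 0 := by
  unfold DD
  apply HasFDerivAt.prodMk
  · have h1 : HasFDerivAt (fun p : (ℂ × ℂ) × ℂ => p.1)
      (ContinuousLinearMap.fst ℂ (ℂ × ℂ) ℂ) 0 := (ContinuousLinearMap.fst ℂ (ℂ × ℂ) ℂ).hasFDerivAt
    have h2 : HasFDerivAt (gam y) (Dg y) ((fun p : (ℂ × ℂ) × ℂ => p.1) 0) := gam_hasFDerivAt y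
    exact h2.comp 0 h1
  · have h1 : HasFDerivAt (fun p : (ℂ × ℂ) × ℂ => p.2)
      (ContinuousLinearMap.snd ℂ (ℂ × ℂ) ℂ) 0 := (ContinuousLinearMap.snd ℂ (ℂ × ℂ) ℂ).hasFDerivAt
    have h0 : DifferentiableAt ℂ h ((fun p : (ℂ × ℂ) × ℂ => p.1) 0) := hh
    have h2 : DifferentiableAt ℂ (fun p : (ℂ × ℂ) × ℂ => c * Complex.exp (-h p.1)) 0 := by
      have h3 : DifferentiableAt ℂ (fun p : (ℂ × ℂ) × ℂ => h p.1) 0 :=
        h0.comp (0 : (ℂ × ℂ) × ℂ) differentiableAt_fst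
      exact (h3.neg.cexp).const_mul c
    have h3 := h2.hasFDerivAt.mul h1
    refine h3.congr_fderiv (ContinuousLinearMap.ext fun v => ?_)
    simp

/-- Compose with `(x, κ) ↦ (gam y0 x, c exp (-h x) κ)`, `c² e^{C0} ≤ 1`, which maps
`ball 0 r0 × ball 0 1` into `M3` (normal form), and use the Schwarz lemma at `0`; the determinant of
its derivative at `0` is `-2 i rho(y0)^{3/2} c exp (-h 0)`, and `2 Re h(0) = phiL y0`. -/
theorem J_bound {e δ : ℝ} (N : ℕ) (he : 0 < e) (he1 : e < 1) (hδ : 0 < δ) (K : ℝ) :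
    ∃ CJ : ℝ, ∀ F : (ℂ × ℂ) × ℂ → (ℂ × ℂ) × ℂ, DifferentiableOn ℂ F (M3 e δ N) →
    (∀ p ∈ M3 e δ N, ‖F p‖ ≤ K) → ∀ y ∈ U2,
    ‖Jac F y‖ ^ 2 ≤ CJ * (rho y)⁻¹ ^ 3 * Real.exp (phiL e δ N 0 y) := by
  obtain ⟨r0, hr0, hr08, hNF⟩ := exists_NF
  obtain ⟨C0, hC0, hNF⟩ := hNF e δ N he he1 hδ
  obtain ⟨Cd, hCd, hdet⟩ := det_bound
  refine ⟨(Cd * (2 * K / r0) ^ 3) ^ 2 * Real.exp C0 / 4, ?_⟩
  intro F hF hK y hy
  obtain ⟨h, fh, nf⟩ := hNF y hy
  have hrho : 0 < rho y := hy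
  set c : ℝ := Real.exp (-(C0 / 2)) with hc
  set Φ : (ℂ × ℂ) × ℂ → (ℂ × ℂ) × ℂ :=
    fun p => (gam y p.1, (c : ℂ) * Complex.exp (-h p.1) * p.2) with hΦ
  have hr1 : r0 < 1 := by linarith
  have hhd : ∀ x ∈ ball (0 : ℂ × ℂ) r0, DifferentiableAt ℂ h x := fun x hx =>
    ((nf.h_smooth.differentiableOn (by simp)) x hx).differentiableAt (isOpen_ball.mem_nhds hx)
  -- the map sends the ball into `M3`
  have hmaps : ∀ p ∈ ball (0 : (ℂ × ℂ) × ℂ) r0, Φ p ∈ M3 e δ N := by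
    intro p hp
    rw [mem_ball_zero_iff] at hp
    have hp1 : ‖p.1‖ < r0 := (norm_fst_le p).trans_lt hp
    have hp2 : ‖p.2‖ < 1 := ((norm_snd_le p).trans_lt hp).trans hr1
    have hp1' : p.1 ∈ ball (0 : ℂ × ℂ) r0 := mem_ball_zero_iff.mpr hp1
    refine ⟨gam_mem hy (by linarith), ?_⟩
    have h1 := nf.decomp p.1 hp1'
    have h2 : (fh (p.1, cj p.1)).re ≤ C0 := by
      refine (Complex.re_le_norm _).trans (nf.f_bound _ ?_)
      rw [mem_ball_zero_iff, Prod.norm_mk, norm_cj, max_self]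
      exact hp1
    have h3 : ‖(Φ p).2‖ ^ 2 = Real.exp (-C0) * Real.exp (-(2 * (h p.1).re)) * ‖p.2‖ ^ 2 := by
      simp only [hΦ]
      rw [norm_mul, norm_mul, Complex.norm_exp, Complex.norm_real, Complex.neg_re, hc,
        Real.norm_of_nonneg (Real.exp_pos _).le, mul_pow, mul_pow, ← Real.exp_nat_mul,
        ← Real.exp_nat_mul]
      congr 3
      · push_cast
        ring
      · push_cast
        ring
    have h4 : (Φ p).1 = gam y p.1 := rfl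
    rw [h3, h4, h1]
    have h5 : Real.exp (-C0) * Real.exp (-(2 * (h p.1).re)) * ‖p.2‖ ^ 2 *
        Real.exp (2 * (h p.1).re + (fh (p.1, cj p.1)).re) =
        Real.exp ((fh (p.1, cj p.1)).re - C0) * ‖p.2‖ ^ 2 := by
      have h6 : Real.exp ((fh (p.1, cj p.1)).re - C0) = Real.exp (-C0) *
          Real.exp (-(2 * (h p.1).re)) * Real.exp (2 * (h p.1).re + (fh (p.1, cj p.1)).re) := by
        rw [← Real.exp_add, ← Real.exp_add]
        congr 1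
        ring
      rw [h6]
      ring
    rw [h5]
    have h6 : Real.exp ((fh (p.1, cj p.1)).re - C0) ≤ 1 := Real.exp_le_one_iff.mpr (by linarith)
    have h7 : ‖p.2‖ ^ 2 < 1 := by
      have := norm_nonneg p.2
      nlinarith
    have h8 : 0 ≤ ‖p.2‖ ^ 2 := by positivity
    nlinarith [Real.exp_pos ((fh (p.1, cj p.1)).re - C0)]
  have hΦd : ∀ p ∈ ball (0 : (ℂ × ℂ) × ℂ) r0, DifferentiableAt ℂ Φ p := by
    intro p hp
    rw [mem_ball_zero_iff] at hp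
    have hp1 : ‖p.1‖ < r0 := (norm_fst_le p).trans_lt hp
    have hp1' : p.1 ∈ ball (0 : ℂ × ℂ) r0 := mem_ball_zero_iff.mpr hp1
    apply DifferentiableAt.prodMk
    · exact (gam_differentiableAt y (hp1.trans hr1)).comp p differentiableAt_fst
    · have h3 : DifferentiableAt ℂ (fun p : (ℂ × ℂ) × ℂ => h p.1) p :=
        (hhd p.1 hp1').comp p differentiableAt_fst
      exact ((h3.neg.cexp).const_mul (c : ℂ)).mul differentiableAt_snd
  have hFd : ∀ p ∈ M3 e δ N, DifferentiableAt ℂ F p := fun p hp =>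
    (hF p hp).differentiableAt ((M3_open N he he1 hδ).mem_nhds hp)
  have h0 : (0 : (ℂ × ℂ) × ℂ) ∈ ball (0 : (ℂ × ℂ) × ℂ) r0 := mem_ball_self hr0
  have hΦ0 : Φ 0 = (y, 0) := by
    simp only [hΦ]
    rw [Prod.fst_zero, Prod.snd_zero, mul_zero, gam_zero]
  -- Schwarz lemma
  have hG : DifferentiableOn ℂ (F ∘ Φ) (ball (0 : (ℂ × ℂ) × ℂ) r0) := fun p hp =>
    ((hFd _ (hmaps p hp)).comp p (hΦd p hp)).differentiableWithinAt
  have hGm : MapsTo (F ∘ Φ) (ball (0 : (ℂ × ℂ) × ℂ) r0)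
      (closedBall ((F ∘ Φ) 0) (2 * K)) := by
    intro p hp
    rw [mem_closedBall, dist_eq_norm]
    have h1 := hK _ (hmaps p hp)
    have h2 := hK _ (hmaps 0 h0)
    calc ‖(F ∘ Φ) p - (F ∘ Φ) 0‖ ≤ ‖(F ∘ Φ) p‖ + ‖(F ∘ Φ) 0‖ := norm_sub_le _ _
      _ ≤ 2 * K := by
        simp only [Function.comp_apply]
        linarith
  have hS := norm_fderiv_le_div_of_mapsTo_ball hG hGm hr0
  -- the chain rule
  have hΦD : HasFDerivAt Φ (DD y ((c : ℂ) * Complex.exp (-h 0))) 0 :=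
    phi_hasFDerivAt y c h (hhd 0 (mem_ball_self hr0))
  have hFD : HasFDerivAt F (fderiv ℂ F (Φ 0)) (Φ 0) := (hFd _ (hmaps 0 h0)).hasFDerivAt
  have hcomp := (hFD.comp (0 : (ℂ × ℂ) × ℂ) hΦD).fderiv
  rw [hcomp] at hS
  have hdet1 := hdet ((fderiv ℂ F (Φ 0)).comp (DD y ((c : ℂ) * Complex.exp (-h 0))))
  have hdet2 : ((fderiv ℂ F (Φ 0)).comp (DD y ((c : ℂ) * Complex.exp (-h 0)))).det =
      Jac F y * (DD y ((c : ℂ) * Complex.exp (-h 0))).det := by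
    unfold Jac
    rw [hΦ0]
    unfold ContinuousLinearMap.det
    rw [ContinuousLinearMap.toLinearMap_comp, LinearMap.det_comp]
  rw [hdet2, norm_mul] at hdet1
  have hQ : ‖Jac F y‖ * ‖(DD y ((c : ℂ) * Complex.exp (-h 0))).det‖ ≤
      Cd * (2 * K / r0) ^ 3 := by
    refine hdet1.trans ?_
    apply mul_le_mul_of_nonneg_left _ hCd.le
    exact pow_le_pow_left₀ (norm_nonneg _) hS 3
  -- the value of `phiL` at `y`
  have hphi : phiL e δ N 0 y = 2 * (h 0).re := by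
    have h1 := nf.decomp 0 (mem_ball_self hr0)
    rw [gam_zero] at h1
    have h2 : fh (0, cj 0) = 0 := by
      apply nf.f_right
      rw [mem_ball_zero_iff, norm_cj, norm_zero]
      exact hr0
    rw [h2, Complex.zero_re, add_zero] at h1
    exact h1
  have hnorm : ‖(DD y ((c : ℂ) * Complex.exp (-h 0))).det‖ ^ 2 =
      4 * rho y ^ 3 * Real.exp (-C0) * Real.exp (-(phiL e δ N 0 y)) := by
    rw [det_DD, hphi]
    rw [norm_mul, norm_mul, norm_neg, norm_mul, norm_mul, norm_mul, Complex.norm_exp,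
      Complex.norm_real, Complex.norm_real, Complex.norm_real, Complex.norm_I, Complex.neg_re,
      Real.norm_of_nonneg (Real.sqrt_nonneg _), Real.norm_of_nonneg hrho.le,
      Real.norm_of_nonneg (Real.exp_pos _).le]
    have h2 : ‖(2 : ℂ)‖ = 2 := by norm_num
    rw [h2]
    have h3 : Real.exp (-C0) = c ^ 2 := by
      rw [hc, ← Real.exp_nat_mul]
      congr 1
      push_cast
      ring
    have h4 : Real.exp (-(2 * (h 0).re)) = Real.exp (-(h 0).re) ^ 2 := by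
      rw [← Real.exp_nat_mul]
      congr 1
      push_cast
      ring
    have h5 : Real.sqrt (rho y) ^ 2 = rho y := Real.sq_sqrt hrho.le
    rw [h3, h4]
    calc _ = 4 * (Real.sqrt (rho y) ^ 2) * rho y ^ 2 * c ^ 2 * Real.exp (-(h 0).re) ^ 2 := by
          ring
      _ = _ := by
          rw [h5]
          ring
  have hsq : ‖Jac F y‖ ^ 2 * ‖(DD y ((c : ℂ) * Complex.exp (-h 0))).det‖ ^ 2 ≤
      (Cd * (2 * K / r0) ^ 3) ^ 2 := by
    rw [← mul_pow]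
    exact pow_le_pow_left₀ (by positivity) hQ 2
  rw [hnorm] at hsq
  have hE1 : Real.exp (-C0) * Real.exp C0 = 1 := by
    rw [← Real.exp_add, neg_add_cancel, Real.exp_zero]
  have hE2 : Real.exp (-(phiL e δ N 0 y)) * Real.exp (phiL e δ N 0 y) = 1 := by
    rw [← Real.exp_add, neg_add_cancel, Real.exp_zero]
  have hE3 : rho y ^ 3 * (rho y)⁻¹ ^ 3 = 1 := by
    rw [← mul_pow, mul_inv_cancel₀ hrho.ne', one_pow]
  have hfac : 0 ≤ Real.exp C0 / 4 * (rho y)⁻¹ ^ 3 * Real.exp (phiL e δ N 0 y) := by positivity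
  calc ‖Jac F y‖ ^ 2 = (‖Jac F y‖ ^ 2 * (4 * rho y ^ 3 * Real.exp (-C0) *
        Real.exp (-(phiL e δ N 0 y)))) *
        (Real.exp C0 / 4 * (rho y)⁻¹ ^ 3 * Real.exp (phiL e δ N 0 y)) := by
        calc ‖Jac F y‖ ^ 2 = ‖Jac F y‖ ^ 2 * (rho y ^ 3 * (rho y)⁻¹ ^ 3) *
            (Real.exp (-C0) * Real.exp C0) *
            (Real.exp (-(phiL e δ N 0 y)) * Real.exp (phiL e δ N 0 y)) := by
              rw [hE1, hE2, hE3]
              ring
          _ = _ := by ring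
    _ ≤ (Cd * (2 * K / r0) ^ 3) ^ 2 *
        (Real.exp C0 / 4 * (rho y)⁻¹ ^ 3 * Real.exp (phiL e δ N 0 y)) :=
        mul_le_mul_of_nonneg_right hsq hfac
    _ = _ := by ring

end P250
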