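import Vale.Agent.Lib.P250.OSC

/-! # P250 module O8: non-existence of J -/

open Complex Metric Set

namespace P250

noncomputable section

theorem sg_pos' {e : ℝ} (he : 0 < e) (j : ℤ) : 0 < sg e j := zpow_pos he _

theorem sg_split {e : ℝ} (he : 0 < e) (j : ℤ) (k : ℕ) :
    sg e j = sg e k * sg e (-(k : ℤ) + j) := by
  unfold sg
  rw [← zpow_add₀ he.ne']
  congr 1
  ring

theorem scl_dil {e : ℝ} (he : 0 < e) (j : ℤ) (k : ℕ) (y : ℂ × ℂ) :
    scl (sg e j) (dil (sg e k) y) = scl (sg e (-(k : ℤ) + j)) y := by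
  have hk : ((sg e k : ℝ) : ℂ) ≠ 0 := by
    exact_mod_cast (sg_pos' he k).ne'
  have hj : ((sg e (-(k : ℤ) + j) : ℝ) : ℂ) ≠ 0 := by
    exact_mod_cast (sg_pos' he _).ne'
  unfold scl dil
  rw [sg_split he j k]
  refine Prod.ext ?_ ?_
  · simp only [Complex.ofReal_mul]
    field_simp
  · simp only [Complex.ofReal_mul, Complex.ofReal_pow, mul_pow]
    field_simp

theorem psi_dil {e : ℝ} (he : 0 < e) (j : ℤ) (k : ℕ) (b : ℤ × ℤ × ℤ) (y : ℂ × ℂ) :
    psi e j b (dil (sg e k) y) = psi e (-(k : ℤ) + j) b y := by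
  unfold psi tc sc
  rw [scl_dil he j k y]

theorem phi_dil {e : ℝ} (he : 0 < e) (k : ℕ) (y : ℂ × ℂ) :
    phi e 0 (dil (sg e k) y) = phi e (-(k : ℤ)) y := by
  unfold phi
  refine tsum_congr fun i => ?_
  rw [zero_add]
  exact psi_dil he _ k _ y

theorem rho_dil {σ : ℝ} (hσ : 0 < σ) (y : ℂ × ℂ) : rho (dil σ y) = σ ^ 2 * rho y := by
  unfold rho dil
  simp only [norm_mul, Complex.norm_real, Real.norm_eq_abs, abs_of_pos hσ, mul_pow]
  rw [Complex.im_ofReal_mul]
  ring

theorem dil_dil {σ τ : ℝ} (h : σ * τ = 1) (y : ℂ × ℂ) : dil σ (dil τ y) = y := by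
  have h' : (σ : ℂ) * (τ : ℂ) = 1 := by exact_mod_cast h
  unfold dil
  refine Prod.ext ?_ ?_
  · simp only
    rw [← mul_assoc, h', one_mul]
  · simp only [Complex.ofReal_pow]
    rw [← mul_assoc, ← mul_pow, h', one_pow, one_mul]

theorem DD_dil {e δ : ℝ} (he : 0 < e) (N : ℕ) (k : ℕ) (J : ℂ × ℂ → ℂ) {y : ℂ × ℂ}
    (hy : 0 < rho y) :
    DD e δ N (-(k : ℤ)) (fun z => J (dil (sg e k) z)) y =
      DD e δ N 0 J (dil (sg e k) y) + (3 + N * δ) * Real.log (sg e k ^ 2) := by
  have hs := sg_pos' he k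
  unfold DD
  rw [phi_dil he, rho_dil hs, Real.log_mul (pow_pos hs 2).ne' hy.ne']
  ring

/-- O8: non-existence. `DD` at level `e^(10 (k+1))` versus level `e^(10 k)` by `one_step` applied to
`J ∘ dil (sg e k)`; if `|J|² ≤ CJ rho⁻³ e^{phiL}` then `DD ≥ -log CJ`; iterate. -/
theorem no_J : ∃ (e δ : ℝ) (N : ℕ), 0 < e ∧ e < 1 ∧ 0 < δ ∧ 0 < N ∧
    ∀ J : ℂ × ℂ → ℂ, DifferentiableOn ℂ J U2 → (∀ y ∈ U2, J y ≠ 0) →
    ∀ CJ : ℝ, ¬ (∀ y ∈ U2, ‖J y‖ ^ 2 ≤ CJ * (rho y)⁻¹ ^ 3 * Real.exp (phiL e δ N 0 y)) := by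
  obtain ⟨e, δ, g, N, he, he1, hδ, hN, hg, hstep⟩ := one_step
  refine ⟨e, δ, N, he, he1, hδ, hN, ?_⟩
  intro J hJ hJ0 CJ hbound
  -- the level sets
  have hsq : ∀ k : ℕ, sg e k ^ 2 = e ^ (10 * k) := by
    intro k
    unfold sg
    rw [← zpow_natCast, ← zpow_mul, ← zpow_natCast]
    congr 1
    push_cast
    ring
  -- the starting bound
  have hstart : ∀ y ∈ U2, -Real.log CJ ≤ DD e δ N 0 J y := by
    intro y hy
    have hr : 0 < rho y := hy
    have hJpos : 0 < ‖J y‖ ^ 2 := pow_pos (norm_pos_iff.2 (hJ0 y hy)) 2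
    have hb := hbound y hy
    have hCJ : 0 < CJ := by
      by_contra hcon
      have hle : CJ * (rho y)⁻¹ ^ 3 * Real.exp (phiL e δ N 0 y) ≤ 0 :=
        mul_nonpos_of_nonpos_of_nonneg (mul_nonpos_of_nonpos_of_nonneg (not_lt.1 hcon)
          (by positivity)) (Real.exp_pos _).le
      linarith
    have hlog := Real.log_le_log hJpos hb
    have hr3 : Real.log ((rho y)⁻¹ ^ 3) = -(3 * Real.log (rho y)) := by
      rw [Real.log_pow, Real.log_inv]
      push_cast
      ring
    rw [Real.log_mul (by positivity) (Real.exp_pos _).ne', Real.log_exp,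
      Real.log_mul hCJ.ne' (by positivity), hr3] at hlog
    unfold DD
    unfold phiL at hlog
    linarith
  -- one step down
  have hdown : ∀ (k : ℕ) (c : ℝ), (∀ y, rho y = e ^ (10 * (k + 1)) → c ≤ DD e δ N 0 J y) →
      ∀ y, rho y = e ^ (10 * k) → c + g ≤ DD e δ N 0 J y := by
    intro k c hc y hy
    have hs := sg_pos' he k
    have hmaps : ∀ z ∈ U2, dil (sg e k) z ∈ U2 := by
      intro z hz
      have hz' : 0 < rho z := hz
      show 0 < rho (dil (sg e k) z)
      rw [rho_dil hs]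
      positivity
    have hdiff : DifferentiableOn ℂ (fun z => J (dil (sg e k) z)) U2 := by
      refine hJ.comp (t := U2) ?_ hmaps
      unfold dil
      fun_prop
    have key := hstep k (fun z => J (dil (sg e k) z))
      (c + (3 + N * δ) * Real.log (sg e k ^ 2)) hdiff (fun z hz => hJ0 _ (hmaps z hz)) ?_
      (dil (sg e k)⁻¹ y) ?_
    · have hr : 0 < rho (dil (sg e k)⁻¹ y) := by
        rw [rho_dil (inv_pos.2 hs), hy]
        positivity
      rw [DD_dil he N k J hr, dil_dil (mul_inv_cancel₀ hs.ne')] at key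
      linarith
    · intro z hz
      have hr : 0 < rho z := by
        rw [hz]
        positivity
      rw [DD_dil he N k J hr]
      have := hc (dil (sg e k) z) (by
        rw [rho_dil hs, hz, hsq k, ← pow_add]
        congr 1)
      linarith
    · rw [rho_dil (inv_pos.2 hs), hy, ← hsq k, inv_pow]
      exact inv_mul_cancel₀ (pow_pos hs 2).ne'
  -- iterate
  have hiter : ∀ (m k : ℕ), ∀ y, rho y = e ^ (10 * k) →
      -Real.log CJ + m * g ≤ DD e δ N 0 J y := by
    intro m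
    induction m with
    | zero =>
      intro k y hy
      have hr : 0 < rho y := by
        rw [hy]
        positivity
      have := hstart y hr
      push_cast
      linarith
    | succ m ih =>
      intro k y hy
      have := hdown k (-Real.log CJ + m * g) (ih (k + 1)) y hy
      push_cast
      linarith
  obtain ⟨m, hm⟩ := exists_nat_gt ((DD e δ N 0 J (0, I) + Real.log CJ) / g)
  have h1 := hiter m 0 (0, I) (by simp [rho])
  rw [div_lt_iff₀ hg] at hm
  linarith

end

end P250
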