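import Mathlib.Analysis.Calculus.ContDiff.Operations
import Mathlib.LinearAlgebra.Complex.FiniteDimensional
import Mathlib.Topology.Algebra.Module.FiniteDimension
import Vale.Agent.Lib.P250.GeoCore

/-! # P250 module G1a: existence of the Levi-Civita connection -/

open scoped ContDiff
open Complex Set

set_option maxSynthPendingDepth 3

namespace P250

section LCAreal

variable {F : Type*} [NormedAddCommGroup F] [NormedSpace ℝ F]

/-- the Koszul trilinear form as a function of the derivative of the metric -/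
private noncomputable def LCA_koszul (D : F →L[ℝ] F →L[ℝ] F →L[ℝ] ℝ) :
    F →L[ℝ] F →L[ℝ] F →L[ℝ] ℝ :=
  (1 / 2 : ℝ) • (D + D.flip -
    ((ContinuousLinearMap.flipₗᵢ ℝ F F ℝ).toContinuousLinearEquiv :
      (F →L[ℝ] F →L[ℝ] ℝ) →L[ℝ] (F →L[ℝ] F →L[ℝ] ℝ)).comp D.flip)

private theorem LCA_koszul_apply (D : F →L[ℝ] F →L[ℝ] F →L[ℝ] ℝ) (u v w : F) :
    LCA_koszul D u v w = (1 / 2 : ℝ) * (D u v w + D v u w - D w u v) := by
  simp [LCA_koszul]

private theorem LCA_koszul_smooth {M : Set F} {D : F → F →L[ℝ] F →L[ℝ] F →L[ℝ] ℝ}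
    (hD : ContDiffOn ℝ ∞ D M) : ContDiffOn ℝ ∞ (fun p => LCA_koszul (D p)) M := by
  have h1 : ContDiffOn ℝ ∞ (fun p => (D p).flip) M :=
    (ContinuousLinearMap.flipₗᵢ ℝ F F (F →L[ℝ] ℝ)).contDiff.comp_contDiffOn hD
  have h2 : ContDiffOn ℝ ∞ (fun p =>
      ((ContinuousLinearMap.flipₗᵢ ℝ F F ℝ).toContinuousLinearEquiv :
      (F →L[ℝ] F →L[ℝ] ℝ) →L[ℝ] (F →L[ℝ] F →L[ℝ] ℝ)).comp (D p).flip) M :=
    ContDiffOn.clm_comp contDiffOn_const h1
  exact ((hD.add h1).sub h2).const_smul (1 / 2 : ℝ)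

/-- the derivative of the metric is symmetric -/
private theorem LCA_symm {M : Set F} (hM : IsOpen M) {g : F → F →L[ℝ] F →L[ℝ] ℝ}
    (hs : ContDiffOn ℝ ∞ g M) (hsym : ∀ p ∈ M, ∀ u v : F, g p u v = g p v u)
    {p : F} (hp : p ∈ M) (u v w : F) :
    fderiv ℝ g p u v w = fderiv ℝ g p u w v := by
  have hd : DifferentiableAt ℝ g p :=
    (hs.contDiffAt (hM.mem_nhds hp)).differentiableAt (by simp)
  have key : ∀ a b : F, fderiv ℝ (fun q => g q a b) p u = fderiv ℝ g p u a b := by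
    intro a b
    have h1 := (hd.hasFDerivAt.clm_apply (hasFDerivAt_const a p)).clm_apply (hasFDerivAt_const b p)
    rw [h1.fderiv]
    simp
  rw [← key v w, ← key w v]
  have h2 : (fun q => g q v w) =ᶠ[nhds p] (fun q => g q w v) := by
    filter_upwards [hM.mem_nhds hp] with q hq
    exact hsym q hq v w
  rw [h2.fderiv_eq]

/-- the metric at a point as an isomorphism -/
private theorem LCA_equiv [FiniteDimensional ℝ F] {G : F →L[ℝ] F →L[ℝ] ℝ}
    (hG : ∀ u : F, u ≠ 0 → 0 < G u u) :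
    ∃ e : F ≃L[ℝ] (F →L[ℝ] ℝ), (e : F →L[ℝ] (F →L[ℝ] ℝ)) = G := by
  have hinj : Function.Injective (G : F →ₗ[ℝ] (F →L[ℝ] ℝ)) := by
    rw [injective_iff_map_eq_zero]
    intro u hu
    by_contra h0
    have h1 := hG u h0
    have h2 : G u = 0 := hu
    rw [h2] at h1
    simp at h1
  have hfr : Module.finrank ℝ F = Module.finrank ℝ (F →L[ℝ] ℝ) := by
    have h1 : Module.finrank ℝ (F →L[ℝ] ℝ) = Module.finrank ℝ (Module.Dual ℝ F) :=
      (LinearEquiv.finrank_eq (LinearMap.toContinuousLinearMap (𝕜 := ℝ) (E := F) (F' := ℝ))).symm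
    rw [h1, Subspace.dual_finrank_eq]
  let e0 : F ≃ₗ[ℝ] (F →L[ℝ] ℝ) :=
    LinearEquiv.ofInjectiveOfFinrankEq (G : F →ₗ[ℝ] (F →L[ℝ] ℝ)) hinj hfr
  refine ⟨e0.toContinuousLinearEquiv, ?_⟩
  ext u v
  rfl

private theorem LCA_exists [FiniteDimensional ℝ F] {M : Set F} (hM : IsOpen M)
    {g : F → F →L[ℝ] F →L[ℝ] ℝ} (hs : ContDiffOn ℝ ∞ g M)
    (hsym : ∀ p ∈ M, ∀ u v : F, g p u v = g p v u)
    (hpos : ∀ p ∈ M, ∀ u : F, u ≠ 0 → 0 < g p u u) :
    ∃ Γ : F → F →L[ℝ] F →L[ℝ] F, ContDiffOn ℝ ∞ Γ M ∧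
      (∀ p ∈ M, ∀ u v : F, Γ p u v = Γ p v u) ∧
      ∀ p ∈ M, ∀ u v w : F, fderiv ℝ g p u v w = g p (Γ p u v) w + g p v (Γ p u w) := by
  have : CompleteSpace F := FiniteDimensional.complete ℝ F
  let K : F → F →L[ℝ] F →L[ℝ] F →L[ℝ] ℝ := fun p => LCA_koszul (fderiv ℝ g p)
  let inv : F → (F →L[ℝ] ℝ) →L[ℝ] F := fun p => ContinuousLinearMap.inverse (g p)
  let Γ : F → F →L[ℝ] F →L[ℝ] F := fun p =>
    (ContinuousLinearMap.compL ℝ F (F →L[ℝ] ℝ) F (inv p)).comp (K p)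
  have hinv : ∀ p ∈ M, ∀ φ : F →L[ℝ] ℝ, g p (inv p φ) = φ := by
    intro p hp φ
    obtain ⟨e, he⟩ := LCA_equiv (hpos p hp)
    show g p (ContinuousLinearMap.inverse (g p) φ) = φ
    rw [← he, ContinuousLinearMap.inverse_equiv]
    simp
  have hG : ∀ p ∈ M, ∀ u v w : F, g p (Γ p u v) w =
      (1 / 2 : ℝ) * (fderiv ℝ g p u v w + fderiv ℝ g p v u w - fderiv ℝ g p w u v) := by
    intro p hp u v w
    have h1 : Γ p u v = inv p (K p u v) := rfl
    rw [h1, hinv p hp]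
    exact LCA_koszul_apply _ u v w
  refine ⟨Γ, ?_, ?_, ?_⟩
  · have hD : ContDiffOn ℝ ∞ (fderiv ℝ g) M :=
      hs.fderiv_of_isOpen hM (by simp)
    have hK : ContDiffOn ℝ ∞ K M := LCA_koszul_smooth hD
    have hI : ContDiffOn ℝ ∞ inv M := by
      intro p hp
      obtain ⟨e, he⟩ := LCA_equiv (hpos p hp)
      have h1 : ContDiffAt ℝ ∞ ContinuousLinearMap.inverse (g p) := by
        rw [← he]
        exact contDiffAt_map_inverse e
      exact (h1.comp p (hs.contDiffAt (hM.mem_nhds hp))).contDiffWithinAt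
    have hC : ContDiffOn ℝ ∞ (fun p => ContinuousLinearMap.compL ℝ F (F →L[ℝ] ℝ) F (inv p)) M :=
      (ContinuousLinearMap.compL ℝ F (F →L[ℝ] ℝ) F).contDiff.comp_contDiffOn hI
    exact hC.clm_comp hK
  · intro p hp u v
    have h1 : K p u v = K p v u := by
      ext w
      have e1 := LCA_koszul_apply (fderiv ℝ g p) u v w
      have e2 := LCA_koszul_apply (fderiv ℝ g p) v u w
      have e3 := LCA_symm hM hs hsym hp w u v
      show LCA_koszul (fderiv ℝ g p) u v w = LCA_koszul (fderiv ℝ g p) v u w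
      rw [e1, e2, e3]
      ring
    show inv p (K p u v) = inv p (K p v u)
    rw [h1]
  · intro p hp u v w
    rw [hsym p hp v (Γ p u w), hG p hp, hG p hp, LCA_symm hM hs hsym hp u w v]
    ring

end LCAreal

variable {E : Type*} [NormedAddCommGroup E] [NormedSpace ℂ E] [FiniteDimensional ℂ E]

/-- Koszul formula; `g p : E → E*` is invertible (finite dimension, positive definite) and
`ContinuousLinearMap.inverse` is smooth. -/
theorem exists_leviCivita {M : Set E} (hM : IsOpen M) {g : E → E →L[ℝ] E →L[ℝ] ℝ}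
    (hg : IsRiemannianMetric M g) : ∃ Γ : E → E →L[ℝ] E →L[ℝ] E, IsLeviCivita M g Γ := by
  obtain ⟨Γ, h1, h2, h3⟩ := LCA_exists hM hg.smooth hg.symm hg.pos
  exact ⟨Γ, h1, h2, h3⟩

end P250
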