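import Mathlib.Algebra.Order.Star.Real
import Mathlib.Analysis.Calculus.ContDiff.Defs
import Vale.Agent.Lib.P250.AlgDefs

/-! # P250 module G8a: unitary frame -/

open scoped ContDiff
open Complex Metric Set

namespace P250

/-- the unitary matrix with rows `(p, q)` and `(- conj q, conj p)` as a linear equivalence -/
private noncomputable def rotEquiv (p q : ℂ)
    (h : p * starRingEnd ℂ p + q * starRingEnd ℂ q = 1) : (ℂ × ℂ) ≃ₗ[ℂ] (ℂ × ℂ) where
  toFun ξ := (p * ξ.1 + q * ξ.2, -starRingEnd ℂ q * ξ.1 + starRingEnd ℂ p * ξ.2)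
  invFun ξ := (starRingEnd ℂ p * ξ.1 - q * ξ.2, starRingEnd ℂ q * ξ.1 + p * ξ.2)
  map_add' ξ η := by
    ext <;> simp <;> ring
  map_smul' a ξ := by
    ext <;> simp <;> ring
  left_inv ξ := by
    ext
    · simp only
      linear_combination ξ.1 * h
    · simp only
      linear_combination ξ.2 * h
  right_inv ξ := by
    ext
    · simp only
      linear_combination ξ.1 * h
    · simp only
      linear_combination ξ.2 * h

private theorem rotEquiv_apply (p q : ℂ)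
    (h : p * starRingEnd ℂ p + q * starRingEnd ℂ q = 1) (ξ : ℂ × ℂ) :
    rotEquiv p q h ξ = (p * ξ.1 + q * ξ.2, -starRingEnd ℂ q * ξ.1 + starRingEnd ℂ p * ξ.2) := rfl

private theorem rotEquiv_ip (p q : ℂ)
    (h : p * starRingEnd ℂ p + q * starRingEnd ℂ q = 1) (ξ η : ℂ × ℂ) :
    ip (rotEquiv p q h ξ) (rotEquiv p q h η) = ip ξ η := by
  simp only [ip, rotEquiv_apply, map_add, map_mul, map_neg, Complex.conj_conj]
  linear_combination (ξ.1 * starRingEnd ℂ η.1 + ξ.2 * starRingEnd ℂ η.2) * h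

/-- real diagonalisation data for a hermitian `2 × 2` matrix -/
private theorem diag_data (a d : ℝ) (b : ℂ) :
    ∃ (p q : ℂ) (c1 c2 : ℝ), p * starRingEnd ℂ p + q * starRingEnd ℂ q = 1 ∧
      (c1 : ℂ) * (p * starRingEnd ℂ p) + c2 * (q * starRingEnd ℂ q) = a ∧
      ((c1 : ℂ) - c2) * (p * starRingEnd ℂ q) = b ∧
      (c1 : ℂ) * (q * starRingEnd ℂ q) + c2 * (p * starRingEnd ℂ p) = d := by
  by_cases hb : b = 0
  · subst hb
    exact ⟨1, 0, a, d, by simp⟩
  · have hbpos : 0 < Complex.normSq b := Complex.normSq_pos.mpr hb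
    set S : ℝ := Real.sqrt ((a - d) ^ 2 + 4 * Complex.normSq b) with hS
    have hin : 0 < (a - d) ^ 2 + 4 * Complex.normSq b := by positivity
    have hSpos : 0 < S := Real.sqrt_pos.mpr hin
    have hSsq : S ^ 2 = (a - d) ^ 2 + 4 * Complex.normSq b := Real.sq_sqrt hin.le
    have hSgt : a - d < S := by
      by_contra hcon
      push Not at hcon
      nlinarith [hSpos]
    set c1 : ℝ := ((a + d) + S) / 2 with hc1
    set c2 : ℝ := ((a + d) - S) / 2 with hc2
    have hca : 0 < c1 - a := by rw [hc1]; linarith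
    have hprod : (c1 - a) * (c1 - d) = Complex.normSq b := by
      rw [hc1]; nlinarith [hSsq]
    set Q : ℝ := Real.sqrt ((c1 - a) / S) with hQ
    have hQin : 0 < (c1 - a) / S := by positivity
    have hQpos : 0 < Q := Real.sqrt_pos.mpr hQin
    have hQsq : Q ^ 2 = (c1 - a) / S := Real.sq_sqrt hQin.le
    have hQsq' : Q ^ 2 * S = c1 - a := by rw [hQsq]; field_simp
    have hSC : (S : ℂ) ≠ 0 := by exact_mod_cast hSpos.ne'
    have hQC : (Q : ℂ) ≠ 0 := by exact_mod_cast hQpos.ne'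
    have hpp : (b / (S * Q)) * starRingEnd ℂ (b / (S * Q)) = (((c1 - d) / S : ℝ) : ℂ) := by
      rw [Complex.mul_conj]
      congr 1
      rw [map_div₀, map_mul, Complex.normSq_ofReal, Complex.normSq_ofReal, ← hprod]
      have : S * S * (Q * Q) = S * (c1 - a) := by
        rw [← hQsq']; ring
      rw [this]
      field_simp
    have hqq : (Q : ℂ) * starRingEnd ℂ (Q : ℂ) = (((c1 - a) / S : ℝ) : ℂ) := by
      rw [Complex.conj_ofReal, ← hQsq]; push_cast; ring
    have hsum : (c1 - d) / S + (c1 - a) / S = 1 := by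
      rw [← add_div, div_eq_one_iff_eq hSpos.ne', hc1]; ring
    refine ⟨b / (S * Q), Q, c1, c2, ?_, ?_, ?_, ?_⟩
    · rw [hpp, hqq]
      exact_mod_cast hsum
    · rw [hpp, hqq]
      have : c1 * ((c1 - d) / S) + c2 * ((c1 - a) / S) = a := by
        field_simp
        rw [hc1, hc2]
        nlinarith [hSsq]
      exact_mod_cast this
    · rw [Complex.conj_ofReal]
      have h12 : (c1 : ℂ) - c2 = S := by
        have : c1 - c2 = S := by rw [hc1, hc2]; ring
        exact_mod_cast this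
      rw [h12]
      field_simp
    · rw [hpp, hqq]
      have : c1 * ((c1 - a) / S) + c2 * ((c1 - d) / S) = d := by
        field_simp
        rw [hc1, hc2]
        nlinarith [hSsq]
      exact_mod_cast this

/-- A hermitian form on `ℂ²` is diagonal in a unitary frame. -/
theorem exists_unitary_frame (c : (ℂ × ℂ) → (ℂ × ℂ) → ℂ)
    (hlin : ∀ ξ ξ' η, c (ξ + ξ') η = c ξ η + c ξ' η) (hsm : ∀ (a : ℂ) ξ η, c (a • ξ) η = a * c ξ η)
    (hherm : ∀ ξ η, starRingEnd ℂ (c ξ η) = c η ξ) :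
    ∃ (L : (ℂ × ℂ) ≃ₗ[ℂ] (ℂ × ℂ)) (c1 c2 : ℝ), (∀ ξ η, ip (L ξ) (L η) = ip ξ η) ∧
      (∀ ξ η, c ξ η = cdiag c1 c2 (L ξ) (L η)) := by
  -- expansion in the second argument
  have hlin2 : ∀ ξ η η', c ξ (η + η') = c ξ η + c ξ η' := by
    intro ξ η η'
    rw [← hherm (η + η') ξ, hlin, map_add, hherm, hherm]
  have hsm2 : ∀ (a : ℂ) ξ η, c ξ (a • η) = starRingEnd ℂ a * c ξ η := by
    intro a ξ η
    rw [← hherm (a • η) ξ, hsm, map_mul, hherm]
  have hdec : ∀ ξ : ℂ × ℂ, ξ = ξ.1 • ((1 : ℂ), (0 : ℂ)) + ξ.2 • ((0 : ℂ), (1 : ℂ)) := by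
    intro ξ
    ext <;> simp
  set e1 : ℂ × ℂ := ((1 : ℂ), (0 : ℂ)) with he1
  set e2 : ℂ × ℂ := ((0 : ℂ), (1 : ℂ)) with he2
  have ha : ((c e1 e1).re : ℂ) = c e1 e1 := Complex.conj_eq_iff_re.mp (hherm e1 e1)
  have hd : ((c e2 e2).re : ℂ) = c e2 e2 := Complex.conj_eq_iff_re.mp (hherm e2 e2)
  have hexp : ∀ ξ η : ℂ × ℂ, c ξ η =
      ξ.1 * starRingEnd ℂ η.1 * c e1 e1 + ξ.1 * starRingEnd ℂ η.2 * c e1 e2
        + ξ.2 * starRingEnd ℂ η.1 * starRingEnd ℂ (c e1 e2)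
        + ξ.2 * starRingEnd ℂ η.2 * c e2 e2 := by
    intro ξ η
    conv_lhs => rw [hdec ξ, hdec η]
    rw [hlin, hlin2, hlin2, hsm, hsm, hsm, hsm, hsm2, hsm2, hsm2, hsm2, hherm e1 e2]
    ring
  obtain ⟨p, q, c1, c2, h1, h2, h3, h4⟩ := diag_data (c e1 e1).re (c e2 e2).re (c e1 e2)
  rw [ha] at h2
  rw [hd] at h4
  have h3' : ((c1 : ℂ) - c2) * (q * starRingEnd ℂ p) = starRingEnd ℂ (c e1 e2) := by
    rw [← h3]
    simp only [map_mul, map_sub, Complex.conj_ofReal, Complex.conj_conj]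
    ring
  refine ⟨rotEquiv p q h1, c1, c2, rotEquiv_ip p q h1, ?_⟩
  intro ξ η
  rw [hexp ξ η, ← h2, ← h3', ← h3, ← h4]
  simp only [cdiag, rotEquiv_apply, map_add, map_mul, map_neg, Complex.conj_conj]
  ring

end P250
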