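import Vale.Agent.Lib.P250.PolDefs

/-! # P250 module G6: definitions -/

open scoped ContDiff
open Complex Metric Set

namespace P250

/-- the polarised model potential
`A (-log (1 - x·y)) - log (1 - exp (τ + t + fh (x, y)))` at `((x, τ), (y, t))` -/
noncomputable def Kmod (A : ℝ) (fh : (ℂ × ℂ) × (ℂ × ℂ) → ℂ) (z : V3 × V3) : ℂ :=
  A * (-Complex.log (1 - z.1.1.1 * z.2.1.1 - z.1.1.2 * z.2.1.2))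
    - Complex.log (1 - Complex.exp (z.1.2 + z.2.2 + fh (z.1.1, z.2.1)))

/-- its domain -/
def Umod (r0 : ℝ) (fh : (ℂ × ℂ) × (ℂ × ℂ) → ℂ) : Set (V3 × V3) :=
  {z | (z.1.1, z.2.1) ∈ ball (0 : (ℂ × ℂ) × (ℂ × ℂ)) r0 ∧
    ‖Complex.exp (z.1.2 + z.2.2 + fh (z.1.1, z.2.1))‖ < 1}

/-- the diagonal values: the real model potential -/
noncomputable def Phimod (A : ℝ) (fh : (ℂ × ℂ) × (ℂ × ℂ) → ℂ) (p : V3) : ℝ :=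
  A * (-Real.log (1 - ‖p.1.1‖ ^ 2 - ‖p.1.2‖ ^ 2))
    - Real.log (1 - Real.exp (2 * p.2.re + (fh (p.1, cj p.1)).re))

/-- derivatives of `fh` at `0` -/
noncomputable def f11 (fh : (ℂ × ℂ) × (ℂ × ℂ) → ℂ) (ξ η : ℂ × ℂ) : ℂ :=
  dd (dd fh (0, cj η)) (ξ, 0) 0

noncomputable def f21 (fh : (ℂ × ℂ) × (ℂ × ℂ) → ℂ) (ξ ξ' η : ℂ × ℂ) : ℂ :=
  dd (dd (dd fh (0, cj η)) (ξ', 0)) (ξ, 0) 0

noncomputable def f12 (fh : (ℂ × ℂ) × (ℂ × ℂ) → ℂ) (ξ η η' : ℂ × ℂ) : ℂ :=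
  dd (dd (dd fh (0, cj η')) (0, cj η)) (ξ, 0) 0

noncomputable def f22 (fh : (ℂ × ℂ) × (ℂ × ℂ) → ℂ) (ξ ξ' η η' : ℂ × ℂ) : ℂ :=
  dd (dd (dd (dd fh (0, cj η')) (0, cj η)) (ξ', 0)) (ξ, 0) 0

end P250
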