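import Mathlib.Analysis.CStarAlgebra.Classes
import Mathlib.Analysis.Calculus.ContDiff.FiniteDimension
import Mathlib.Analysis.Calculus.ParametricIntervalIntegral
import Mathlib.Analysis.Complex.Schwarz

/-! # P250 module A7a: Osgood -/

open scoped ContDiff
open Complex Metric Set

namespace P250

variable {E : Type*} [NormedAddCommGroup E] [NormedSpace ℂ E]
variable {F : Type*} [NormedAddCommGroup F] [NormedSpace ℂ F]

private theorem differentiableOn_clm_apply' [FiniteDimensional ℂ E]
    {f : E → E →L[ℂ] F} {s : Set E} (h : ∀ y, DifferentiableOn ℂ (fun x => f x y) s) :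
    DifferentiableOn ℂ f s := by
  let d := Module.finrank ℂ E
  have hd : d = Module.finrank ℂ (Fin d → ℂ) := (Module.finrank_fin_fun ℂ).symm
  let e₁ := ContinuousLinearEquiv.ofFinrankEq hd
  let e₂ := (e₁.arrowCongr (1 : F ≃L[ℂ] F)).trans (ContinuousLinearEquiv.piRing (Fin d))
  rw [← Function.id_comp f, ← e₂.symm_comp_self]
  exact e₂.symm.differentiable.comp_differentiableOn (differentiableOn_pi.mpr fun i => h _)

/-- Cauchy formula for a directional derivative -/
private theorem cauchy_dir [CompleteSpace F] {f : E → F} {z0 z u : E} {R r : ℝ} (hr : 0 < r)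
    (hru : r * ‖u‖ < R) (hz : z ∈ ball z0 R)
    (hf : DifferentiableOn ℂ f (ball z0 (2 * R))) :
    fderiv ℂ f z u = (2 * Real.pi * I : ℂ)⁻¹ •
      ∫ θ in (0 : ℝ)..2 * Real.pi, (deriv (circleMap 0 r) θ * ((circleMap 0 r θ) ^ 2)⁻¹) •
        f (z + circleMap 0 r θ • u) := by
  have hR : 0 < R := pos_of_mem_ball hz
  set U : Set ℂ := (fun ζ : ℂ => z + ζ • u) ⁻¹' (ball z0 (2 * R)) with hU
  have hcont : Continuous fun ζ : ℂ => z + ζ • u := by fun_prop
  have hUo : IsOpen U := isOpen_ball.preimage hcont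
  have hcU : closedBall (0 : ℂ) r ⊆ U := by
    intro ζ hζ
    rw [mem_closedBall_zero_iff] at hζ
    rw [hU, mem_preimage, mem_ball, dist_eq_norm]
    rw [mem_ball, dist_eq_norm] at hz
    calc ‖z + ζ • u - z0‖ = ‖(z - z0) + ζ • u‖ := by congr 1; abel
      _ ≤ ‖z - z0‖ + ‖ζ • u‖ := norm_add_le _ _
      _ = ‖z - z0‖ + ‖ζ‖ * ‖u‖ := by rw [norm_smul]
      _ ≤ ‖z - z0‖ + r * ‖u‖ := by gcongr
      _ < 2 * R := by linarith
  have hdU : DifferentiableOn ℂ (fun ζ : ℂ => f (z + ζ • u)) U := by
    refine hf.comp ?_ (fun ζ hζ => hζ)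
    exact (Differentiable.differentiableOn (by fun_prop))
  have h1 := two_pi_I_inv_smul_circleIntegral_sub_sq_inv_smul_of_differentiable hUo hcU hdU
    (mem_ball_self hr)
  have hzd : DifferentiableAt ℂ f z := by
    refine hf.differentiableAt (isOpen_ball.mem_nhds ?_)
    exact ball_subset_ball (by linarith) hz
  have h2 : deriv (fun ζ : ℂ => f (z + ζ • u)) 0 = fderiv ℂ f z u := by
    have h3 : HasDerivAt (fun ζ : ℂ => z + ζ • u) u 0 := by
      simpa using ((hasDerivAt_id (0 : ℂ)).smul_const u).const_add z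
    have h4 : HasFDerivAt f (fderiv ℂ f z) (z + (0 : ℂ) • u) := by
      simpa using hzd.hasFDerivAt
    exact (h4.comp_hasDerivAt (0 : ℂ) h3).deriv
  rw [← h2, ← h1]
  congr 1
  unfold circleIntegral
  apply intervalIntegral.integral_congr
  intro θ _
  simp only [sub_zero, smul_smul]

/-- The derivative of a complex differentiable function on an open subset of a finite dimensional
space is again complex differentiable. Proof: near `z0`, for fixed `u`,
`Df(z)u = (2πi)⁻¹ ∮ f(z + ζ u) / ζ² dζ`; the integrand is differentiable in `z` with derivative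
bounded by the Schwarz lemma (`Complex.norm_fderiv_le_div_of_mapsTo_ball`), so
`hasFDerivAt_integral_of_dominated_of_fderiv_le` applies (measurability: `measurable_fderiv`).
Finite dimension: differentiability of `z ↦ Df(z)u` for each `u` gives that of `Df`. -/
theorem differentiableOn_fderiv [FiniteDimensional ℂ E] [FiniteDimensional ℂ F]
    {f : E → F} {U : Set E} (hU : IsOpen U) (hf : DifferentiableOn ℂ f U) :
    DifferentiableOn ℂ (fderiv ℂ f) U := by
  have : CompleteSpace F := FiniteDimensional.complete ℂ F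
  apply differentiableOn_clm_apply'
  intro u z0 hz0
  apply DifferentiableAt.differentiableWithinAt
  have hfz : DifferentiableAt ℂ f z0 := hf.differentiableAt (hU.mem_nhds hz0)
  obtain ⟨δ, hδ, hball⟩ : ∃ δ > 0, ∀ z ∈ ball z0 δ, z ∈ U ∧ ‖f z‖ < ‖f z0‖ + 1 := by
    have h1 : ∀ᶠ z in nhds z0, z ∈ U ∧ ‖f z‖ < ‖f z0‖ + 1 := by
      have h2 : Filter.Tendsto (fun z => ‖f z‖) (nhds z0) (nhds ‖f z0‖) :=
        hfz.continuousAt.norm
      have h3 : ∀ᶠ z in nhds z0, ‖f z‖ < ‖f z0‖ + 1 :=
        h2.eventually (gt_mem_nhds (lt_add_one _))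
      have h4 : ∀ᶠ z in nhds z0, z ∈ U := hU.mem_nhds hz0
      exact h4.and h3
    exact Metric.eventually_nhds_iff_ball.mp h1
  set M : ℝ := ‖f z0‖ + 1 with hM
  have hM0 : 0 < M := by positivity
  set R : ℝ := δ / 3 with hR
  have hR0 : 0 < R := by positivity
  have hfd : DifferentiableOn ℂ f (ball z0 δ) := hf.mono fun z hz => (hball z hz).1
  have hfd2 : DifferentiableOn ℂ f (ball z0 (2 * R)) :=
    hfd.mono (ball_subset_ball (by rw [hR]; linarith))
  set r : ℝ := R / (‖u‖ + 1) with hr
  have hr0 : 0 < r := by positivity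
  have hru : r * ‖u‖ < R := by
    rw [hr, div_mul_eq_mul_div, div_lt_iff₀ (by positivity)]
    nlinarith [norm_nonneg u]
  set c : ℝ → ℂ := fun θ => circleMap 0 r θ with hc
  set k : ℝ → ℂ := fun θ => deriv (circleMap 0 r) θ * ((circleMap 0 r θ) ^ 2)⁻¹ with hk
  have hcc : Continuous c := continuous_circleMap 0 r
  have hcn : ∀ θ, ‖c θ‖ = r := fun θ => by
    rw [hc]
    simp only [norm_circleMap_zero, abs_of_pos hr0]
  have hkn : ∀ θ, ‖k θ‖ = r⁻¹ := fun θ => by
    rw [hk]
    simp only [deriv_circleMap, norm_mul, norm_inv, norm_pow, norm_circleMap_zero, norm_I,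
      mul_one, abs_of_pos hr0]
    field_simp
  have hkc : Continuous k := by
    have h1 : ∀ θ, (circleMap 0 r θ) ^ 2 ≠ 0 := fun θ =>
      pow_ne_zero 2 (circleMap_ne_center hr0.ne')
    have h2 : k = fun θ => circleMap 0 r θ * I * ((circleMap 0 r θ) ^ 2)⁻¹ := by
      funext θ
      rw [hk]
      simp only [deriv_circleMap]
    rw [h2]
    exact ((continuous_circleMap 0 r).mul continuous_const).mul
      (((continuous_circleMap 0 r).pow 2).inv₀ h1)
  have hin : ∀ z ∈ ball z0 R, ∀ θ, z + c θ • u ∈ ball z0 (2 * R) := by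
    intro z hz θ
    rw [mem_ball, dist_eq_norm] at hz ⊢
    calc ‖z + c θ • u - z0‖ = ‖(z - z0) + c θ • u‖ := by congr 1; abel
      _ ≤ ‖z - z0‖ + ‖c θ • u‖ := norm_add_le _ _
      _ = ‖z - z0‖ + r * ‖u‖ := by rw [norm_smul, hcn]
      _ < 2 * R := by linarith
  have hbd : ∀ p ∈ ball z0 (2 * R), ‖fderiv ℂ f p‖ ≤ (2 * M) / R := by
    intro p hp
    have hsub : ball p R ⊆ ball z0 δ := by
      intro q hq
      rw [mem_ball] at hp hq ⊢
      calc dist q z0 ≤ dist q p + dist p z0 := dist_triangle _ _ _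
        _ < δ := by rw [hR] at *; linarith
    refine norm_fderiv_le_div_of_mapsTo_ball (hfd.mono hsub) ?_ hR0
    intro q hq
    rw [mem_closedBall, dist_eq_norm]
    have h1 := (hball q (hsub hq)).2
    have h2 := (hball p (hsub (mem_ball_self hR0))).2
    calc ‖f q - f p‖ ≤ ‖f q‖ + ‖f p‖ := norm_sub_le _ _
      _ ≤ 2 * M := by linarith
  have hcont : ∀ z ∈ ball z0 R, Continuous fun θ : ℝ => k θ • f (z + c θ • u) := by
    intro z hz
    apply hkc.smul
    have h1 : ContinuousOn f (ball z0 (2 * R)) := hfd2.continuousOn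
    exact h1.comp_continuous (by fun_prop) (hin z hz)
  have hmain : HasFDerivAt (fun z => ∫ θ in (0 : ℝ)..2 * Real.pi, k θ • f (z + c θ • u))
      (∫ θ in (0 : ℝ)..2 * Real.pi, k θ • fderiv ℂ f (z0 + c θ • u)) z0 := by
    apply intervalIntegral.hasFDerivAt_integral_of_dominated_of_fderiv_le
      (F := fun z θ => k θ • f (z + c θ • u))
      (F' := fun z θ => k θ • fderiv ℂ f (z + c θ • u))
      (bound := fun _ => r⁻¹ * ((2 * M) / R)) (ball_mem_nhds z0 hR0)
    · filter_upwards [ball_mem_nhds z0 hR0] with z hz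
      exact (hcont z hz).aestronglyMeasurable
    · exact (hcont z0 (mem_ball_self hR0)).intervalIntegrable _ _
    · borelize E
      borelize F
      have h1 : Measurable (fderiv ℂ f) := measurable_fderiv ℂ f
      have h2 : Measurable fun θ : ℝ => z0 + c θ • u :=
        (Continuous.measurable (by fun_prop))
      have h3 : Measurable fun θ : ℝ => fderiv ℂ f (z0 + c θ • u) := h1.comp h2
      have h4 : MeasureTheory.AEStronglyMeasurable (fun θ : ℝ => fderiv ℂ f (z0 + c θ • u))
        (MeasureTheory.volume.restrict (Set.uIoc 0 (2 * Real.pi))) := by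
        have : ProperSpace (E →L[ℂ] F) := FiniteDimensional.proper ℂ (E →L[ℂ] F)
        exact h3.aestronglyMeasurable
      exact hkc.aestronglyMeasurable.smul h4
    · refine Filter.Eventually.of_forall fun θ _ z hz => ?_
      rw [norm_smul, hkn]
      exact mul_le_mul_of_nonneg_left (hbd _ (hin z hz θ)) (by positivity)
    · exact intervalIntegrable_const
    · refine Filter.Eventually.of_forall fun θ _ z hz => ?_
      have h1 : HasFDerivAt f (fderiv ℂ f (z + c θ • u)) (z + c θ • u) :=
        (hfd2.differentiableAt (isOpen_ball.mem_nhds (hin z hz θ))).hasFDerivAt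
      have h2 : HasFDerivAt (fun z : E => z + c θ • u) (ContinuousLinearMap.id ℂ E) z :=
        (hasFDerivAt_id z).add_const _
      have h3 := (h1.comp z h2).const_smul (k θ)
      exact h3
  have heq : (fun z => fderiv ℂ f z u) =ᶠ[nhds z0] fun z => (2 * Real.pi * I : ℂ)⁻¹ •
      ∫ θ in (0 : ℝ)..2 * Real.pi, k θ • f (z + c θ • u) := by
    filter_upwards [ball_mem_nhds z0 hR0] with z hz
    exact cauchy_dir hr0 hru hz hfd2
  exact ((hmain.const_smul _).congr_of_eventuallyEq heq).differentiableAt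

/-- Osgood: complex differentiable implies smooth (induction with `contDiffOn_succ_iff_fderiv_of_isOpen`). -/
theorem contDiffOn_of_differentiableOn [FiniteDimensional ℂ E] [FiniteDimensional ℂ F]
    {f : E → F} {U : Set E} (hU : IsOpen U) (hf : DifferentiableOn ℂ f U) :
    ContDiffOn ℂ ∞ f U := by
  rw [contDiffOn_infty]
  intro n
  induction n generalizing f with
  | zero =>
    rw [Nat.cast_zero, contDiffOn_zero]
    exact hf.continuousOn
  | succ n ih =>
    rw [Nat.cast_succ, contDiffOn_succ_iff_fderiv_of_isOpen hU]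
    refine ⟨hf, ?_, ?_⟩
    · intro h
      simp at h
    · rw [contDiffOn_clm_apply]
      intro y
      apply ih
      exact (differentiableOn_fderiv hU hf).clm_apply (differentiableOn_const y)

end P250
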