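import Mathlib.Analysis.Calculus.SmoothSeries
import Mathlib.Analysis.Complex.Liouville
import Mathlib.Order.CompletePartialOrder
import Vale.Agent.Lib.P250.OsgA

/-! # P250 module A7b: Cauchy estimate and sums -/

open scoped ContDiff
open Complex Metric Set

namespace P250

variable {E : Type*} [NormedAddCommGroup E] [NormedSpace ℂ E]
variable {F : Type*} [NormedAddCommGroup F] [NormedSpace ℂ F]

/-- Cauchy estimate for one derivative. -/
theorem dd_bound {f : E → F} {z0 : E} {R r M : ℝ} (hr : 0 < r)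
    (hf : DifferentiableOn ℂ f (ball z0 R)) (hM : ∀ z ∈ ball z0 R, ‖f z‖ ≤ M)
    {z : E} (hz : z ∈ ball z0 (R - r)) (u : E) : ‖fderiv ℂ f z u‖ ≤ M / r * ‖u‖ := by
  rcases eq_or_ne u 0 with rfl | hu
  · simp
  have hun : 0 < ‖u‖ := norm_pos_iff.2 hu
  have hρ : 0 < r / ‖u‖ := div_pos hr hun
  -- the disc
  have hmaps : ∀ ζ ∈ closedBall (0 : ℂ) (r / ‖u‖), z + ζ • u ∈ ball z0 R := by
    intro ζ hζ
    rw [mem_closedBall_zero_iff] at hζ
    rw [mem_ball, dist_eq_norm] at hz ⊢
    have h1 : ‖ζ • u‖ ≤ r := by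
      rw [norm_smul]
      calc ‖ζ‖ * ‖u‖ ≤ r / ‖u‖ * ‖u‖ := by gcongr
        _ = r := div_mul_cancel₀ _ hun.ne'
    have h2 : z + ζ • u - z0 = (z - z0) + ζ • u := by abel
    rw [h2]
    have := norm_add_le (z - z0) (ζ • u)
    linarith
  have hline : Differentiable ℂ (fun ζ : ℂ => z + ζ • u) := by fun_prop
  have hg : DifferentiableOn ℂ (fun ζ : ℂ => f (z + ζ • u)) (closedBall 0 (r / ‖u‖)) :=
    hf.comp hline.differentiableOn hmaps
  have hzR : z ∈ ball z0 R := by
    have := hmaps 0 (mem_closedBall_self hρ.le)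
    simpa using this
  have hd : HasDerivAt (fun ζ : ℂ => f (z + ζ • u)) (fderiv ℂ f z u) 0 := by
    have h1 : HasFDerivAt f (fderiv ℂ f z) (z + (0 : ℂ) • u) := by
      rw [zero_smul, add_zero]
      exact (hf.differentiableAt (isOpen_ball.mem_nhds hzR)).hasFDerivAt
    have h2 : HasDerivAt (fun ζ : ℂ => z + ζ • u) u 0 := by
      have := ((hasDerivAt_id (0 : ℂ)).smul_const u).const_add z
      simpa using this
    exact h1.comp_hasDerivAt 0 h2
  have h3 := norm_deriv_le_of_forall_mem_sphere_norm_le (f := fun ζ : ℂ => f (z + ζ • u)) (C := M)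
    hρ (hg.diffContOnCl_ball subset_rfl) (fun ζ hζ => hM _ (hmaps ζ (sphere_subset_closedBall hζ)))
  rw [hd.deriv] at h3
  calc ‖fderiv ℂ f z u‖ ≤ M / (r / ‖u‖) := h3
    _ = M / r * ‖u‖ := by field_simp

/-- Weierstrass: sums of holomorphic functions. -/
theorem holSum [FiniteDimensional ℂ E] [FiniteDimensional ℂ F] {ι : Type*} {f : ι → E → F}
    {u : ι → ℝ} (hu : Summable u) {z0 : E} {R : ℝ}
    (hf : ∀ i, DifferentiableOn ℂ (f i) (ball z0 R))
    (hb : ∀ i, ∀ z ∈ ball z0 R, ‖f i z‖ ≤ u i) :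
    ContDiffOn ℂ ∞ (fun z => ∑' i, f i z) (ball z0 R) := by
  have : CompleteSpace F := FiniteDimensional.complete ℂ F
  refine contDiffOn_of_differentiableOn isOpen_ball fun z hz => ?_
  have hu0 : ∀ i, 0 ≤ u i := fun i => (norm_nonneg _).trans (hb i z hz)
  have hzd : dist z z0 < R := hz
  obtain ⟨r, hr, hzr⟩ : ∃ r : ℝ, 0 < r ∧ dist z z0 < R - r :=
    ⟨(R - dist z z0) / 2, by linarith, by linarith⟩
  letI : NormedSpace ℝ E := NormedSpace.complexToReal
  have hpre : IsPreconnected (ball z0 (R - r)) := (convex_ball z0 (R - r)).isPreconnected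
  have hsub : ball z0 (R - r) ⊆ ball z0 R := ball_subset_ball (by linarith)
  have h1 := hasFDerivAt_tsum_of_isPreconnected (𝕜 := ℂ) (f := f)
    (f' := fun i x => fderiv ℂ (f i) x) (u := fun i => u i / r) (s := ball z0 (R - r))
    (x₀ := z) (x := z) (hu.div_const r) isOpen_ball hpre
    (fun i x hx => ((hf i).differentiableAt (isOpen_ball.mem_nhds (hsub hx))).hasFDerivAt)
    (fun i x hx => ContinuousLinearMap.opNorm_le_bound _ (div_nonneg (hu0 i) hr.le)
      (fun v => dd_bound hr (hf i) (hb i) hx v))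
    hzr (Summable.of_norm_bounded hu (fun i => hb i z hz)) hzr
  exact h1.differentiableAt.differentiableWithinAt

end P250
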