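import Mathlib.Algebra.Order.Star.Real
import Mathlib.Analysis.Calculus.FDeriv.Symmetric
import Vale.Agent.Lib.P250.AlgDefs
import Vale.Agent.Lib.P250.MJdefs
import Vale.Agent.Lib.P250.OsgB

/-! # P250 module G8b: arrays of the jets -/

open scoped ContDiff
open Complex Metric Set

namespace P250

private theorem mcb_dd_smooth {V : Type*} [NormedAddCommGroup V] [NormedSpace ℂ V] {B : Set V}
    (hB : IsOpen B) {F : V → ℂ} (hF : ContDiffOn ℂ ∞ F B) (u : V) :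
    ContDiffOn ℂ ∞ (dd F u) B := by
  have h1 : ContDiffOn ℂ ∞ (fderiv ℂ F) B := hF.fderiv_of_isOpen hB (by simp)
  exact h1.clm_apply contDiffOn_const

private theorem mcb_dd_congr {V : Type*} [NormedAddCommGroup V] [NormedSpace ℂ V] {B : Set V}
    (hB : IsOpen B) {F G : V → ℂ} (h : EqOn F G B) (u : V) : EqOn (dd F u) (dd G u) B := by
  intro z hz
  have h1 : F =ᶠ[nhds z] G := h.eventuallyEq_of_mem (hB.mem_nhds hz)
  unfold dd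
  rw [h1.fderiv_eq]

private theorem mcb_dd_comm {V : Type*} [NormedAddCommGroup V] [NormedSpace ℂ V] {B : Set V}
    (hB : IsOpen B) {F : V → ℂ} (hF : ContDiffOn ℂ ∞ F B) (u v : V) :
    EqOn (dd (dd F u) v) (dd (dd F v) u) B := by
  intro z hz
  have hFz : ContDiffAt ℂ ∞ F z := hF.contDiffAt (hB.mem_nhds hz)
  have hsym : IsSymmSndFDerivAt ℂ F z := hFz.isSymmSndFDerivAt (by
    rw [minSmoothness_of_isRCLikeNormedField]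
    exact WithTop.coe_le_coe.2 le_top)
  have hd : DifferentiableAt ℂ (fderiv ℂ F) z := by
    have h1 : ContDiffOn ℂ ∞ (fderiv ℂ F) B := hF.fderiv_of_isOpen hB (by simp)
    exact (h1.contDiffAt (hB.mem_nhds hz)).differentiableAt (by simp)
  have key : ∀ a b : V, dd (dd F a) b z = fderiv ℂ (fderiv ℂ F) z b a := by
    intro a b
    unfold dd
    rw [fderiv_clm_apply hd (differentiableAt_const _)]
    simp
  rw [key, key]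
  exact hsym v u

private theorem mcb_dd_add {V : Type*} [NormedAddCommGroup V] [NormedSpace ℂ V] (F : V → ℂ)
    (u v : V) : dd F (u + v) = fun z => dd F u z + dd F v z := by
  funext z
  exact map_add _ _ _

private theorem mcb_dd_smul {V : Type*} [NormedAddCommGroup V] [NormedSpace ℂ V] (F : V → ℂ)
    (a : ℂ) (u : V) : dd F (a • u) = fun z => a * dd F u z := by
  funext z
  exact map_smul _ _ _

/-! ### the abstract jets `T3`, `T4` -/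

private noncomputable def mcbT3 (F : (ℂ × ℂ) × (ℂ × ℂ) → ℂ) (u v w : (ℂ × ℂ) × (ℂ × ℂ)) : ℂ :=
  dd (dd (dd F w) v) u 0

private noncomputable def mcbT4 (F : (ℂ × ℂ) × (ℂ × ℂ) → ℂ) (u v w x : (ℂ × ℂ) × (ℂ × ℂ)) : ℂ :=
  dd (dd (dd (dd F x) w) v) u 0

section T

variable {F : (ℂ × ℂ) × (ℂ × ℂ) → ℂ} {r0 : ℝ}

private theorem mcb_mem (hr0 : 0 < r0) : (0 : (ℂ × ℂ) × (ℂ × ℂ)) ∈ ball (0 : (ℂ × ℂ) × (ℂ × ℂ)) r0 :=
  mem_ball_self hr0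

private theorem mcbT3_sw12 (hr0 : 0 < r0) (hF : ContDiffOn ℂ ∞ F (ball 0 r0))
    (u v w : (ℂ × ℂ) × (ℂ × ℂ)) : mcbT3 F u v w = mcbT3 F v u w :=
  mcb_dd_comm isOpen_ball (mcb_dd_smooth isOpen_ball hF w) v u (mcb_mem hr0)

private theorem mcbT3_sw23 (hr0 : 0 < r0) (hF : ContDiffOn ℂ ∞ F (ball 0 r0))
    (u v w : (ℂ × ℂ) × (ℂ × ℂ)) : mcbT3 F u v w = mcbT3 F u w v :=
  mcb_dd_congr isOpen_ball (mcb_dd_comm isOpen_ball hF w v) u (mcb_mem hr0)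

private theorem mcbT4_sw12 (hr0 : 0 < r0) (hF : ContDiffOn ℂ ∞ F (ball 0 r0))
    (u v w x : (ℂ × ℂ) × (ℂ × ℂ)) : mcbT4 F u v w x = mcbT4 F v u w x :=
  mcb_dd_comm isOpen_ball (mcb_dd_smooth isOpen_ball (mcb_dd_smooth isOpen_ball hF x) w) v u
    (mcb_mem hr0)

private theorem mcbT4_sw23 (hr0 : 0 < r0) (hF : ContDiffOn ℂ ∞ F (ball 0 r0))
    (u v w x : (ℂ × ℂ) × (ℂ × ℂ)) : mcbT4 F u v w x = mcbT4 F u w v x :=
  mcb_dd_congr isOpen_ball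
    (mcb_dd_comm isOpen_ball (mcb_dd_smooth isOpen_ball hF x) w v) u (mcb_mem hr0)

private theorem mcbT4_sw34 (hr0 : 0 < r0) (hF : ContDiffOn ℂ ∞ F (ball 0 r0))
    (u v w x : (ℂ × ℂ) × (ℂ × ℂ)) : mcbT4 F u v w x = mcbT4 F u v x w :=
  mcb_dd_congr isOpen_ball (mcb_dd_congr isOpen_ball
    (mcb_dd_comm isOpen_ball hF x w) v) u (mcb_mem hr0)

private theorem mcbT3_lin1 (a b : ℂ) (u u' v w : (ℂ × ℂ) × (ℂ × ℂ)) :
    mcbT3 F (a • u + b • u') v w = a * mcbT3 F u v w + b * mcbT3 F u' v w := by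
  unfold mcbT3
  rw [mcb_dd_add, mcb_dd_smul, mcb_dd_smul]

private theorem mcbT4_lin1 (a b : ℂ) (u u' v w x : (ℂ × ℂ) × (ℂ × ℂ)) :
    mcbT4 F (a • u + b • u') v w x = a * mcbT4 F u v w x + b * mcbT4 F u' v w x := by
  unfold mcbT4
  rw [mcb_dd_add, mcb_dd_smul, mcb_dd_smul]

private theorem mcbT3_lin2 (hr0 : 0 < r0) (hF : ContDiffOn ℂ ∞ F (ball 0 r0)) (a b : ℂ)
    (u v v' w : (ℂ × ℂ) × (ℂ × ℂ)) :
    mcbT3 F u (a • v + b • v') w = a * mcbT3 F u v w + b * mcbT3 F u v' w := by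
  rw [mcbT3_sw12 hr0 hF, mcbT3_lin1, mcbT3_sw12 hr0 hF v, mcbT3_sw12 hr0 hF v']

private theorem mcbT3_lin3 (hr0 : 0 < r0) (hF : ContDiffOn ℂ ∞ F (ball 0 r0)) (a b : ℂ)
    (u v w w' : (ℂ × ℂ) × (ℂ × ℂ)) :
    mcbT3 F u v (a • w + b • w') = a * mcbT3 F u v w + b * mcbT3 F u v w' := by
  rw [mcbT3_sw23 hr0 hF, mcbT3_lin2 hr0 hF, mcbT3_sw23 hr0 hF u w, mcbT3_sw23 hr0 hF u w']

private theorem mcbT4_lin2 (hr0 : 0 < r0) (hF : ContDiffOn ℂ ∞ F (ball 0 r0)) (a b : ℂ)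
    (u v v' w x : (ℂ × ℂ) × (ℂ × ℂ)) :
    mcbT4 F u (a • v + b • v') w x = a * mcbT4 F u v w x + b * mcbT4 F u v' w x := by
  rw [mcbT4_sw12 hr0 hF, mcbT4_lin1, mcbT4_sw12 hr0 hF v, mcbT4_sw12 hr0 hF v']

private theorem mcbT4_lin3 (hr0 : 0 < r0) (hF : ContDiffOn ℂ ∞ F (ball 0 r0)) (a b : ℂ)
    (u v w w' x : (ℂ × ℂ) × (ℂ × ℂ)) :
    mcbT4 F u v (a • w + b • w') x = a * mcbT4 F u v w x + b * mcbT4 F u v w' x := by
  rw [mcbT4_sw23 hr0 hF, mcbT4_lin2 hr0 hF, mcbT4_sw23 hr0 hF u w, mcbT4_sw23 hr0 hF u w']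

private theorem mcbT4_lin4 (hr0 : 0 < r0) (hF : ContDiffOn ℂ ∞ F (ball 0 r0)) (a b : ℂ)
    (u v w x x' : (ℂ × ℂ) × (ℂ × ℂ)) :
    mcbT4 F u v w (a • x + b • x') = a * mcbT4 F u v w x + b * mcbT4 F u v w x' := by
  rw [mcbT4_sw34 hr0 hF, mcbT4_lin3 hr0 hF, mcbT4_sw34 hr0 hF u v x, mcbT4_sw34 hr0 hF u v x']

/-- one Cauchy step -/
private theorem mcb_cauchy (hF : ContDiffOn ℂ ∞ F (ball 0 r0)) {R r M : ℝ} (hR : R ≤ r0)
    (hr : 0 < r) (hM : ∀ z ∈ ball (0 : (ℂ × ℂ) × (ℂ × ℂ)) R, ‖F z‖ ≤ M)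
    (u : (ℂ × ℂ) × (ℂ × ℂ)) :
    ∀ z ∈ ball (0 : (ℂ × ℂ) × (ℂ × ℂ)) (R - r), ‖dd F u z‖ ≤ M / r * ‖u‖ := by
  intro z hz
  have h1 : DifferentiableOn ℂ F (ball 0 R) :=
    (hF.differentiableOn (by simp)).mono (ball_subset_ball hR)
  exact dd_bound hr h1 hM hz u

private theorem mcb_bounds (hr0 : 0 < r0) (hF : ContDiffOn ℂ ∞ F (ball 0 r0)) {C0 : ℝ}
    (hM : ∀ z ∈ ball (0 : (ℂ × ℂ) × (ℂ × ℂ)) r0, ‖F z‖ ≤ C0) :
    (∀ u v, ‖dd (dd F v) u 0‖ ≤ C0 / (r0 / 5) ^ 2 * ‖u‖ * ‖v‖) ∧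
    (∀ u v w, ‖mcbT3 F u v w‖ ≤ C0 / (r0 / 5) ^ 3 * ‖u‖ * ‖v‖ * ‖w‖) ∧
    (∀ u v w x, ‖mcbT4 F u v w x‖ ≤ C0 / (r0 / 5) ^ 4 * ‖u‖ * ‖v‖ * ‖w‖ * ‖x‖) := by
  have hr : 0 < r0 / 5 := by positivity
  have s1 : ∀ x, ContDiffOn ℂ ∞ (dd F x) (ball 0 r0) := fun x => mcb_dd_smooth isOpen_ball hF x
  have s2 : ∀ x w, ContDiffOn ℂ ∞ (dd (dd F x) w) (ball 0 r0) := fun x w =>
    mcb_dd_smooth isOpen_ball (s1 x) w
  have s3 : ∀ x w v, ContDiffOn ℂ ∞ (dd (dd (dd F x) w) v) (ball 0 r0) := fun x w v =>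
    mcb_dd_smooth isOpen_ball (s2 x w) v
  have b1 := fun x => mcb_cauchy hF le_rfl hr hM x
  have b2 := fun x w => mcb_cauchy (s1 x) (R := r0 - r0 / 5) (by linarith) hr (b1 x) w
  have b3 := fun x w v => mcb_cauchy (s2 x w) (R := r0 - r0 / 5 - r0 / 5) (by linarith) hr
    (b2 x w) v
  have b4 := fun x w v u => mcb_cauchy (s3 x w v) (R := r0 - r0 / 5 - r0 / 5 - r0 / 5)
    (by linarith) hr (b3 x w v) u
  refine ⟨fun u v => ?_, fun u v w => ?_, fun u v w x => ?_⟩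
  · refine (b2 v u 0 (mem_ball_self (by linarith))).trans_eq ?_
    field_simp
  · refine (b3 w v u 0 (mem_ball_self (by linarith))).trans_eq ?_
    field_simp
  · refine (b4 x w v u 0 (mem_ball_self (by linarith))).trans_eq ?_
    field_simp

end T

/-! ### conjugation -/

private theorem mcb_cj_add (x y : ℂ × ℂ) : cj (x + y) = cj x + cj y := by
  simp [cj]

private theorem mcb_cj_cj (x : ℂ × ℂ) : cj (cj x) = x := by
  simp [cj]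

private theorem mcb_cj_smul (a : ℂ) (x : ℂ × ℂ) : cj (a • x) = starRingEnd ℂ a • cj x := by
  simp [cj]

private theorem mcb_cj_zero : cj 0 = 0 := by
  simp [cj]

private theorem mcb_norm_cj (x : ℂ × ℂ) : ‖cj x‖ = ‖x‖ := by
  simp [cj, Prod.norm_def]

private theorem mcb_norm_sw (z : (ℂ × ℂ) × (ℂ × ℂ)) :
    ‖((cj z.2, cj z.1) : (ℂ × ℂ) × (ℂ × ℂ))‖ = ‖z‖ := by
  have h1 : ‖((cj z.2, cj z.1) : (ℂ × ℂ) × (ℂ × ℂ))‖ = max ‖cj z.2‖ ‖cj z.1‖ := rfl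
  have h2 : ‖z‖ = max ‖z.1‖ ‖z.2‖ := rfl
  rw [h1, h2, mcb_norm_cj, mcb_norm_cj, max_comm]

/-- the antilinear involution `(x, y) ↦ (conj y, conj x)` as a real linear isometry -/
private noncomputable def mcbS : ((ℂ × ℂ) × (ℂ × ℂ)) →L[ℝ] ((ℂ × ℂ) × (ℂ × ℂ)) :=
  LinearMap.mkContinuous
    { toFun := fun z => (cj z.2, cj z.1)
      map_add' := fun x y => by simp [mcb_cj_add]
      map_smul' := fun a x => by
        simp only [Prod.smul_snd, Prod.smul_fst, RingHom.id_apply]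
        ext <;> simp [cj] } 1 (fun z => by
      change ‖(cj z.2, cj z.1)‖ ≤ 1 * ‖z‖
      rw [mcb_norm_sw, one_mul])

private theorem mcbS_apply (z : (ℂ × ℂ) × (ℂ × ℂ)) : mcbS z = (cj z.2, cj z.1) := rfl

private theorem mcbS_S (z : (ℂ × ℂ) × (ℂ × ℂ)) : mcbS (mcbS z) = z := by
  rw [mcbS_apply, mcbS_apply, mcb_cj_cj, mcb_cj_cj]

private theorem mcbS_norm (z : (ℂ × ℂ) × (ℂ × ℂ)) : ‖mcbS z‖ = ‖z‖ := by
  rw [mcbS_apply, mcb_norm_sw]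

private theorem mcbS_mem {r0 : ℝ} {z : (ℂ × ℂ) × (ℂ × ℂ)}
    (hz : z ∈ ball (0 : (ℂ × ℂ) × (ℂ × ℂ)) r0) : mcbS z ∈ ball (0 : (ℂ × ℂ) × (ℂ × ℂ)) r0 := by
  rw [mem_ball_zero_iff] at hz ⊢
  rwa [mcbS_norm]

/-- derivative of `conj ∘ G ∘ S` -/
private theorem mcb_dd_conj {r0 : ℝ} {G : (ℂ × ℂ) × (ℂ × ℂ) → ℂ}
    (hG : ContDiffOn ℂ ∞ G (ball 0 r0)) (u : (ℂ × ℂ) × (ℂ × ℂ)) :
    EqOn (dd (fun z => starRingEnd ℂ (G (mcbS z))) u)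
      (fun z => starRingEnd ℂ (dd G (mcbS u) (mcbS z))) (ball 0 r0) := by
  intro z hz
  have hSz := mcbS_mem hz
  have hGd : HasFDerivAt G (fderiv ℂ G (mcbS z)) (mcbS z) :=
    ((hG.contDiffAt (isOpen_ball.mem_nhds hSz)).differentiableAt (by simp)).hasFDerivAt
  -- the complex linear candidate
  let T : ((ℂ × ℂ) × (ℂ × ℂ)) →L[ℂ] ℂ :=
    LinearMap.mkContinuous
      { toFun := fun v => starRingEnd ℂ (fderiv ℂ G (mcbS z) (mcbS v))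
        map_add' := fun x y => by simp
        map_smul' := fun a x => by
          have h1 : mcbS (a • x) = starRingEnd ℂ a • mcbS x := by
            simp only [mcbS_apply, Prod.smul_fst, Prod.smul_snd, mcb_cj_smul]
            rfl
          rw [h1, map_smul, smul_eq_mul, map_mul, Complex.conj_conj]
          rfl } ‖fderiv ℂ G (mcbS z)‖ (fun v => by
        change ‖starRingEnd ℂ (fderiv ℂ G (mcbS z) (mcbS v))‖ ≤ _
        rw [Complex.norm_conj]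
        refine (ContinuousLinearMap.le_opNorm _ _).trans_eq ?_
        rw [mcbS_norm])
  have hT : HasFDerivAt (fun z => starRingEnd ℂ (G (mcbS z))) T z := by
    have h1 : HasFDerivAt (𝕜 := ℝ) (fun z => starRingEnd ℂ (G (mcbS z)))
        ((Complex.conjCLE : ℂ →L[ℝ] ℂ).comp
          (((fderiv ℂ G (mcbS z)).restrictScalars ℝ).comp mcbS)) z := by
      have h2 : HasFDerivAt (fun z => G (mcbS z))
          (((fderiv ℂ G (mcbS z)).restrictScalars ℝ).comp mcbS) z :=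
        (hGd.restrictScalars ℝ).comp z mcbS.hasFDerivAt
      exact (Complex.conjCLE : ℂ →L[ℝ] ℂ).hasFDerivAt.comp z h2
    refine hasFDerivAt_of_restrictScalars ℝ h1 ?_
    ext v <;> rfl
  unfold dd
  simp only
  rw [hT.fderiv]
  rfl

private theorem mcb_herm {r0 : ℝ} {F : (ℂ × ℂ) × (ℂ × ℂ) → ℂ}
    (hherm : ∀ x ∈ ball (0 : ℂ × ℂ) r0, ∀ y ∈ ball (0 : ℂ × ℂ) r0,
      starRingEnd ℂ (F (x, y)) = F (cj y, cj x)) :
    EqOn F (fun z => starRingEnd ℂ (F (mcbS z))) (ball 0 r0) := by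
  rintro ⟨x, y⟩ hz
  have hz1 : x ∈ ball (0 : ℂ × ℂ) r0 := by
    rw [mem_ball_zero_iff] at hz ⊢
    exact (norm_fst_le (x, y)).trans_lt hz
  have hz2 : y ∈ ball (0 : ℂ × ℂ) r0 := by
    rw [mem_ball_zero_iff] at hz ⊢
    exact (norm_snd_le (x, y)).trans_lt hz
  simp only [mcbS_apply]
  rw [← hherm x hz1 y hz2, Complex.conj_conj]

private theorem mcbS_left (ξ : ℂ × ℂ) : mcbS (ξ, 0) = (0, cj ξ) := by
  rw [mcbS_apply, mcb_cj_zero]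

private theorem mcbS_right (η : ℂ × ℂ) : mcbS (0, cj η) = (η, 0) := by
  rw [mcbS_apply, mcb_cj_zero, mcb_cj_cj]

/-! ### frames -/

private theorem mcb_frame (L : (ℂ × ℂ) ≃ₗ[ℂ] (ℂ × ℂ)) (ξ : ℂ × ℂ) :
    ξ = cmp (L ξ) 0 • L.symm (1, 0) + cmp (L ξ) 1 • L.symm (0, 1) := by
  have h1 : cmp (L ξ) 0 • L.symm (1, 0) + cmp (L ξ) 1 • L.symm (0, 1) =
      L.symm (cmp (L ξ) 0 • (1, 0) + cmp (L ξ) 1 • (0, 1)) := by
    rw [map_add, map_smul, map_smul]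
  rw [h1, LinearEquiv.eq_symm_apply]
  ext <;> simp [cmp]

private theorem mcb_left_comb (a b : ℂ) (x y : ℂ × ℂ) :
    ((a • x + b • y, 0) : (ℂ × ℂ) × (ℂ × ℂ)) = a • (x, 0) + b • (y, 0) := by
  ext <;> simp

private theorem mcb_right_comb (a b : ℂ) (x y : ℂ × ℂ) :
    ((0, cj (a • x + b • y)) : (ℂ × ℂ) × (ℂ × ℂ)) =
      starRingEnd ℂ a • (0, cj x) + starRingEnd ℂ b • (0, cj y) := by
  rw [mcb_cj_add, mcb_cj_smul, mcb_cj_smul]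
  ext <;> simp

private theorem mcb_frame_norm (L : (ℂ × ℂ) ≃ₗ[ℂ] (ℂ × ℂ)) (hL : ∀ ξ η, ip (L ξ) (L η) = ip ξ η)
    (e : ℂ × ℂ) (he : ip e e = 1) : ‖L.symm e‖ ≤ 1 := by
  have h1 := hL (L.symm e) (L.symm e)
  rw [LinearEquiv.apply_symm_apply, he] at h1
  have h2 : ‖(L.symm e).1‖ ^ 2 + ‖(L.symm e).2‖ ^ 2 = 1 := by
    have h3 : ip (L.symm e) (L.symm e) =
        ((‖(L.symm e).1‖ ^ 2 + ‖(L.symm e).2‖ ^ 2 : ℝ) : ℂ) := by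
      unfold ip
      rw [Complex.mul_conj, Complex.mul_conj, Complex.normSq_eq_norm_sq,
        Complex.normSq_eq_norm_sq]
      push_cast
      ring
    rw [h3] at h1
    exact_mod_cast h1.symm
  rw [Prod.norm_def]
  refine max_le ?_ ?_
  · exact abs_le_one_iff_mul_self_le_one.2 (by nlinarith [sq_nonneg ‖(L.symm e).2‖]) |>.trans' (le_abs_self _)
  · exact abs_le_one_iff_mul_self_le_one.2 (by nlinarith [sq_nonneg ‖(L.symm e).1‖]) |>.trans' (le_abs_self _)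

/-- Multilinearity, symmetry and Cauchy bounds of the jets of `fh`, in an arbitrary unitary frame:
the jets are given by arrays bounded by a constant depending only on `r0, C0`. -/
theorem jets_arrays (r0 C0 : ℝ) (hr0 : 0 < r0) (hC0 : 0 < C0) : ∃ C1 : ℝ, 0 < C1 ∧
    ∀ fh : (ℂ × ℂ) × (ℂ × ℂ) → ℂ, ContDiffOn ℂ ∞ fh (ball 0 r0) →
    (∀ z ∈ ball (0 : (ℂ × ℂ) × (ℂ × ℂ)) r0, ‖fh z‖ ≤ C0) →
    (∀ x ∈ ball (0 : ℂ × ℂ) r0, ∀ y ∈ ball (0 : ℂ × ℂ) r0,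
      starRingEnd ℂ (fh (x, y)) = fh (cj y, cj x)) →
    (∀ ξ ξ' η, f11 fh (ξ + ξ') η = f11 fh ξ η + f11 fh ξ' η) ∧
    (∀ (a : ℂ) ξ η, f11 fh (a • ξ) η = a * f11 fh ξ η) ∧
    (∀ ξ η, starRingEnd ℂ (f11 fh ξ η) = f11 fh η ξ) ∧
    (∀ ξ, ‖f11 fh ξ ξ‖ ≤ C1 * (‖ξ.1‖ ^ 2 + ‖ξ.2‖ ^ 2)) ∧
    (∀ ξ η η', f12 fh ξ η η' = starRingEnd ℂ (f21 fh η η' ξ)) ∧
    ∀ L : (ℂ × ℂ) ≃ₗ[ℂ] (ℂ × ℂ), (∀ ξ η, ip (L ξ) (L η) = ip ξ η) →
      ∃ (a3 : Fin 2 → Fin 2 → Fin 2 → ℂ) (a4 : Fin 2 → Fin 2 → Fin 2 → Fin 2 → ℂ),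
        (∀ i j k, a3 i j k = a3 j i k) ∧ (∀ i j k, ‖a3 i j k‖ ≤ C1) ∧
        (∀ i j k l, a4 i j k l = a4 j i k l) ∧ (∀ i j k l, a4 i j k l = a4 i j l k) ∧
        (∀ i j k l, ‖a4 i j k l‖ ≤ C1) ∧
        (∀ ξ ξ' η, f21 fh ξ ξ' η = c21 a3 (L ξ) (L ξ') (L η)) ∧
        (∀ ξ ξ' η η', f22 fh ξ ξ' η η' = c22 a4 (L ξ) (L ξ') (L η) (L η')) := by
  have hr : 0 < r0 / 5 := by positivity
  refine ⟨C0 / (r0 / 5) ^ 2 + C0 / (r0 / 5) ^ 3 + C0 / (r0 / 5) ^ 4, by positivity, ?_⟩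
  intro fh hf hM hherm
  obtain ⟨B2, B3, B4⟩ := mcb_bounds hr0 hf hM
  have h0 : (0 : (ℂ × ℂ) × (ℂ × ℂ)) ∈ ball (0 : (ℂ × ℂ) × (ℂ × ℂ)) r0 := mem_ball_self hr0
  have hS0 : mcbS (0 : (ℂ × ℂ) × (ℂ × ℂ)) = 0 := map_zero _
  have c2 : 0 ≤ C0 / (r0 / 5) ^ 2 := by positivity
  have c3 : 0 ≤ C0 / (r0 / 5) ^ 3 := by positivity
  have c4 : 0 ≤ C0 / (r0 / 5) ^ 4 := by positivity
  have s1 : ∀ x, ContDiffOn ℂ ∞ (dd fh x) (ball 0 r0) := fun x => mcb_dd_smooth isOpen_ball hf x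
  have s2 : ∀ x w, ContDiffOn ℂ ∞ (dd (dd fh x) w) (ball 0 r0) := fun x w =>
    mcb_dd_smooth isOpen_ball (s1 x) w
  -- hermitian symmetry of the derivatives
  have H1 : ∀ w, EqOn (dd fh w) (fun z => starRingEnd ℂ (dd fh (mcbS w) (mcbS z))) (ball 0 r0) := by
    intro w z hz
    rw [mcb_dd_congr isOpen_ball (mcb_herm hherm) w hz]
    exact mcb_dd_conj hf w hz
  have H2 : ∀ w v, EqOn (dd (dd fh w) v)
      (fun z => starRingEnd ℂ (dd (dd fh (mcbS w)) (mcbS v) (mcbS z))) (ball 0 r0) := by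
    intro w v z hz
    rw [mcb_dd_congr isOpen_ball (H1 w) v hz]
    exact mcb_dd_conj (s1 _) v hz
  have H3 : ∀ w v u, EqOn (dd (dd (dd fh w) v) u)
      (fun z => starRingEnd ℂ (dd (dd (dd fh (mcbS w)) (mcbS v)) (mcbS u) (mcbS z)))
      (ball 0 r0) := by
    intro w v u z hz
    rw [mcb_dd_congr isOpen_ball (H2 w v) u hz]
    exact mcb_dd_conj (s2 _ _) u hz
  refine ⟨?_, ?_, ?_, ?_, ?_, ?_⟩
  · intro ξ ξ' η
    unfold f11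
    have h1 : ((ξ + ξ', 0) : (ℂ × ℂ) × (ℂ × ℂ)) = (ξ, 0) + (ξ', 0) := by ext <;> simp
    rw [h1, mcb_dd_add]
  · intro a ξ η
    unfold f11
    have h1 : ((a • ξ, 0) : (ℂ × ℂ) × (ℂ × ℂ)) = a • (ξ, 0) := by ext <;> simp
    rw [h1, mcb_dd_smul]
  · intro ξ η
    have h1 := H2 (0, cj η) (ξ, 0) h0
    simp only [hS0, mcbS_left, mcbS_right] at h1
    unfold f11
    rw [h1, Complex.conj_conj]
    exact mcb_dd_comm isOpen_ball hf (η, 0) (0, cj ξ) h0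
  · intro ξ
    unfold f11
    refine (B2 (ξ, 0) (0, cj ξ)).trans ?_
    have h1 : ‖((ξ, 0) : (ℂ × ℂ) × (ℂ × ℂ))‖ = ‖ξ‖ := by simp
    have h2 : ‖((0, cj ξ) : (ℂ × ℂ) × (ℂ × ℂ))‖ = ‖ξ‖ := by simp [mcb_norm_cj]
    rw [h1, h2]
    have h3 : ‖ξ‖ * ‖ξ‖ ≤ ‖ξ.1‖ ^ 2 + ‖ξ.2‖ ^ 2 := by
      rw [Prod.norm_def]
      rcases max_cases ‖ξ.1‖ ‖ξ.2‖ with ⟨h, _⟩ | ⟨h, _⟩ <;> rw [h] <;>
        nlinarith [sq_nonneg ‖ξ.1‖, sq_nonneg ‖ξ.2‖]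
    have h4 : 0 ≤ ‖ξ.1‖ ^ 2 + ‖ξ.2‖ ^ 2 := by positivity
    calc C0 / (r0 / 5) ^ 2 * ‖ξ‖ * ‖ξ‖ = C0 / (r0 / 5) ^ 2 * (‖ξ‖ * ‖ξ‖) := by ring
      _ ≤ C0 / (r0 / 5) ^ 2 * (‖ξ.1‖ ^ 2 + ‖ξ.2‖ ^ 2) := by gcongr
      _ ≤ (C0 / (r0 / 5) ^ 2 + C0 / (r0 / 5) ^ 3 + C0 / (r0 / 5) ^ 4) *
          (‖ξ.1‖ ^ 2 + ‖ξ.2‖ ^ 2) := by
        gcongr
        linarith
  · intro ξ η η'
    have h1 := H3 (0, cj η') (0, cj η) (ξ, 0) h0
    simp only [hS0, mcbS_left, mcbS_right] at h1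
    unfold f12
    rw [h1]
    congr 1
    have h2 : mcbT3 fh (0, cj ξ) (η, 0) (η', 0) = mcbT3 fh (η, 0) (η', 0) (0, cj ξ) := by
      rw [mcbT3_sw12 hr0 hf, mcbT3_sw23 hr0 hf]
    exact h2
  · intro L hL
    let E : Fin 2 → ℂ × ℂ := ![L.symm (1, 0), L.symm (0, 1)]
    have hE0 : E 0 = L.symm (1, 0) := rfl
    have hE1 : E 1 = L.symm (0, 1) := rfl
    have hEn : ∀ i, ‖E i‖ ≤ 1 := by
      intro i
      fin_cases i
      · exact mcb_frame_norm L hL _ (by simp [ip])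
      · exact mcb_frame_norm L hL _ (by simp [ip])
    have hEl : ∀ i, ‖((E i, 0) : (ℂ × ℂ) × (ℂ × ℂ))‖ ≤ 1 := by
      intro i
      simpa using hEn i
    have hEr : ∀ i, ‖((0, cj (E i)) : (ℂ × ℂ) × (ℂ × ℂ))‖ ≤ 1 := by
      intro i
      simpa [mcb_norm_cj] using hEn i
    have hfr : ∀ ξ, ξ = cmp (L ξ) 0 • E 0 + cmp (L ξ) 1 • E 1 := fun ξ => mcb_frame L ξ
    refine ⟨fun i j k => mcbT3 fh (E i, 0) (E j, 0) (0, cj (E k)),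
      fun i j k l => mcbT4 fh (E i, 0) (E j, 0) (0, cj (E k)) (0, cj (E l)),
      fun i j k => mcbT3_sw12 hr0 hf _ _ _, ?_, fun i j k l => mcbT4_sw12 hr0 hf _ _ _ _,
      fun i j k l => mcbT4_sw34 hr0 hf _ _ _ _, ?_, ?_, ?_⟩
    · intro i j k
      refine (B3 _ _ _).trans ?_
      calc C0 / (r0 / 5) ^ 3 * ‖((E i, 0) : (ℂ × ℂ) × (ℂ × ℂ))‖ *
            ‖((E j, 0) : (ℂ × ℂ) × (ℂ × ℂ))‖ * ‖((0, cj (E k)) : (ℂ × ℂ) × (ℂ × ℂ))‖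
          ≤ C0 / (r0 / 5) ^ 3 * 1 * 1 * 1 := by
            gcongr
            · exact hEl i
            · exact hEl j
            · exact hEr k
        _ ≤ _ := by linarith
    · intro i j k l
      refine (B4 _ _ _ _).trans ?_
      calc C0 / (r0 / 5) ^ 4 * ‖((E i, 0) : (ℂ × ℂ) × (ℂ × ℂ))‖ *
            ‖((E j, 0) : (ℂ × ℂ) × (ℂ × ℂ))‖ * ‖((0, cj (E k)) : (ℂ × ℂ) × (ℂ × ℂ))‖ *
            ‖((0, cj (E l)) : (ℂ × ℂ) × (ℂ × ℂ))‖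
          ≤ C0 / (r0 / 5) ^ 4 * 1 * 1 * 1 * 1 := by
            gcongr
            · exact hEl i
            · exact hEl j
            · exact hEr k
            · exact hEr l
        _ ≤ _ := by linarith
    · intro ξ ξ' η
      have e1 : f21 fh ξ ξ' η = mcbT3 fh (ξ, 0) (ξ', 0) (0, cj η) := rfl
      rw [e1]
      conv_lhs => rw [hfr ξ, hfr ξ', hfr η]
      rw [mcb_left_comb, mcb_left_comb, mcb_right_comb]
      simp only [mcbT3_lin1, mcbT3_lin2 hr0 hf, mcbT3_lin3 hr0 hf, c21, c21k,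
        Fin.sum_univ_two]
      ring
    · intro ξ ξ' η η'
      have e1 : f22 fh ξ ξ' η η' = mcbT4 fh (ξ, 0) (ξ', 0) (0, cj η) (0, cj η') := rfl
      rw [e1]
      conv_lhs => rw [hfr ξ, hfr ξ', hfr η, hfr η']
      rw [mcb_left_comb, mcb_left_comb, mcb_right_comb, mcb_right_comb]
      simp only [mcbT4_lin1, mcbT4_lin2 hr0 hf, mcbT4_lin3 hr0 hf, mcbT4_lin4 hr0 hf, c22,
        Fin.sum_univ_two]
      ring

end P250
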