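import Mathlib
import Vale.Agent.Lib.P250.MJdefs

/-! # P250 module G6a: domain, smoothness, diagonal -/

open scoped ContDiff
open Complex Metric Set

namespace P250

private theorem mja_open (r0 : ℝ) :
    IsOpen {z : V3 × V3 | (z.1.1, z.2.1) ∈ ball (0 : (ℂ × ℂ) × (ℂ × ℂ)) r0} := by
  have h : Continuous fun z : V3 × V3 => (z.1.1, z.2.1) := by fun_prop
  exact isOpen_ball.preimage h

private theorem mja_contDiff (r0 : ℝ) {fh : (ℂ × ℂ) × (ℂ × ℂ) → ℂ}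
    (hf : ContDiffOn ℂ ∞ fh (ball 0 r0)) :
    ContDiffOn ℂ ∞ (fun z : V3 × V3 => Complex.exp (z.1.2 + z.2.2 + fh (z.1.1, z.2.1)))
      {z : V3 × V3 | (z.1.1, z.2.1) ∈ ball (0 : (ℂ × ℂ) × (ℂ × ℂ)) r0} := by
  have h1 : ContDiff ℂ ∞ fun z : V3 × V3 => (z.1.1, z.2.1) := by fun_prop
  have h2 : ContDiffOn ℂ ∞ (fun z : V3 × V3 => fh (z.1.1, z.2.1))
      {z : V3 × V3 | (z.1.1, z.2.1) ∈ ball (0 : (ℂ × ℂ) × (ℂ × ℂ)) r0} :=
    hf.comp h1.contDiffOn fun z hz => hz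
  have h3 : ContDiff ℂ ∞ fun z : V3 × V3 => z.1.2 + z.2.2 := by fun_prop
  exact (h3.contDiffOn.add h2).cexp

theorem Umod_open {r0 : ℝ} {fh : (ℂ × ℂ) × (ℂ × ℂ) → ℂ} (hf : ContDiffOn ℂ ∞ fh (ball 0 r0)) :
    IsOpen (Umod r0 fh) := by
  have h1 := (mja_contDiff r0 hf).continuousOn.norm
  exact h1.isOpen_inter_preimage (mja_open r0) (isOpen_Iio (a := (1 : ℝ)))

private theorem mja_slit {z : ℂ} (hz : ‖z‖ < 1) : 1 - z ∈ slitPlane := by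
  left
  have h1 : z.re ≤ ‖z‖ := re_le_norm z
  simp only [sub_re, one_re]
  linarith

private theorem mja_ball {r0 : ℝ} (hr1 : r0 ≤ 1 / 8) {x y : ℂ × ℂ}
    (h : (x, y) ∈ ball (0 : (ℂ × ℂ) × (ℂ × ℂ)) r0) :
    ‖x.1 * y.1 + x.2 * y.2‖ < 1 := by
  rw [mem_ball_zero_iff] at h
  simp only [Prod.norm_def, max_lt_iff] at h
  obtain ⟨⟨h1, h2⟩, h3, h4⟩ := h
  have e1 : ‖x.1 * y.1‖ ≤ 1 / 8 * (1 / 8) := by
    rw [norm_mul]
    exact mul_le_mul (by linarith) (by linarith) (norm_nonneg _) (by norm_num)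
  have e2 : ‖x.2 * y.2‖ ≤ 1 / 8 * (1 / 8) := by
    rw [norm_mul]
    exact mul_le_mul (by linarith) (by linarith) (norm_nonneg _) (by norm_num)
  have e3 := norm_add_le (x.1 * y.1) (x.2 * y.2)
  linarith

theorem Kmod_smooth {r0 A : ℝ} (hr1 : r0 ≤ 1 / 8) {fh : (ℂ × ℂ) × (ℂ × ℂ) → ℂ}
    (hf : ContDiffOn ℂ ∞ fh (ball 0 r0)) : ContDiffOn ℂ ∞ (Kmod A fh) (Umod r0 fh) := by
  intro z hz
  apply ContDiffAt.contDiffWithinAt
  have h1 : ContDiffAt ℂ ∞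
      (fun z : V3 × V3 => 1 - z.1.1.1 * z.2.1.1 - z.1.1.2 * z.2.1.2) z := by fun_prop
  have h2 : ContDiffAt ℂ ∞
      (fun z : V3 × V3 => Complex.exp (z.1.2 + z.2.2 + fh (z.1.1, z.2.1))) z :=
    (mja_contDiff r0 hf).contDiffAt ((mja_open r0).mem_nhds hz.1)
  have h3 : (1 : ℂ) - z.1.1.1 * z.2.1.1 - z.1.1.2 * z.2.1.2 ∈ slitPlane := by
    rw [sub_sub]
    exact mja_slit (mja_ball hr1 hz.1)
  have h4 : (1 : ℂ) - Complex.exp (z.1.2 + z.2.2 + fh (z.1.1, z.2.1)) ∈ slitPlane :=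
    mja_slit hz.2
  have h5 : ContDiffAt ℂ ∞ (fun z : V3 × V3 =>
      Complex.log (1 - z.1.1.1 * z.2.1.1 - z.1.1.2 * z.2.1.2)) z :=
    ContDiffAt.comp (g := Complex.log)
      (f := fun z : V3 × V3 => 1 - z.1.1.1 * z.2.1.1 - z.1.1.2 * z.2.1.2) z
      (Complex.contDiffAt_log h3) h1
  have h6 : ContDiffAt ℂ ∞ (fun z : V3 × V3 =>
      Complex.log (1 - Complex.exp (z.1.2 + z.2.2 + fh (z.1.1, z.2.1)))) z :=
    ContDiffAt.comp (g := Complex.log)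
      (f := fun z : V3 × V3 => 1 - Complex.exp (z.1.2 + z.2.2 + fh (z.1.1, z.2.1))) z
      (Complex.contDiffAt_log h4) (contDiffAt_const.sub h2)
  exact (contDiffAt_const.mul h5.neg).sub h6

/-- on the diagonal -/
theorem Kmod_diag {r0 A : ℝ} (hr1 : r0 ≤ 1 / 8) {fh : (ℂ × ℂ) × (ℂ × ℂ) → ℂ}
    (hherm : ∀ x ∈ ball (0 : ℂ × ℂ) r0, ∀ y ∈ ball (0 : ℂ × ℂ) r0,
      starRingEnd ℂ (fh (x, y)) = fh (cj y, cj x)) {p : V3} (hp : (p, cj3 p) ∈ Umod r0 fh) :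
    (Phimod A fh p : ℂ) = Kmod A fh (p, cj3 p) := by
  obtain ⟨hp1, hp2⟩ := hp
  simp only [cj3] at hp1 hp2
  have hx : p.1 ∈ ball (0 : ℂ × ℂ) r0 := by
    rw [mem_ball_zero_iff] at hp1 ⊢
    rw [Prod.norm_def] at hp1
    exact lt_of_le_of_lt (le_max_left _ _) hp1
  have hy : cj p.1 ∈ ball (0 : ℂ × ℂ) r0 := by
    rw [mem_ball_zero_iff] at hp1 ⊢
    rw [Prod.norm_def] at hp1
    exact lt_of_le_of_lt (le_max_right _ _) hp1
  have hcc : cj (cj p.1) = p.1 := by simp [cj]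
  have hreal : ((fh (p.1, cj p.1)).re : ℂ) = fh (p.1, cj p.1) := by
    have h1 := hherm p.1 hx (cj p.1) hy
    rw [hcc] at h1
    exact conj_eq_iff_re.1 h1
  have hexp : Complex.exp (p.2 + starRingEnd ℂ p.2 + fh (p.1, cj p.1))
      = ((Real.exp (2 * p.2.re + (fh (p.1, cj p.1)).re) : ℝ) : ℂ) := by
    rw [← hreal, add_conj]
    push_cast
    simp
  have hb := mja_ball hr1 hp1
  have e1 : p.1.1 * (cj p.1).1 = ((‖p.1.1‖ ^ 2 : ℝ) : ℂ) := by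
    simp only [cj]
    rw [mul_conj']
    push_cast
    rfl
  have e2 : p.1.2 * (cj p.1).2 = ((‖p.1.2‖ ^ 2 : ℝ) : ℂ) := by
    simp only [cj]
    rw [mul_conj']
    push_cast
    rfl
  have hb2 : 0 ≤ 1 - ‖p.1.1‖ ^ 2 - ‖p.1.2‖ ^ 2 := by
    rw [e1, e2, ← ofReal_add, norm_real, Real.norm_eq_abs] at hb
    have := le_abs_self (‖p.1.1‖ ^ 2 + ‖p.1.2‖ ^ 2)
    linarith
  have hb3 : 0 ≤ 1 - Real.exp (2 * p.2.re + (fh (p.1, cj p.1)).re) := by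
    rw [hexp, norm_real, Real.norm_eq_abs] at hp2
    have := le_abs_self (Real.exp (2 * p.2.re + (fh (p.1, cj p.1)).re))
    linarith
  simp only [Phimod, Kmod, cj3]
  rw [hexp, e1, e2]
  rw [ofReal_sub, ofReal_mul, ofReal_neg, ofReal_log hb2, ofReal_log hb3]
  push_cast
  rfl

end P250
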