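import Mathlib
import Vale.Agent.Lib.P250.AlgDefs
import Vale.Agent.Lib.P250.MJdefs

/-! # P250 module G6b: jets of type (1,1) and (2,1) -/

open scoped ContDiff Topology
open Complex Metric Set

namespace P250

section Aux

variable {V : Type*} [NormedAddCommGroup V] [NormedSpace ℂ V]

private lemma mjb_line {F : V → ℂ} {z : V} (hF : DifferentiableAt ℂ F z) (u : V) :
    HasDerivAt (fun c : ℂ => F (z + c • u)) (dd F u z) 0 := by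
  have h1 : HasFDerivAt F (fderiv ℂ F z) (z + (0 : ℂ) • u) := by
    rw [zero_smul, add_zero]
    exact hF.hasFDerivAt
  have h2 : HasDerivAt (fun c : ℂ => z + c • u) u 0 := by
    have h3 := ((hasDerivAt_id (0 : ℂ)).smul_const u).const_add z
    simpa using h3
  exact h1.comp_hasDerivAt 0 h2

private lemma mjb_of_line {F : V → ℂ} {z : V} (hF : DifferentiableAt ℂ F z) {u : V} {d : ℂ}
    (h : HasDerivAt (fun c : ℂ => F (z + c • u)) d 0) : dd F u z = d :=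
  (mjb_line hF u).unique h

private lemma mjb_congr {F G : V → ℂ} {U : Set V} (hU : IsOpen U) (h : EqOn F G U) (u : V) :
    EqOn (dd F u) (dd G u) U := by
  intro z hz
  have h1 : F =ᶠ[𝓝 z] G := by
    filter_upwards [hU.mem_nhds hz] with x hx
    exact h hx
  unfold dd
  rw [h1.fderiv_eq]

private lemma mjb_smooth {F : V → ℂ} {U : Set V} (hU : IsOpen U) (hF : ContDiffOn ℂ ∞ F U) (u : V) :
    ContDiffOn ℂ ∞ (dd F u) U := by
  have h1 : ContDiffOn ℂ ∞ (fderiv ℂ F) U := hF.fderiv_of_isOpen hU (by simp)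
  exact h1.clm_apply contDiffOn_const

private lemma mjb_diff {F : V → ℂ} {U : Set V} (hU : IsOpen U) (hF : ContDiffOn ℂ ∞ F U) {z : V}
    (hz : z ∈ U) : DifferentiableAt ℂ F z :=
  (hF.contDiffAt (hU.mem_nhds hz)).differentiableAt (by simp)

private lemma mjb_comp {φ : ℂ → ℂ} {φ' : ℂ} {L : V → ℂ} {z : V} (hφ : HasDerivAt φ φ' (L z))
    (hL : DifferentiableAt ℂ L z) (u : V) :
    dd (fun z => φ (L z)) u z = φ' * dd L u z := by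
  have h1 := hφ.comp_hasFDerivAt z hL.hasFDerivAt
  unfold dd
  have h2 : HasFDerivAt (fun z => φ (L z)) (φ' • fderiv ℂ L z) z := h1
  rw [h2.fderiv]
  rfl

end Aux

/-- outer functions -/
private noncomputable def mjS (w : ℂ) : ℂ := Complex.exp w / (1 - Complex.exp w)

private lemma mjS_deriv {w : ℂ} (h : 1 - Complex.exp w ≠ 0) :
    HasDerivAt mjS (mjS w * (1 + mjS w)) w := by
  have h1 : HasDerivAt (fun w : ℂ => Complex.exp w) (Complex.exp w) w := Complex.hasDerivAt_exp w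
  have h2 : HasDerivAt (fun w : ℂ => 1 - Complex.exp w) (-Complex.exp w) w := by
    simpa using h1.const_sub 1
  have h3 := h1.div h2 h
  have h4 : (Complex.exp w * (1 - Complex.exp w) - Complex.exp w * -Complex.exp w) /
      (1 - Complex.exp w) ^ 2 = mjS w * (1 + mjS w) := by
    unfold mjS
    field_simp
    ring
  rw [← h4]
  exact h3

private lemma mjG_deriv {w : ℂ} (h : 1 - Complex.exp w ∈ slitPlane) :
    HasDerivAt (fun w : ℂ => -Complex.log (1 - Complex.exp w)) (mjS w) w := by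
  have h1 : HasDerivAt (fun w : ℂ => Complex.exp w) (Complex.exp w) w := Complex.hasDerivAt_exp w
  have h2 : HasDerivAt (fun w : ℂ => 1 - Complex.exp w) (-Complex.exp w) w := by
    simpa using h1.const_sub 1
  have h3 := (h2.clog h).neg
  have h4 : -(-Complex.exp w / (1 - Complex.exp w)) = mjS w := by
    unfold mjS
    rw [neg_div, neg_neg]
  rw [← h4]
  exact h3

private lemma mjB_deriv {w : ℂ} (h : 1 - w ∈ slitPlane) :
    HasDerivAt (fun w : ℂ => -Complex.log (1 - w)) ((1 - w)⁻¹) w := by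
  have h2 : HasDerivAt (fun w : ℂ => 1 - w) (-1) w := by
    simpa using (hasDerivAt_id w).const_sub 1
  have h3 := (h2.clog h).neg
  have h4 : -((-1 : ℂ) / (1 - w)) = (1 - w)⁻¹ := by
    rw [neg_div, neg_neg, one_div]
  rw [← h4]
  exact h3

private lemma mjR_deriv {w : ℂ} (h : 1 - w ≠ 0) :
    HasDerivAt (fun w : ℂ => (1 - w)⁻¹) ((1 - w)⁻¹ ^ 2) w := by
  have h2 : HasDerivAt (fun w : ℂ => 1 - w) (-1) w := by
    simpa using (hasDerivAt_id w).const_sub 1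
  have h3 := h2.inv h
  have h4 : -(-1 : ℂ) / (1 - w) ^ 2 = (1 - w)⁻¹ ^ 2 := by
    rw [neg_neg, inv_pow, one_div]
  rw [← h4]
  exact h3

private noncomputable def mjq (z : V3 × V3) : ℂ := z.1.1.1 * z.2.1.1 + z.1.1.2 * z.2.1.2

private noncomputable def mjL (fh : (ℂ × ℂ) × (ℂ × ℂ) → ℂ) (z : V3 × V3) : ℂ :=
  z.1.2 + z.2.2 + fh (z.1.1, z.2.1)

private noncomputable def mjpi : (V3 × V3) →L[ℂ] ((ℂ × ℂ) × (ℂ × ℂ)) :=
  ((ContinuousLinearMap.fst ℂ (ℂ × ℂ) ℂ).comp (ContinuousLinearMap.fst ℂ V3 V3)).prod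
    ((ContinuousLinearMap.fst ℂ (ℂ × ℂ) ℂ).comp (ContinuousLinearMap.snd ℂ V3 V3))

private lemma mjpi_apply (z : V3 × V3) : mjpi z = (z.1.1, z.2.1) := rfl

private lemma mj_dd_pi {F : (ℂ × ℂ) × (ℂ × ℂ) → ℂ} {z : V3 × V3}
    (hF : DifferentiableAt ℂ F (z.1.1, z.2.1)) (u : V3 × V3) :
    dd (fun z : V3 × V3 => F (z.1.1, z.2.1)) u z = dd F (u.1.1, u.2.1) (z.1.1, z.2.1) := by
  have h1 : HasFDerivAt F (fderiv ℂ F (z.1.1, z.2.1)) (mjpi z) := hF.hasFDerivAt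
  have h2 := h1.comp z mjpi.hasFDerivAt
  have h3 : HasFDerivAt (fun z : V3 × V3 => F (z.1.1, z.2.1))
      ((fderiv ℂ F (z.1.1, z.2.1)).comp mjpi) z := h2
  unfold dd
  rw [h3.fderiv]
  rfl

private lemma mjq_smooth : ContDiff ℂ ∞ mjq := by
  unfold mjq
  fun_prop

private lemma mj_dd_q (u : V3 × V3) : dd mjq u = fun z =>
    u.1.1.1 * z.2.1.1 + z.1.1.1 * u.2.1.1 + (u.1.1.2 * z.2.1.2 + z.1.1.2 * u.2.1.2) := by
  funext z
  refine mjb_of_line (mjq_smooth.differentiable (by simp) z) ?_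
  have h : ∀ a b : ℂ, HasDerivAt (fun c : ℂ => a + c * b) b 0 := by
    intro a b
    simpa using ((hasDerivAt_id (0 : ℂ)).mul_const b).const_add a
  have h1 := ((h z.1.1.1 u.1.1.1).mul (h z.2.1.1 u.2.1.1)).add
    ((h z.1.1.2 u.1.1.2).mul (h z.2.1.2 u.2.1.2))
  simp only [zero_mul, add_zero] at h1
  exact h1

private lemma mj_ball {z : (ℂ × ℂ) × (ℂ × ℂ)} {r0 : ℝ} (hr1 : r0 ≤ 1 / 8)
    (hz : z ∈ ball (0 : (ℂ × ℂ) × (ℂ × ℂ)) r0) :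
    ‖z.1.1 * z.2.1 + z.1.2 * z.2.2‖ < 1 / 2 := by
  rw [mem_ball_zero_iff, Prod.norm_def, max_lt_iff, Prod.norm_def, Prod.norm_def, max_lt_iff,
    max_lt_iff] at hz
  obtain ⟨⟨h1, h2⟩, h3, h4⟩ := hz
  refine (norm_add_le _ _).trans_lt ?_
  rw [norm_mul, norm_mul]
  have h5 := norm_nonneg z.1.1
  have h6 := norm_nonneg z.1.2
  have h7 := norm_nonneg z.2.1
  have h8 := norm_nonneg z.2.2
  nlinarith

section Main

variable {r0 : ℝ} {fh : (ℂ × ℂ) × (ℂ × ℂ) → ℂ}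

private lemma mjL_smooth (hf : ContDiffOn ℂ ∞ fh (ball 0 r0)) :
    ContDiffOn ℂ ∞ (mjL fh) {z : V3 × V3 | (z.1.1, z.2.1) ∈ ball (0 : (ℂ × ℂ) × (ℂ × ℂ)) r0} := by
  unfold mjL
  have h1 : ContDiffOn ℂ ∞ (fun z : V3 × V3 => fh (z.1.1, z.2.1))
      {z : V3 × V3 | (z.1.1, z.2.1) ∈ ball (0 : (ℂ × ℂ) × (ℂ × ℂ)) r0} := by
    refine hf.comp (g := fh) (f := fun z : V3 × V3 => (z.1.1, z.2.1)) ?_ ?_
    · apply ContDiff.contDiffOn
      fun_prop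
    · intro z hz
      exact hz
  refine ContDiffOn.add ?_ h1
  apply ContDiff.contDiffOn
  fun_prop

private lemma mj_ball_open : IsOpen {z : V3 × V3 | (z.1.1, z.2.1) ∈
    ball (0 : (ℂ × ℂ) × (ℂ × ℂ)) r0} := by
  apply isOpen_ball.preimage
  fun_prop

private lemma mjU_open (hf : ContDiffOn ℂ ∞ fh (ball 0 r0)) : IsOpen (Umod r0 fh) := by
  have h1 := (mjL_smooth hf).continuousOn
  have h2 : ContinuousOn (fun z => ‖Complex.exp (mjL fh z)‖)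
      {z : V3 × V3 | (z.1.1, z.2.1) ∈ ball (0 : (ℂ × ℂ) × (ℂ × ℂ)) r0} :=
    (Complex.continuous_exp.comp_continuousOn h1).norm
  have h3 := h2.isOpen_inter_preimage mj_ball_open (isOpen_Iio (a := (1 : ℝ)))
  exact h3

/-- facts on the domain -/
private lemma mjU_facts (hr1 : r0 ≤ 1 / 8) {z : V3 × V3} (hz : z ∈ Umod r0 fh) :
    1 - mjq z ∈ slitPlane ∧ 1 - mjq z ≠ 0 ∧ 1 - Complex.exp (mjL fh z) ∈ slitPlane ∧
      1 - Complex.exp (mjL fh z) ≠ 0 := by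
  obtain ⟨h1, h2⟩ := hz
  have h3 : ‖mjq z‖ < 1 / 2 := mj_ball hr1 h1
  have h4 : 1 - mjq z ∈ slitPlane := by
    left
    have := Complex.re_le_norm (mjq z)
    simp only [sub_re, one_re]
    linarith
  have h5 : 1 - Complex.exp (mjL fh z) ∈ slitPlane := by
    left
    have := Complex.re_le_norm (Complex.exp (mjL fh z))
    have h6 : ‖Complex.exp (mjL fh z)‖ < 1 := h2
    simp only [sub_re, one_re]
    linarith
  exact ⟨h4, slitPlane_ne_zero h4, h5, slitPlane_ne_zero h5⟩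

private lemma mj_dL (hf : ContDiffOn ℂ ∞ fh (ball 0 r0)) (u : V3 × V3) {z : V3 × V3}
    (hz : (z.1.1, z.2.1) ∈ ball (0 : (ℂ × ℂ) × (ℂ × ℂ)) r0) :
    dd (mjL fh) u z = u.1.2 + u.2.2 + dd fh (u.1.1, u.2.1) (z.1.1, z.2.1) := by
  have hd : DifferentiableAt ℂ (mjL fh) z := mjb_diff mj_ball_open (mjL_smooth hf) hz
  have hfd : DifferentiableAt ℂ fh (z.1.1, z.2.1) := mjb_diff isOpen_ball hf hz
  have hfd' : DifferentiableAt ℂ (fun z : V3 × V3 => fh (z.1.1, z.2.1)) z := by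
    have h1 : DifferentiableAt ℂ fh (mjpi z) := hfd
    exact h1.comp z mjpi.differentiableAt
  refine mjb_of_line hd ?_
  have h : ∀ a b : ℂ, HasDerivAt (fun c : ℂ => a + c * b) b 0 := by
    intro a b
    simpa using ((hasDerivAt_id (0 : ℂ)).mul_const b).const_add a
  have h1 := ((h z.1.2 u.1.2).add (h z.2.2 u.2.2)).add (mjb_line hfd' u)
  rw [mj_dd_pi hfd] at h1
  exact h1

private lemma mj_ddL (hf : ContDiffOn ℂ ∞ fh (ball 0 r0)) (w u : V3 × V3) {z : V3 × V3}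
    (hz : (z.1.1, z.2.1) ∈ ball (0 : (ℂ × ℂ) × (ℂ × ℂ)) r0) :
    dd (dd (mjL fh) w) u z = dd (dd fh (w.1.1, w.2.1)) (u.1.1, u.2.1) (z.1.1, z.2.1) := by
  have h1 := mjb_congr mj_ball_open (fun z (hz : z ∈ {z : V3 × V3 | (z.1.1, z.2.1) ∈
    ball (0 : (ℂ × ℂ) × (ℂ × ℂ)) r0}) => mj_dL hf w hz) u hz
  rw [h1]
  have h2 := mjb_smooth isOpen_ball hf (w.1.1, w.2.1)
  have h3 : DifferentiableAt ℂ (dd fh (w.1.1, w.2.1)) (z.1.1, z.2.1) :=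
    mjb_diff isOpen_ball h2 hz
  rw [← mj_dd_pi h3 u]
  unfold dd
  rw [fderiv_const_add]

private lemma mj_dddL (hf : ContDiffOn ℂ ∞ fh (ball 0 r0)) (w u u2 : V3 × V3) {z : V3 × V3}
    (hz : (z.1.1, z.2.1) ∈ ball (0 : (ℂ × ℂ) × (ℂ × ℂ)) r0) :
    dd (dd (dd (mjL fh) w) u) u2 z =
      dd (dd (dd fh (w.1.1, w.2.1)) (u.1.1, u.2.1)) (u2.1.1, u2.2.1) (z.1.1, z.2.1) := by
  have h1 := mjb_congr mj_ball_open (fun z (hz : z ∈ {z : V3 × V3 | (z.1.1, z.2.1) ∈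
    ball (0 : (ℂ × ℂ) × (ℂ × ℂ)) r0}) => mj_ddL hf w u hz) u2 hz
  rw [h1]
  have h2 := mjb_smooth isOpen_ball (mjb_smooth isOpen_ball hf (w.1.1, w.2.1)) (u.1.1, u.2.1)
  have h3 : DifferentiableAt ℂ (dd (dd fh (w.1.1, w.2.1)) (u.1.1, u.2.1)) (z.1.1, z.2.1) :=
    mjb_diff isOpen_ball h2 hz
  exact mj_dd_pi h3 u2

private lemma Kmod_eq (A : ℝ) (fh : (ℂ × ℂ) × (ℂ × ℂ) → ℂ) : Kmod A fh = fun z =>
    (A : ℂ) * (-Complex.log (1 - mjq z)) + (-Complex.log (1 - Complex.exp (mjL fh z))) := by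
  funext z
  unfold Kmod mjq mjL
  rw [sub_add_eq_sub_sub, sub_eq_add_neg]

private lemma mj_dq_diff (u : V3 × V3) (z : V3 × V3) : DifferentiableAt ℂ (dd mjq u) z := by
  rw [mj_dd_q]
  fun_prop

private lemma mj_step1 {A : ℝ} (hr1 : r0 ≤ 1 / 8) (hf : ContDiffOn ℂ ∞ fh (ball 0 r0))
    (w : V3 × V3) : EqOn (dd (Kmod A fh) w) (fun z => (A : ℂ) * ((1 - mjq z)⁻¹ * dd mjq w z) +
      mjS (mjL fh z) * dd (mjL fh) w z) (Umod r0 fh) := by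
  intro z hz
  obtain ⟨h1, h2, h3, h4⟩ := mjU_facts hr1 hz
  have hq : DifferentiableAt ℂ mjq z := mjq_smooth.differentiable (by simp) z
  have hL : DifferentiableAt ℂ (mjL fh) z := mjb_diff mj_ball_open (mjL_smooth hf) hz.1
  have h5 := mjb_comp (mjB_deriv h1) hq w
  have h6 := mjb_comp (mjG_deriv h3) hL w
  have h7 : DifferentiableAt ℂ (fun z => -Complex.log (1 - mjq z)) z :=
    (mjB_deriv h1).differentiableAt.comp z hq
  have h8 : DifferentiableAt ℂ (fun z => -Complex.log (1 - Complex.exp (mjL fh z))) z :=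
    (mjG_deriv h3).differentiableAt.comp z hL
  rw [Kmod_eq]
  refine mjb_of_line (by fun_prop) ?_
  have h9 := ((mjb_line h7 w).const_mul (A : ℂ)).add (mjb_line h8 w)
  rw [h5, h6] at h9
  exact h9

private lemma mj_step2 {A : ℝ} (hr1 : r0 ≤ 1 / 8) (hf : ContDiffOn ℂ ∞ fh (ball 0 r0))
    (w u : V3 × V3) : EqOn (dd (dd (Kmod A fh) w) u) (fun z =>
      (A : ℂ) * ((1 - mjq z)⁻¹ ^ 2 * dd mjq u z * dd mjq w z + (1 - mjq z)⁻¹ * dd (dd mjq w) u z) +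
      (mjS (mjL fh z) * (1 + mjS (mjL fh z)) * dd (mjL fh) u z * dd (mjL fh) w z +
        mjS (mjL fh z) * dd (dd (mjL fh) w) u z)) (Umod r0 fh) := by
  intro z hz
  rw [mjb_congr (mjU_open hf) (mj_step1 hr1 hf w) u hz]
  obtain ⟨h1, h2, h3, h4⟩ := mjU_facts hr1 hz
  have hq : DifferentiableAt ℂ mjq z := mjq_smooth.differentiable (by simp) z
  have hLs := mjL_smooth hf
  have hL : DifferentiableAt ℂ (mjL fh) z := mjb_diff mj_ball_open hLs hz.1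
  have hLw : DifferentiableAt ℂ (dd (mjL fh) w) z :=
    mjb_diff mj_ball_open (mjb_smooth mj_ball_open hLs w) hz.1
  have hR : DifferentiableAt ℂ (fun z => (1 - mjq z)⁻¹) z :=
    (mjR_deriv h2).differentiableAt.comp z hq
  have hS : DifferentiableAt ℂ (fun z => mjS (mjL fh z)) z :=
    (mjS_deriv h4).differentiableAt.comp z hL
  have hqw := mj_dq_diff w z
  refine mjb_of_line (by fun_prop) ?_
  have h9 := (((mjb_line hR u).mul (mjb_line hqw u)).const_mul (A : ℂ)).add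
    ((mjb_line hS u).mul (mjb_line hLw u))
  rw [mjb_comp (mjR_deriv h2) hq, mjb_comp (mjS_deriv h4) hL] at h9
  simp only [zero_smul, add_zero] at h9
  exact h9

private lemma mj_z0_mem (hr0 : 0 < r0) (hl : ∀ x ∈ ball (0 : ℂ × ℂ) r0, fh (x, 0) = 0) {τ0 : ℂ}
    (hτ : τ0.re < 0) :
    (((0, 0), τ0), cj3 ((0, 0), τ0)) ∈ Umod r0 fh ∧
    Complex.exp (mjL fh (((0, 0), τ0), cj3 ((0, 0), τ0))) = (Real.exp (2 * τ0.re) : ℂ) := by
  have h0 : ((((0 : ℂ), (0 : ℂ)), cj ((0 : ℂ), (0 : ℂ))) : (ℂ × ℂ) × (ℂ × ℂ)) = (0, 0) := by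
    simp [cj]
  have h1 : mjL fh (((0, 0), τ0), cj3 ((0, 0), τ0)) = ((2 * τ0.re : ℝ) : ℂ) := by
    unfold mjL cj3
    simp only
    rw [h0]
    have h2 := hl 0 (mem_ball_self hr0)
    rw [h2, Complex.add_conj, add_zero]
  have h2 : Complex.exp (mjL fh (((0, 0), τ0), cj3 ((0, 0), τ0))) =
      (Real.exp (2 * τ0.re) : ℂ) := by
    rw [h1, Complex.ofReal_exp]
  refine ⟨⟨?_, ?_⟩, h2⟩
  · simp only [cj3]
    rw [h0]
    exact mem_ball_self hr0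
  · have h3 : ‖Complex.exp (mjL fh (((0, 0), τ0), cj3 ((0, 0), τ0)))‖ < 1 := by
      rw [h2, Complex.norm_real, Real.norm_eq_abs, abs_of_pos (Real.exp_pos _), Real.exp_lt_one_iff]
      linarith
    exact h3

private lemma mj_S0 (hr0 : 0 < r0) (hl : ∀ x ∈ ball (0 : ℂ × ℂ) r0, fh (x, 0) = 0) {τ0 : ℂ}
    (hτ : τ0.re < 0) {s : ℝ} (hs : s = Real.exp (2 * τ0.re) / (1 - Real.exp (2 * τ0.re))) :
    mjS (mjL fh (((0, 0), τ0), cj3 ((0, 0), τ0))) = s := by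
  unfold mjS
  rw [(mj_z0_mem hr0 hl hτ).2, hs]
  push_cast
  rfl

/-- pure derivatives vanish -/
private lemma mj_pure_left (_hr0 : 0 < r0) (hf : ContDiffOn ℂ ∞ fh (ball 0 r0))
    (hl : ∀ x ∈ ball (0 : ℂ × ℂ) r0, fh (x, 0) = 0) (ξ : ℂ × ℂ) :
    ∀ x ∈ ball (0 : ℂ × ℂ) r0, dd fh (ξ, 0) (x, 0) = 0 := by
  intro x hx
  have h0 : ((x, 0) : (ℂ × ℂ) × (ℂ × ℂ)) ∈ ball (0 : (ℂ × ℂ) × (ℂ × ℂ)) r0 := by
    rw [mem_ball_zero_iff] at hx ⊢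
    rw [Prod.norm_def]
    simp [hx]
  refine mjb_of_line (mjb_diff isOpen_ball hf h0) ?_
  have h1 : (fun c : ℂ => fh ((x, 0) + c • (ξ, 0))) =ᶠ[𝓝 0] fun _ => 0 := by
    have h2 : ∀ᶠ c : ℂ in 𝓝 0, x + c • ξ ∈ ball (0 : ℂ × ℂ) r0 := by
      have h3 : ContinuousAt (fun c : ℂ => x + c • ξ) 0 := by fun_prop
      apply h3
      simp only [zero_smul, add_zero]
      exact isOpen_ball.mem_nhds hx
    filter_upwards [h2] with c hc
    have h4 : ((x, 0) + c • (ξ, 0) : (ℂ × ℂ) × (ℂ × ℂ)) = (x + c • ξ, 0) := by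
      ext <;> simp
    rw [h4]
    exact hl _ hc
  exact (hasDerivAt_const (0 : ℂ) (0 : ℂ)).congr_of_eventuallyEq h1

private lemma mj_pure_left2 (hr0 : 0 < r0) (hf : ContDiffOn ℂ ∞ fh (ball 0 r0))
    (hl : ∀ x ∈ ball (0 : ℂ × ℂ) r0, fh (x, 0) = 0) (ξ ξ' : ℂ × ℂ) :
    dd (dd fh (ξ', 0)) (ξ, 0) 0 = 0 := by
  have h1 := mj_pure_left hr0 (mjb_smooth isOpen_ball hf (ξ', 0))
    (fun x hx => mj_pure_left hr0 hf hl ξ' x hx) ξ 0 (mem_ball_self hr0)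
  exact h1

private lemma mj_pure_right (hr0 : 0 < r0) (hf : ContDiffOn ℂ ∞ fh (ball 0 r0))
    (hr : ∀ y ∈ ball (0 : ℂ × ℂ) r0, fh (0, y) = 0) (η : ℂ × ℂ) : dd fh (0, η) 0 = 0 := by
  have h0 : (0 : (ℂ × ℂ) × (ℂ × ℂ)) ∈ ball (0 : (ℂ × ℂ) × (ℂ × ℂ)) r0 := mem_ball_self hr0
  refine mjb_of_line (mjb_diff isOpen_ball hf h0) ?_
  have h1 : (fun c : ℂ => fh (0 + c • (0, η))) =ᶠ[𝓝 0] fun _ => 0 := by
    have h2 : ∀ᶠ c : ℂ in 𝓝 0, c • η ∈ ball (0 : ℂ × ℂ) r0 := by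
      have h3 : ContinuousAt (fun c : ℂ => c • η) 0 := by fun_prop
      apply h3
      simp only [zero_smul]
      exact isOpen_ball.mem_nhds (mem_ball_self hr0)
    filter_upwards [h2] with c hc
    have h4 : (0 + c • (0, η) : (ℂ × ℂ) × (ℂ × ℂ)) = (0, c • η) := by
      ext <;> simp
    rw [h4]
    exact hr _ hc
  exact (hasDerivAt_const (0 : ℂ) (0 : ℂ)).congr_of_eventuallyEq h1

private lemma mj_dd_dd_q (w u : V3 × V3) : dd (dd mjq w) u = fun _ =>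
    w.1.1.1 * u.2.1.1 + u.1.1.1 * w.2.1.1 + (w.1.1.2 * u.2.1.2 + u.1.1.2 * w.2.1.2) := by
  funext z
  refine mjb_of_line (mj_dq_diff w z) ?_
  rw [mj_dd_q]
  have h : ∀ a b : ℂ, HasDerivAt (fun c : ℂ => a + c * b) b 0 := by
    intro a b
    simpa using ((hasDerivAt_id (0 : ℂ)).mul_const b).const_add a
  have h1 := (((h z.2.1.1 u.2.1.1).const_mul w.1.1.1).add
    ((h z.1.1.1 u.1.1.1).mul_const w.2.1.1)).add
    (((h z.2.1.2 u.2.1.2).const_mul w.1.1.2).add ((h z.1.1.2 u.1.1.2).mul_const w.2.1.2))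
  exact h1

private lemma mj_q0 (τ0 : ℂ) (w : V3 × V3) : mjq (((0, 0), τ0), cj3 ((0, 0), τ0)) = 0 ∧
    dd mjq w (((0, 0), τ0), cj3 ((0, 0), τ0)) = 0 := by
  constructor
  · simp [mjq]
  · rw [mj_dd_q]
    simp [cj3, cj]

private lemma mj_dL_left (hr0 : 0 < r0) (hf : ContDiffOn ℂ ∞ fh (ball 0 r0))
    (hl : ∀ x ∈ ball (0 : ℂ × ℂ) r0, fh (x, 0) = 0) {τ0 : ℂ} (hτ : τ0.re < 0) (u : V3) :
    dd (mjL fh) (u, 0) (((0, 0), τ0), cj3 ((0, 0), τ0)) = u.2 := by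
  have hz := (mj_z0_mem hr0 hl hτ).1
  have h0 : ((((0 : ℂ), (0 : ℂ)), cj ((0 : ℂ), (0 : ℂ))) : (ℂ × ℂ) × (ℂ × ℂ)) = (0, 0) := by
    simp [cj]
  rw [mj_dL hf _ hz.1]
  simp only [cj3]
  rw [h0]
  have h1 := mj_pure_left hr0 hf hl u.1 0 (mem_ball_self hr0)
  have h2 : ((u, (0 : V3)) : V3 × V3).2.1 = 0 := rfl
  have h3 : ((u, (0 : V3)) : V3 × V3).2.2 = 0 := rfl
  rw [h2, h3, h1]
  ring

private lemma mj_dL_right (hr0 : 0 < r0) (hf : ContDiffOn ℂ ∞ fh (ball 0 r0))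
    (hl : ∀ x ∈ ball (0 : ℂ × ℂ) r0, fh (x, 0) = 0)
    (hr : ∀ y ∈ ball (0 : ℂ × ℂ) r0, fh (0, y) = 0) {τ0 : ℂ} (hτ : τ0.re < 0) (v : V3) :
    dd (mjL fh) (0, cj3 v) (((0, 0), τ0), cj3 ((0, 0), τ0)) = starRingEnd ℂ v.2 := by
  have hz := (mj_z0_mem hr0 hl hτ).1
  have h0 : ((((0 : ℂ), (0 : ℂ)), cj ((0 : ℂ), (0 : ℂ))) : (ℂ × ℂ) × (ℂ × ℂ)) = 0 := by
    simp [cj]
  rw [mj_dL hf _ hz.1]
  simp only [cj3]
  rw [h0]
  have h1 := mj_pure_right hr0 hf hr (cj v.1)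
  have h2 : (((0 : V3), (cj v.1, starRingEnd ℂ v.2)) : V3 × V3).1.1 = 0 := rfl
  have h3 : (((0 : V3), (cj v.1, starRingEnd ℂ v.2)) : V3 × V3).1.2 = 0 := rfl
  have h4 : dd fh ((0 : V3).1, cj v.1) 0 = 0 := h1
  rw [h4]
  simp

private lemma mj_ddL_mix (hr0 : 0 < r0) (hf : ContDiffOn ℂ ∞ fh (ball 0 r0))
    (hl : ∀ x ∈ ball (0 : ℂ × ℂ) r0, fh (x, 0) = 0) {τ0 : ℂ} (hτ : τ0.re < 0) (u v : V3) :
    dd (dd (mjL fh) (0, cj3 v)) (u, 0) (((0, 0), τ0), cj3 ((0, 0), τ0)) = f11 fh u.1 v.1 := by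
  have hz := (mj_z0_mem hr0 hl hτ).1
  have h0 : ((((0 : ℂ), (0 : ℂ)), cj ((0 : ℂ), (0 : ℂ))) : (ℂ × ℂ) × (ℂ × ℂ)) = 0 := by
    simp [cj]
  rw [mj_ddL hf _ _ hz.1]
  simp only [cj3]
  rw [h0]
  rfl

private lemma mj_ddL_left (hr0 : 0 < r0) (hf : ContDiffOn ℂ ∞ fh (ball 0 r0))
    (hl : ∀ x ∈ ball (0 : ℂ × ℂ) r0, fh (x, 0) = 0) {τ0 : ℂ} (hτ : τ0.re < 0) (u v : V3) :
    dd (dd (mjL fh) (v, 0)) (u, 0) (((0, 0), τ0), cj3 ((0, 0), τ0)) = 0 := by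
  have hz := (mj_z0_mem hr0 hl hτ).1
  have h0 : ((((0 : ℂ), (0 : ℂ)), cj ((0 : ℂ), (0 : ℂ))) : (ℂ × ℂ) × (ℂ × ℂ)) = 0 := by
    simp [cj]
  rw [mj_ddL hf _ _ hz.1]
  simp only [cj3]
  rw [h0]
  exact mj_pure_left2 hr0 hf hl u.1 v.1

private lemma mj_dddL_mix (hr0 : 0 < r0) (hf : ContDiffOn ℂ ∞ fh (ball 0 r0))
    (hl : ∀ x ∈ ball (0 : ℂ × ℂ) r0, fh (x, 0) = 0) {τ0 : ℂ} (hτ : τ0.re < 0) (u u' v : V3) :
    dd (dd (dd (mjL fh) (0, cj3 v)) (u', 0)) (u, 0) (((0, 0), τ0), cj3 ((0, 0), τ0)) =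
      f21 fh u.1 u'.1 v.1 := by
  have hz := (mj_z0_mem hr0 hl hτ).1
  have h0 : ((((0 : ℂ), (0 : ℂ)), cj ((0 : ℂ), (0 : ℂ))) : (ℂ × ℂ) × (ℂ × ℂ)) = 0 := by
    simp [cj]
  rw [mj_dddL hf _ _ _ hz.1]
  simp only [cj3]
  rw [h0]
  rfl

end Main

/-- The (1,1) jet at `((0,0), τ0)`; `s = T / (1 - T)`, `T = exp (2 Re τ0)`. -/
theorem Kmod_11 {r0 A : ℝ} (hr0 : 0 < r0) (hr1 : r0 ≤ 1 / 8) {fh : (ℂ × ℂ) × (ℂ × ℂ) → ℂ}
    (hf : ContDiffOn ℂ ∞ fh (ball 0 r0)) (hl : ∀ x ∈ ball (0 : ℂ × ℂ) r0, fh (x, 0) = 0)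
    (hr : ∀ y ∈ ball (0 : ℂ × ℂ) r0, fh (0, y) = 0) {τ0 : ℂ} (hτ : τ0.re < 0) {s : ℝ}
    (hs : s = Real.exp (2 * τ0.re) / (1 - Real.exp (2 * τ0.re))) (u v : V3) :
    K11 (Kmod A fh) (((0, 0), τ0), cj3 ((0, 0), τ0)) u v =
      A * ip u.1 v.1 + s * f11 fh u.1 v.1 + s * (1 + s) * (u.2 * starRingEnd ℂ v.2) := by
  have hz := (mj_z0_mem hr0 hl hτ).1
  unfold K11
  rw [mj_step2 hr1 hf _ _ hz]
  simp only
  rw [mj_S0 hr0 hl hτ hs, mj_dL_left hr0 hf hl hτ, mj_dL_right hr0 hf hl hr hτ,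
    mj_ddL_mix hr0 hf hl hτ, (mj_q0 τ0 (u, 0)).1, (mj_q0 τ0 (u, 0)).2, mj_dd_dd_q]
  simp only [cj3, cj, ip, Prod.fst_zero, Prod.snd_zero, zero_mul, mul_zero, sub_zero, inv_one]
  ring

/-- The (2,1) jet. -/
theorem Kmod_21 {r0 A : ℝ} (hr0 : 0 < r0) (hr1 : r0 ≤ 1 / 8) {fh : (ℂ × ℂ) × (ℂ × ℂ) → ℂ}
    (hf : ContDiffOn ℂ ∞ fh (ball 0 r0)) (hl : ∀ x ∈ ball (0 : ℂ × ℂ) r0, fh (x, 0) = 0)
    (hr : ∀ y ∈ ball (0 : ℂ × ℂ) r0, fh (0, y) = 0) {τ0 : ℂ} (hτ : τ0.re < 0) {s : ℝ}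
    (hs : s = Real.exp (2 * τ0.re) / (1 - Real.exp (2 * τ0.re))) (u u' v : V3) :
    K21 (Kmod A fh) (((0, 0), τ0), cj3 ((0, 0), τ0)) u u' v =
      s * (1 + s) * (1 + 2 * s) * (u.2 * u'.2 * starRingEnd ℂ v.2)
      + s * (1 + s) * (u.2 * f11 fh u'.1 v.1 + u'.2 * f11 fh u.1 v.1)
      + s * f21 fh u.1 u'.1 v.1 := by
  have hz := (mj_z0_mem hr0 hl hτ).1
  unfold K21
  rw [mjb_congr (mjU_open hf) (mj_step2 hr1 hf _ _) _ hz]
  obtain ⟨h1, h2, h3, h4⟩ := mjU_facts hr1 hz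
  have hLs := mjL_smooth hf
  set z : V3 × V3 := (((0, 0), τ0), cj3 ((0, 0), τ0)) with hzdef
  have hq : DifferentiableAt ℂ mjq z := mjq_smooth.differentiable (by simp) z
  have hL : DifferentiableAt ℂ (mjL fh) z := mjb_diff mj_ball_open hLs hz.1
  have hLw : DifferentiableAt ℂ (dd (mjL fh) (0, cj3 v)) z :=
    mjb_diff mj_ball_open (mjb_smooth mj_ball_open hLs _) hz.1
  have hLu : DifferentiableAt ℂ (dd (mjL fh) (u', 0)) z :=
    mjb_diff mj_ball_open (mjb_smooth mj_ball_open hLs _) hz.1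
  have hLuw : DifferentiableAt ℂ (dd (dd (mjL fh) (0, cj3 v)) (u', 0)) z :=
    mjb_diff mj_ball_open (mjb_smooth mj_ball_open (mjb_smooth mj_ball_open hLs _) _) hz.1
  have hR : DifferentiableAt ℂ (fun z => (1 - mjq z)⁻¹) z :=
    (mjR_deriv h2).differentiableAt.comp z hq
  have hS : DifferentiableAt ℂ (fun z => mjS (mjL fh z)) z :=
    (mjS_deriv h4).differentiableAt.comp z hL
  have hqw := mj_dq_diff ((0, cj3 v) : V3 × V3) z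
  have hqu := mj_dq_diff ((u', 0) : V3 × V3) z
  have hquw : DifferentiableAt ℂ (dd (dd mjq ((0, cj3 v) : V3 × V3)) ((u', 0) : V3 × V3)) z := by
    rw [mj_dd_dd_q]
    fun_prop
  refine mjb_of_line (by fun_prop) ?_
  have h9 := ((((((mjb_line hR (u, 0)).pow 2).mul (mjb_line hqu (u, 0))).mul
    (mjb_line hqw (u, 0))).add ((mjb_line hR (u, 0)).mul (mjb_line hquw (u, 0)))).const_mul
      (A : ℂ)).add (((((mjb_line hS (u, 0)).mul ((mjb_line hS (u, 0)).const_add 1)).mul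
        (mjb_line hLu (u, 0))).mul (mjb_line hLw (u, 0))).add
          ((mjb_line hS (u, 0)).mul (mjb_line hLuw (u, 0))))
  refine HasDerivAt.congr_deriv h9 ?_
  simp only [Pi.mul_apply, Pi.pow_apply, zero_smul, add_zero]
  rw [mjb_comp (mjR_deriv h2) hq, mjb_comp (mjS_deriv h4) hL]
  have hq3 : dd (dd (dd mjq ((0, cj3 v) : V3 × V3)) ((u', 0) : V3 × V3)) ((u, 0) : V3 × V3) z =
      0 := by
    rw [mj_dd_dd_q]
    unfold dd
    simp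
  rw [hq3, mj_S0 hr0 hl hτ hs, mj_dL_left hr0 hf hl hτ, mj_dL_left hr0 hf hl hτ,
    mj_dL_right hr0 hf hl hr hτ, mj_ddL_mix hr0 hf hl hτ, mj_ddL_mix hr0 hf hl hτ,
    mj_ddL_left hr0 hf hl hτ, mj_dddL_mix hr0 hf hl hτ, (mj_q0 τ0 (u, 0)).1,
    (mj_q0 τ0 (u, 0)).2, (mj_q0 τ0 (u', 0)).2, (mj_q0 τ0 (0, cj3 v)).2]
  ring

end P250
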