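import Mathlib.Algebra.Order.Star.Real
import Mathlib.Analysis.SpecialFunctions.Complex.LogDeriv
import Mathlib.Topology.Algebra.Module.ModuleTopology
import Vale.Agent.Lib.P250.AlgDefs
import Vale.Agent.Lib.P250.MJdefs

/-! # P250 module G6c: jet of type (2,2) -/

open scoped ContDiff
open Complex Metric Set

namespace P250

section MJCgen

variable {V : Type*} [NormedAddCommGroup V] [NormedSpace ℂ V]

/-- `F` is differentiable on `U` with directional derivative `F'` along `e`. -/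
def MJCD (U : Set V) (F : V → ℂ) (e : V) (F' : V → ℂ) : Prop :=
  ∀ z ∈ U, ∃ L : V →L[ℂ] ℂ, HasFDerivAt F L z ∧ L e = F' z

theorem MJCD.dd_eq {U : Set V} {F : V → ℂ} {e : V} {F' : V → ℂ} (h : MJCD U F e F') :
    EqOn (dd F e) F' U := by
  intro z hz
  obtain ⟨L, hL, hLe⟩ := h z hz
  unfold dd
  rw [hL.fderiv, hLe]

theorem MJCD.add {U : Set V} {F G : V → ℂ} {e : V} {F' G' : V → ℂ} (hF : MJCD U F e F')
    (hG : MJCD U G e G') : MJCD U (fun z => F z + G z) e (fun z => F' z + G' z) := by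
  intro z hz
  obtain ⟨L, hL, hLe⟩ := hF z hz
  obtain ⟨M, hM, hMe⟩ := hG z hz
  refine ⟨L + M, hL.add hM, ?_⟩
  rw [ContinuousLinearMap.add_apply, hLe, hMe]

theorem MJCD.mul {U : Set V} {F G : V → ℂ} {e : V} {F' G' : V → ℂ} (hF : MJCD U F e F')
    (hG : MJCD U G e G') : MJCD U (fun z => F z * G z) e (fun z => F' z * G z + F z * G' z) := by
  intro z hz
  obtain ⟨L, hL, hLe⟩ := hF z hz
  obtain ⟨M, hM, hMe⟩ := hG z hz
  refine ⟨F z • M + G z • L, hL.mul hM, ?_⟩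
  simp only [ContinuousLinearMap.add_apply, ContinuousLinearMap.smul_apply, smul_eq_mul, hLe, hMe]
  ring

theorem MJCD.const_mul {U : Set V} {F : V → ℂ} {e : V} {F' : V → ℂ} (c : ℂ)
    (hF : MJCD U F e F') : MJCD U (fun z => c * F z) e (fun z => c * F' z) := by
  intro z hz
  obtain ⟨L, hL, hLe⟩ := hF z hz
  refine ⟨c • L, hL.const_mul c, ?_⟩
  simp only [ContinuousLinearMap.smul_apply, smul_eq_mul, hLe]

theorem MJCD.of_smooth {U : Set V} (hU : IsOpen U) {F : V → ℂ} (hF : ContDiffOn ℂ ∞ F U) (e : V) :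
    MJCD U F e (dd F e) := by
  intro z hz
  have h := (hF.contDiffAt (hU.mem_nhds hz)).differentiableAt (by simp)
  exact ⟨fderiv ℂ F z, h.hasFDerivAt, rfl⟩

theorem MJCD.comp {U : Set V} (hU : IsOpen U) {w : V → ℂ} (hw : ContDiffOn ℂ ∞ w U) {f f' : ℂ → ℂ}
    (hf : ∀ z ∈ U, HasDerivAt f (f' (w z)) (w z)) (e : V) :
    MJCD U (fun z => f (w z)) e (fun z => f' (w z) * dd w e z) := by
  intro z hz
  have h := (hw.contDiffAt (hU.mem_nhds hz)).differentiableAt (by simp)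
  refine ⟨f' (w z) • fderiv ℂ w z, (hf z hz).comp_hasFDerivAt z h.hasFDerivAt, ?_⟩
  simp only [ContinuousLinearMap.smul_apply, smul_eq_mul]
  rfl

theorem MJC_dd_smooth {U : Set V} (hU : IsOpen U) {F : V → ℂ} (hF : ContDiffOn ℂ ∞ F U) (e : V) :
    ContDiffOn ℂ ∞ (dd F e) U := by
  have h1 : ContDiffOn ℂ ∞ (fderiv ℂ F) U := hF.fderiv_of_isOpen hU (by simp)
  exact h1.clm_apply contDiffOn_const

theorem MJC_dd_congr {U : Set V} (hU : IsOpen U) {F G : V → ℂ} (h : EqOn F G U) (e : V) :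
    EqOn (dd F e) (dd G e) U := by
  intro z hz
  have h1 : F =ᶠ[nhds z] G := Filter.eventuallyEq_of_mem (hU.mem_nhds hz) h
  unfold dd
  rw [h1.fderiv_eq]

/-- first derivative of a composition -/
noncomputable def MJCR1 (p1 w : V → ℂ) (e4 : V) : V → ℂ := fun z => p1 z * dd w e4 z

/-- second derivative of a composition -/
noncomputable def MJCR2 (p1 p2 w : V → ℂ) (e3 e4 : V) : V → ℂ := fun z =>
  p2 z * dd w e3 z * dd w e4 z + p1 z * dd (dd w e4) e3 z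

/-- third derivative of a composition -/
noncomputable def MJCR3 (p1 p2 p3 w : V → ℂ) (e2 e3 e4 : V) : V → ℂ := fun z =>
  ((p3 z * dd w e2 z * dd w e3 z + p2 z * dd (dd w e3) e2 z) * dd w e4 z
    + p2 z * dd w e3 z * dd (dd w e4) e2 z)
  + (p2 z * dd w e2 z * dd (dd w e4) e3 z + p1 z * dd (dd (dd w e4) e3) e2 z)

/-- fourth derivative of a composition -/
noncomputable def MJCR4 (p1 p2 p3 p4 w : V → ℂ) (e1 e2 e3 e4 : V) : V → ℂ := fun z =>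
  p4 z * (dd w e1 z * dd w e2 z * dd w e3 z * dd w e4 z)
  + p3 z * (dd (dd w e2) e1 z * dd w e3 z * dd w e4 z + dd (dd w e3) e1 z * dd w e2 z * dd w e4 z
      + dd (dd w e4) e1 z * dd w e2 z * dd w e3 z + dd (dd w e3) e2 z * dd w e1 z * dd w e4 z
      + dd (dd w e4) e2 z * dd w e1 z * dd w e3 z + dd (dd w e4) e3 z * dd w e1 z * dd w e2 z)
  + p2 z * (dd w e1 z * dd (dd (dd w e4) e3) e2 z + dd w e2 z * dd (dd (dd w e4) e3) e1 z
      + dd w e3 z * dd (dd (dd w e4) e2) e1 z + dd w e4 z * dd (dd (dd w e3) e2) e1 z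
      + dd (dd w e2) e1 z * dd (dd w e4) e3 z + dd (dd w e3) e1 z * dd (dd w e4) e2 z
      + dd (dd w e4) e1 z * dd (dd w e3) e2 z)
  + p1 z * dd (dd (dd (dd w e4) e3) e2) e1 z

theorem MJCR1_D {U : Set V} (hU : IsOpen U) {w p1 p2 : V → ℂ} (hw : ContDiffOn ℂ ∞ w U)
    (h1 : ∀ e, MJCD U p1 e (fun z => p2 z * dd w e z)) (e3 e4 : V) :
    MJCD U (MJCR1 p1 w e4) e3 (MJCR2 p1 p2 w e3 e4) :=
  MJCD.mul (h1 e3) (MJCD.of_smooth hU (MJC_dd_smooth hU hw e4) e3)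

theorem MJCR2_D {U : Set V} (hU : IsOpen U) {w p1 p2 p3 : V → ℂ} (hw : ContDiffOn ℂ ∞ w U)
    (h1 : ∀ e, MJCD U p1 e (fun z => p2 z * dd w e z))
    (h2 : ∀ e, MJCD U p2 e (fun z => p3 z * dd w e z)) (e2 e3 e4 : V) :
    MJCD U (MJCR2 p1 p2 w e3 e4) e2 (MJCR3 p1 p2 p3 w e2 e3 e4) := by
  have a3 := MJC_dd_smooth hU hw e3
  have a4 := MJC_dd_smooth hU hw e4
  have a34 := MJC_dd_smooth hU a4 e3
  exact MJCD.add (MJCD.mul (MJCD.mul (h2 e2) (MJCD.of_smooth hU a3 e2)) (MJCD.of_smooth hU a4 e2))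
    (MJCD.mul (h1 e2) (MJCD.of_smooth hU a34 e2))

theorem MJCR3_D {U : Set V} (hU : IsOpen U) {w p1 p2 p3 p4 : V → ℂ} (hw : ContDiffOn ℂ ∞ w U)
    (h1 : ∀ e, MJCD U p1 e (fun z => p2 z * dd w e z))
    (h2 : ∀ e, MJCD U p2 e (fun z => p3 z * dd w e z))
    (h3 : ∀ e, MJCD U p3 e (fun z => p4 z * dd w e z)) (e1 e2 e3 e4 : V) :
    MJCD U (MJCR3 p1 p2 p3 w e2 e3 e4) e1 (MJCR4 p1 p2 p3 p4 w e1 e2 e3 e4) := by
  have a2 := MJC_dd_smooth hU hw e2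
  have a3 := MJC_dd_smooth hU hw e3
  have a4 := MJC_dd_smooth hU hw e4
  have a34 := MJC_dd_smooth hU a4 e3
  have a24 := MJC_dd_smooth hU a4 e2
  have a23 := MJC_dd_smooth hU a3 e2
  have a234 := MJC_dd_smooth hU a34 e2
  have s2 := MJCD.of_smooth hU a2 e1
  have s3 := MJCD.of_smooth hU a3 e1
  have s4 := MJCD.of_smooth hU a4 e1
  have s34 := MJCD.of_smooth hU a34 e1
  have s24 := MJCD.of_smooth hU a24 e1
  have s23 := MJCD.of_smooth hU a23 e1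
  have s234 := MJCD.of_smooth hU a234 e1
  have key := MJCD.add
    (MJCD.add (MJCD.mul (MJCD.add (MJCD.mul (MJCD.mul (h3 e1) s2) s3) (MJCD.mul (h2 e1) s23)) s4)
      (MJCD.mul (MJCD.mul (h2 e1) s3) s24))
    (MJCD.add (MJCD.mul (MJCD.mul (h2 e1) s2) s34) (MJCD.mul (h1 e1) s234))
  intro z hz
  obtain ⟨L, hL, hLe⟩ := key z hz
  refine ⟨L, hL, ?_⟩
  rw [hLe]
  unfold MJCR4
  ring

end MJCgen


/-- outer function -/
noncomputable def MJCS (w : ℂ) : ℂ := Complex.exp w / (1 - Complex.exp w)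

theorem MJCS_deriv {w : ℂ} (h : 1 - Complex.exp w ≠ 0) :
    HasDerivAt MJCS (MJCS w * (1 + MJCS w)) w := by
  have h1 : HasDerivAt (fun w : ℂ => Complex.exp w) (Complex.exp w) w := Complex.hasDerivAt_exp w
  have h2 : HasDerivAt (fun w : ℂ => 1 - Complex.exp w) (-Complex.exp w) w := by
    simpa using h1.const_sub 1
  have h3 := h1.div h2 h
  have h4 : (Complex.exp w * (1 - Complex.exp w) - Complex.exp w * -Complex.exp w) /
      (1 - Complex.exp w) ^ 2 = MJCS w * (1 + MJCS w) := by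
    unfold MJCS
    field_simp
    ring
  rw [← h4]
  exact h3

/-- derivative of a polynomial expression in `S` : second -/
theorem MJCS_deriv2 {w : ℂ} (h : 1 - Complex.exp w ≠ 0) :
    HasDerivAt (fun w => MJCS w * (1 + MJCS w))
      (MJCS w * (1 + MJCS w) * (1 + 2 * MJCS w)) w := by
  have h1 := MJCS_deriv h
  have h2 := h1.mul (h1.const_add 1)
  refine h2.congr_deriv ?_
  ring

theorem MJCS_deriv3 {w : ℂ} (h : 1 - Complex.exp w ≠ 0) :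
    HasDerivAt (fun w => MJCS w * (1 + MJCS w) * (1 + 2 * MJCS w))
      (MJCS w * (1 + MJCS w) * ((1 + 2 * MJCS w) ^ 2 + 2 * MJCS w * (1 + MJCS w))) w := by
  have h1 := MJCS_deriv h
  have h2 := (MJCS_deriv2 h).mul ((h1.const_mul 2).const_add 1)
  refine h2.congr_deriv ?_
  ring

theorem MJCG_deriv {w : ℂ} (h : 1 - Complex.exp w ∈ slitPlane) :
    HasDerivAt (fun w : ℂ => -Complex.log (1 - Complex.exp w)) (MJCS w) w := by
  have h1 : HasDerivAt (fun w : ℂ => Complex.exp w) (Complex.exp w) w := Complex.hasDerivAt_exp w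
  have h2 : HasDerivAt (fun w : ℂ => 1 - Complex.exp w) (-Complex.exp w) w := by
    simpa using h1.const_sub 1
  have h3 := (h2.clog h).neg
  have h4 : -(-Complex.exp w / (1 - Complex.exp w)) = MJCS w := by
    unfold MJCS
    rw [neg_div, neg_neg]
  rw [← h4]
  exact h3

theorem MJCB_deriv {w : ℂ} (h : 1 - w ∈ slitPlane) :
    HasDerivAt (fun w : ℂ => -Complex.log (1 - w)) ((1 - w)⁻¹) w := by
  have h2 : HasDerivAt (fun w : ℂ => 1 - w) (-1) w := by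
    simpa using (hasDerivAt_id w).const_sub 1
  have h3 := (h2.clog h).neg
  have h4 : -((-1 : ℂ) / (1 - w)) = (1 - w)⁻¹ := by
    rw [neg_div, neg_neg, one_div]
  rw [← h4]
  exact h3

theorem MJCI_deriv {w : ℂ} (h : 1 - w ≠ 0) :
    HasDerivAt (fun w : ℂ => (1 - w)⁻¹) ((1 - w)⁻¹ ^ 2) w := by
  have h2 : HasDerivAt (fun w : ℂ => 1 - w) (-1) w := by
    simpa using (hasDerivAt_id w).const_sub 1
  have h3 := h2.inv h
  have h4 : -(-1 : ℂ) / (1 - w) ^ 2 = (1 - w)⁻¹ ^ 2 := by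
    rw [neg_neg, inv_pow, one_div]
  rw [← h4]
  exact h3

theorem MJCI_deriv2 {w : ℂ} (h : 1 - w ≠ 0) :
    HasDerivAt (fun w : ℂ => (1 - w)⁻¹ ^ 2) (2 * (1 - w)⁻¹ ^ 3) w := by
  have h2 := (MJCI_deriv h).pow 2
  refine h2.congr_deriv ?_
  ring

theorem MJCI_deriv3 {w : ℂ} (h : 1 - w ≠ 0) :
    HasDerivAt (fun w : ℂ => 2 * (1 - w)⁻¹ ^ 3) (6 * (1 - w)⁻¹ ^ 4) w := by
  have h2 := ((MJCI_deriv h).pow 3).const_mul 2
  refine h2.congr_deriv ?_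
  ring

/-- the scalar product, polarised -/
noncomputable def MJCq (z : V3 × V3) : ℂ := z.1.1.1 * z.2.1.1 + z.1.1.2 * z.2.1.2

/-- the exponent, polarised -/
noncomputable def MJCL (fh : (ℂ × ℂ) × (ℂ × ℂ) → ℂ) (z : V3 × V3) : ℂ :=
  z.1.2 + z.2.2 + fh (z.1.1, z.2.1)

/-- the projection to the base variables -/
noncomputable def MJCpi : (V3 × V3) →L[ℂ] ((ℂ × ℂ) × (ℂ × ℂ)) :=
  ((ContinuousLinearMap.fst ℂ (ℂ × ℂ) ℂ).comp (ContinuousLinearMap.fst ℂ V3 V3)).prod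
    ((ContinuousLinearMap.fst ℂ (ℂ × ℂ) ℂ).comp (ContinuousLinearMap.snd ℂ V3 V3))

theorem MJC_dd_pi {F : (ℂ × ℂ) × (ℂ × ℂ) → ℂ} {z : V3 × V3}
    (hF : DifferentiableAt ℂ F (z.1.1, z.2.1)) (u : V3 × V3) :
    dd (fun z : V3 × V3 => F (z.1.1, z.2.1)) u z = dd F (u.1.1, u.2.1) (z.1.1, z.2.1) := by
  have h1 : HasFDerivAt F (fderiv ℂ F (z.1.1, z.2.1)) (MJCpi z) := hF.hasFDerivAt
  have h2 := h1.comp z MJCpi.hasFDerivAt
  have h3 : HasFDerivAt (fun z : V3 × V3 => F (z.1.1, z.2.1))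
      ((fderiv ℂ F (z.1.1, z.2.1)).comp MJCpi) z := h2
  unfold dd
  rw [h3.fderiv]
  rfl

theorem MJCq_smooth : ContDiff ℂ ∞ MJCq := by
  unfold MJCq
  fun_prop

theorem MJC_line {V : Type*} [NormedAddCommGroup V] [NormedSpace ℂ V] {F : V → ℂ} {z : V}
    (hF : DifferentiableAt ℂ F z) (u : V) :
    HasDerivAt (fun c : ℂ => F (z + c • u)) (dd F u z) 0 := by
  have h1 : HasFDerivAt F (fderiv ℂ F z) (z + (0 : ℂ) • u) := by
    rw [zero_smul, add_zero]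
    exact hF.hasFDerivAt
  have h2 : HasDerivAt (fun c : ℂ => z + c • u) u 0 := by
    have h3 := ((hasDerivAt_id (0 : ℂ)).smul_const u).const_add z
    simpa using h3
  exact h1.comp_hasDerivAt 0 h2

theorem MJC_of_line {V : Type*} [NormedAddCommGroup V] [NormedSpace ℂ V] {F : V → ℂ} {z : V}
    (hF : DifferentiableAt ℂ F z) {u : V} {d : ℂ}
    (h : HasDerivAt (fun c : ℂ => F (z + c • u)) d 0) : dd F u z = d :=
  (MJC_line hF u).unique h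

theorem MJC_dd_q (u : V3 × V3) : dd MJCq u = fun z =>
    u.1.1.1 * z.2.1.1 + z.1.1.1 * u.2.1.1 + (u.1.1.2 * z.2.1.2 + z.1.1.2 * u.2.1.2) := by
  funext z
  refine MJC_of_line (MJCq_smooth.differentiable (by simp) z) ?_
  have h : ∀ a b : ℂ, HasDerivAt (fun c : ℂ => a + c * b) b 0 := by
    intro a b
    simpa using ((hasDerivAt_id (0 : ℂ)).mul_const b).const_add a
  have h1 := ((h z.1.1.1 u.1.1.1).mul (h z.2.1.1 u.2.1.1)).add
    ((h z.1.1.2 u.1.1.2).mul (h z.2.1.2 u.2.1.2))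
  simp only [zero_mul, add_zero] at h1
  exact h1

theorem MJC_dd_dd_q (w u : V3 × V3) : dd (dd MJCq w) u = fun _ =>
    w.1.1.1 * u.2.1.1 + u.1.1.1 * w.2.1.1 + (w.1.1.2 * u.2.1.2 + u.1.1.2 * w.2.1.2) := by
  funext z
  have hd : DifferentiableAt ℂ (dd MJCq w) z := by
    rw [MJC_dd_q]
    fun_prop
  refine MJC_of_line hd ?_
  rw [MJC_dd_q]
  have h : ∀ a b : ℂ, HasDerivAt (fun c : ℂ => a + c * b) b 0 := by
    intro a b
    simpa using ((hasDerivAt_id (0 : ℂ)).mul_const b).const_add a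
  have h1 := (((h z.2.1.1 u.2.1.1).const_mul w.1.1.1).add
    ((h z.1.1.1 u.1.1.1).mul_const w.2.1.1)).add
    (((h z.2.1.2 u.2.1.2).const_mul w.1.1.2).add ((h z.1.1.2 u.1.1.2).mul_const w.2.1.2))
  exact h1

theorem MJC_ddd_q (w u t : V3 × V3) : dd (dd (dd MJCq w) u) t = fun _ => 0 := by
  rw [MJC_dd_dd_q]
  funext z
  unfold dd
  simp

theorem MJC_dddd_q (w u t r : V3 × V3) : dd (dd (dd (dd MJCq w) u) t) r = fun _ => 0 := by
  rw [MJC_ddd_q]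
  funext z
  unfold dd
  simp

theorem MJC_ball {z : (ℂ × ℂ) × (ℂ × ℂ)} {r0 : ℝ} (hr1 : r0 ≤ 1 / 8)
    (hz : z ∈ ball (0 : (ℂ × ℂ) × (ℂ × ℂ)) r0) :
    ‖z.1.1 * z.2.1 + z.1.2 * z.2.2‖ < 1 / 2 := by
  rw [mem_ball_zero_iff, Prod.norm_def, max_lt_iff, Prod.norm_def, Prod.norm_def, max_lt_iff,
    max_lt_iff] at hz
  obtain ⟨⟨h1, h2⟩, h3, h4⟩ := hz
  refine (norm_add_le _ _).trans_lt ?_
  rw [norm_mul, norm_mul]
  have h5 := norm_nonneg z.1.1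
  have h6 := norm_nonneg z.1.2
  have h7 := norm_nonneg z.2.1
  have h8 := norm_nonneg z.2.2
  nlinarith

section MJCMain

variable {r0 : ℝ} {fh : (ℂ × ℂ) × (ℂ × ℂ) → ℂ}

theorem MJCL_smooth (hf : ContDiffOn ℂ ∞ fh (ball 0 r0)) :
    ContDiffOn ℂ ∞ (MJCL fh) {z : V3 × V3 | (z.1.1, z.2.1) ∈ ball (0 : (ℂ × ℂ) × (ℂ × ℂ)) r0} := by
  unfold MJCL
  have h1 : ContDiffOn ℂ ∞ (fun z : V3 × V3 => fh (z.1.1, z.2.1))
      {z : V3 × V3 | (z.1.1, z.2.1) ∈ ball (0 : (ℂ × ℂ) × (ℂ × ℂ)) r0} := by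
    refine hf.comp (g := fh) (f := fun z : V3 × V3 => (z.1.1, z.2.1)) ?_ ?_
    · apply ContDiff.contDiffOn
      fun_prop
    · intro z hz
      exact hz
  refine ContDiffOn.add ?_ h1
  apply ContDiff.contDiffOn
  fun_prop

theorem MJC_ball_open : IsOpen {z : V3 × V3 | (z.1.1, z.2.1) ∈
    ball (0 : (ℂ × ℂ) × (ℂ × ℂ)) r0} := by
  apply isOpen_ball.preimage
  fun_prop

theorem MJCU_open (hf : ContDiffOn ℂ ∞ fh (ball 0 r0)) : IsOpen (Umod r0 fh) := by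
  have h1 := (MJCL_smooth hf).continuousOn
  have h2 : ContinuousOn (fun z => ‖Complex.exp (MJCL fh z)‖)
      {z : V3 × V3 | (z.1.1, z.2.1) ∈ ball (0 : (ℂ × ℂ) × (ℂ × ℂ)) r0} :=
    (Complex.continuous_exp.comp_continuousOn h1).norm
  have h3 := h2.isOpen_inter_preimage MJC_ball_open (isOpen_Iio (a := (1 : ℝ)))
  exact h3

/-- facts on the domain -/
theorem MJCU_facts (hr1 : r0 ≤ 1 / 8) {z : V3 × V3} (hz : z ∈ Umod r0 fh) :
    1 - MJCq z ∈ slitPlane ∧ 1 - MJCq z ≠ 0 ∧ 1 - Complex.exp (MJCL fh z) ∈ slitPlane ∧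
      1 - Complex.exp (MJCL fh z) ≠ 0 := by
  obtain ⟨h1, h2⟩ := hz
  have h3 : ‖MJCq z‖ < 1 / 2 := MJC_ball hr1 h1
  have h4 : 1 - MJCq z ∈ slitPlane := by
    left
    have := Complex.re_le_norm (MJCq z)
    simp only [sub_re, one_re]
    linarith
  have h5 : 1 - Complex.exp (MJCL fh z) ∈ slitPlane := by
    left
    have := Complex.re_le_norm (Complex.exp (MJCL fh z))
    have h6 : ‖Complex.exp (MJCL fh z)‖ < 1 := h2
    simp only [sub_re, one_re]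
    linarith
  exact ⟨h4, slitPlane_ne_zero h4, h5, slitPlane_ne_zero h5⟩

theorem MJC_dL (hf : ContDiffOn ℂ ∞ fh (ball 0 r0)) (u : V3 × V3) {z : V3 × V3}
    (hz : (z.1.1, z.2.1) ∈ ball (0 : (ℂ × ℂ) × (ℂ × ℂ)) r0) :
    dd (MJCL fh) u z = u.1.2 + u.2.2 + dd fh (u.1.1, u.2.1) (z.1.1, z.2.1) := by
  have hd : DifferentiableAt ℂ (MJCL fh) z :=
    ((MJCL_smooth hf).contDiffAt (MJC_ball_open.mem_nhds hz)).differentiableAt (by simp)
  have hfd : DifferentiableAt ℂ fh (z.1.1, z.2.1) :=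
    (hf.contDiffAt (isOpen_ball.mem_nhds hz)).differentiableAt (by simp)
  have hfd' : DifferentiableAt ℂ (fun z : V3 × V3 => fh (z.1.1, z.2.1)) z := by
    have h1 : DifferentiableAt ℂ fh (MJCpi z) := hfd
    exact h1.comp z MJCpi.differentiableAt
  refine MJC_of_line hd ?_
  have h : ∀ a b : ℂ, HasDerivAt (fun c : ℂ => a + c * b) b 0 := by
    intro a b
    simpa using ((hasDerivAt_id (0 : ℂ)).mul_const b).const_add a
  have h1 := ((h z.1.2 u.1.2).add (h z.2.2 u.2.2)).add (MJC_line hfd' u)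
  rw [MJC_dd_pi hfd] at h1
  exact h1

theorem MJC_ddL (hf : ContDiffOn ℂ ∞ fh (ball 0 r0)) (w u : V3 × V3) {z : V3 × V3}
    (hz : (z.1.1, z.2.1) ∈ ball (0 : (ℂ × ℂ) × (ℂ × ℂ)) r0) :
    dd (dd (MJCL fh) w) u z = dd (dd fh (w.1.1, w.2.1)) (u.1.1, u.2.1) (z.1.1, z.2.1) := by
  have h1 := MJC_dd_congr MJC_ball_open (fun z (hz : z ∈ {z : V3 × V3 | (z.1.1, z.2.1) ∈
    ball (0 : (ℂ × ℂ) × (ℂ × ℂ)) r0}) => MJC_dL hf w hz) u hz
  rw [h1]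
  have h2 := MJC_dd_smooth isOpen_ball hf (w.1.1, w.2.1)
  have h3 : DifferentiableAt ℂ (dd fh (w.1.1, w.2.1)) (z.1.1, z.2.1) :=
    (h2.contDiffAt (isOpen_ball.mem_nhds hz)).differentiableAt (by simp)
  rw [← MJC_dd_pi h3 u]
  unfold dd
  rw [fderiv_const_add]

theorem MJC_dddL (hf : ContDiffOn ℂ ∞ fh (ball 0 r0)) (w u u2 : V3 × V3) {z : V3 × V3}
    (hz : (z.1.1, z.2.1) ∈ ball (0 : (ℂ × ℂ) × (ℂ × ℂ)) r0) :
    dd (dd (dd (MJCL fh) w) u) u2 z =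
      dd (dd (dd fh (w.1.1, w.2.1)) (u.1.1, u.2.1)) (u2.1.1, u2.2.1) (z.1.1, z.2.1) := by
  have h1 := MJC_dd_congr MJC_ball_open (fun z (hz : z ∈ {z : V3 × V3 | (z.1.1, z.2.1) ∈
    ball (0 : (ℂ × ℂ) × (ℂ × ℂ)) r0}) => MJC_ddL hf w u hz) u2 hz
  rw [h1]
  have h2 := MJC_dd_smooth isOpen_ball (MJC_dd_smooth isOpen_ball hf (w.1.1, w.2.1)) (u.1.1, u.2.1)
  have h3 : DifferentiableAt ℂ (dd (dd fh (w.1.1, w.2.1)) (u.1.1, u.2.1)) (z.1.1, z.2.1) :=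
    (h2.contDiffAt (isOpen_ball.mem_nhds hz)).differentiableAt (by simp)
  exact MJC_dd_pi h3 u2

theorem MJC_ddddL (hf : ContDiffOn ℂ ∞ fh (ball 0 r0)) (w u u2 u3 : V3 × V3) {z : V3 × V3}
    (hz : (z.1.1, z.2.1) ∈ ball (0 : (ℂ × ℂ) × (ℂ × ℂ)) r0) :
    dd (dd (dd (dd (MJCL fh) w) u) u2) u3 z =
      dd (dd (dd (dd fh (w.1.1, w.2.1)) (u.1.1, u.2.1)) (u2.1.1, u2.2.1)) (u3.1.1, u3.2.1)
        (z.1.1, z.2.1) := by
  have h1 := MJC_dd_congr MJC_ball_open (fun z (hz : z ∈ {z : V3 × V3 | (z.1.1, z.2.1) ∈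
    ball (0 : (ℂ × ℂ) × (ℂ × ℂ)) r0}) => MJC_dddL hf w u u2 hz) u3 hz
  rw [h1]
  have h2 := MJC_dd_smooth isOpen_ball (MJC_dd_smooth isOpen_ball
    (MJC_dd_smooth isOpen_ball hf (w.1.1, w.2.1)) (u.1.1, u.2.1)) (u2.1.1, u2.2.1)
  have h3 : DifferentiableAt ℂ (dd (dd (dd fh (w.1.1, w.2.1)) (u.1.1, u.2.1)) (u2.1.1, u2.2.1))
      (z.1.1, z.2.1) :=
    (h2.contDiffAt (isOpen_ball.mem_nhds hz)).differentiableAt (by simp)
  exact MJC_dd_pi h3 u3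

theorem MJC_Kmod_eq (A : ℝ) (fh : (ℂ × ℂ) × (ℂ × ℂ) → ℂ) : Kmod A fh = fun z =>
    (A : ℂ) * (-Complex.log (1 - MJCq z)) + (-Complex.log (1 - Complex.exp (MJCL fh z))) := by
  funext z
  unfold Kmod MJCq MJCL
  rw [sub_add_eq_sub_sub, sub_eq_add_neg]

/-- pure derivatives vanish -/
theorem MJC_pure_left (hf : ContDiffOn ℂ ∞ fh (ball 0 r0))
    (hl : ∀ x ∈ ball (0 : ℂ × ℂ) r0, fh (x, 0) = 0) (ξ : ℂ × ℂ) :
    ∀ x ∈ ball (0 : ℂ × ℂ) r0, dd fh (ξ, 0) (x, 0) = 0 := by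
  intro x hx
  have h0 : ((x, 0) : (ℂ × ℂ) × (ℂ × ℂ)) ∈ ball (0 : (ℂ × ℂ) × (ℂ × ℂ)) r0 := by
    rw [mem_ball_zero_iff] at hx ⊢
    rw [Prod.norm_def]
    simp [hx]
  refine MJC_of_line ((hf.contDiffAt (isOpen_ball.mem_nhds h0)).differentiableAt (by simp)) ?_
  have h1 : (fun c : ℂ => fh ((x, 0) + c • (ξ, 0))) =ᶠ[nhds 0] fun _ => 0 := by
    have h2 : ∀ᶠ c : ℂ in nhds 0, x + c • ξ ∈ ball (0 : ℂ × ℂ) r0 := by
      have h3 : ContinuousAt (fun c : ℂ => x + c • ξ) 0 := by fun_prop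
      apply h3
      simp only [zero_smul, add_zero]
      exact isOpen_ball.mem_nhds hx
    filter_upwards [h2] with c hc
    have h4 : ((x, 0) + c • (ξ, 0) : (ℂ × ℂ) × (ℂ × ℂ)) = (x + c • ξ, 0) := by
      ext <;> simp
    rw [h4]
    exact hl _ hc
  exact (hasDerivAt_const (0 : ℂ) (0 : ℂ)).congr_of_eventuallyEq h1

theorem MJC_pure_right (hf : ContDiffOn ℂ ∞ fh (ball 0 r0))
    (hr : ∀ y ∈ ball (0 : ℂ × ℂ) r0, fh (0, y) = 0) (η : ℂ × ℂ) :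
    ∀ y ∈ ball (0 : ℂ × ℂ) r0, dd fh (0, η) (0, y) = 0 := by
  intro y hy
  have h0 : ((0, y) : (ℂ × ℂ) × (ℂ × ℂ)) ∈ ball (0 : (ℂ × ℂ) × (ℂ × ℂ)) r0 := by
    rw [mem_ball_zero_iff] at hy ⊢
    rw [Prod.norm_def]
    simp [hy]
  refine MJC_of_line ((hf.contDiffAt (isOpen_ball.mem_nhds h0)).differentiableAt (by simp)) ?_
  have h1 : (fun c : ℂ => fh ((0, y) + c • (0, η))) =ᶠ[nhds 0] fun _ => 0 := by
    have h2 : ∀ᶠ c : ℂ in nhds 0, y + c • η ∈ ball (0 : ℂ × ℂ) r0 := by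
      have h3 : ContinuousAt (fun c : ℂ => y + c • η) 0 := by fun_prop
      apply h3
      simp only [zero_smul, add_zero]
      exact isOpen_ball.mem_nhds hy
    filter_upwards [h2] with c hc
    have h4 : ((0, y) + c • (0, η) : (ℂ × ℂ) × (ℂ × ℂ)) = (0, y + c • η) := by
      ext <;> simp
    rw [h4]
    exact hr _ hc
  exact (hasDerivAt_const (0 : ℂ) (0 : ℂ)).congr_of_eventuallyEq h1

/-- the fourth derivative of the model potential on its domain -/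
theorem MJC_K4 {A : ℝ} (hr1 : r0 ≤ 1 / 8) (hf : ContDiffOn ℂ ∞ fh (ball 0 r0))
    (e1 e2 e3 e4 : V3 × V3) :
    EqOn (dd (dd (dd (dd (Kmod A fh) e4) e3) e2) e1) (fun z =>
      (A : ℂ) * MJCR4 (fun z => (1 - MJCq z)⁻¹) (fun z => (1 - MJCq z)⁻¹ ^ 2)
        (fun z => 2 * (1 - MJCq z)⁻¹ ^ 3) (fun z => 6 * (1 - MJCq z)⁻¹ ^ 4) MJCq e1 e2 e3 e4 z
      + MJCR4 (fun z => MJCS (MJCL fh z)) (fun z => MJCS (MJCL fh z) * (1 + MJCS (MJCL fh z)))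
        (fun z => MJCS (MJCL fh z) * (1 + MJCS (MJCL fh z)) * (1 + 2 * MJCS (MJCL fh z)))
        (fun z => MJCS (MJCL fh z) * (1 + MJCS (MJCL fh z)) * ((1 + 2 * MJCS (MJCL fh z)) ^ 2
          + 2 * MJCS (MJCL fh z) * (1 + MJCS (MJCL fh z)))) (MJCL fh) e1 e2 e3 e4 z)
      (Umod r0 fh) := by
  have hU := MJCU_open hf
  have hw : ContDiffOn ℂ ∞ (MJCL fh) (Umod r0 fh) := (MJCL_smooth hf).mono fun z hz => hz.1
  have hq : ContDiffOn ℂ ∞ MJCq (Umod r0 fh) := MJCq_smooth.contDiffOn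
  have q0 : ∀ e, MJCD (Umod r0 fh) (fun z => -Complex.log (1 - MJCq z)) e
      (fun z => (1 - MJCq z)⁻¹ * dd MJCq e z) := fun e =>
    MJCD.comp hU hq (f := fun w => -Complex.log (1 - w)) (f' := fun w => (1 - w)⁻¹)
      (fun z hz => MJCB_deriv (MJCU_facts hr1 hz).1) e
  have q1 : ∀ e, MJCD (Umod r0 fh) (fun z => (1 - MJCq z)⁻¹) e
      (fun z => (1 - MJCq z)⁻¹ ^ 2 * dd MJCq e z) := fun e =>
    MJCD.comp hU hq (f := fun w => (1 - w)⁻¹) (f' := fun w => (1 - w)⁻¹ ^ 2)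
      (fun z hz => MJCI_deriv (MJCU_facts hr1 hz).2.1) e
  have q2 : ∀ e, MJCD (Umod r0 fh) (fun z => (1 - MJCq z)⁻¹ ^ 2) e
      (fun z => 2 * (1 - MJCq z)⁻¹ ^ 3 * dd MJCq e z) := fun e =>
    MJCD.comp hU hq (f := fun w => (1 - w)⁻¹ ^ 2) (f' := fun w => 2 * (1 - w)⁻¹ ^ 3)
      (fun z hz => MJCI_deriv2 (MJCU_facts hr1 hz).2.1) e
  have q3 : ∀ e, MJCD (Umod r0 fh) (fun z => 2 * (1 - MJCq z)⁻¹ ^ 3) e
      (fun z => 6 * (1 - MJCq z)⁻¹ ^ 4 * dd MJCq e z) := fun e =>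
    MJCD.comp hU hq (f := fun w => 2 * (1 - w)⁻¹ ^ 3) (f' := fun w => 6 * (1 - w)⁻¹ ^ 4)
      (fun z hz => MJCI_deriv3 (MJCU_facts hr1 hz).2.1) e
  have w0 : ∀ e, MJCD (Umod r0 fh) (fun z => -Complex.log (1 - Complex.exp (MJCL fh z))) e
      (fun z => MJCS (MJCL fh z) * dd (MJCL fh) e z) := fun e =>
    MJCD.comp hU hw (f := fun w => -Complex.log (1 - Complex.exp w)) (f' := MJCS)
      (fun z hz => MJCG_deriv (MJCU_facts hr1 hz).2.2.1) e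
  have w1 : ∀ e, MJCD (Umod r0 fh) (fun z => MJCS (MJCL fh z)) e
      (fun z => MJCS (MJCL fh z) * (1 + MJCS (MJCL fh z)) * dd (MJCL fh) e z) := fun e =>
    MJCD.comp hU hw (f := MJCS) (f' := fun w => MJCS w * (1 + MJCS w))
      (fun z hz => MJCS_deriv (MJCU_facts hr1 hz).2.2.2) e
  have w2 : ∀ e, MJCD (Umod r0 fh) (fun z => MJCS (MJCL fh z) * (1 + MJCS (MJCL fh z))) e
      (fun z => MJCS (MJCL fh z) * (1 + MJCS (MJCL fh z)) * (1 + 2 * MJCS (MJCL fh z))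
        * dd (MJCL fh) e z) := fun e =>
    MJCD.comp hU hw (f := fun w => MJCS w * (1 + MJCS w))
      (f' := fun w => MJCS w * (1 + MJCS w) * (1 + 2 * MJCS w))
      (fun z hz => MJCS_deriv2 (MJCU_facts hr1 hz).2.2.2) e
  have w3 : ∀ e, MJCD (Umod r0 fh)
      (fun z => MJCS (MJCL fh z) * (1 + MJCS (MJCL fh z)) * (1 + 2 * MJCS (MJCL fh z))) e
      (fun z => MJCS (MJCL fh z) * (1 + MJCS (MJCL fh z)) * ((1 + 2 * MJCS (MJCL fh z)) ^ 2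
          + 2 * MJCS (MJCL fh z) * (1 + MJCS (MJCL fh z))) * dd (MJCL fh) e z) := fun e =>
    MJCD.comp hU hw (f := fun w => MJCS w * (1 + MJCS w) * (1 + 2 * MJCS w))
      (f' := fun w => MJCS w * (1 + MJCS w) * ((1 + 2 * MJCS w) ^ 2 + 2 * MJCS w * (1 + MJCS w)))
      (fun z hz => MJCS_deriv3 (MJCU_facts hr1 hz).2.2.2) e
  rw [MJC_Kmod_eq]
  have s1 := ((MJCD.const_mul (A : ℂ) (q0 e4)).add (w0 e4)).dd_eq
  have s2 := (MJC_dd_congr hU s1 e3).trans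
    ((MJCD.const_mul (A : ℂ) (MJCR1_D hU hq q1 e3 e4)).add (MJCR1_D hU hw w1 e3 e4)).dd_eq
  have s3 := (MJC_dd_congr hU s2 e2).trans
    ((MJCD.const_mul (A : ℂ) (MJCR2_D hU hq q1 q2 e2 e3 e4)).add
      (MJCR2_D hU hw w1 w2 e2 e3 e4)).dd_eq
  exact (MJC_dd_congr hU s3 e1).trans
    ((MJCD.const_mul (A : ℂ) (MJCR3_D hU hq q1 q2 q3 e1 e2 e3 e4)).add
      (MJCR3_D hU hw w1 w2 w3 e1 e2 e3 e4)).dd_eq

theorem MJC_z0 (hr0 : 0 < r0) (hl : ∀ x ∈ ball (0 : ℂ × ℂ) r0, fh (x, 0) = 0) {τ0 : ℂ}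
    (hτ : τ0.re < 0) :
    (((0, 0), τ0), cj3 ((0, 0), τ0)) ∈ Umod r0 fh ∧
    Complex.exp (MJCL fh (((0, 0), τ0), cj3 ((0, 0), τ0))) = (Real.exp (2 * τ0.re) : ℂ) := by
  have h0 : ((((0 : ℂ), (0 : ℂ)), cj ((0 : ℂ), (0 : ℂ))) : (ℂ × ℂ) × (ℂ × ℂ)) = (0, 0) := by
    simp [cj]
  have h1 : MJCL fh (((0, 0), τ0), cj3 ((0, 0), τ0)) = ((2 * τ0.re : ℝ) : ℂ) := by
    unfold MJCL cj3
    simp only
    rw [h0]
    have h2 := hl 0 (mem_ball_self hr0)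
    rw [h2, Complex.add_conj, add_zero]
  have h2 : Complex.exp (MJCL fh (((0, 0), τ0), cj3 ((0, 0), τ0))) =
      (Real.exp (2 * τ0.re) : ℂ) := by
    rw [h1, Complex.ofReal_exp]
  refine ⟨⟨?_, ?_⟩, h2⟩
  · simp only [cj3]
    rw [h0]
    exact mem_ball_self hr0
  · have h3 : ‖Complex.exp (MJCL fh (((0, 0), τ0), cj3 ((0, 0), τ0)))‖ < 1 := by
      rw [h2, Complex.norm_real, Real.norm_eq_abs, abs_of_pos (Real.exp_pos _), Real.exp_lt_one_iff]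
      linarith
    exact h3

theorem MJC_S0 (hr0 : 0 < r0) (hl : ∀ x ∈ ball (0 : ℂ × ℂ) r0, fh (x, 0) = 0) {τ0 : ℂ}
    (hτ : τ0.re < 0) {s : ℝ} (hs : s = Real.exp (2 * τ0.re) / (1 - Real.exp (2 * τ0.re))) :
    MJCS (MJCL fh (((0, 0), τ0), cj3 ((0, 0), τ0))) = s := by
  unfold MJCS
  rw [(MJC_z0 hr0 hl hτ).2, hs]
  push_cast
  rfl

end MJCMain

/-- The (2,2) jet. -/
theorem Kmod_22 {r0 A : ℝ} (hr0 : 0 < r0) (hr1 : r0 ≤ 1 / 8) {fh : (ℂ × ℂ) × (ℂ × ℂ) → ℂ}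
    (hf : ContDiffOn ℂ ∞ fh (ball 0 r0)) (hl : ∀ x ∈ ball (0 : ℂ × ℂ) r0, fh (x, 0) = 0)
    (hr : ∀ y ∈ ball (0 : ℂ × ℂ) r0, fh (0, y) = 0) {τ0 : ℂ} (hτ : τ0.re < 0) {s : ℝ}
    (hs : s = Real.exp (2 * τ0.re) / (1 - Real.exp (2 * τ0.re))) (u u' v v' : V3) :
    K22 (Kmod A fh) (((0, 0), τ0), cj3 ((0, 0), τ0)) u u' v v' =
      A * (ip u.1 v.1 * ip u'.1 v'.1 + ip u.1 v'.1 * ip u'.1 v.1)
      + s * (1 + s) * ((1 + 2 * s) ^ 2 + 2 * s * (1 + s)) *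
          (u.2 * u'.2 * starRingEnd ℂ v.2 * starRingEnd ℂ v'.2)
      + s * (1 + s) * (1 + 2 * s) *
          (f11 fh u.1 v.1 * u'.2 * starRingEnd ℂ v'.2
            + f11 fh u.1 v'.1 * u'.2 * starRingEnd ℂ v.2
            + f11 fh u'.1 v.1 * u.2 * starRingEnd ℂ v'.2
            + f11 fh u'.1 v'.1 * u.2 * starRingEnd ℂ v.2)
      + s * (1 + s) *
          (f11 fh u.1 v.1 * f11 fh u'.1 v'.1 + f11 fh u.1 v'.1 * f11 fh u'.1 v.1
            + f21 fh u.1 u'.1 v.1 * starRingEnd ℂ v'.2 + f21 fh u.1 u'.1 v'.1 * starRingEnd ℂ v.2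
            + f12 fh u.1 v.1 v'.1 * u'.2 + f12 fh u'.1 v.1 v'.1 * u.2)
      + s * f22 fh u.1 u'.1 v.1 v'.1 := by
  have hz := (MJC_z0 hr0 hl hτ).1
  have hS := MJC_S0 hr0 hl hτ hs
  have hb : ((((((0, 0), τ0), cj3 ((0, 0), τ0)) : V3 × V3).1.1,
      ((((0, 0), τ0), cj3 ((0, 0), τ0)) : V3 × V3).2.1) : (ℂ × ℂ) × (ℂ × ℂ)) = 0 := by
    simp [cj3, cj]
  have hzb := hz.1
  unfold K22
  rw [MJC_K4 hr1 hf _ _ _ _ hz]
  set z : V3 × V3 := (((0, 0), τ0), cj3 ((0, 0), τ0)) with hzdef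
  have m0 : (0 : ℂ × ℂ) ∈ ball (0 : ℂ × ℂ) r0 := mem_ball_self hr0
  -- first derivatives of `w`
  have a1 : ∀ u : V3, dd (MJCL fh) (u, 0) z = u.2 := by
    intro u
    rw [MJC_dL hf _ hzb, hb]
    have h1 := MJC_pure_left hf hl u.1 0 m0
    have h4 : dd fh (((u, (0 : V3)) : V3 × V3).1.1, ((u, (0 : V3)) : V3 × V3).2.1) 0 = 0 := h1
    rw [h4]
    simp
  have a3 : ∀ v : V3, dd (MJCL fh) (0, cj3 v) z = starRingEnd ℂ v.2 := by
    intro v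
    rw [MJC_dL hf _ hzb, hb]
    have h1 := MJC_pure_right hf hr (cj v.1) 0 m0
    have h4 : dd fh ((((0 : V3), cj3 v) : V3 × V3).1.1, (((0 : V3), cj3 v) : V3 × V3).2.1) 0 = 0 :=
      h1
    rw [h4]
    simp [cj3]
  -- second derivatives of `w`
  have a12 : dd (dd (MJCL fh) (u', 0)) (u, 0) z = 0 := by
    rw [MJC_ddL hf _ _ hzb, hb]
    exact MJC_pure_left (MJC_dd_smooth isOpen_ball hf (u'.1, 0))
      (fun x hx => MJC_pure_left hf hl u'.1 x hx) u.1 0 m0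
  have a34 : dd (dd (MJCL fh) (0, cj3 v')) (0, cj3 v) z = 0 := by
    rw [MJC_ddL hf _ _ hzb, hb]
    exact MJC_pure_right (MJC_dd_smooth isOpen_ball hf (0, cj v'.1))
      (fun x hx => MJC_pure_right hf hr (cj v'.1) x hx) (cj v.1) 0 m0
  have a13 : ∀ u v : V3, dd (dd (MJCL fh) (0, cj3 v)) (u, 0) z = f11 fh u.1 v.1 := by
    intro u v
    rw [MJC_ddL hf _ _ hzb, hb]
    rfl
  -- third derivatives
  have a123 : ∀ v : V3, dd (dd (dd (MJCL fh) (0, cj3 v)) (u', 0)) (u, 0) z =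
      f21 fh u.1 u'.1 v.1 := by
    intro v
    rw [MJC_dddL hf _ _ _ hzb, hb]
    rfl
  have a134 : ∀ u : V3, dd (dd (dd (MJCL fh) (0, cj3 v')) (0, cj3 v)) (u, 0) z =
      f12 fh u.1 v.1 v'.1 := by
    intro u
    rw [MJC_dddL hf _ _ _ hzb, hb]
    rfl
  have a1234 : dd (dd (dd (dd (MJCL fh) (0, cj3 v')) (0, cj3 v)) (u', 0)) (u, 0) z =
      f22 fh u.1 u'.1 v.1 v'.1 := by
    rw [MJC_ddddL hf _ _ _ _ hzb, hb]
    rfl
  -- the quadratic form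
  have q0 : MJCq z = 0 := by
    simp [MJCq, hzdef]
  have q1 : ∀ e : V3 × V3, dd MJCq e z = 0 := by
    intro e
    rw [MJC_dd_q]
    simp [hzdef, cj3, cj]
  have q13 : ∀ u v : V3, dd (dd MJCq (0, cj3 v)) (u, 0) z = ip u.1 v.1 := by
    intro u v
    rw [MJC_dd_dd_q]
    simp [ip, cj3, cj]
  have q12 : dd (dd MJCq (u', 0)) (u, 0) z = 0 := by
    rw [MJC_dd_dd_q]
    simp
  have q34 : dd (dd MJCq (0, cj3 v')) (0, cj3 v) z = 0 := by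
    rw [MJC_dd_dd_q]
    simp
  have q3 : ∀ e e' e'' : V3 × V3, dd (dd (dd MJCq e) e') e'' z = 0 := by
    intro e e' e''
    rw [MJC_ddd_q]
  have q4 : ∀ e e' e'' f : V3 × V3, dd (dd (dd (dd MJCq e) e') e'') f z = 0 := by
    intro e e' e'' f
    rw [MJC_dddd_q]
  simp only [MJCR4, hS, q0, q1, q13, q12, q34, q3, q4, a1, a3, a12, a34, a13, a123, a134, a1234]
  ring

end P250
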