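import Vale.Agent.Lib.P250.NFdefs

/-! # P250: definitions for the polarised jets -/

open scoped ContDiff
open Complex Set

namespace P250

/-- the vector space of the Hartogs domain -/
abbrev V3 := (ℂ × ℂ) × ℂ

/-- conjugation on `V3` -/
noncomputable def cj3 (p : V3) : V3 := (cj p.1, starRingEnd ℂ p.2)

/-- mixed derivatives of a polarised potential, holomorphic in the first slot, antiholomorphic in
the second (after conjugation) -/
noncomputable def K11 (K : V3 × V3 → ℂ) (z : V3 × V3) (u v : V3) : ℂ :=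
  dd (dd K (0, cj3 v)) (u, 0) z

noncomputable def K21 (K : V3 × V3 → ℂ) (z : V3 × V3) (u v w : V3) : ℂ :=
  dd (dd (dd K (0, cj3 w)) (v, 0)) (u, 0) z

noncomputable def K22 (K : V3 × V3 → ℂ) (z : V3 × V3) (u u' v v' : V3) : ℂ :=
  dd (dd (dd (dd K (0, cj3 v')) (0, cj3 v)) (u', 0)) (u, 0) z

end P250
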