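import Vale.Agent.Lib.P250.LCB
import Vale.Agent.Lib.P250.PolDefs
import Vale.Agent.Lib.P250.PotA

/-! # P250 module G5a: real derivatives on the diagonal; metric and connection -/

open scoped ContDiff
open Complex Set

namespace P250

/-- conjugation as a real continuous linear map -/
noncomputable def polA_cj3L : V3 →L[ℝ] V3 :=
  ((Complex.conjCLE : ℂ →L[ℝ] ℂ).prodMap (Complex.conjCLE : ℂ →L[ℝ] ℂ)).prodMap
    (Complex.conjCLE : ℂ →L[ℝ] ℂ)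

theorem polA_cj3L_apply (p : V3) : polA_cj3L p = cj3 p := rfl

/-- Real derivatives of `X (p, conj p)`: `D_u = ∂_{(u,0)} + ∂_{(0, conj u)}`. -/
theorem fderiv_diag {X : V3 × V3 → ℂ} {p : V3} (hX : DifferentiableAt ℂ X (p, cj3 p)) (u : V3) :
    fderiv ℝ (fun q : V3 => X (q, cj3 q)) p u = dd X (u, 0) (p, cj3 p) + dd X (0, cj3 u) (p, cj3 p) := by
  have h1 : HasFDerivAt X ((fderiv ℂ X (p, cj3 p)).restrictScalars ℝ) (p, cj3 p) :=
    hX.hasFDerivAt.restrictScalars ℝ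
  have h2 : HasFDerivAt (fun q : V3 => ((q, cj3 q) : V3 × V3))
      ((ContinuousLinearMap.id ℝ V3).prod polA_cj3L) p :=
    (hasFDerivAt_id p).prodMk polA_cj3L.hasFDerivAt
  have h3 : HasFDerivAt (fun q : V3 => X (q, cj3 q)) _ p := HasFDerivAt.comp p h1 h2
  rw [h3.fderiv]
  show fderiv ℂ X (p, cj3 p) (u, cj3 u) = _
  have h4 : ((u, cj3 u) : V3 × V3) = (u, 0) + (0, cj3 u) := by simp
  rw [h4, map_add]
  rfl

theorem polA_continuous_diag : Continuous (fun q : V3 => ((q, cj3 q) : V3 × V3)) :=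
  continuous_id.prodMk polA_cj3L.continuous

theorem polA_cj3_I_smul (u : V3) : cj3 (I • u) = (-I) • cj3 u := by
  refine Prod.ext (Prod.ext ?_ ?_) ?_ <;> simp [cj3, cj]

theorem polA_left_I (u : V3) : (((I • u : V3), (0 : V3)) : V3 × V3) = I • ((u, 0) : V3 × V3) :=
  Prod.ext rfl (smul_zero I).symm

theorem polA_right_I (v : V3) :
    (((0 : V3), cj3 (I • v)) : V3 × V3) = (-I) • ((0, cj3 v) : V3 × V3) :=
  Prod.ext (smul_zero (-I)).symm (polA_cj3_I_smul v)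

theorem polA_dd_smooth {U : Set (V3 × V3)} (hU : IsOpen U) {K : V3 × V3 → ℂ}
    (hK : ContDiffOn ℂ ∞ K U) (a : V3 × V3) : ContDiffOn ℂ ∞ (dd K a) U := by
  have h1 : ContDiffOn ℂ ∞ (fderiv ℂ K) U := hK.fderiv_of_isOpen hU (by simp)
  exact h1.clm_apply contDiffOn_const

theorem polA_diffAt {U : Set (V3 × V3)} (hU : IsOpen U) {K : V3 × V3 → ℂ}
    (hK : ContDiffOn ℂ ∞ K U) {z : V3 × V3} (hz : z ∈ U) : DifferentiableAt ℂ K z :=
  (hK.contDiffAt (hU.mem_nhds hz)).differentiableAt (by simp)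

theorem polA_dd_comm {U : Set (V3 × V3)} (hU : IsOpen U) {K : V3 × V3 → ℂ}
    (hK : ContDiffOn ℂ ∞ K U) {z : V3 × V3} (hz : z ∈ U) (a b : V3 × V3) :
    dd (dd K a) b z = dd (dd K b) a z := by
  have h : ContDiffAt ℂ ∞ K z := hK.contDiffAt (hU.mem_nhds hz)
  have hsymm : IsSymmSndFDerivAt ℂ K z := h.isSymmSndFDerivAt (by
    rw [minSmoothness_of_isRCLikeNormedField]
    exact WithTop.coe_le_coe.mpr (le_top : (2 : ℕ∞) ≤ ⊤))
  have hd : DifferentiableAt ℂ (fderiv ℂ K) z :=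
    (h.fderiv_right (m := 1) (by norm_cast)).differentiableAt (by simp)
  have key : ∀ a b, dd (dd K a) b z = fderiv ℂ (fderiv ℂ K) z b a := by
    intro a b
    show fderiv ℂ (fun z => fderiv ℂ K z a) z b = _
    rw [fderiv_clm_apply hd (differentiableAt_const a)]
    simp
  rw [key, key]
  exact hsymm b a

theorem polA_dd_congr {U : Set (V3 × V3)} (hU : IsOpen U) {X Y : V3 × V3 → ℂ}
    (h : ∀ z ∈ U, X z = Y z) (a : V3 × V3) : ∀ z ∈ U, dd X a z = dd Y a z := by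
  intro z hz
  have h1 : X =ᶠ[nhds z] Y := Filter.eventually_of_mem (hU.mem_nhds hz) h
  show fderiv ℂ X z a = fderiv ℂ Y z a
  rw [h1.fderiv_eq]

theorem polA_dd_smul (K : V3 × V3 → ℂ) (c : ℂ) (a z : V3 × V3) :
    dd K (c • a) z = c * dd K a z := by
  show fderiv ℂ K z (c • a) = c * fderiv ℂ K z a
  rw [map_smul, smul_eq_mul]

theorem polA_dd_add {X Y : V3 × V3 → ℂ} {z : V3 × V3} (hX : DifferentiableAt ℂ X z)
    (hY : DifferentiableAt ℂ Y z) (a : V3 × V3) :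
    dd (fun z => X z + Y z) a z = dd X a z + dd Y a z := by
  show fderiv ℂ (fun z => X z + Y z) z a = fderiv ℂ X z a + fderiv ℂ Y z a
  rw [fderiv_fun_add hX hY]
  rfl

theorem polA_dd_half {X : V3 × V3 → ℂ} {z : V3 × V3} (hX : DifferentiableAt ℂ X z)
    (a : V3 × V3) : dd (fun z => X z / 2) a z = dd X a z / 2 := by
  show fderiv ℂ (fun z => X z / 2) z a = fderiv ℂ X z a / 2
  have h := (hX.hasFDerivAt.mul_const (2⁻¹ : ℂ)).fderiv
  have e : (fun z => X z / 2) = fun z => X z * (2⁻¹ : ℂ) := by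
    funext z
    exact div_eq_mul_inv _ _
  rw [e, h]
  simp [div_eq_mul_inv, mul_comm]

theorem polA_smooth {U : Set (V3 × V3)} (hU : IsOpen U) {K : V3 × V3 → ℂ}
    (hK : ContDiffOn ℂ ∞ K U) {Φ : V3 → ℝ} {p0 : V3} (hp0 : (p0, cj3 p0) ∈ U)
    (hΦ : ∀ᶠ p in nhds p0, (Φ p : ℂ) = K (p, cj3 p)) : ContDiffAt ℝ ∞ Φ p0 := by
  have h1 : ContDiffAt ℝ ∞ K (p0, cj3 p0) :=
    (hK.contDiffAt (hU.mem_nhds hp0)).restrict_scalars ℝ
  have h2 : ContDiffAt ℝ ∞ (fun q : V3 => ((q, cj3 q) : V3 × V3)) p0 :=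
    contDiffAt_id.prodMk polA_cj3L.contDiff.contDiffAt
  have h3 : ContDiffAt ℝ ∞ (fun q : V3 => K (q, cj3 q)) p0 := ContDiffAt.comp p0 h1 h2
  have h4 : ContDiffAt ℝ ∞ (fun q : V3 => (K (q, cj3 q)).re) p0 :=
    ContDiffAt.comp p0 Complex.reCLM.contDiff.contDiffAt h3
  exact h4.congr_of_eventuallyEq (hΦ.mono fun p hp => by
    show Φ p = (K (p, cj3 p)).re
    rw [← hp, ofReal_re])

theorem polA_first {U : Set (V3 × V3)} (hU : IsOpen U) {K : V3 × V3 → ℂ}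
    (hK : ContDiffOn ℂ ∞ K U) {Φ : V3 → ℝ} {p0 : V3} (hp0 : (p0, cj3 p0) ∈ U)
    (hΦ : ∀ᶠ p in nhds p0, (Φ p : ℂ) = K (p, cj3 p)) (v : V3) :
    ((fderiv ℝ Φ p0 v : ℝ) : ℂ) =
      dd K (v, 0) (p0, cj3 p0) + dd K (0, cj3 v) (p0, cj3 p0) := by
  rw [← fderiv_diag (polA_diffAt hU hK hp0) v]
  have hΦd : DifferentiableAt ℝ Φ p0 := (polA_smooth hU hK hp0 hΦ).differentiableAt (by simp)
  have h1 : HasFDerivAt (fun p => ((Φ p : ℝ) : ℂ)) (Complex.ofRealCLM.comp (fderiv ℝ Φ p0)) p0 :=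
    HasFDerivAt.comp p0 Complex.ofRealCLM.hasFDerivAt hΦd.hasFDerivAt
  have h2 : HasFDerivAt (fun q : V3 => K (q, cj3 q)) (Complex.ofRealCLM.comp (fderiv ℝ Φ p0)) p0 :=
    h1.congr_of_eventuallyEq (hΦ.mono fun p hp => hp.symm)
  rw [h2.fderiv]
  rfl

theorem polA_first_ev {U : Set (V3 × V3)} (hU : IsOpen U) {K : V3 × V3 → ℂ}
    (hK : ContDiffOn ℂ ∞ K U) {Φ : V3 → ℝ} {p0 : V3} (hp0 : (p0, cj3 p0) ∈ U)
    (hΦ : ∀ᶠ p in nhds p0, (Φ p : ℂ) = K (p, cj3 p)) (v : V3) :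
    ∀ᶠ p in nhds p0, ((fderiv ℝ Φ p v : ℝ) : ℂ) =
      dd K (v, 0) (p, cj3 p) + dd K (0, cj3 v) (p, cj3 p) := by
  have hU' : ∀ᶠ p in nhds p0, ((p, cj3 p) : V3 × V3) ∈ U :=
    polA_continuous_diag.continuousAt.eventually_mem (hU.mem_nhds hp0)
  filter_upwards [hΦ.eventually_nhds, hU'] with p h1 h2
  exact polA_first hU hK h2 h1 v

theorem polA_second {U : Set (V3 × V3)} (hU : IsOpen U) {K : V3 × V3 → ℂ}
    (hK : ContDiffOn ℂ ∞ K U) {Φ : V3 → ℝ} {p0 : V3} (hp0 : (p0, cj3 p0) ∈ U)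
    (hΦ : ∀ᶠ p in nhds p0, (Φ p : ℂ) = K (p, cj3 p)) (u v : V3) :
    ((fderiv ℝ (fderiv ℝ Φ) p0 u v : ℝ) : ℂ) =
      dd (dd K (v, 0)) (u, 0) (p0, cj3 p0) + K11 K (p0, cj3 p0) u v +
        (K11 K (p0, cj3 p0) v u + dd (dd K (0, cj3 v)) (0, cj3 u) (p0, cj3 p0)) := by
  have hsm := polA_smooth hU hK hp0 hΦ
  have hd : DifferentiableAt ℝ (fderiv ℝ Φ) p0 :=
    (hsm.fderiv_right (m := 1) (by norm_cast)).differentiableAt (by simp)
  have e1 : fderiv ℝ (fderiv ℝ Φ) p0 u v = fderiv ℝ (fun q => fderiv ℝ Φ q v) p0 u := by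
    rw [fderiv_clm_apply hd (differentiableAt_const v)]
    simp
  rw [e1]
  have hX : ContDiffOn ℂ ∞ (fun z => dd K (v, 0) z + dd K (0, cj3 v) z) U :=
    (polA_dd_smooth hU hK _).add (polA_dd_smooth hU hK _)
  rw [polA_first hU hX hp0 (polA_first_ev hU hK hp0 hΦ v) u]
  have hd1 := polA_diffAt hU (polA_dd_smooth hU hK (v, 0)) hp0
  have hd2 := polA_diffAt hU (polA_dd_smooth hU hK (0, cj3 v)) hp0
  rw [polA_dd_add hd1 hd2, polA_dd_add hd1 hd2, polA_dd_comm hU hK hp0 (v, 0) (0, cj3 u)]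
  rfl

theorem polA_metric_c {U : Set (V3 × V3)} (hU : IsOpen U) {K : V3 × V3 → ℂ}
    (hK : ContDiffOn ℂ ∞ K U) {Φ : V3 → ℝ} {p0 : V3} (hp0 : (p0, cj3 p0) ∈ U)
    (hΦ : ∀ᶠ p in nhds p0, (Φ p : ℂ) = K (p, cj3 p)) (u v : V3) :
    ((potMetric Φ p0 u v : ℝ) : ℂ) =
      (K11 K (p0, cj3 p0) u v + K11 K (p0, cj3 p0) v u) / 2 := by
  rw [potMetric_apply]
  have h1 := polA_second hU hK hp0 hΦ u v
  have h2 := polA_second hU hK hp0 hΦ (I • u) (I • v)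
  have hB : ∀ u v : V3, K11 K (p0, cj3 p0) (I • u) (I • v) = K11 K (p0, cj3 p0) u v := by
    intro u v
    unfold K11
    rw [polA_left_I, polA_dd_smul, polA_dd_comm hU hK hp0, polA_right_I, polA_dd_smul, polA_dd_comm hU hK hp0,
      ← mul_assoc, mul_neg, I_mul_I, neg_neg, one_mul]
  have hA : dd (dd K (I • v, 0)) (I • u, 0) (p0, cj3 p0) =
      -dd (dd K (v, 0)) (u, 0) (p0, cj3 p0) := by
    rw [polA_left_I u, polA_dd_smul, polA_dd_comm hU hK hp0, polA_left_I v, polA_dd_smul, polA_dd_comm hU hK hp0,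
      ← mul_assoc, I_mul_I, neg_one_mul]
  have hC : dd (dd K (0, cj3 (I • v))) (0, cj3 (I • u)) (p0, cj3 p0) =
      -dd (dd K (0, cj3 v)) (0, cj3 u) (p0, cj3 p0) := by
    rw [polA_right_I u, polA_dd_smul, polA_dd_comm hU hK hp0, polA_right_I v, polA_dd_smul, polA_dd_comm hU hK hp0,
      ← mul_assoc, neg_mul_neg, I_mul_I, neg_one_mul]
  rw [hB, hB, hA, hC] at h2
  push_cast
  rw [h1, h2]
  ring

theorem polA_herm_re {U : Set (V3 × V3)} (hU : IsOpen U) {K : V3 × V3 → ℂ}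
    (hK : ContDiffOn ℂ ∞ K U) {Φ : V3 → ℝ} {p0 : V3} (hp0 : (p0, cj3 p0) ∈ U)
    (hΦ : ∀ᶠ p in nhds p0, (Φ p : ℂ) = K (p, cj3 p)) (u v : V3) :
    (K11 K (p0, cj3 p0) u v).re = (K11 K (p0, cj3 p0) v u).re := by
  have h1 := polA_metric_c hU hK hp0 hΦ u (I • v)
  have e3 : K11 K (p0, cj3 p0) u (I • v) = -I * K11 K (p0, cj3 p0) u v := by
    unfold K11
    rw [polA_dd_comm hU hK hp0, polA_right_I, polA_dd_smul, polA_dd_comm hU hK hp0]
  have e4 : K11 K (p0, cj3 p0) (I • v) u = I * K11 K (p0, cj3 p0) v u := by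
    unfold K11
    rw [polA_left_I, polA_dd_smul]
  rw [e3, e4] at h1
  have h2 := congrArg Complex.im h1
  rw [Complex.ofReal_im] at h2
  have e5 : ((-I * K11 K (p0, cj3 p0) u v + I * K11 K (p0, cj3 p0) v u) / 2).im =
      (-(K11 K (p0, cj3 p0) u v).re + (K11 K (p0, cj3 p0) v u).re) / 2 := by
    simp
  rw [e5] at h2
  linarith

theorem polar_metric {U : Set (V3 × V3)} (hU : IsOpen U) {K : V3 × V3 → ℂ}
    (hK : ContDiffOn ℂ ∞ K U) {Φ : V3 → ℝ} {p0 : V3} (hp0 : (p0, cj3 p0) ∈ U)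
    (hΦ : ∀ᶠ p in nhds p0, (Φ p : ℂ) = K (p, cj3 p)) (u v : V3) :
    potMetric Φ p0 u v = (K11 K (p0, cj3 p0) u v).re := by
  have h1 := congrArg Complex.re (polA_metric_c hU hK hp0 hΦ u v)
  have h2 := polA_herm_re hU hK hp0 hΦ u v
  have e5 : ((K11 K (p0, cj3 p0) u v + K11 K (p0, cj3 p0) v u) / 2).re =
      ((K11 K (p0, cj3 p0) u v).re + (K11 K (p0, cj3 p0) v u).re) / 2 := by
    simp
  rw [e5, Complex.ofReal_re] at h1
  linarith

/-- third derivatives -/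
noncomputable def polT3 (K : V3 × V3 → ℂ) (a b c z : V3 × V3) : ℂ := dd (dd (dd K c) b) a z

theorem polA_T3_swap12 {U : Set (V3 × V3)} (hU : IsOpen U) {K : V3 × V3 → ℂ}
    (hK : ContDiffOn ℂ ∞ K U) {z : V3 × V3} (hz : z ∈ U) (a b c : V3 × V3) :
    polT3 K a b c z = polT3 K b a c z :=
  polA_dd_comm hU (polA_dd_smooth hU hK c) hz b a

theorem polA_T3_swap23 {U : Set (V3 × V3)} (hU : IsOpen U) {K : V3 × V3 → ℂ}
    (hK : ContDiffOn ℂ ∞ K U) {z : V3 × V3} (hz : z ∈ U) (a b c : V3 × V3) :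
    polT3 K a b c z = polT3 K a c b z :=
  polA_dd_congr hU (fun _ hz' => polA_dd_comm hU hK hz' c b) a z hz

theorem polA_T3_smul (K : V3 × V3 → ℂ) (t : ℂ) (a b c z : V3 × V3) :
    polT3 K (t • a) b c z = t * polT3 K a b c z := polA_dd_smul _ t a z

/-- derivatives of the metric -/
theorem polA_dmetric {U : Set (V3 × V3)} (hU : IsOpen U) {K : V3 × V3 → ℂ}
    (hK : ContDiffOn ℂ ∞ K U) {Φ : V3 → ℝ} {p0 : V3} (hp0 : (p0, cj3 p0) ∈ U)
    (hΦ : ∀ᶠ p in nhds p0, (Φ p : ℂ) = K (p, cj3 p))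
    (hgd : DifferentiableAt ℝ (potMetric Φ) p0) (u v w : V3) :
    ((fderiv ℝ (potMetric Φ) p0 u v w : ℝ) : ℂ) =
      (polT3 K (u, 0) (v, 0) (0, cj3 w) (p0, cj3 p0) + polT3 K (u, 0) (w, 0) (0, cj3 v) (p0, cj3 p0)) / 2 +
      (polT3 K (0, cj3 u) (v, 0) (0, cj3 w) (p0, cj3 p0) +
        polT3 K (0, cj3 u) (w, 0) (0, cj3 v) (p0, cj3 p0)) / 2 := by
  have e1 : fderiv ℝ (potMetric Φ) p0 u v w = fderiv ℝ (fun q => potMetric Φ q v w) p0 u := by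
    have h1 : DifferentiableAt ℝ (fun q => potMetric Φ q v) p0 :=
      hgd.clm_apply (differentiableAt_const v)
    rw [fderiv_clm_apply h1 (differentiableAt_const w)]
    rw [fderiv_clm_apply hgd (differentiableAt_const v)]
    simp
  rw [e1]
  have hU' : ∀ᶠ p in nhds p0, ((p, cj3 p) : V3 × V3) ∈ U :=
    polA_continuous_diag.continuousAt.eventually_mem (hU.mem_nhds hp0)
  have h1 : ContDiffOn ℂ ∞ (dd (dd K (0, cj3 w)) (v, 0)) U :=
    polA_dd_smooth hU (polA_dd_smooth hU hK _) _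
  have h2 : ContDiffOn ℂ ∞ (dd (dd K (0, cj3 v)) (w, 0)) U :=
    polA_dd_smooth hU (polA_dd_smooth hU hK _) _
  have hX : ContDiffOn ℂ ∞
      (fun z => (dd (dd K (0, cj3 w)) (v, 0) z + dd (dd K (0, cj3 v)) (w, 0) z) / 2) U :=
    (h1.add h2).div_const 2
  have hev : ∀ᶠ p in nhds p0, ((potMetric Φ p v w : ℝ) : ℂ) =
      (fun z => (dd (dd K (0, cj3 w)) (v, 0) z + dd (dd K (0, cj3 v)) (w, 0) z) / 2) (p, cj3 p) := by
    filter_upwards [hΦ.eventually_nhds, hU'] with p h3 h4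
    exact polA_metric_c hU hK h4 h3 v w
  rw [polA_first hU hX hp0 hev u]
  have hd1 := polA_diffAt hU h1 hp0
  have hd2 := polA_diffAt hU h2 hp0
  rw [polA_dd_half (hd1.fun_add hd2), polA_dd_half (hd1.fun_add hd2), polA_dd_add hd1 hd2,
    polA_dd_add hd1 hd2]
  rfl

theorem polA_gamma_c {U : Set (V3 × V3)} (hU : IsOpen U) {K : V3 × V3 → ℂ}
    (hK : ContDiffOn ℂ ∞ K U) {Φ : V3 → ℝ} {p0 : V3} (hp0 : (p0, cj3 p0) ∈ U)
    (hΦ : ∀ᶠ p in nhds p0, (Φ p : ℂ) = K (p, cj3 p)) {M : Set V3} (hM : IsOpen M) (hpM : p0 ∈ M)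
    (hg : IsRiemannianMetric M (potMetric Φ)) {Γ : V3 → V3 →L[ℝ] V3 →L[ℝ] V3}
    (h : IsLeviCivita M (potMetric Φ) Γ) (u v w : V3) :
    ((potMetric Φ p0 (Γ p0 u v) w : ℝ) : ℂ) =
      (polT3 K (0, cj3 w) (u, 0) (v, 0) (p0, cj3 p0) +
        polT3 K (w, 0) (0, cj3 u) (0, cj3 v) (p0, cj3 p0)) / 2 := by
  have hgd : DifferentiableAt ℝ (potMetric Φ) p0 :=
    (hg.smooth.contDiffAt (hM.mem_nhds hpM)).differentiableAt (by simp)
  rw [koszul hM hg h hpM u v w]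
  push_cast
  rw [polA_dmetric hU hK hp0 hΦ hgd u v w, polA_dmetric hU hK hp0 hΦ hgd v u w,
    polA_dmetric hU hK hp0 hΦ hgd w u v]
  have s12 := polA_T3_swap12 hU hK hp0
  have s23 := polA_T3_swap23 hU hK hp0
  have t1 : polT3 K (u, 0) (v, 0) (0, cj3 w) (p0, cj3 p0) =
      polT3 K (0, cj3 w) (u, 0) (v, 0) (p0, cj3 p0) := by
    rw [s23, s12]
  have t2 : polT3 K (u, 0) (w, 0) (0, cj3 v) (p0, cj3 p0) =
      polT3 K (w, 0) (u, 0) (0, cj3 v) (p0, cj3 p0) := s12 _ _ _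
  have t3 : polT3 K (0, cj3 u) (v, 0) (0, cj3 w) (p0, cj3 p0) =
      polT3 K (0, cj3 w) (v, 0) (0, cj3 u) (p0, cj3 p0) := by
    rw [s23, s12, s23]
  have t4 : polT3 K (0, cj3 u) (w, 0) (0, cj3 v) (p0, cj3 p0) =
      polT3 K (w, 0) (0, cj3 u) (0, cj3 v) (p0, cj3 p0) := s12 _ _ _
  have t5 : polT3 K (v, 0) (u, 0) (0, cj3 w) (p0, cj3 p0) =
      polT3 K (0, cj3 w) (u, 0) (v, 0) (p0, cj3 p0) := by
    rw [s12, t1]
  have t6 : polT3 K (v, 0) (w, 0) (0, cj3 u) (p0, cj3 p0) =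
      polT3 K (w, 0) (v, 0) (0, cj3 u) (p0, cj3 p0) := s12 _ _ _
  have t7 : polT3 K (0, cj3 v) (u, 0) (0, cj3 w) (p0, cj3 p0) =
      polT3 K (0, cj3 w) (u, 0) (0, cj3 v) (p0, cj3 p0) := by
    rw [s23, s12, s23]
  have t8 : polT3 K (0, cj3 v) (w, 0) (0, cj3 u) (p0, cj3 p0) =
      polT3 K (w, 0) (0, cj3 u) (0, cj3 v) (p0, cj3 p0) := by
    rw [s12, s23]
  rw [t1, t2, t3, t4, t5, t6, t7, t8]
  ring

theorem polar_gamma {U : Set (V3 × V3)} (hU : IsOpen U) {K : V3 × V3 → ℂ}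
    (hK : ContDiffOn ℂ ∞ K U) {Φ : V3 → ℝ} {p0 : V3} (hp0 : (p0, cj3 p0) ∈ U)
    (hΦ : ∀ᶠ p in nhds p0, (Φ p : ℂ) = K (p, cj3 p)) {M : Set V3} (hM : IsOpen M) (hpM : p0 ∈ M)
    (hg : IsRiemannianMetric M (potMetric Φ)) {Γ : V3 → V3 →L[ℝ] V3 →L[ℝ] V3}
    (h : IsLeviCivita M (potMetric Φ) Γ) (u v w : V3) :
    potMetric Φ p0 (Γ p0 u v) w = (K21 K (p0, cj3 p0) u v w).re := by
  have h1 := polA_gamma_c hU hK hp0 hΦ hM hpM hg h u v w
  have h2 := polA_gamma_c hU hK hp0 hΦ hM hpM hg h u v (I • w)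
  rw [polA_left_I, polA_right_I, polA_T3_smul, polA_T3_smul] at h2
  have e1 : K21 K (p0, cj3 p0) u v w = polT3 K (0, cj3 w) (u, 0) (v, 0) (p0, cj3 p0) := by
    show polT3 K (u, 0) (v, 0) (0, cj3 w) (p0, cj3 p0) = _
    rw [polA_T3_swap23 hU hK hp0, polA_T3_swap12 hU hK hp0]
  rw [e1]
  set a := polT3 K (0, cj3 w) (u, 0) (v, 0) (p0, cj3 p0)
  set b := polT3 K (w, 0) (0, cj3 u) (0, cj3 v) (p0, cj3 p0)
  have h3 := congrArg Complex.re h1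
  have h4 := congrArg Complex.im h2
  have e5 : ((a + b) / 2).re = (a.re + b.re) / 2 := by simp
  have e6 : ((-I * a + I * b) / 2).im = (-a.re + b.re) / 2 := by simp
  rw [e5, Complex.ofReal_re] at h3
  rw [e6, Complex.ofReal_im] at h4
  linarith

end P250
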