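import Vale.Agent.Lib.P250.CurvNum
import Vale.Agent.Lib.P250.PolarA

/-! # P250 module G5b: the Kaehler curvature formula -/

open scoped ContDiff
open Complex Set

namespace P250

private theorem PolarB_cj3_diff : Differentiable ℝ cj3 := by
  have h : cj3 = fun p : V3 =>
      ((Complex.conjCLE p.1.1, Complex.conjCLE p.1.2), Complex.conjCLE p.2) := by
    funext p
    rfl
  rw [h]
  fun_prop

private theorem PolarB_diag_diff : Differentiable ℝ (fun q : V3 => (q, cj3 q)) :=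
  differentiable_id.prodMk PolarB_cj3_diff

private theorem PolarB_ev {U : Set (V3 × V3)} (hU : IsOpen U) {p0 : V3}
    (hp0 : (p0, cj3 p0) ∈ U) : ∀ᶠ q in nhds p0, (q, cj3 q) ∈ U := by
  have h1 : Filter.Tendsto (fun q : V3 => (q, cj3 q)) (nhds p0) (nhds (p0, cj3 p0)) :=
    PolarB_diag_diff.continuous.tendsto p0
  exact h1.eventually (hU.mem_nhds hp0)

private theorem PolarB_smooth {U : Set (V3 × V3)} (hU : IsOpen U) {F : V3 × V3 → ℂ}
    (hF : ContDiffOn ℂ ∞ F U) (w : V3 × V3) : ContDiffOn ℂ ∞ (dd F w) U := by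
  have h1 : ContDiffOn ℂ ∞ (fderiv ℂ F) U := hF.fderiv_of_isOpen hU (by simp)
  exact h1.clm_apply contDiffOn_const

private theorem PolarB_da {U : Set (V3 × V3)} (hU : IsOpen U) {F : V3 × V3 → ℂ}
    (hF : ContDiffOn ℂ ∞ F U) {z : V3 × V3} (hz : z ∈ U) : DifferentiableAt ℂ F z :=
  (hF.contDiffAt (hU.mem_nhds hz)).differentiableAt (by simp)

private theorem PolarB_comm {U : Set (V3 × V3)} (hU : IsOpen U) {F : V3 × V3 → ℂ}
    (hF : ContDiffOn ℂ ∞ F U) {z : V3 × V3} (hz : z ∈ U) (a b : V3 × V3) :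
    dd (dd F a) b z = dd (dd F b) a z := by
  have hc := hF.contDiffAt (hU.mem_nhds hz)
  have h2i : (2 : WithTop ℕ∞) ≤ ∞ := by norm_cast
  have hs : IsSymmSndFDerivAt ℂ F z :=
    hc.isSymmSndFDerivAt (by rw [minSmoothness_of_isRCLikeNormedField]; exact h2i)
  have h1 : ContDiffOn ℂ ∞ (fderiv ℂ F) U := hF.fderiv_of_isOpen hU (by simp)
  have hd : DifferentiableAt ℂ (fderiv ℂ F) z :=
    (h1.contDiffAt (hU.mem_nhds hz)).differentiableAt (by simp)
  have key : ∀ a b : V3 × V3, dd (dd F a) b z = fderiv ℂ (fderiv ℂ F) z b a := by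
    intro a b
    have h2 : HasFDerivAt (fun z => fderiv ℂ F z a) ((fderiv ℂ (fderiv ℂ F) z).flip a) z := by
      have h3 := hd.hasFDerivAt.clm_apply (hasFDerivAt_const a z)
      refine h3.congr_fderiv ?_
      ext <;> simp
    unfold dd
    rw [h2.fderiv]
    rfl
  rw [key, key]
  exact hs b a

private theorem PolarB_congr {U : Set (V3 × V3)} (hU : IsOpen U) {F G : V3 × V3 → ℂ}
    (h : ∀ z ∈ U, F z = G z) (w : V3 × V3) : ∀ z ∈ U, dd F w z = dd G w z := by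
  intro z hz
  have h1 : F =ᶠ[nhds z] G := by
    filter_upwards [hU.mem_nhds hz] with y hy
    exact h y hy
  unfold dd
  rw [h1.fderiv_eq]

/-- fourth derivatives -/
private noncomputable def PolarB_D4 (K : V3 × V3 → ℂ) (z a b c d : V3 × V3) : ℂ :=
  dd (dd (dd (dd K d) c) b) a z

private theorem PolarB_s12 {U : Set (V3 × V3)} (hU : IsOpen U) {K : V3 × V3 → ℂ}
    (hK : ContDiffOn ℂ ∞ K U) {z : V3 × V3} (hz : z ∈ U) (a b c d : V3 × V3) :
    PolarB_D4 K z a b c d = PolarB_D4 K z b a c d :=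
  PolarB_comm hU (PolarB_smooth hU (PolarB_smooth hU hK d) c) hz b a

private theorem PolarB_s23 {U : Set (V3 × V3)} (hU : IsOpen U) {K : V3 × V3 → ℂ}
    (hK : ContDiffOn ℂ ∞ K U) {z : V3 × V3} (hz : z ∈ U) (a b c d : V3 × V3) :
    PolarB_D4 K z a b c d = PolarB_D4 K z a c b d :=
  PolarB_congr hU (fun _ hy => PolarB_comm hU (PolarB_smooth hU hK d) hy c b) a z hz

private theorem PolarB_s34 {U : Set (V3 × V3)} (hU : IsOpen U) {K : V3 × V3 → ℂ}
    (hK : ContDiffOn ℂ ∞ K U) {z : V3 × V3} (hz : z ∈ U) (a b c d : V3 × V3) :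
    PolarB_D4 K z a b c d = PolarB_D4 K z a b d c :=
  PolarB_congr hU (PolarB_congr hU (fun _ hy => PolarB_comm hU hK hy d c) b) a z hz

private theorem PolarB_real_diff {U : Set (V3 × V3)} (hU : IsOpen U) {X : V3 × V3 → ℂ}
    (hX : ContDiffOn ℂ ∞ X U) {q : V3} (hq : (q, cj3 q) ∈ U) :
    DifferentiableAt ℝ (fun q : V3 => X (q, cj3 q)) q := by
  have h1 : DifferentiableAt ℝ X (q, cj3 q) := (PolarB_da hU hX hq).restrictScalars ℝ
  exact DifferentiableAt.comp q (g := X) (f := fun q : V3 => (q, cj3 q)) h1 (PolarB_diag_diff q)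

/-- first real derivative of the real part on the diagonal -/
private theorem PolarB_re {U : Set (V3 × V3)} (hU : IsOpen U) {X : V3 × V3 → ℂ}
    (hX : ContDiffOn ℂ ∞ X U) {q : V3} (hq : (q, cj3 q) ∈ U) (a : V3) :
    fderiv ℝ (fun q : V3 => (X (q, cj3 q)).re) q a =
      (dd X (a, 0) (q, cj3 q) + dd X (0, cj3 a) (q, cj3 q)).re := by
  rw [← fderiv_diag (PolarB_da hU hX hq) a]
  have h1 := (PolarB_real_diff hU hX hq).hasFDerivAt
  have h2 : HasFDerivAt (fun q : V3 => (X (q, cj3 q)).re)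
      (Complex.reCLM.comp (fderiv ℝ (fun q : V3 => X (q, cj3 q)) q)) q :=
    Complex.reCLM.hasFDerivAt.comp q h1
  rw [h2.fderiv]
  rfl

private theorem PolarB_add {U : Set (V3 × V3)} (hU : IsOpen U) {X Y : V3 × V3 → ℂ}
    (hX : ContDiffOn ℂ ∞ X U) (hY : ContDiffOn ℂ ∞ Y U) {z : V3 × V3} (hz : z ∈ U)
    (w : V3 × V3) : dd (fun z => X z + Y z) w z = dd X w z + dd Y w z := by
  have h1 := (PolarB_da hU hX hz).hasFDerivAt.add (PolarB_da hU hY hz).hasFDerivAt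
  have h2 : HasFDerivAt (fun z => X z + Y z) (fderiv ℂ X z + fderiv ℂ Y z) z := h1
  unfold dd
  rw [h2.fderiv]
  rfl

/-- second real derivative of the real part on the diagonal -/
private theorem PolarB_re2 {U : Set (V3 × V3)} (hU : IsOpen U) {X : V3 × V3 → ℂ}
    (hX : ContDiffOn ℂ ∞ X U) {p0 : V3} (hp0 : (p0, cj3 p0) ∈ U) (a b : V3) :
    fderiv ℝ (fun q : V3 => fderiv ℝ (fun q' : V3 => (X (q', cj3 q')).re) q b) p0 a =
      (dd (dd X (b, 0)) (a, 0) (p0, cj3 p0) + dd (dd X (0, cj3 b)) (a, 0) (p0, cj3 p0) +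
        (dd (dd X (b, 0)) (0, cj3 a) (p0, cj3 p0) +
          dd (dd X (0, cj3 b)) (0, cj3 a) (p0, cj3 p0))).re := by
  have h1 : (fun q : V3 => fderiv ℝ (fun q' : V3 => (X (q', cj3 q')).re) q b) =ᶠ[nhds p0]
      fun q : V3 => ((fun z => dd X (b, 0) z + dd X (0, cj3 b) z) (q, cj3 q)).re := by
    filter_upwards [PolarB_ev hU hp0] with q hq
    exact PolarB_re hU hX hq b
  have hb1 := PolarB_smooth hU hX ((b, 0) : V3 × V3)
  have hb2 := PolarB_smooth hU hX ((0, cj3 b) : V3 × V3)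
  have hs : ContDiffOn ℂ ∞ (fun z => dd X (b, 0) z + dd X (0, cj3 b) z) U := hb1.add hb2
  rw [h1.fderiv_eq, PolarB_re hU hs hp0 a, PolarB_add hU hb1 hb2 hp0, PolarB_add hU hb1 hb2 hp0]

private theorem PolarB_cj3_I (a : V3) : cj3 (I • a) = -(I • cj3 a) := by
  unfold cj3 cj
  simp

/-- conjugate pairs -/
private structure PolarB_Pair (U : Set (V3 × V3)) (p0 : V3) (X Y : V3 × V3 → ℂ) : Prop where
  sx : ContDiffOn ℂ ∞ X U
  sy : ContDiffOn ℂ ∞ Y U
  eq : ∀ᶠ q in nhds p0, Y (q, cj3 q) = starRingEnd ℂ (X (q, cj3 q))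

private theorem PolarB_pair_step {U : Set (V3 × V3)} (hU : IsOpen U) {p0 : V3}
    (hp0 : (p0, cj3 p0) ∈ U) {X Y : V3 × V3 → ℂ} (h : PolarB_Pair U p0 X Y) (a : V3) :
    PolarB_Pair U p0 (dd X (a, 0)) (dd Y (0, cj3 a)) ∧
      PolarB_Pair U p0 (dd X (0, cj3 a)) (dd Y (a, 0)) := by
  have key : ∀ᶠ q in nhds p0, ∀ b : V3, dd Y (b, 0) (q, cj3 q) + dd Y (0, cj3 b) (q, cj3 q) =
      starRingEnd ℂ (dd X (b, 0) (q, cj3 q) + dd X (0, cj3 b) (q, cj3 q)) := by
    filter_upwards [PolarB_ev hU hp0, h.eq.eventually_nhds] with q hq hqe b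
    rw [← fderiv_diag (PolarB_da hU h.sx hq) b, ← fderiv_diag (PolarB_da hU h.sy hq) b]
    have h1 := (PolarB_real_diff hU h.sx hq).hasFDerivAt
    have h2 : HasFDerivAt (fun q : V3 => starRingEnd ℂ (X (q, cj3 q)))
        ((Complex.conjCLE : ℂ →L[ℝ] ℂ).comp (fderiv ℝ (fun q : V3 => X (q, cj3 q)) q)) q :=
      (Complex.conjCLE : ℂ →L[ℝ] ℂ).hasFDerivAt.comp q h1
    have h3 : (fun q : V3 => Y (q, cj3 q)) =ᶠ[nhds q]
        fun q : V3 => starRingEnd ℂ (X (q, cj3 q)) := hqe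
    rw [h3.fderiv_eq, h2.fderiv]
    rfl
  have key2 : ∀ᶠ q in nhds p0, dd Y (0, cj3 a) (q, cj3 q) =
      starRingEnd ℂ (dd X (a, 0) (q, cj3 q)) ∧
      dd Y (a, 0) (q, cj3 q) = starRingEnd ℂ (dd X (0, cj3 a) (q, cj3 q)) := by
    filter_upwards [key] with q hq
    have e1 := hq a
    have e2 := hq (I • a)
    have hl : ∀ (F : V3 × V3 → ℂ), dd F (I • a, 0) (q, cj3 q) = I * dd F (a, 0) (q, cj3 q) := by
      intro F
      unfold dd
      have : ((I • a, 0) : V3 × V3) = I • ((a, 0) : V3 × V3) := by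
        simp
      rw [this, map_smul, smul_eq_mul]
    have hr : ∀ (F : V3 × V3 → ℂ), dd F (0, cj3 (I • a)) (q, cj3 q) =
        -(I * dd F (0, cj3 a) (q, cj3 q)) := by
      intro F
      unfold dd
      have : ((0, cj3 (I • a)) : V3 × V3) = -(I • ((0, cj3 a) : V3 × V3)) := by
        rw [PolarB_cj3_I]
        simp
      rw [this, map_neg, map_smul, smul_eq_mul]
    rw [hl, hl, hr, hr] at e2
    simp only [map_add, map_mul, map_neg, Complex.conj_I] at e1 e2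
    have hI : I * I = -1 := Complex.I_mul_I
    constructor
    · linear_combination (1 / 2 : ℂ) * e1 + (1 / 2 : ℂ) * I * e2 +
        (1 / 2 : ℂ) * (dd Y (0, cj3 a) (q, cj3 q) - dd Y (a, 0) (q, cj3 q)
          - starRingEnd ℂ (dd X (a, 0) (q, cj3 q)) + starRingEnd ℂ (dd X (0, cj3 a) (q, cj3 q))) * hI
    · linear_combination (1 / 2 : ℂ) * e1 - (1 / 2 : ℂ) * I * e2 -
        (1 / 2 : ℂ) * (dd Y (0, cj3 a) (q, cj3 q) - dd Y (a, 0) (q, cj3 q)
          - starRingEnd ℂ (dd X (a, 0) (q, cj3 q)) + starRingEnd ℂ (dd X (0, cj3 a) (q, cj3 q))) * hI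
  exact ⟨⟨PolarB_smooth hU h.sx _, PolarB_smooth hU h.sy _, key2.mono fun q hq => hq.1⟩,
    ⟨PolarB_smooth hU h.sx _, PolarB_smooth hU h.sy _, key2.mono fun q hq => hq.2⟩⟩

private theorem PolarB_pair_at {U : Set (V3 × V3)} {p0 : V3} {X Y : V3 × V3 → ℂ}
    (h : PolarB_Pair U p0 X Y) : (Y (p0, cj3 p0)).re = (X (p0, cj3 p0)).re := by
  rw [h.eq.self_of_nhds, Complex.conj_re]

/-- The Kaehler curvature formula. -/
theorem polar_curv {U : Set (V3 × V3)} (hU : IsOpen U) {K : V3 × V3 → ℂ}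
    (hK : ContDiffOn ℂ ∞ K U) {Φ : V3 → ℝ} {p0 : V3} (hp0 : (p0, cj3 p0) ∈ U)
    (hΦ : ∀ᶠ p in nhds p0, (Φ p : ℂ) = K (p, cj3 p)) {M : Set V3} (hM : IsOpen M) (hpM : p0 ∈ M)
    (hg : IsRiemannianMetric M (potMetric Φ)) {Γ : V3 → V3 →L[ℝ] V3 →L[ℝ] V3}
    (h : IsLeviCivita M (potMetric Φ) Γ) (u v : V3) :
    curvNum (potMetric Φ) Γ p0 u v =
      (1 / 2 : ℝ) * (K22 K (p0, cj3 p0) u u v v).re + (1 / 2 : ℝ) * (K22 K (p0, cj3 p0) v v u u).re
      - (K22 K (p0, cj3 p0) u v u v).re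
      + potMetric Φ p0 (Γ p0 u v) (Γ p0 u v) - potMetric Φ p0 (Γ p0 u u) (Γ p0 v v) := by
  rw [curvNum_formula hM hg h hpM u v]
  -- the metric near the point
  have hmet : ∀ c d : V3, (fun q : V3 => potMetric Φ q c d) =ᶠ[nhds p0]
      fun q : V3 => ((dd (dd K (0, cj3 d)) (c, 0)) (q, cj3 q)).re := by
    intro c d
    filter_upwards [PolarB_ev hU hp0, hΦ.eventually_nhds] with q hq hqe
    exact polar_metric hU hK hq hqe c d
  have hsnd : ∀ a b c d : V3,
      fderiv ℝ (fun q => fderiv ℝ (fun q' => potMetric Φ q' c d) q b) p0 a =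
      (PolarB_D4 K (p0, cj3 p0) (a, 0) (b, 0) (c, 0) (0, cj3 d) +
        PolarB_D4 K (p0, cj3 p0) (a, 0) (0, cj3 b) (c, 0) (0, cj3 d) +
        (PolarB_D4 K (p0, cj3 p0) (0, cj3 a) (b, 0) (c, 0) (0, cj3 d) +
          PolarB_D4 K (p0, cj3 p0) (0, cj3 a) (0, cj3 b) (c, 0) (0, cj3 d))).re := by
    intro a b c d
    have h1 : (fun q => fderiv ℝ (fun q' => potMetric Φ q' c d) q b) =ᶠ[nhds p0]
        fun q => fderiv ℝ (fun q' : V3 => ((dd (dd K (0, cj3 d)) (c, 0)) (q', cj3 q')).re) q b := by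
      filter_upwards [(hmet c d).eventuallyEq_nhds] with q hq
      rw [hq.fderiv_eq]
    rw [h1.fderiv_eq]
    exact PolarB_re2 hU (PolarB_smooth hU (PolarB_smooth hU hK _) _) hp0 a b
  rw [hsnd u v u v, hsnd u u v v, hsnd v v u u]
  -- symmetry
  have s12 := fun a b c d => PolarB_s12 hU hK hp0 a b c d
  have s23 := fun a b c d => PolarB_s23 hU hK hp0 a b c d
  have s34 := fun a b c d => PolarB_s34 hU hK hp0 a b c d
  set D := PolarB_D4 K (p0, cj3 p0) with hD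
  set hu : V3 × V3 := (u, 0) with hhu
  set hv : V3 × V3 := (v, 0) with hhv
  set ku : V3 × V3 := (0, cj3 u) with hku
  set kv : V3 × V3 := (0, cj3 v) with hkv
  have hK1 : K22 K (p0, cj3 p0) u u v v = D hu hu kv kv := rfl
  have hK2 : K22 K (p0, cj3 p0) v v u u = D hv hv ku ku := rfl
  have hK3 : K22 K (p0, cj3 p0) u v u v = D hu hv ku kv := rfl
  rw [hK1, hK2, hK3]
  -- conjugation
  have hpair : PolarB_Pair U p0 K K := by
    refine ⟨hK, hK, ?_⟩
    filter_upwards [hΦ] with q hq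
    rw [← hq, Complex.conj_ofReal]
  have c1 : (D ku ku hv hv).re = (D hu hu kv kv).re := by
    have p1 := (PolarB_pair_step hU hp0 hpair v).2
    have p2 := (PolarB_pair_step hU hp0 p1 v).2
    have p3 := (PolarB_pair_step hU hp0 p2 u).1
    have p4 := (PolarB_pair_step hU hp0 p3 u).1
    exact PolarB_pair_at p4
  have c2 : (D ku hu hv hv).re = (D hu ku kv kv).re := by
    have p1 := (PolarB_pair_step hU hp0 hpair v).2
    have p2 := (PolarB_pair_step hU hp0 p1 v).2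
    have p3 := (PolarB_pair_step hU hp0 p2 u).2
    have p4 := (PolarB_pair_step hU hp0 p3 u).1
    exact PolarB_pair_at p4
  have c3 : (D kv hv hu hu).re = (D hv kv ku ku).re := by
    have p1 := (PolarB_pair_step hU hp0 hpair u).2
    have p2 := (PolarB_pair_step hU hp0 p1 u).2
    have p3 := (PolarB_pair_step hU hp0 p2 v).2
    have p4 := (PolarB_pair_step hU hp0 p3 v).1
    exact PolarB_pair_at p4
  -- reordering
  have t1 : D hu hv hu kv = D hu hu hv kv := s23 _ _ _ _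
  have t2 : D hu kv hu kv = D hu hu kv kv := s23 _ _ _ _
  have t3 : D ku hv hu kv = D hu hv ku kv :=
    (s12 _ _ _ _).trans ((s23 _ _ _ _).trans (s12 _ _ _ _))
  have t4 : D ku kv hu kv = D hu ku kv kv := (s23 _ _ _ _).trans (s12 _ _ _ _)
  have t5 : D hu ku hv kv = D hu hv ku kv := s23 _ _ _ _
  have t6 : D ku hu hv kv = D hu hv ku kv := (s12 _ _ _ _).trans (s23 _ _ _ _)
  have t7 : D ku ku hv kv = D hv kv ku ku :=
    (s23 _ _ _ _).trans ((s12 _ _ _ _).trans ((s34 _ _ _ _).trans (s23 _ _ _ _)))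
  have t8 : D hv hv hu ku = D ku hu hv hv :=
    (s34 _ _ _ _).trans ((s23 _ _ _ _).trans ((s12 _ _ _ _).trans ((s34 _ _ _ _).trans
      (s23 _ _ _ _))))
  have t9 : D hv kv hu ku = D hu hv ku kv :=
    (s23 _ _ _ _).trans ((s12 _ _ _ _).trans (s34 _ _ _ _))
  have t10 : D kv hv hu ku = D hu hv ku kv := (s12 _ _ _ _).trans t9
  have t11 : D kv kv hu ku = D hu ku kv kv :=
    (s23 _ _ _ _).trans ((s12 _ _ _ _).trans ((s34 _ _ _ _).trans (s23 _ _ _ _)))
  have t12 : D kv hv hu hu = D hu hu hv kv :=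
    (s12 _ _ _ _).trans ((s23 _ _ _ _).trans ((s34 _ _ _ _).trans ((s12 _ _ _ _).trans
      (s23 _ _ _ _))))
  have t13 : D ku ku hv hv = D hv hv ku ku :=
    (s23 _ _ _ _).trans ((s12 _ _ _ _).trans ((s34 _ _ _ _).trans (s23 _ _ _ _)))
  rw [t1, t2, t3, t4, t5, t6, t7, t8, t9, t10, t11]
  rw [t12] at c3
  rw [t13] at c1
  simp only [Complex.add_re]
  linarith

end P250
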