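import Mathlib
import Vale.Agent.Lib.P250.AlgE
import Vale.Agent.Lib.P250.MCA
import Vale.Agent.Lib.P250.MCB
import Vale.Agent.Lib.P250.MJA
import Vale.Agent.Lib.P250.MJB
import Vale.Agent.Lib.P250.MJC
import Vale.Agent.Lib.P250.PolarB

/-! # P250 module G8c: pinching at the normalised point -/

open scoped ContDiff
open Complex Metric Set

namespace P250

private theorem mcc_cj_cont : Continuous (fun p : ℂ × ℂ => cj p) := by
  unfold cj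
  fun_prop

private theorem mcc_cj3_cont : Continuous (fun p : V3 => cj3 p) := by
  unfold cj3 cj
  fun_prop

private theorem mcc_ip_self (ξ : ℂ × ℂ) : ip ξ ξ = ((‖ξ.1‖ ^ 2 + ‖ξ.2‖ ^ 2 : ℝ) : ℂ) := by
  unfold ip
  rw [Complex.mul_conj, Complex.mul_conj, Complex.normSq_eq_norm_sq, Complex.normSq_eq_norm_sq]
  push_cast
  ring

private theorem mcc_m11_sub {A s c1 c2 : ℝ} (u u' v : (ℂ × ℂ) × ℂ) :
    m11 A s c1 c2 (u - u') v = m11 A s c1 c2 u v - m11 A s c1 c2 u' v := by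
  unfold m11 ip cdiag
  simp only [Prod.fst_sub, Prod.snd_sub]
  ring

private theorem mcc_m11_pos {A s c1 c2 : ℝ} (hA : 0 < A) (hs : 0 < s) (h1 : 0 < c1) (h2 : 0 < c2)
    (u : (ℂ × ℂ) × ℂ) (h : (m11 A s c1 c2 u u).re = 0) : u = 0 := by
  have key : m11 A s c1 c2 u u = ((A * (‖u.1.1‖ ^ 2 + ‖u.1.2‖ ^ 2) + s * (c1 * ‖u.1.1‖ ^ 2
      + c2 * ‖u.1.2‖ ^ 2) + s * (1 + s) * ‖u.2‖ ^ 2 : ℝ) : ℂ) := by
    unfold m11 cdiag
    rw [mcc_ip_self]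
    have e : ∀ z : ℂ, z * starRingEnd ℂ z = ((‖z‖ ^ 2 : ℝ) : ℂ) := fun z => by
      rw [Complex.mul_conj, Complex.normSq_eq_norm_sq]
    rw [mul_assoc (c1 : ℂ), mul_assoc (c2 : ℂ), e, e, e]
    push_cast
    ring
  rw [key, Complex.ofReal_re] at h
  have p1 : 0 ≤ A * (‖u.1.1‖ ^ 2 + ‖u.1.2‖ ^ 2) := by positivity
  have p2 : 0 ≤ s * (c1 * ‖u.1.1‖ ^ 2 + c2 * ‖u.1.2‖ ^ 2) := by positivity
  have p3 : 0 ≤ s * (1 + s) * ‖u.2‖ ^ 2 := by positivity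
  have q1 : A * (‖u.1.1‖ ^ 2 + ‖u.1.2‖ ^ 2) = 0 := by linarith
  have q3 : s * (1 + s) * ‖u.2‖ ^ 2 = 0 := by linarith
  have r1 : ‖u.1.1‖ ^ 2 + ‖u.1.2‖ ^ 2 = 0 := by
    rcases mul_eq_zero.mp q1 with h | h
    · exact absurd h hA.ne'
    · exact h
  have r3 : ‖u.2‖ ^ 2 = 0 := by
    rcases mul_eq_zero.mp q3 with h | h
    · exact absurd h (by positivity)
    · exact h
  have s1 : ‖u.1.1‖ ^ 2 = 0 := by nlinarith [sq_nonneg ‖u.1.1‖, sq_nonneg ‖u.1.2‖]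
  have s2 : ‖u.1.2‖ ^ 2 = 0 := by nlinarith [sq_nonneg ‖u.1.1‖, sq_nonneg ‖u.1.2‖]
  have t1 : u.1.1 = 0 := by simpa using s1
  have t2 : u.1.2 = 0 := by simpa using s2
  have t3 : u.2 = 0 := by simpa using r3
  exact Prod.ext (Prod.ext t1 t2) t3

/-- Pinching at the normalised point. -/
theorem model_pinched (r0 C0 κ : ℝ) (hr0 : 0 < r0) (hr1 : r0 ≤ 1 / 8) (hC0 : 0 < C0)
    (hκ : 0 < κ) : ∃ A0 : ℝ, 0 < A0 ∧ ∀ A : ℝ, A0 ≤ A → ∃ a b : ℝ, 0 < a ∧ a ≤ b ∧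
    ∀ fh : (ℂ × ℂ) × (ℂ × ℂ) → ℂ, ContDiffOn ℂ ∞ fh (ball 0 r0) →
    (∀ z ∈ ball (0 : (ℂ × ℂ) × (ℂ × ℂ)) r0, ‖fh z‖ ≤ C0) →
    (∀ x ∈ ball (0 : ℂ × ℂ) r0, ∀ y ∈ ball (0 : ℂ × ℂ) r0,
      starRingEnd ℂ (fh (x, y)) = fh (cj y, cj x)) →
    (∀ x ∈ ball (0 : ℂ × ℂ) r0, fh (x, 0) = 0) → (∀ y ∈ ball (0 : ℂ × ℂ) r0, fh (0, y) = 0) →
    (∀ ξ : ℂ × ℂ, κ * (‖ξ.1‖ ^ 2 + ‖ξ.2‖ ^ 2) ≤ (f11 fh ξ ξ).re) →
    ∀ τ0 : ℂ, τ0.re < 0 → ∀ (M : Set V3), IsOpen M → ((0, 0), τ0) ∈ M →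
    IsRiemannianMetric M (potMetric (Phimod A fh)) →
    ∀ Γ : V3 → V3 →L[ℝ] V3 →L[ℝ] V3, IsLeviCivita M (potMetric (Phimod A fh)) Γ →
    ∀ u v : V3,
      -b * area2 (potMetric (Phimod A fh)) ((0, 0), τ0) u v ≤
        curvNum (potMetric (Phimod A fh)) Γ ((0, 0), τ0) u v ∧
      curvNum (potMetric (Phimod A fh)) Γ ((0, 0), τ0) u v ≤
        -a * area2 (potMetric (Phimod A fh)) ((0, 0), τ0) u v := by
  obtain ⟨C1, hC1, hjets⟩ := jets_arrays r0 C0 hr0 hC0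
  obtain ⟨A0, hA0, hA⟩ := model_algebra κ (max C1 κ) hκ (le_max_right _ _)
  refine ⟨A0, hA0, fun A hAA => ?_⟩
  obtain ⟨a, b, ha, hab, halg⟩ := hA A hAA
  refine ⟨a, b, ha, hab, ?_⟩
  intro fh hf hbd hherm hl hr hlow τ0 hτ M hM hpM hg Γ hΓ u v
  have hAp : 0 < A := hA0.trans_le hAA
  obtain ⟨hlin, hsm, hh, hup, h12, harr⟩ := hjets fh hf hbd hherm
  obtain ⟨L, c1, c2, hL, hdiag⟩ := exists_unitary_frame (f11 fh) hlin hsm hh
  obtain ⟨a3, a4, hs3, hb3, hs4, hs4', hb4, hf21, hf22⟩ := harr L hL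
  -- bounds of the eigenvalues
  have hnorm : ∀ ξ : ℂ × ℂ, ‖(L.symm ξ).1‖ ^ 2 + ‖(L.symm ξ).2‖ ^ 2 = ‖ξ.1‖ ^ 2 + ‖ξ.2‖ ^ 2 := by
    intro ξ
    have h1 := hL (L.symm ξ) (L.symm ξ)
    rw [LinearEquiv.apply_symm_apply, mcc_ip_self, mcc_ip_self] at h1
    exact_mod_cast h1.symm
  have hc1v : f11 fh (L.symm (1, 0)) (L.symm (1, 0)) = (c1 : ℂ) := by
    rw [hdiag, LinearEquiv.apply_symm_apply]
    simp [cdiag]
  have hc2v : f11 fh (L.symm (0, 1)) (L.symm (0, 1)) = (c2 : ℂ) := by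
    rw [hdiag, LinearEquiv.apply_symm_apply]
    simp [cdiag]
  have hc1 : κ ≤ c1 := by
    have := hlow (L.symm (1, 0))
    rw [hnorm, hc1v] at this
    simpa using this
  have hc2 : κ ≤ c2 := by
    have := hlow (L.symm (0, 1))
    rw [hnorm, hc2v] at this
    simpa using this
  have hc1' : c1 ≤ max C1 κ := by
    have := hup (L.symm (1, 0))
    rw [hnorm, hc1v, Complex.norm_real] at this
    have h2 : c1 ≤ C1 := (le_abs_self c1).trans (by simpa using this)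
    exact h2.trans (le_max_left _ _)
  have hc2' : c2 ≤ max C1 κ := by
    have := hup (L.symm (0, 1))
    rw [hnorm, hc2v, Complex.norm_real] at this
    have h2 : c2 ≤ C1 := (le_abs_self c2).trans (by simpa using this)
    exact h2.trans (le_max_left _ _)
  -- the point
  set p0 : V3 := ((0, 0), τ0) with hp0
  have hT : Real.exp (2 * τ0.re) < 1 := by
    rw [Real.exp_lt_one_iff]
    linarith
  obtain ⟨s, hs⟩ : ∃ s : ℝ, s = Real.exp (2 * τ0.re) / (1 - Real.exp (2 * τ0.re)) := ⟨_, rfl⟩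
  have hspos : 0 < s := by
    rw [hs]
    exact div_pos (Real.exp_pos _) (by linarith)
  have hcj0 : cj (0 : ℂ × ℂ) = 0 := by simp [cj]
  have hU : IsOpen (Umod r0 fh) := Umod_open hf
  have hpU : (p0, cj3 p0) ∈ Umod r0 fh := by
    have h00 : cj ((0 : ℂ), (0 : ℂ)) = 0 := hcj0
    refine ⟨?_, ?_⟩
    · change ((((0 : ℂ), (0 : ℂ))), cj ((0 : ℂ), (0 : ℂ))) ∈ ball (0 : (ℂ × ℂ) × (ℂ × ℂ)) r0
      rw [h00]
      exact mem_ball_self hr0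
    · change ‖Complex.exp (τ0 + starRingEnd ℂ τ0 + fh (((0 : ℂ), (0 : ℂ)), cj ((0 : ℂ), (0 : ℂ))))‖ < 1
      have h0 : fh (((0 : ℂ), (0 : ℂ)), cj ((0 : ℂ), (0 : ℂ))) = 0 := by
        rw [h00]
        exact hl 0 (mem_ball_self hr0)
      rw [h0, add_zero, Complex.add_conj, Complex.norm_exp]
      simpa using hT
  have hK := Kmod_smooth (A := A) hr1 hf
  have hΦ : ∀ᶠ p in nhds p0, (Phimod A fh p : ℂ) = Kmod A fh (p, cj3 p) := by
    have hc : Continuous (fun p : V3 => (p, cj3 p)) := continuous_id.prodMk mcc_cj3_cont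
    have hopen : IsOpen ((fun p : V3 => (p, cj3 p)) ⁻¹' Umod r0 fh) := hU.preimage hc
    filter_upwards [hopen.mem_nhds hpU] with p hp
    exact Kmod_diag hr1 hherm hp
  -- the frame on V3
  let L3 : V3 → V3 := fun w => (L w.1, w.2)
  have hm11 : ∀ w w' : V3, K11 (Kmod A fh) (p0, cj3 p0) w w' = m11 A s c1 c2 (L3 w) (L3 w') := by
    intro w w'
    rw [hp0, Kmod_11 hr0 hr1 hf hl hr hτ hs w w', hdiag, ← hL]
    rfl
  have hmet : ∀ w w' : V3, potMetric (Phimod A fh) p0 w w' = (m11 A s c1 c2 (L3 w) (L3 w')).re := by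
    intro w w'
    rw [polar_metric hU hK hpU hΦ, hm11]
  have hm21 : ∀ w w' w'' : V3, K21 (Kmod A fh) (p0, cj3 p0) w w' w'' =
      m21 s c1 c2 a3 (L3 w) (L3 w') (L3 w'') := by
    intro w w' w''
    rw [hp0, Kmod_21 hr0 hr1 hf hl hr hτ hs w w' w'', hdiag, hdiag, hf21]
    rfl
  have hm22 : ∀ w w' x x' : V3, K22 (Kmod A fh) (p0, cj3 p0) w w' x x' =
      m22 A s c1 c2 a3 a4 (L3 w) (L3 w') (L3 x) (L3 x') := by
    intro w w' x x'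
    rw [hp0, Kmod_22 hr0 hr1 hf hl hr hτ hs w w' x x', h12, h12, hdiag, hdiag, hdiag, hdiag,
      hf21, hf21, hf21, hf21, hf22, ← hL w.1 x.1, ← hL w'.1 x'.1, ← hL w.1 x'.1, ← hL w'.1 x.1]
    rfl
  have hc1p : 0 < c1 := hκ.trans_le hc1
  have hc2p : 0 < c2 := hκ.trans_le hc2
  have hsurj : ∀ y : V3, ∃ w : V3, L3 w = y := by
    intro y
    refine ⟨(L.symm y.1, y.2), ?_⟩
    change (L (L.symm y.1), y.2) = y
    rw [LinearEquiv.apply_symm_apply]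
  have hGam : ∀ w w' : V3, L3 (Γ p0 w w') = mGam A s c1 c2 a3 (L3 w) (L3 w') := by
    intro w w'
    have hzero : ∀ y : V3,
        (m11 A s c1 c2 (L3 (Γ p0 w w') - mGam A s c1 c2 a3 (L3 w) (L3 w')) y).re = 0 := by
      intro y
      obtain ⟨x, rfl⟩ := hsurj y
      rw [mcc_m11_sub, Complex.sub_re, ← hmet, polar_gamma hU hK hpU hΦ hM hpM hg hΓ, hm21,
        m11_mGam hAp hspos hc1p hc2p, sub_self]
    have := mcc_m11_pos hAp hspos hc1p hc2p _ (hzero _)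
    exact sub_eq_zero.mp this
  have hcurv : curvNum (potMetric (Phimod A fh)) Γ p0 u v =
      mN A s c1 c2 a3 a4 (L3 u) (L3 v) := by
    rw [polar_curv hU hK hpU hΦ hM hpM hg hΓ, hm22, hm22, hm22, hmet, hmet, hGam, hGam, hGam]
    rfl
  have harea : area2 (potMetric (Phimod A fh)) p0 u v = mArea A s c1 c2 (L3 u) (L3 v) := by
    unfold area2 mArea
    rw [hmet, hmet, hmet]
  rw [hcurv, harea]
  exact halg s c1 c2 hspos hc1 hc2 hc1' hc2' a3 a4 hs3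
    (fun i j k => (hb3 i j k).trans (le_max_left _ _)) hs4 hs4'
    (fun i j k l => (hb4 i j k l).trans (le_max_left _ _)) (L3 u) (L3 v)

end P250
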