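import Mathlib.Algebra.Order.Ring.Star
import Mathlib.Analysis.CStarAlgebra.Classes
import Mathlib.Data.Int.Star
import Mathlib.Tactic.Positivity
import Vale.Agent.Lib.P250.Defs

/-! # P250 module A3a: algebra of charts -/

open Complex

namespace P250

theorem ga_re_aux (b : ℤ × ℤ × ℤ) : (ga b).re = (b.1 : ℝ) := by
  simp [ga]

theorem ga_im_aux (b : ℤ × ℤ × ℤ) : (ga b).im = (b.2.1 : ℝ) := by
  simp [ga]

theorem chW_im (b : ℤ × ℤ × ℤ) (y : ℂ × ℂ) : (chW b y).im = rho y + ‖chZ b y‖ ^ 2 := by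
  simp only [chW, rho, chZ, Complex.sq_norm, Complex.normSq_apply]
  simp [ga_re_aux, ga_im_aux, Complex.mul_re, Complex.mul_im]
  ring

theorem rho_scl {σ : ℝ} (hσ : 0 < σ) (y : ℂ × ℂ) : rho (scl σ y) = rho y / σ ^ 2 := by
  have _ := hσ
  simp only [rho, scl]
  rw [Complex.div_ofReal_im, norm_div, div_pow, Complex.norm_real, Real.norm_eq_abs, sq_abs]
  ring

theorem sg_pos {e : ℝ} (he : 0 < e) (j : ℤ) : 0 < sg e j := by
  unfold sg
  exact zpow_pos he _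

theorem sc_re {e : ℝ} (he : 0 < e) (j : ℤ) (b : ℤ × ℤ × ℤ) (y : ℂ × ℂ) :
    (sc e j b y).re = rho y / (sg e j * e) ^ 2 + ‖tc e j b y‖ ^ 2 := by
  have h1 : (sc e j b y).re = (chW b (scl (sg e j) y)).im / e ^ 2 := by
    unfold sc
    rw [Complex.div_ofReal_re]
    simp
  rw [h1, chW_im, rho_scl (sg_pos he j)]
  unfold tc
  rw [norm_div, div_pow, Complex.norm_real, Real.norm_eq_abs, sq_abs]
  have h2 := (sg_pos he j).ne'
  field_simp

theorem chZ_unch (b : ℤ × ℤ × ℤ) (y : ℂ × ℂ) : chZ b (unch b y) = y.1 := by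
  simp [chZ, unch]

theorem conj_mul_aux (a : ℂ) : (starRingEnd ℂ a) * a = ((‖a‖ ^ 2 : ℝ) : ℂ) := by
  rw [Complex.sq_norm, mul_comm, Complex.mul_conj]

theorem chW_unch (b : ℤ × ℤ × ℤ) (y : ℂ × ℂ) : chW b (unch b y) = y.2 := by
  simp only [chW, unch]
  rw [← conj_mul_aux]
  ring

theorem unch_ch (b : ℤ × ℤ × ℤ) (y : ℂ × ℂ) : unch b (chZ b y, chW b y) = y := by
  refine Prod.ext ?_ ?_
  · simp [chZ, unch]
  · simp only [chW, unch, chZ]
    rw [← conj_mul_aux]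
    ring

theorem rho_unch (b : ℤ × ℤ × ℤ) (y : ℂ × ℂ) : rho (unch b y) = rho y := by
  have h := chW_im b (unch b y)
  rw [chW_unch, chZ_unch] at h
  unfold rho at h ⊢
  linarith

/-- `chart_b ∘ unch_{b0} = chart_{b''}`, `b'' = (a - a0, τ - τ0 - 2 Im (conj a * a0))`. -/
theorem ch_comp_unch (b b0 : ℤ × ℤ × ℤ) : ∃ b'' : ℤ × ℤ × ℤ, (b ≠ b0 → b'' ≠ 0) ∧
    ∀ y : ℂ × ℂ, chZ b (unch b0 y) = chZ b'' y ∧ chW b (unch b0 y) = chW b'' y := by
  obtain ⟨m, n, τ⟩ := b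
  obtain ⟨m0, n0, τ0⟩ := b0
  refine ⟨(m - m0, n - n0, τ - τ0 - 2 * (m * n0 - n * m0)), ?_, ?_⟩
  · intro hne h
    apply hne
    simp only [Prod.mk_eq_zero] at h
    obtain ⟨h1, h2, h3⟩ := h
    have e1 : m = m0 := by linarith
    have e2 : n = n0 := by linarith
    subst e1 e2
    have e3 : τ = τ0 := by linarith
    rw [e3]
  · intro y
    constructor
    · simp only [chZ, unch, ga]
      push_cast
      ring
    · simp only [chW, unch]
      rw [← conj_mul_aux, ← conj_mul_aux, ← conj_mul_aux]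
      simp only [ga, map_add, map_mul, Complex.conj_I, map_intCast]
      push_cast
      linear_combination (-2 * ((m : ℂ) * n0 - n * m0)) * Complex.I_sq

theorem exists_near (y : ℂ × ℂ) : ∃ b : ℤ × ℤ × ℤ, |(chZ b y).re| ≤ 1 / 2 ∧
    |(chZ b y).im| ≤ 1 / 2 ∧ |(chW b y).re| ≤ 1 / 2 := by
  set g : ℂ := ga (round y.1.re, round y.1.im, 0) with hg
  refine ⟨(round y.1.re, round y.1.im,
    round (y.2 - 2 * I * (starRingEnd ℂ g) * y.1 + I * ((‖g‖ ^ 2 : ℝ) : ℂ)).re), ?_, ?_, ?_⟩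
  · have := abs_sub_round y.1.re
    simpa [chZ, ga_re_aux] using this
  · have := abs_sub_round y.1.im
    simpa [chZ, ga_im_aux] using this
  · have h := abs_sub_round (y.2 - 2 * I * (starRingEnd ℂ g) * y.1 + I * ((‖g‖ ^ 2 : ℝ) : ℂ)).re
    have hg2 : ∀ τ : ℤ, ga (round y.1.re, round y.1.im, τ) = g := by
      intro τ
      rw [hg]
      rfl
    simp only [chW, hg2]
    rw [Complex.sub_re _ ((_ : ℤ) : ℂ), Complex.intCast_re]
    exact h

/-- `|1 + s| = |1 - i W / e²| ≥ max (|W| / e², 1 + ρ' / e²)`, `Im W = ρ' + |Z|² ≥ ρ'`. -/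
theorem vv_sc_bounds {e : ℝ} (he : 0 < e) (j : ℤ) (b : ℤ × ℤ × ℤ) {y : ℂ × ℂ} (hy : y ∈ U2) :
    ‖vv (sc e j b y)‖ ≤ 2 * e ^ 2 / ‖chW b (scl (sg e j) y)‖ ∧
    ‖vv (sc e j b y)‖ ≤ 2 * e ^ 2 / (e ^ 2 + rho y / (sg e j) ^ 2) ∧
    ‖tc e j b y‖ ^ 2 ≤ (sc e j b y).re ∧ 0 ≤ (sc e j b y).re := by
  have hσ := sg_pos he j
  have hr : 0 < rho y := hy
  have hre := sc_re he j b y
  have h1 : 0 < rho y / (sg e j * e) ^ 2 := by positivity
  have h2 : 0 ≤ ‖tc e j b y‖ ^ 2 := by positivity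
  have hs0 : 0 < (sc e j b y).re := by linarith
  have he2 : (0 : ℝ) < e ^ 2 := by positivity
  have hW : ‖sc e j b y‖ = ‖chW b (scl (sg e j) y)‖ / e ^ 2 := by
    unfold sc
    rw [norm_div, norm_mul, norm_neg, Complex.norm_I, one_mul, Complex.norm_real,
      Real.norm_eq_abs, abs_of_pos he2]
  have hWim : 0 < (chW b (scl (sg e j) y)).im := by
    rw [chW_im, rho_scl hσ]
    positivity
  have hWpos : 0 < ‖chW b (scl (sg e j) y)‖ := by
    have := Complex.abs_im_le_norm (chW b (scl (sg e j) y))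
    rw [abs_of_pos hWim] at this
    linarith
  have hspos : 0 < ‖sc e j b y‖ := by
    rw [hW]; positivity
  have hvv : ‖vv (sc e j b y)‖ = 2 / ‖1 + sc e j b y‖ := by
    unfold vv
    rw [norm_div]
    simp
  have hge : ‖sc e j b y‖ ≤ ‖1 + sc e j b y‖ := by
    rw [← abs_of_nonneg (norm_nonneg (sc e j b y)), ← abs_of_nonneg (norm_nonneg (1 + sc e j b y))]
    rw [← sq_le_sq, Complex.sq_norm, Complex.sq_norm, Complex.normSq_apply, Complex.normSq_apply]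
    simp
    linarith
  have hge2 : 1 + rho y / (sg e j * e) ^ 2 ≤ ‖1 + sc e j b y‖ := by
    have h3 := Complex.re_le_norm (1 + sc e j b y)
    simp only [Complex.add_re, Complex.one_re] at h3
    linarith
  refine ⟨?_, ?_, by linarith, hs0.le⟩
  · rw [hvv]
    calc 2 / ‖1 + sc e j b y‖ ≤ 2 / ‖sc e j b y‖ := by
          apply div_le_div_of_nonneg_left (by norm_num) hspos hge
      _ = 2 * e ^ 2 / ‖chW b (scl (sg e j) y)‖ := by
          rw [hW]; field_simp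
  · rw [hvv]
    calc 2 / ‖1 + sc e j b y‖ ≤ 2 / (1 + rho y / (sg e j * e) ^ 2) := by
          apply div_le_div_of_nonneg_left (by norm_num) (by positivity) hge2
      _ = 2 * e ^ 2 / (e ^ 2 + rho y / (sg e j) ^ 2) := by
          field_simp

end P250
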