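import Mathlib.Algebra.Order.Star.Real
import Vale.Agent.Lib.P250.ChartsA

/-! # P250 module A3b: the parametrisation gam -/

open Complex

namespace P250

theorem one_add_x_ne {x : ℂ × ℂ} (hx : ‖x‖ < 1) : 1 + x.2 ≠ 0 := by
  intro h
  have h1 : ‖x.2‖ < 1 := (norm_snd_le x).trans_lt hx
  have h2 : x.2 = -1 := by linear_combination h
  rw [h2, norm_neg, norm_one] at h1
  exact lt_irrefl _ h1

theorem gam_zero (y0 : ℂ × ℂ) : gam y0 0 = y0 := by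
  simp [gam]

theorem chartsB_sqrt_sq {y0 : ℂ × ℂ} (hy : y0 ∈ U2) :
    ((Real.sqrt (rho y0) : ℝ) : ℂ) ^ 2 = (rho y0 : ℂ) := by
  have h : (Real.sqrt (rho y0)) ^ 2 = rho y0 := Real.sq_sqrt (le_of_lt hy)
  exact_mod_cast congrArg (fun t : ℝ => (t : ℂ)) h

theorem rho_gam {y0 : ℂ × ℂ} (hy : y0 ∈ U2) {x : ℂ × ℂ} (hx : ‖x‖ < 1) :
    rho (gam y0 x) = rho y0 * (1 - ‖x.1‖ ^ 2 - ‖x.2‖ ^ 2) / ‖1 + x.2‖ ^ 2 := by
  have hne := one_add_x_ne hx
  have hr : (Real.sqrt (rho y0)) ^ 2 = rho y0 := Real.sq_sqrt (le_of_lt hy)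
  set ρ : ℝ := rho y0 with hρ
  set r : ℝ := Real.sqrt ρ with hrdef
  set u : ℂ := (r : ℂ) * x.1 / (1 + x.2) with hu
  set v : ℂ := x.2 / (1 + x.2) with hv
  have e1 : (gam y0 x).1 = y0.1 + u := rfl
  have e2 : (gam y0 x).2 = y0.2 + 2 * I * (-(ρ : ℂ) * v + starRingEnd ℂ y0.1 * u) := by
    change y0.2 - 2 * I * (ρ : ℂ) * x.2 / (1 + x.2)
      + 2 * I * starRingEnd ℂ y0.1 * (r : ℂ) * x.1 / (1 + x.2) = _
    rw [hu, hv]
    ring
  have h3 : rho (gam y0 x) = ((gam y0 x).2).im - normSq (gam y0 x).1 := by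
    rw [rho, Complex.sq_norm]
  have h4 : ρ = y0.2.im - normSq y0.1 := by
    rw [hρ, rho, Complex.sq_norm]
  have hD : normSq (1 + x.2) ≠ 0 := by rwa [Ne, normSq_eq_zero]
  have hnu : normSq u = ρ * normSq x.1 / normSq (1 + x.2) := by
    rw [hu, map_div₀, map_mul, normSq_ofReal, ← hr]
    ring
  have hvre : v.re = (x.2.re + normSq x.2) / normSq (1 + x.2) := by
    rw [hv, Complex.div_re, normSq_apply x.2]
    simp only [add_re, one_re, add_im, one_im, zero_add]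
    ring
  have hDe : normSq (1 + x.2) = 1 + 2 * x.2.re + normSq x.2 := by
    rw [normSq_apply, normSq_apply]
    simp only [add_re, one_re, add_im, one_im, zero_add]
    ring
  have him : ((gam y0 x).2).im = y0.2.im + 2 * (-ρ * v.re + (y0.1.re * u.re + y0.1.im * u.im)) := by
    rw [e2]
    simp [Complex.mul_re, Complex.mul_im]
  have hn1 : normSq (gam y0 x).1 =
      normSq y0.1 + normSq u + 2 * (y0.1.re * u.re + y0.1.im * u.im) := by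
    rw [e1, normSq_add]
    simp [Complex.mul_re]
  rw [h3, him, hn1, hnu, hvre, Complex.sq_norm, Complex.sq_norm, Complex.sq_norm]
  have h5 : y0.2.im = ρ + normSq y0.1 := by linarith
  rw [h5]
  field_simp
  rw [hDe]
  ring

theorem gam_mem {y0 : ℂ × ℂ} (hy : y0 ∈ U2) {x : ℂ × ℂ} (hx : ‖x‖ < 1 / 2) : gam y0 x ∈ U2 := by
  have hx1 : ‖x‖ < 1 := by linarith
  change 0 < rho (gam y0 x)
  rw [rho_gam hy hx1]
  have hne := one_add_x_ne hx1
  have h1 : ‖x.1‖ < 1 / 2 := (norm_fst_le x).trans_lt hx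
  have h2 : ‖x.2‖ < 1 / 2 := (norm_snd_le x).trans_lt hx
  have h3 : ‖x.1‖ ^ 2 < 1 / 4 := by nlinarith [norm_nonneg x.1]
  have h4 : ‖x.2‖ ^ 2 < 1 / 4 := by nlinarith [norm_nonneg x.2]
  have h5 : 0 < rho y0 := hy
  have h6 : 0 < ‖1 + x.2‖ := norm_pos_iff.2 hne
  have h7 : 0 < 1 - ‖x.1‖ ^ 2 - ‖x.2‖ ^ 2 := by linarith
  positivity

theorem tc_gam {e : ℝ} (he : 0 < e) (j : ℤ) (b : ℤ × ℤ × ℤ) {y0 : ℂ × ℂ} (hy : y0 ∈ U2)
    {x : ℂ × ℂ} (hx : ‖x‖ < 1) :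
    tc e j b (gam y0 x) = Tx (tc e j b y0) (Real.sqrt (rho y0) / (sg e j * e)) x := by
  have hσ : ((sg e j : ℝ) : ℂ) ≠ 0 := by exact_mod_cast (sg_pos he j).ne'
  have he' : (e : ℂ) ≠ 0 := by exact_mod_cast he.ne'
  have hne := one_add_x_ne hx
  simp only [tc, Tx, chZ, scl, gam]
  push_cast
  field_simp
  ring

theorem sc_gam {e : ℝ} (he : 0 < e) (j : ℤ) (b : ℤ × ℤ × ℤ) {y0 : ℂ × ℂ} (hy : y0 ∈ U2)
    {x : ℂ × ℂ} (hx : ‖x‖ < 1) :
    sc e j b (gam y0 x) =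
      Sx (tc e j b y0) (sc e j b y0) (Real.sqrt (rho y0) / (sg e j * e)) x := by
  have hσ : ((sg e j : ℝ) : ℂ) ≠ 0 := by exact_mod_cast (sg_pos he j).ne'
  have he' : (e : ℂ) ≠ 0 := by exact_mod_cast he.ne'
  have hne := one_add_x_ne hx
  have hR := chartsB_sqrt_sq hy
  simp only [sc, tc, Sx, chZ, chW, scl, gam, map_div₀, map_sub, conj_ofReal]
  rw [← hR]
  push_cast
  field_simp
  ring_nf
  simp only [I_sq]
  ring

end P250
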