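import Mathlib
import Vale.Agent.Lib.P250.ChartsB
import Vale.Agent.Lib.P250.MJdefs

/-! # P250 module G9a: local coordinates -/

open scoped ContDiff
open Complex Metric Set

namespace P250

private theorem PinA_norm_snd {r0 : ℝ} (hr1 : r0 ≤ 1 / 8) {x : ℂ × ℂ}
    (hx : x ∈ ball (0 : ℂ × ℂ) r0) : ‖x.1‖ < 1 / 8 ∧ ‖x.2‖ < 1 / 8 ∧ ‖x‖ < 1 / 8 := by
  rw [mem_ball_zero_iff] at hx
  have h1 := norm_fst_le x
  have h2 := norm_snd_le x
  exact ⟨by linarith, by linarith, by linarith⟩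

private theorem PinA_re_pos {r0 : ℝ} (hr1 : r0 ≤ 1 / 8) {x : ℂ × ℂ}
    (hx : x ∈ ball (0 : ℂ × ℂ) r0) : 0 < (1 + x.2).re := by
  have h2 := (PinA_norm_snd hr1 hx).2.1
  have h3 := (Complex.abs_re_le_norm x.2)
  have h4 := neg_abs_le x.2.re
  rw [Complex.add_re, Complex.one_re]
  linarith

private theorem PinA_ne {r0 : ℝ} (hr1 : r0 ≤ 1 / 8) {x : ℂ × ℂ}
    (hx : x ∈ ball (0 : ℂ × ℂ) r0) : 1 + x.2 ≠ 0 := by
  intro h
  have := PinA_re_pos hr1 hx
  rw [h] at this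
  simp at this

private theorem PinA_mem {r0 : ℝ} {x : ℂ × ℂ} (hx : x ∈ ball (0 : ℂ × ℂ) r0) :
    (x, cj x) ∈ ball (0 : (ℂ × ℂ) × (ℂ × ℂ)) r0 := by
  rw [mem_ball_zero_iff] at hx ⊢
  have h : ‖cj x‖ = ‖x‖ := by
    simp [cj, Prod.norm_def]
  rw [Prod.norm_def]
  simp only [h, max_self]
  exact hx

private theorem PinA_cj_smooth : ContDiff ℝ ∞ cj :=
  (Complex.conjCLE.contDiff.comp contDiff_fst).prodMk (Complex.conjCLE.contDiff.comp contDiff_snd)

private theorem PinA_gam_smooth {r0 : ℝ} (hr1 : r0 ≤ 1 / 8) (y0 : ℂ × ℂ) :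
    ContDiffOn ℂ ∞ (gam y0) (ball 0 r0) := by
  have hd : ContDiffOn ℂ ∞ (fun x : ℂ × ℂ => 1 + x.2) (ball 0 r0) :=
    (contDiff_const.add contDiff_snd).contDiffOn
  have h1 : ContDiffOn ℂ ∞ (fun x : ℂ × ℂ => (Real.sqrt (rho y0) : ℂ) * x.1 / (1 + x.2))
      (ball 0 r0) :=
    ContDiffOn.div (contDiff_const.mul contDiff_fst).contDiffOn hd fun x hx => PinA_ne hr1 hx
  have h2 : ContDiffOn ℂ ∞ (fun x : ℂ × ℂ => 2 * I * (rho y0 : ℂ) * x.2 / (1 + x.2))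
      (ball 0 r0) :=
    ContDiffOn.div (contDiff_const.mul contDiff_snd).contDiffOn hd fun x hx => PinA_ne hr1 hx
  have h3 : ContDiffOn ℂ ∞ (fun x : ℂ × ℂ =>
      2 * I * starRingEnd ℂ y0.1 * (Real.sqrt (rho y0) : ℂ) * x.1 / (1 + x.2))
      (ball 0 r0) :=
    ContDiffOn.div (contDiff_const.mul contDiff_fst).contDiffOn hd fun x hx => PinA_ne hr1 hx
  exact (contDiffOn_const.add h1).prodMk ((contDiffOn_const.sub h2).add h3)

/-- the left inverse of `gam y0` -/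
private noncomputable def PinA_S (y0 : ℂ × ℂ) (y : ℂ × ℂ) : ℂ × ℂ :=
  (((y.1 - y0.1) / (Real.sqrt (rho y0) : ℂ)) /
      (1 - (y.2 - y0.2 - 2 * I * starRingEnd ℂ y0.1 * (y.1 - y0.1)) / (-2 * I * (rho y0 : ℂ))),
    ((y.2 - y0.2 - 2 * I * starRingEnd ℂ y0.1 * (y.1 - y0.1)) / (-2 * I * (rho y0 : ℂ))) /
      (1 - (y.2 - y0.2 - 2 * I * starRingEnd ℂ y0.1 * (y.1 - y0.1)) / (-2 * I * (rho y0 : ℂ))))

private theorem PinA_v {y0 : ℂ × ℂ} (hy0 : y0 ∈ U2) {x : ℂ × ℂ} (hx : 1 + x.2 ≠ 0) :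
    ((gam y0 x).2 - y0.2 - 2 * I * starRingEnd ℂ y0.1 * ((gam y0 x).1 - y0.1)) /
      (-2 * I * (rho y0 : ℂ)) = x.2 / (1 + x.2) ∧
    ((gam y0 x).1 - y0.1) / (Real.sqrt (rho y0) : ℂ) = x.1 / (1 + x.2) := by
  have hr : 0 < rho y0 := hy0
  have hr' : (rho y0 : ℂ) ≠ 0 := by exact_mod_cast hr.ne'
  have hs : (Real.sqrt (rho y0) : ℂ) ≠ 0 := by exact_mod_cast (Real.sqrt_pos.2 hr).ne'
  have hI : I ≠ 0 := Complex.I_ne_zero
  constructor
  · simp only [gam]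
    field_simp
    ring
  · simp only [gam]
    field_simp
    ring

private theorem PinA_one_sub {x : ℂ × ℂ} (hx : 1 + x.2 ≠ 0) :
    1 - x.2 / (1 + x.2) = 1 / (1 + x.2) := by
  field_simp
  ring

private theorem PinA_S_gam {y0 : ℂ × ℂ} (hy0 : y0 ∈ U2) {x : ℂ × ℂ} (hx : 1 + x.2 ≠ 0) :
    PinA_S y0 (gam y0 x) = x := by
  obtain ⟨h1, h2⟩ := PinA_v hy0 hx
  unfold PinA_S
  rw [h1, h2, PinA_one_sub hx]
  refine Prod.ext ?_ ?_
  · show x.1 / (1 + x.2) / (1 / (1 + x.2)) = x.1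
    field_simp
  · show x.2 / (1 + x.2) / (1 / (1 + x.2)) = x.2
    field_simp

private theorem PinA_S_diff {y0 : ℂ × ℂ} (hy0 : y0 ∈ U2) {x : ℂ × ℂ} (hx : 1 + x.2 ≠ 0) :
    DifferentiableAt ℂ (PinA_S y0) (gam y0 x) := by
  obtain ⟨h1, h2⟩ := PinA_v hy0 hx
  have hv : DifferentiableAt ℂ (fun y : ℂ × ℂ =>
      (y.2 - y0.2 - 2 * I * starRingEnd ℂ y0.1 * (y.1 - y0.1)) / (-2 * I * (rho y0 : ℂ)))
      (gam y0 x) := by fun_prop
  have hu : DifferentiableAt ℂ (fun y : ℂ × ℂ => (y.1 - y0.1) / (Real.sqrt (rho y0) : ℂ))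
      (gam y0 x) := by fun_prop
  have hne : 1 - ((gam y0 x).2 - y0.2 - 2 * I * starRingEnd ℂ y0.1 * ((gam y0 x).1 - y0.1)) /
      (-2 * I * (rho y0 : ℂ)) ≠ 0 := by
    rw [h1, PinA_one_sub hx]
    exact one_div_ne_zero hx
  have hd : DifferentiableAt ℂ (fun y : ℂ × ℂ => 1 -
      (y.2 - y0.2 - 2 * I * starRingEnd ℂ y0.1 * (y.1 - y0.1)) / (-2 * I * (rho y0 : ℂ)))
      (gam y0 x) := (differentiableAt_const (1 : ℂ)).sub hv
  have hi := hd.fun_inv hne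
  have e1 : PinA_S y0 = fun y : ℂ × ℂ =>
      (((y.1 - y0.1) / (Real.sqrt (rho y0) : ℂ)) *
        (1 - (y.2 - y0.2 - 2 * I * starRingEnd ℂ y0.1 * (y.1 - y0.1)) / (-2 * I * (rho y0 : ℂ)))⁻¹,
      ((y.2 - y0.2 - 2 * I * starRingEnd ℂ y0.1 * (y.1 - y0.1)) / (-2 * I * (rho y0 : ℂ))) *
        (1 - (y.2 - y0.2 - 2 * I * starRingEnd ℂ y0.1 * (y.1 - y0.1)) /
          (-2 * I * (rho y0 : ℂ)))⁻¹) := by
    funext y
    simp only [PinA_S, div_eq_mul_inv]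
  rw [e1]
  exact (hu.mul hi).prodMk (hv.mul hi)

/-- Local coordinates `F (x, τ) = (gam y0 x, exp (τ - h x))` in which the potential is the model
potential plus a pluriharmonic function `k = A (2 Log (1 + x.2) - log (rho y0))`. -/
theorem local_coord {A e δ r0 C0 : ℝ} {N : ℕ} (he : 0 < e) (he1 : e < 1) (hδ : 0 < δ)
    (hr0 : 0 < r0) (hr1 : r0 ≤ 1 / 8) {y0 : ℂ × ℂ} (hy0 : y0 ∈ U2) {h : ℂ × ℂ → ℂ}
    {fh : (ℂ × ℂ) × (ℂ × ℂ) → ℂ} (hNF : NF e δ N r0 C0 y0 h fh) {ζ0 : ℂ} (hζ : ζ0 ≠ 0)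
    (hp : (y0, ζ0) ∈ M3 e δ N) :
    ∃ (M' : Set V3) (F : V3 → V3) (k : V3 → ℂ) (τ0 : ℂ), IsOpen M' ∧ τ0.re < 0 ∧
      ((0, 0), τ0) ∈ M' ∧ ContDiffOn ℂ ∞ F M' ∧ MapsTo F M' (M3 e δ N) ∧
      F ((0, 0), τ0) = (y0, ζ0) ∧ (∀ q ∈ M', Function.Bijective (fderiv ℝ F q)) ∧
      ContDiffOn ℂ ∞ k M' ∧ ContDiffOn ℝ ∞ (Phimod A fh) M' ∧
      (∀ q ∈ M', Pot A e δ N (F q) = Phimod A fh q + (k q).re) := by
  -- the domain
  let B : Set V3 := {q | q.1 ∈ ball (0 : ℂ × ℂ) r0}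
  let φ : V3 → ℝ := fun q => 2 * q.2.re + (fh (q.1, cj q.1)).re
  let M' : Set V3 := B ∩ φ ⁻¹' Iio 0
  let F : V3 → V3 := fun q => (gam y0 q.1, Complex.exp (q.2 - h q.1))
  let k : V3 → ℂ := fun q => A * (2 * Complex.log (1 + q.1.2) - (Real.log (rho y0) : ℂ))
  have hBo : IsOpen B := isOpen_ball.preimage continuous_fst
  have hφ : ContDiffOn ℝ ∞ φ B := by
    have h1 : ContDiffOn ℝ ∞ (fun q : V3 => fh (q.1, cj q.1)) B := by
      have h2 : ContDiffOn ℝ ∞ fh (ball 0 r0) := hNF.f_smooth.restrict_scalars ℝ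
      have h3 : ContDiff ℝ ∞ (fun q : V3 => (q.1, cj q.1)) :=
        contDiff_fst.prodMk (PinA_cj_smooth.comp contDiff_fst)
      exact h2.comp h3.contDiffOn fun q hq => PinA_mem hq
    have h2 : ContDiffOn ℝ ∞ (fun q : V3 => (fh (q.1, cj q.1)).re) B :=
      Complex.reCLM.contDiff.comp_contDiffOn h1
    have h3 : ContDiff ℝ ∞ (fun q : V3 => 2 * q.2.re) :=
      contDiff_const.mul (Complex.reCLM.contDiff.comp contDiff_snd)
    exact h3.contDiffOn.add h2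
  have hMo : IsOpen M' := hφ.continuousOn.isOpen_inter_preimage hBo isOpen_Iio
  have hMB : ∀ q ∈ M', q.1 ∈ ball (0 : ℂ × ℂ) r0 := fun q hq => hq.1
  have hhs : ContDiffOn ℂ ∞ (fun q : V3 => h q.1) M' :=
    hNF.h_smooth.comp contDiff_fst.contDiffOn hMB
  have hFs : ContDiffOn ℂ ∞ F M' := by
    refine ContDiffOn.prodMk ?_ ?_
    · exact (PinA_gam_smooth hr1 y0).comp contDiff_fst.contDiffOn hMB
    · exact (contDiff_snd.contDiffOn.sub hhs).cexp
  -- the norm of the last coordinate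
  have hT : ∀ q : V3, q.1 ∈ ball (0 : ℂ × ℂ) r0 →
      ‖(F q).2‖ ^ 2 * Real.exp (phiL e δ N 0 (F q).1) = Real.exp (φ q) := by
    intro q hq
    have h1 : ‖(F q).2‖ = Real.exp (q.2 - h q.1).re := Complex.norm_exp _
    have h2 : phiL e δ N 0 (F q).1 = 2 * (h q.1).re + (fh (q.1, cj q.1)).re := hNF.decomp _ hq
    rw [h1, h2, ← Real.exp_nat_mul, ← Real.exp_add]
    congr 1
    simp only [φ, Complex.sub_re]
    push_cast
    ring
  have h0B : (0 : ℂ × ℂ) ∈ ball (0 : ℂ × ℂ) r0 := mem_ball_self hr0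
  have hf0 : fh ((0 : ℂ × ℂ), cj 0) = 0 := by
    have h1 : cj (0 : ℂ × ℂ) = 0 := by simp [cj]
    rw [h1]
    exact hNF.f_left 0 h0B
  -- the base point
  have hζn : 0 < ‖ζ0‖ := norm_pos_iff.2 hζ
  have hτ : (Complex.log ζ0 + h 0).re < 0 := by
    have h1 := hp.2
    have h2 : phiL e δ N 0 y0 = 2 * (h 0).re := by
      have h3 := hNF.decomp 0 h0B
      rw [gam_zero, hf0] at h3
      simpa using h3
    change ‖ζ0‖ ^ 2 * Real.exp (phiL e δ N 0 y0) < 1 at h1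
    rw [h2] at h1
    have h4 : ‖ζ0‖ ^ 2 * Real.exp (2 * (h 0).re) = Real.exp (2 * (Complex.log ζ0 + h 0).re) := by
      rw [Complex.add_re, Complex.log_re, mul_add, Real.exp_add]
      congr 1
      rw [two_mul, Real.exp_add, Real.exp_log hζn]
      ring
    rw [h4, Real.exp_lt_one_iff] at h1
    linarith
  refine ⟨M', F, k, Complex.log ζ0 + h 0, hMo, hτ, ?_, hFs, ?_, ?_, ?_, ?_, ?_, ?_⟩
  · refine ⟨h0B, ?_⟩
    show 2 * (Complex.log ζ0 + h 0).re + (fh ((0 : ℂ × ℂ), cj 0)).re < 0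
    rw [hf0]
    simp only [Complex.zero_re, add_zero]
    linarith
  · intro q hq
    have hq1 := PinA_norm_snd hr1 hq.1
    refine ⟨gam_mem hy0 (by linarith [hq1.2.2]), ?_⟩
    rw [hT q hq.1, Real.exp_lt_one_iff]
    exact hq.2
  · refine Prod.ext ?_ ?_
    · exact gam_zero y0
    · show Complex.exp (Complex.log ζ0 + h 0 - h 0) = ζ0
      rw [add_sub_cancel_right, Complex.exp_log hζ]
  · intro q hq
    have hx := PinA_ne hr1 hq.1
    have hFd : DifferentiableAt ℝ F q :=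
      ((hFs.contDiffAt (hMo.mem_nhds hq)).differentiableAt (by simp)).restrictScalars ℝ
    have hhd : DifferentiableAt ℝ (fun q : V3 => h q.1) q :=
      ((hhs.contDiffAt (hMo.mem_nhds hq)).differentiableAt (by simp)).restrictScalars ℝ
    -- first coordinates
    have hSd : DifferentiableAt ℝ (fun p : V3 => PinA_S y0 p.1) (F q) := by
      have h1 : DifferentiableAt ℝ (PinA_S y0) (F q).1 :=
        (PinA_S_diff hy0 hx).restrictScalars ℝ
      exact h1.comp (F q) differentiableAt_fst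
    have hcomp := hSd.hasFDerivAt.comp q hFd.hasFDerivAt
    have heq : ((fun p : V3 => PinA_S y0 p.1) ∘ F) =ᶠ[nhds q] (fun p : V3 => p.1) := by
      filter_upwards [hMo.mem_nhds hq] with p hp'
      exact PinA_S_gam hy0 (PinA_ne hr1 hp'.1)
    have hfst : HasFDerivAt (fun p : V3 => p.1) (ContinuousLinearMap.fst ℝ (ℂ × ℂ) ℂ) q :=
      hasFDerivAt_fst
    have h1 := (hcomp.congr_of_eventuallyEq heq.symm).unique hfst
    have hinj : Function.Injective (fderiv ℝ F q) := by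
      rw [injective_iff_map_eq_zero]
      intro v hv
      have hv1 : v.1 = 0 := by
        have h2 := congrArg (fun L => L v) h1
        simp only [ContinuousLinearMap.comp_apply, hv, map_zero] at h2
        exact h2.symm
      -- last coordinate
      have h3 : HasFDerivAt (fun p : V3 => Complex.exp (p.2 - h p.1))
          (Complex.exp (q.2 - h q.1) • (ContinuousLinearMap.snd ℝ (ℂ × ℂ) ℂ -
            fderiv ℝ (fun q : V3 => h q.1) q)) q :=
        (hasFDerivAt_snd.sub hhd.hasFDerivAt).cexp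
      have h4 : HasFDerivAt (fun p : V3 => (F p).2)
          ((ContinuousLinearMap.snd ℝ (ℂ × ℂ) ℂ).comp (fderiv ℝ F q)) q :=
        hFd.hasFDerivAt.snd
      have h5 := congrArg (fun L => L v) (h4.unique h3)
      simp only [ContinuousLinearMap.comp_apply, hv, map_zero] at h5
      have h6 : fderiv ℝ (fun q : V3 => h q.1) q v = 0 := by
        have hhq : DifferentiableAt ℝ h q.1 :=
          ((hNF.h_smooth.contDiffAt (isOpen_ball.mem_nhds hq.1)).differentiableAt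
            (by simp)).restrictScalars ℝ
        have h7 : HasFDerivAt (fun q : V3 => h q.1)
            ((fderiv ℝ h q.1).comp (ContinuousLinearMap.fst ℝ (ℂ × ℂ) ℂ)) q :=
          hhq.hasFDerivAt.comp q hasFDerivAt_fst
        rw [h7.fderiv]
        show fderiv ℝ h q.1 v.1 = 0
        rw [hv1, map_zero]
      have h8 : Complex.exp (q.2 - h q.1) * (v.2 - fderiv ℝ (fun q : V3 => h q.1) q v) = 0 :=
        h5.symm
      rw [h6, sub_zero] at h8
      have h9 : v.2 = 0 := (mul_eq_zero.1 h8).resolve_left (Complex.exp_ne_zero _)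
      exact Prod.ext hv1 h9
    exact ⟨hinj, LinearMap.surjective_of_injective (f := (fderiv ℝ F q : V3 →ₗ[ℝ] V3)) hinj⟩
  · have h1 : ContDiffOn ℂ ∞ (fun q : V3 => Complex.log (1 + q.1.2)) M' := by
      have h2 : ContDiff ℂ ∞ (fun q : V3 => 1 + q.1.2) :=
        contDiff_const.add (contDiff_snd.comp contDiff_fst)
      intro q hq
      have h3 : ContDiffAt ℂ ∞ Complex.log (1 + q.1.2) :=
        Complex.contDiffAt_log (Or.inl (PinA_re_pos hr1 hq.1))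
      exact (h3.comp q h2.contDiffAt).contDiffWithinAt
    exact contDiffOn_const.mul ((contDiffOn_const.mul h1).sub contDiffOn_const)
  · have h1 : ContDiffOn ℝ ∞ (fun q : V3 => 1 - ‖q.1.1‖ ^ 2 - ‖q.1.2‖ ^ 2) M' := by
      have e1 : ContDiff ℝ ∞ (fun q : V3 => ‖q.1.1‖ ^ 2) :=
        (contDiff_fst.comp contDiff_fst).norm_sq ℝ
      have e2 : ContDiff ℝ ∞ (fun q : V3 => ‖q.1.2‖ ^ 2) :=
        (contDiff_snd.comp contDiff_fst).norm_sq ℝ
      exact ((contDiff_const.sub e1).sub e2).contDiffOn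
    have h2 : ContDiffOn ℝ ∞ (fun q : V3 => 1 - Real.exp (φ q)) M' :=
      contDiffOn_const.sub ((hφ.mono inter_subset_left).exp)
    have h3 : ∀ q ∈ M', 1 - ‖q.1.1‖ ^ 2 - ‖q.1.2‖ ^ 2 ≠ 0 := by
      intro q hq
      have h4 := PinA_norm_snd hr1 hq.1
      have h5 := norm_nonneg q.1.1
      have h6 := norm_nonneg q.1.2
      nlinarith [h4.1, h4.2.1]
    have h4 : ∀ q ∈ M', 1 - Real.exp (φ q) ≠ 0 := by
      intro q hq
      have h5 : Real.exp (φ q) < 1 := Real.exp_lt_one_iff.2 hq.2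
      linarith
    have h5 := (contDiffOn_const (c := A)).mul (h1.log h3).neg
    exact h5.sub (h2.log h4)
  · intro q hq
    have hx := PinA_norm_snd hr1 hq.1
    have h1 : 1 - ‖(F q).2‖ ^ 2 * Real.exp (phiL e δ N 0 (F q).1) = 1 - Real.exp (φ q) := by
      rw [hT q hq.1]
    have h2 : rho (F q).1 = rho y0 * (1 - ‖q.1.1‖ ^ 2 - ‖q.1.2‖ ^ 2) / ‖1 + q.1.2‖ ^ 2 :=
      rho_gam hy0 (by linarith [hx.2.2])
    have h3 : 0 < 1 - ‖q.1.1‖ ^ 2 - ‖q.1.2‖ ^ 2 := by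
      have h5 := norm_nonneg q.1.1
      have h6 := norm_nonneg q.1.2
      nlinarith [hx.1, hx.2.1]
    have hr : 0 < rho y0 := hy0
    have h4 : 0 < ‖1 + q.1.2‖ := norm_pos_iff.2 (PinA_ne hr1 hq.1)
    have h5 : Real.log (rho (F q).1) = Real.log (rho y0) +
        Real.log (1 - ‖q.1.1‖ ^ 2 - ‖q.1.2‖ ^ 2) - 2 * Real.log ‖1 + q.1.2‖ := by
      rw [h2, Real.log_div (mul_pos hr h3).ne' (pow_pos h4 2).ne', Real.log_mul hr.ne' h3.ne',
        Real.log_pow]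
      push_cast
      ring
    have h6 : (k q).re = A * (2 * Real.log ‖1 + q.1.2‖ - Real.log (rho y0)) := by
      show ((A : ℂ) * (2 * Complex.log (1 + q.1.2) - (Real.log (rho y0) : ℂ))).re = _
      rw [Complex.re_ofReal_mul, Complex.sub_re, Complex.ofReal_re]
      have h7 : (2 * Complex.log (1 + q.1.2)).re = 2 * (Complex.log (1 + q.1.2)).re := by
        simp
      rw [h7, Complex.log_re]
    unfold Pot Phimod
    rw [h1, h5, h6]
    ring

end P250
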