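import Mathlib.Analysis.Calculus.FDeriv.Symmetric
import Mathlib.LinearAlgebra.FiniteDimensional.Defs
import Mathlib.Topology.Algebra.Module.ModuleTopology
import Vale.Agent.Lib.P250.GeoCore

/-! # P250 module G3a: transformation law of the connection -/

open scoped ContDiff
open Complex Set

namespace P250

variable {E : Type*} [NormedAddCommGroup E] [NormedSpace ℂ E] [FiniteDimensional ℂ E]
variable {E' : Type*} [NormedAddCommGroup E'] [NormedSpace ℂ E'] [FiniteDimensional ℂ E']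

omit [FiniteDimensional ℂ E] [FiniteDimensional ℂ E'] in
/-- derivative of the pulled back metric -/
private theorem pullA_deriv {M : Set E} {M' : Set E'} (hM : IsOpen M) (hM' : IsOpen M')
    {g : E → E →L[ℝ] E →L[ℝ] ℝ} {g' : E' → E' →L[ℝ] E' →L[ℝ] ℝ}
    (hg : IsRiemannianMetric M g) (hg' : IsRiemannianMetric M' g') {F : E' → E}
    (hF : ContDiffOn ℝ ∞ F M') (hmap : MapsTo F M' M)
    (hpull : ∀ p ∈ M', ∀ u v : E', g' p u v = g (F p) (fderiv ℝ F p u) (fderiv ℝ F p v))
    {p : E'} (hp : p ∈ M') (u v w : E') :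
    fderiv ℝ g' p u v w = fderiv ℝ g (F p) (fderiv ℝ F p u) (fderiv ℝ F p v) (fderiv ℝ F p w)
      + g (F p) (fderiv ℝ (fderiv ℝ F) p u v) (fderiv ℝ F p w)
      + g (F p) (fderiv ℝ F p v) (fderiv ℝ (fderiv ℝ F) p u w) := by
  have hFp : ContDiffAt ℝ ∞ F p := hF.contDiffAt (hM'.mem_nhds hp)
  have hgp : ContDiffAt ℝ ∞ g (F p) := hg.smooth.contDiffAt (hM.mem_nhds (hmap hp))
  have hgp' : ContDiffAt ℝ ∞ g' p := hg'.smooth.contDiffAt (hM'.mem_nhds hp)
  have d1 : HasFDerivAt F (fderiv ℝ F p) p := (hFp.differentiableAt (by simp)).hasFDerivAt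
  have d2 : HasFDerivAt (fderiv ℝ F) (fderiv ℝ (fderiv ℝ F) p) p :=
    ((hFp.fderiv_right (m := 1) (by norm_cast)).differentiableAt (by simp)).hasFDerivAt
  have d3 : HasFDerivAt g (fderiv ℝ g (F p)) (F p) := (hgp.differentiableAt (by simp)).hasFDerivAt
  have d4 : HasFDerivAt g' (fderiv ℝ g' p) p := (hgp'.differentiableAt (by simp)).hasFDerivAt
  have d5 := (d4.clm_apply (hasFDerivAt_const v p)).clm_apply (hasFDerivAt_const w p)
  have d3F : HasFDerivAt (fun q => g (F q)) ((fderiv ℝ g (F p)).comp (fderiv ℝ F p)) p :=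
    HasFDerivAt.comp (G := E →L[ℝ] E →L[ℝ] ℝ) p d3 d1
  have dv := d2.clm_apply (hasFDerivAt_const v p)
  have dw := d2.clm_apply (hasFDerivAt_const w p)
  have d6' := d3F.clm_apply dv
  have d6 := d6'.clm_apply dw
  have heq : (fun q => g' q v w) =ᶠ[nhds p]
      fun q => g (F q) (fderiv ℝ F q v) (fderiv ℝ F q w) := by
    filter_upwards [hM'.mem_nhds hp] with q hq
    exact hpull q hq v w
  have d7 := d6.congr_of_eventuallyEq heq
  have key := congrArg (fun L : E' →L[ℝ] ℝ => L u) (d5.unique d7)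
  simp only [add_apply, ContinuousLinearMap.comp_apply,
    ContinuousLinearMap.flip_apply, zero_apply, map_zero, zero_add,
    Function.comp_apply] at key
  rw [key]
  ring

/-- Transformation law of the Levi-Civita connection: if `g' = F^* g` then
`DF (Γ'(u,v)) = Γ(DF u, DF v) + D²F(u,v)`. Proof: the connection
`(DF)⁻¹ (Γ (DF u, DF v) + D²F (u,v))` is torsion free and metric; uniqueness. -/
theorem leviCivita_pullback {M : Set E} {M' : Set E'} (hM : IsOpen M) (hM' : IsOpen M')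
    {g : E → E →L[ℝ] E →L[ℝ] ℝ} {g' : E' → E' →L[ℝ] E' →L[ℝ] ℝ}
    (hg : IsRiemannianMetric M g) (hg' : IsRiemannianMetric M' g')
    {Γ : E → E →L[ℝ] E →L[ℝ] E} {Γ' : E' → E' →L[ℝ] E' →L[ℝ] E'}
    (h : IsLeviCivita M g Γ) (h' : IsLeviCivita M' g' Γ') {F : E' → E}
    (hF : ContDiffOn ℝ ∞ F M') (hmap : MapsTo F M' M)
    (hbij : ∀ p ∈ M', Function.Bijective (fderiv ℝ F p))
    (hpull : ∀ p ∈ M', ∀ u v : E', g' p u v = g (F p) (fderiv ℝ F p u) (fderiv ℝ F p v))
    {p : E'} (hp : p ∈ M') (u v : E') :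
    fderiv ℝ F p (Γ' p u v) = Γ (F p) (fderiv ℝ F p u) (fderiv ℝ F p v)
      + fderiv ℝ (fderiv ℝ F) p u v := by
  have hFp : ContDiffAt ℝ ∞ F p := hF.contDiffAt (hM'.mem_nhds hp)
  have hsymm : IsSymmSndFDerivAt ℝ F p := hFp.isSymmSndFDerivAt (by simp only [minSmoothness_of_isRCLikeNormedField]; norm_cast)
  have hMp := hmap hp
  obtain ⟨T, hT⟩ : ∃ T : E' → E' → E, T = fun u v => fderiv ℝ F p (Γ' p u v) -
    (Γ (F p) (fderiv ℝ F p u) (fderiv ℝ F p v) + fderiv ℝ (fderiv ℝ F) p u v) := ⟨_, rfl⟩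
  have hTs : ∀ a b, T a b = T b a := by
    intro a b
    rw [hT]
    simp only
    rw [h'.torsion_free p hp a b, h.torsion_free (F p) hMp (fderiv ℝ F p a) (fderiv ℝ F p b),
      hsymm.eq a b]
  have hanti : ∀ a b c, g (F p) (T a b) (fderiv ℝ F p c) = - g (F p) (T a c) (fderiv ℝ F p b) := by
    intro a b c
    have h1 := pullA_deriv hM hM' hg hg' hF hmap hpull hp a b c
    rw [h'.metric p hp, h.metric (F p) hMp, hpull p hp, hpull p hp] at h1
    rw [hg.symm (F p) hMp (T a c) (fderiv ℝ F p b), hT]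
    simp only [map_sub, map_add, sub_apply, add_apply]
    linarith
  have hzero : ∀ a b c, g (F p) (T a b) (fderiv ℝ F p c) = 0 := by
    intro a b c
    have e1 := hanti a b c
    have e2 : T a c = T c a := hTs a c
    rw [e2] at e1
    have e3 := hanti c a b
    have e4 : T c b = T b c := hTs c b
    rw [e4] at e3
    have e5 := hanti b c a
    have e6 : T b a = T a b := hTs b a
    rw [e6] at e5
    linarith
  have hTz : T u v = 0 := by
    by_contra hne
    obtain ⟨c, hc⟩ := (hbij p hp).2 (T u v)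
    have h1 := hzero u v c
    rw [hc] at h1
    have h2 := hg.pos (F p) hMp (T u v) hne
    linarith
  rw [hT] at hTz
  exact sub_eq_zero.mp hTz

end P250
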