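import Vale.Agent.Lib.P250.GeoDefs
import Vale.Agent.Lib.P250.PullA

/-! # P250 module G3b: naturality of the curvature numerator -/

open scoped ContDiff
open Complex Set

namespace P250

variable {E : Type*} [NormedAddCommGroup E] [NormedSpace ℂ E] [FiniteDimensional ℂ E]
variable {E' : Type*} [NormedAddCommGroup E'] [NormedSpace ℂ E'] [FiniteDimensional ℂ E']

omit [FiniteDimensional ℂ E] [FiniteDimensional ℂ E'] in
/-- the transformation law of the connection, differentiated -/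
theorem pullB_deriv {M : Set E} {M' : Set E'} (hM : IsOpen M) (hM' : IsOpen M')
    {Γ : E → E →L[ℝ] E →L[ℝ] E} {Γ' : E' → E' →L[ℝ] E' →L[ℝ] E'}
    (hΓs : ContDiffOn ℝ ∞ Γ M) (hΓs' : ContDiffOn ℝ ∞ Γ' M') {F : E' → E}
    (hF : ContDiffOn ℝ ∞ F M') (hmap : MapsTo F M' M)
    (hlaw : ∀ p ∈ M', ∀ u v : E', fderiv ℝ F p (Γ' p u v) =
      Γ (F p) (fderiv ℝ F p u) (fderiv ℝ F p v) + fderiv ℝ (fderiv ℝ F) p u v)
    {p : E'} (hp : p ∈ M') (w u v : E') :
    fderiv ℝ (fderiv ℝ F) p w (Γ' p u v) + fderiv ℝ F p (fderiv ℝ Γ' p w u v) =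
      fderiv ℝ Γ (F p) (fderiv ℝ F p w) (fderiv ℝ F p u) (fderiv ℝ F p v)
        + Γ (F p) (fderiv ℝ (fderiv ℝ F) p w u) (fderiv ℝ F p v)
        + Γ (F p) (fderiv ℝ F p u) (fderiv ℝ (fderiv ℝ F) p w v)
        + fderiv ℝ (fderiv ℝ (fderiv ℝ F)) p w u v := by
  have hFp : ContDiffAt ℝ ∞ F p := hF.contDiffAt (hM'.mem_nhds hp)
  have hAp : ContDiffAt ℝ ∞ (fderiv ℝ F) p := hFp.fderiv_right (by norm_cast)
  have hBp : ContDiffAt ℝ ∞ (fderiv ℝ (fderiv ℝ F)) p := hAp.fderiv_right (by norm_cast)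
  have hF1 : HasFDerivAt F (fderiv ℝ F p) p :=
    (hFp.differentiableAt (by norm_num)).hasFDerivAt
  have hA1 : HasFDerivAt (fun q => fderiv ℝ F q) (fderiv ℝ (fderiv ℝ F) p) p :=
    (hAp.differentiableAt (by norm_num)).hasFDerivAt
  have hB1 : HasFDerivAt (fun q => fderiv ℝ (fderiv ℝ F) q)
      (fderiv ℝ (fderiv ℝ (fderiv ℝ F)) p) p :=
    (hBp.differentiableAt (by norm_num)).hasFDerivAt
  have hG' : HasFDerivAt (fun q => Γ' q) (fderiv ℝ Γ' p) p :=
    ((hΓs'.contDiffAt (hM'.mem_nhds hp)).differentiableAt (by norm_num)).hasFDerivAt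
  have hG : HasFDerivAt Γ (fderiv ℝ Γ (F p)) (F p) :=
    ((hΓs.contDiffAt (hM.mem_nhds (hmap hp))).differentiableAt (by norm_num)).hasFDerivAt
  have hGF : HasFDerivAt (fun q => Γ (F q)) ((fderiv ℝ Γ (F p)).comp (fderiv ℝ F p)) p := by
    exact HasFDerivAt.comp (𝕜 := ℝ) (E := E') (F := E) (G := E →L[ℝ] E →L[ℝ] E) (f := F)
      (g := Γ) p hG hF1
  have hu : HasFDerivAt (fun _ : E' => u) (0 : E' →L[ℝ] E') p := hasFDerivAt_const u p
  have hv : HasFDerivAt (fun _ : E' => v) (0 : E' →L[ℝ] E') p := hasFDerivAt_const v p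
  have hL := hA1.clm_apply ((hG'.clm_apply hu).clm_apply hv)
  have hR := ((hGF.clm_apply (hA1.clm_apply hu)).clm_apply (hA1.clm_apply hv)).add
    ((hB1.clm_apply hu).clm_apply hv)
  have heq : (fun q => fderiv ℝ F q (Γ' q u v)) =ᶠ[nhds p]
      (fun q => Γ (F q) (fderiv ℝ F q u) (fderiv ℝ F q v) + fderiv ℝ (fderiv ℝ F) q u v) := by
    filter_upwards [hM'.mem_nhds hp] with q hq
    exact hlaw q hq u v
  have huniq := hL.unique (hR.congr_of_eventuallyEq heq)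
  have h1 := congrArg (fun T : E' →L[ℝ] E => T w) huniq
  simp only [add_apply, ContinuousLinearMap.comp_apply,
    ContinuousLinearMap.flip_apply, zero_apply, map_zero, zero_add] at h1
  rw [add_comm, h1]
  abel

/-- The curvature numerator is natural: differentiate the transformation law once more. -/
theorem curvNum_pullback {M : Set E} {M' : Set E'} (hM : IsOpen M) (hM' : IsOpen M')
    {g : E → E →L[ℝ] E →L[ℝ] ℝ} {g' : E' → E' →L[ℝ] E' →L[ℝ] ℝ}
    (hg : IsRiemannianMetric M g) (hg' : IsRiemannianMetric M' g')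
    {Γ : E → E →L[ℝ] E →L[ℝ] E} {Γ' : E' → E' →L[ℝ] E' →L[ℝ] E'}
    (h : IsLeviCivita M g Γ) (h' : IsLeviCivita M' g' Γ') {F : E' → E}
    (hF : ContDiffOn ℝ ∞ F M') (hmap : MapsTo F M' M)
    (hbij : ∀ p ∈ M', Function.Bijective (fderiv ℝ F p))
    (hpull : ∀ p ∈ M', ∀ u v : E', g' p u v = g (F p) (fderiv ℝ F p u) (fderiv ℝ F p v))
    {p : E'} (hp : p ∈ M') (u v : E') :
    curvNum g' Γ' p u v = curvNum g Γ (F p) (fderiv ℝ F p u) (fderiv ℝ F p v) := by
  have hlaw : ∀ p ∈ M', ∀ u v : E', fderiv ℝ F p (Γ' p u v) =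
      Γ (F p) (fderiv ℝ F p u) (fderiv ℝ F p v) + fderiv ℝ (fderiv ℝ F) p u v :=
    fun q hq a b => leviCivita_pullback hM hM' hg hg' h h' hF hmap hbij hpull hq a b
  have hFp : ContDiffAt ℝ ∞ F p := hF.contDiffAt (hM'.mem_nhds hp)
  have hAp : ContDiffAt ℝ ∞ (fderiv ℝ F) p := hFp.fderiv_right (by norm_cast)
  have hsB : ∀ a b : E', fderiv ℝ (fderiv ℝ F) p a b = fderiv ℝ (fderiv ℝ F) p b a :=
    fun a b => (hFp.isSymmSndFDerivAt (by
      simp only [minSmoothness_of_isRCLikeNormedField]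
      exact WithTop.coe_le_coe.2 (le_top : (2 : ℕ∞) ≤ ⊤))).eq a b
  have hsT : ∀ a b : E', fderiv ℝ (fderiv ℝ (fderiv ℝ F)) p a b =
      fderiv ℝ (fderiv ℝ (fderiv ℝ F)) p b a :=
    fun a b => (hAp.isSymmSndFDerivAt (by
      simp only [minSmoothness_of_isRCLikeNormedField]
      exact WithTop.coe_le_coe.2 (le_top : (2 : ℕ∞) ≤ ⊤))).eq a b
  have hd := pullB_deriv hM hM' h.smooth h'.smooth hF hmap hlaw hp
  have key : ∀ a b c : E', fderiv ℝ F p (curvatureTensor Γ' p a b c) =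
      curvatureTensor Γ (F p) (fderiv ℝ F p a) (fderiv ℝ F p b) (fderiv ℝ F p c) := by
    intro a b c
    unfold curvatureTensor
    have e1 := hd a b c
    have e2 := hd b a c
    have e3 := hlaw p hp a (Γ' p b c)
    have e4 := hlaw p hp b (Γ' p a c)
    rw [hlaw p hp b c, map_add] at e3
    rw [hlaw p hp a c, map_add] at e4
    rw [map_sub, map_add, map_sub, e3, e4]
    have e1' := eq_sub_of_add_eq' e1
    have e2' := eq_sub_of_add_eq' e2
    rw [e1', e2', hsT a b, hsB a b]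
    abel
  unfold curvNum
  rw [hpull p hp, key]

end P250
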