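import Mathlib
import Vale.Agent.Lib.P250.HB
import Vale.Agent.Lib.P250.LCA
import Vale.Agent.Lib.P250.MCC
import Vale.Agent.Lib.P250.PinA
import Vale.Agent.Lib.P250.PullB

/-! # P250 module G9b: pinching off the zero section -/

open scoped ContDiff
open Complex Metric Set

namespace P250

/-- The metric in local coordinates. -/
private theorem pinB_pull {A e δ : ℝ} {N : ℕ} (he : 0 < e) (he1 : e < 1) (hδ : 0 < δ)
    {fh : (ℂ × ℂ) × (ℂ × ℂ) → ℂ} {M' : Set V3} {F : V3 → V3} {k : V3 → ℂ} (hM' : IsOpen M')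
    (hF : ContDiffOn ℂ ∞ F M') (hmap : MapsTo F M' (M3 e δ N)) (hk : ContDiffOn ℂ ∞ k M')
    (hΦ : ContDiffOn ℝ ∞ (Phimod A fh) M')
    (hdec : ∀ q ∈ M', Pot A e δ N (F q) = Phimod A fh q + (k q).re) (q : V3) (hq : q ∈ M')
    (u v : V3) :
    potMetric (Phimod A fh) q u v =
      potMetric (Pot A e δ N) (F q) (fderiv ℝ F q u) (fderiv ℝ F q v) := by
  have h1 := potMetric_comp (M3_open N he he1 hδ) hM' (Pot_smooth (A := A) N he he1 hδ) hF hmap
    hq u v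
  have h2 : (fun q' => Pot A e δ N (F q')) =ᶠ[nhds q] fun q' => Phimod A fh q' + (k q').re := by
    filter_upwards [hM'.mem_nhds hq] with q' hq'
    exact hdec q' hq'
  rw [potMetric_congr h2, potMetric_add_re hM' hΦ hk hq] at h1
  exact h1

/-- Pinching at the points `ζ ≠ 0`. -/
theorem pinched_off_zero {e δ : ℝ} {N : ℕ} (hN : 0 < N) (he : 0 < e) (he1 : e < 1)
    (hδ : 0 < δ) : ∃ A a b : ℝ, 0 < A ∧ 0 < a ∧ a ≤ b ∧
    ∀ Γ : V3 → V3 →L[ℝ] V3 →L[ℝ] V3, IsLeviCivita (M3 e δ N) (potMetric (Pot A e δ N)) Γ →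
    ∀ p ∈ M3 e δ N, p.2 ≠ 0 → ∀ u v : V3,
      -b * area2 (potMetric (Pot A e δ N)) p u v ≤ curvNum (potMetric (Pot A e δ N)) Γ p u v ∧
      curvNum (potMetric (Pot A e δ N)) Γ p u v ≤ -a * area2 (potMetric (Pot A e δ N)) p u v := by
  obtain ⟨r0, hr0, hr1, hNF⟩ := exists_NF
  obtain ⟨C0, hC0, hNF⟩ := hNF e δ N he he1 hδ
  have hκ : (0 : ℝ) < N * δ := by positivity
  obtain ⟨A0, hA0, hmodel⟩ := model_pinched r0 C0 (N * δ) hr0 hr1 hC0 hκ
  obtain ⟨a, b, ha, hab, hmodel⟩ := hmodel A0 le_rfl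
  refine ⟨A0, a, b, hA0, ha, hab, ?_⟩
  intro Γ hΓ p hp hp2 u v
  obtain ⟨h, fh, hnf⟩ := hNF p.1 hp.1
  obtain ⟨M', F, k, τ0, hM', hτ0, hq0, hF, hmap, hFq, hbij, hk, hΦ, hdec⟩ :=
    local_coord (A := A0) he he1 hδ hr0 hr1 hp.1 hnf hp2 (by exact hp)
  have hK := Pot_kahler (A := A0) N hA0 he he1 hδ
  have hg := hK.toIsRiemannianMetric
  have hpull := pinB_pull he he1 hδ hM' hF hmap hk hΦ hdec
  -- the model metric is Riemannian on `M'`
  have hg' : IsRiemannianMetric M' (potMetric (Phimod A0 fh)) := by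
    refine ⟨potMetric_smooth hM' hΦ, ?_, ?_⟩
    · intro q hq w w'
      rw [hpull q hq, hpull q hq, hg.symm _ (hmap hq)]
    · intro q hq w hw
      rw [hpull q hq]
      refine hg.pos _ (hmap hq) _ fun h0 => hw ?_
      exact (hbij q hq).1 (by rw [h0, map_zero])
  obtain ⟨Γ', hΓ'⟩ := exists_leviCivita hM' hg'
  obtain ⟨u', hu'⟩ := (hbij _ hq0).2 u
  obtain ⟨v', hv'⟩ := (hbij _ hq0).2 v
  have hcurv := curvNum_pullback (M3_open N he he1 hδ) hM' hg hg' hΓ hΓ'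
    (hF.restrict_scalars ℝ) hmap hbij hpull hq0 u' v'
  have hmain := hmodel fh hnf.f_smooth hnf.f_bound hnf.f_herm hnf.f_left hnf.f_right hnf.levi τ0
    hτ0 M' hM' hq0 hg' Γ' hΓ' u' v'
  have harea : area2 (potMetric (Phimod A0 fh)) ((0, 0), τ0) u' v' =
      area2 (potMetric (Pot A0 e δ N)) p u v := by
    unfold area2
    rw [hpull _ hq0, hpull _ hq0, hpull _ hq0, hFq, hu', hv']
  rw [harea, hcurv, hFq, hu', hv'] at hmain
  exact hmain

end P250
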