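import Vale.Agent.Lib.P250.HB
import Vale.Agent.Lib.P250.PolDefs

/-! # P250 module G10: density and area -/

open scoped ContDiff
open Complex Metric Set

namespace P250

private theorem PinC_area_cont {E : Type*} [NormedAddCommGroup E] [NormedSpace ℂ E] {M : Set E}
    {g : E → E →L[ℝ] E →L[ℝ] ℝ} (hg : ContinuousOn g M) (u v : E) :
    ContinuousOn (fun x => area2 g x u v) M := by
  have h : ∀ a b : E, ContinuousOn (fun x => g x a b) M := fun a b =>
    (hg.clm_apply continuousOn_const).clm_apply continuousOn_const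
  unfold area2
  exact ((h u u).mul (h v v)).sub ((h u v).pow 2)

private theorem PinC_curv_cont {E : Type*} [NormedAddCommGroup E] [NormedSpace ℂ E] {M : Set E}
    {g : E → E →L[ℝ] E →L[ℝ] ℝ} {Γ : E → E →L[ℝ] E →L[ℝ] E} (hM : IsOpen M)
    (hg : ContinuousOn g M) (hΓ : ContDiffOn ℝ ∞ Γ M) (u v : E) :
    ContinuousOn (fun x => curvNum g Γ x u v) M := by
  have h0 : ContinuousOn Γ M := hΓ.continuousOn
  have h1 : ContinuousOn (fun x => fderiv ℝ Γ x) M :=
    hΓ.continuousOn_fderiv_of_isOpen hM (by simp)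
  have hd : ∀ a b c : E, ContinuousOn (fun x => fderiv ℝ Γ x a b c) M := fun a b c =>
    ((h1.clm_apply continuousOn_const).clm_apply continuousOn_const).clm_apply continuousOn_const
  have hG : ∀ a b : E, ContinuousOn (fun x => Γ x a b) M := fun a b =>
    (h0.clm_apply continuousOn_const).clm_apply continuousOn_const
  have hGG : ∀ a b c : E, ContinuousOn (fun x => Γ x a (Γ x b c)) M := fun a b c =>
    (h0.clm_apply continuousOn_const).clm_apply (hG b c)
  have hR : ContinuousOn (fun x => curvatureTensor Γ x u v v) M := by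
    unfold curvatureTensor
    exact (((hd u v v).sub (hd v u v)).add (hGG u v v)).sub (hGG v u v)
  unfold curvNum
  exact (hg.clm_apply hR).clm_apply continuousOn_const

/-- A weak inequality between continuous functions extends from `ζ ≠ 0` to all points. -/
theorem pinched_all {A a b e δ : ℝ} {N : ℕ} (hA : 0 < A) (he : 0 < e) (he1 : e < 1)
    (hδ : 0 < δ) {Γ : V3 → V3 →L[ℝ] V3 →L[ℝ] V3}
    (hΓ : IsLeviCivita (M3 e δ N) (potMetric (Pot A e δ N)) Γ)
    (h : ∀ p ∈ M3 e δ N, p.2 ≠ 0 → ∀ u v : V3,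
      -b * area2 (potMetric (Pot A e δ N)) p u v ≤ curvNum (potMetric (Pot A e δ N)) Γ p u v ∧
      curvNum (potMetric (Pot A e δ N)) Γ p u v ≤ -a * area2 (potMetric (Pot A e δ N)) p u v)
    {p : V3} (hp : p ∈ M3 e δ N) (u v : V3) :
    -b * area2 (potMetric (Pot A e δ N)) p u v ≤ curvNum (potMetric (Pot A e δ N)) Γ p u v ∧
    curvNum (potMetric (Pot A e δ N)) Γ p u v ≤ -a * area2 (potMetric (Pot A e δ N)) p u v := by
  by_cases hp2 : p.2 ≠ 0
  · exact h p hp hp2 u v
  have hp0 : p.2 = 0 := not_not.mp hp2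
  have hM : IsOpen (M3 e δ N) := M3_open N he he1 hδ
  have hgc : ContinuousOn (potMetric (Pot A e δ N)) (M3 e δ N) :=
    (Pot_kahler N hA he he1 hδ).smooth.continuousOn
  have hmem : M3 e δ N ∈ nhds p := hM.mem_nhds hp
  have h1 : Filter.Tendsto (fun x => area2 (potMetric (Pot A e δ N)) x u v) (nhds p)
      (nhds (area2 (potMetric (Pot A e δ N)) p u v)) :=
    (PinC_area_cont hgc u v).continuousAt hmem
  have h2 : Filter.Tendsto (fun x => curvNum (potMetric (Pot A e δ N)) Γ x u v) (nhds p)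
      (nhds (curvNum (potMetric (Pot A e δ N)) Γ p u v)) :=
    (PinC_curv_cont hM hgc hΓ.smooth u v).continuousAt hmem
  -- the path
  have hpath : Filter.Tendsto (fun ζ : ℂ => ((p.1, ζ) : V3)) (nhdsWithin 0 {(0 : ℂ)}ᶜ)
      (nhds p) := by
    have hc : Continuous fun ζ : ℂ => ((p.1, ζ) : V3) := by fun_prop
    have h3 := hc.tendsto (0 : ℂ)
    have h4 : ((p.1, (0 : ℂ)) : V3) = p := by
      rw [← hp0]
    rw [h4] at h3
    exact h3.mono_left nhdsWithin_le_nhds
  have hev : ∀ᶠ ζ : ℂ in nhdsWithin 0 {(0 : ℂ)}ᶜ, ((p.1, ζ) : V3) ∈ M3 e δ N ∧ ζ ≠ 0 := by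
    filter_upwards [hpath.eventually hmem, self_mem_nhdsWithin] with ζ h3 h4
    exact ⟨h3, h4⟩
  constructor
  · refine le_of_tendsto_of_tendsto ((h1.const_mul (-b)).comp hpath) (h2.comp hpath) ?_
    filter_upwards [hev] with ζ hζ
    exact (h _ hζ.1 hζ.2 u v).1
  · refine le_of_tendsto_of_tendsto (h2.comp hpath) ((h1.const_mul (-a)).comp hpath) ?_
    filter_upwards [hev] with ζ hζ
    exact (h _ hζ.1 hζ.2 u v).2

/-- area is positive on independent pairs -/
theorem area2_pos {E : Type*} [NormedAddCommGroup E] [NormedSpace ℂ E] {M : Set E}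
    {g : E → E →L[ℝ] E →L[ℝ] ℝ} (hg : IsRiemannianMetric M g) {p : E} (hp : p ∈ M) {u v : E}
    (huv : LinearIndependent ℝ ![u, v]) : 0 < area2 g p u v := by
  rw [LinearIndependent.pair_iff] at huv
  have hu : u ≠ 0 := by
    rintro rfl
    have := huv 1 0 (by simp)
    exact one_ne_zero this.1
  have hguu : 0 < g p u u := hg.pos p hp u hu
  have hw : (-(g p u v)) • u + (g p u u) • v ≠ 0 := by
    intro h0
    exact hguu.ne' (huv _ _ h0).2
  have h1 := hg.pos p hp _ hw
  have hs := hg.symm p hp u v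
  have h2 : g p ((-(g p u v)) • u + (g p u u) • v) ((-(g p u v)) • u + (g p u u) • v) =
      g p u u * area2 g p u v := by
    unfold area2
    simp only [map_add, map_smul, _root_.add_apply, _root_.smul_apply, smul_eq_mul]
    rw [← hs]
    ring
  rw [h2] at h1
  exact (mul_pos_iff_of_pos_left hguu).mp h1

end P250
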