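import Mathlib
import Vale.Agent.Lib.P250.PinB
import Vale.Agent.Lib.P250.PinC

/-! # P250 module G10: summary (assembly) -/

open scoped ContDiff
open Complex Metric Set

namespace P250

/-- The Hartogs metric: summary of the curvature properties. -/
theorem hartogs_geometry {e δ : ℝ} {N : ℕ} (hN : 0 < N) (he : 0 < e) (he1 : e < 1)
    (hδ : 0 < δ) : ∃ (A : ℝ) (Γ : V3 → V3 →L[ℝ] V3 →L[ℝ] V3), 0 < A ∧
    IsKahlerMetric (M3 e δ N) (potMetric (Pot A e δ N)) ∧
    IsLeviCivita (M3 e δ N) (potMetric (Pot A e δ N)) Γ ∧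
    IsNegativelyPinched (M3 e δ N) (potMetric (Pot A e δ N)) Γ := by
  obtain ⟨A, a, b, hA, ha, hab, hmain⟩ := pinched_off_zero hN he he1 hδ
  have hK := Pot_kahler (A := A) N hA he he1 hδ
  obtain ⟨Γ, hΓ⟩ := exists_leviCivita (M3_open N he he1 hδ) hK.toIsRiemannianMetric
  refine ⟨A, Γ, hA, hK, hΓ, a, b, ha, hab, fun p hp u v huv => ?_⟩
  have h1 := pinched_all hA he he1 hδ hΓ (hmain Γ hΓ) hp u v
  have h2 := area2_pos hK.toIsRiemannianMetric hp huv
  have h3 : sectionalCurvature (potMetric (Pot A e δ N)) Γ p u v =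
      curvNum (potMetric (Pot A e δ N)) Γ p u v / area2 (potMetric (Pot A e δ N)) p u v := rfl
  rw [h3, le_div_iff₀ h2, div_le_iff₀ h2]
  exact h1

end P250
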