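import Mathlib
import Vale.Agent.Lib.P250.Complete
import Vale.Agent.Lib.P250.HC
import Vale.Agent.Lib.P250.HD
import Vale.Agent.Lib.P250.HE
import Vale.Agent.Lib.P250.JBB
import Vale.Agent.Lib.P250.OSD
import Vale.Agent.Lib.P250.PinD

/-! # P250 module F2: assembly on (C x C) x C -/

open scoped ContDiff
open Complex Metric Set

namespace P250

/-- the Hartogs domain is not biholomorphic to a bounded domain -/
theorem not_biholomorphic {e δ : ℝ} {N : ℕ} (he : 0 < e) (he1 : e < 1) (hδ : 0 < δ)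
    (hno : ∀ J : ℂ × ℂ → ℂ, DifferentiableOn ℂ J U2 → (∀ y ∈ U2, J y ≠ 0) →
      ∀ CJ : ℝ, ¬ (∀ y ∈ U2, ‖J y‖ ^ 2 ≤ CJ * (rho y)⁻¹ ^ 3 * Real.exp (phiL e δ N 0 y)))
    {D : Set ((ℂ × ℂ) × ℂ)} (hD : IsOpen D) (hb : Bornology.IsBounded D) :
    ¬ AreBiholomorphic (M3 e δ N) D := by
  rintro ⟨f, h, hf, hh, hfm, hhm, hl, hr⟩
  obtain ⟨K, hK⟩ := hb.exists_norm_le
  obtain ⟨CJ, hCJ⟩ := J_bound N he he1 hδ K
  have hopen := M3_open N he he1 hδ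
  refine hno (Jac f) (Jac_differentiable N he he1 hδ hf) (fun y hy => ?_) CJ
    (hCJ f hf (fun p hp => hK _ (hfm hp)))
  have hp : ((y, 0) : (ℂ × ℂ) × ℂ) ∈ M3 e δ N := ⟨hy, by simp⟩
  have h1 : HasFDerivAt f (fderiv ℂ f (y, 0)) (y, 0) :=
    (hf.differentiableAt (hopen.mem_nhds hp)).hasFDerivAt
  have h2 : HasFDerivAt h (fderiv ℂ h (f (y, 0))) (f (y, 0)) :=
    (hh.differentiableAt (hD.mem_nhds (hfm hp))).hasFDerivAt
  have h3 := h2.comp (y, 0) h1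
  have h4 : HasFDerivAt (h ∘ f) (ContinuousLinearMap.id ℂ ((ℂ × ℂ) × ℂ)) (y, 0) := by
    refine (hasFDerivAt_id (𝕜 := ℂ) ((y, 0) : (ℂ × ℂ) × ℂ)).congr_of_eventuallyEq ?_
    filter_upwards [hopen.mem_nhds hp] with q hq using hl hq
  have h5 := h3.unique h4
  intro h0
  have h6 : (fderiv ℂ h (f (y, 0))).det * (fderiv ℂ f (y, 0)).det = 1 := by
    have := congrArg (fun T : ((ℂ × ℂ) × ℂ) →L[ℂ] ((ℂ × ℂ) × ℂ) => LinearMap.det
      (T : ((ℂ × ℂ) × ℂ) →ₗ[ℂ] ((ℂ × ℂ) × ℂ))) h5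
    simpa [ContinuousLinearMap.det, ContinuousLinearMap.coe_comp, LinearMap.det_comp] using this
  rw [show (fderiv ℂ f (y, 0)).det = 0 from h0, mul_zero] at h6
  exact zero_ne_one h6

/-- Everything for the domain in `(ℂ × ℂ) × ℂ`. -/
theorem main_V3 : ∃ (M : Set V3) (g : V3 → V3 →L[ℝ] V3 →L[ℝ] ℝ)
    (Γ : V3 → V3 →L[ℝ] V3 →L[ℝ] V3), IsOpen M ∧ ContractibleSpace M ∧ IsKahlerMetric M g ∧
    IsLeviCivita M g Γ ∧ IsGeodesicallyComplete M Γ ∧ IsNegativelyPinched M g Γ ∧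
    ∀ D : Set V3, IsOpen D → Bornology.IsBounded D → ¬ AreBiholomorphic M D := by
  obtain ⟨e, δ, N, he, he1, hδ, hN, hno⟩ := no_J
  obtain ⟨A, Γ, hA, hK, hΓ, hp⟩ := hartogs_geometry hN he he1 hδ
  obtain ⟨C, hC⟩ := kexh_lip (A := A) N hA he he1 hδ
  refine ⟨M3 e δ N, potMetric (Pot A e δ N), Γ, M3_open N he he1 hδ,
    M3_contractible N he he1 hδ, hK, hΓ, ?_, hp, fun D hD hb =>
      not_biholomorphic he he1 hδ hno hD hb⟩
  exact geodesicallyComplete_of_exhaustion (M3_open N he he1 hδ) hK.toIsRiemannianMetric hΓ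
    (kexh e δ N) C (kexh_smooth N he he1 hδ) hC (kexh_compact N he he1 hδ)

end P250
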