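import Vale.Agent.Lib.P250.CurveA

/-! # P250 module O1b: boundedness, near x, tube -/

open Complex Metric Set

namespace P250

noncomputable section

private lemma cb_first {e : ℝ} (he : 0 < e) (he1 : e ≤ 1 / 1000) {w : ℂ}
    (ha : 1 / 2 ≤ ‖aF e w‖) : ‖((e / 1000 : ℝ) : ℂ) / aF e w‖ ≤ 1 / 500000 := by
  rw [norm_div, Complex.norm_real, Real.norm_of_nonneg (by positivity),
    div_le_iff₀ (by linarith)]
  linarith

theorem OmC_bounded {e B : ℝ} {x : ℂ × ℂ} (h : Adm e B x) {w : ℂ} (hw : w ∈ OmC e B x) :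
    ‖w‖ ≤ 4000 := by
  by_contra hcon
  push Not at hcon
  obtain ⟨hi1, hi2, hn1, hn2, hA, hA2⟩ := adm_basic h
  obtain ⟨ha0, hz, -⟩ := mem_OmC h hw
  have him : 0 < w.im := hw.1
  have ha : 1 / 2 ≤ ‖aF e w‖ := aF_far h.he h.he1 him.le (by linarith)
  have hB0 : 0 < B := by linarith [h.hB]
  have himn : w.im ≤ ‖w‖ := (le_abs_self _).trans (Complex.abs_im_le_norm w)
  have h1 := cb_first h.he h.he1 ha
  have h2 : ‖w‖ ^ 2 * (B * (‖w‖ - ‖x.2‖) - ‖A1 e x‖) ≤ ‖qF (A1 e x) B x.2 w‖ := by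
    unfold qF
    rw [norm_mul, norm_pow]
    apply mul_le_mul_of_nonneg_left _ (by positivity)
    have h3 : ‖(B : ℂ) * (w - x.2)‖ = B * ‖w - x.2‖ := by
      rw [norm_mul, Complex.norm_real, Real.norm_of_nonneg hB0.le]
    have h4 : ‖(B : ℂ) * (w - x.2)‖ ≤ ‖A1 e x + B * (w - x.2)‖ + ‖A1 e x‖ := by
      have := norm_sub_le (A1 e x + B * (w - x.2)) (A1 e x)
      simpa using this
    have h5 : ‖w‖ - ‖x.2‖ ≤ ‖w - x.2‖ := norm_sub_norm_le w x.2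
    have h6 := mul_le_mul_of_nonneg_left h5 hB0.le
    linarith
  have h3 : ‖qF (A1 e x) B x.2 w‖ ≤ ‖zF e B x w‖ + 1 / 500000 := by
    have h4 : qF (A1 e x) B x.2 w = zF e B x w - ((e / 1000 : ℝ) : ℂ) / aF e w := by
      unfold zF; ring
    have h5 := norm_sub_le (zF e B x w) (((e / 1000 : ℝ) : ℂ) / aF e w)
    rw [← h4] at h5
    linarith
  have h7 : (1 : ℝ) + 1 / 10 ≤ B * (‖w‖ - ‖x.2‖) - ‖A1 e x‖ := by
    have h8 : (1 / 2000 : ℝ) * (4000 - 8 / 5) ≤ B * (‖w‖ - ‖x.2‖) :=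
      mul_le_mul h.hB (by linarith) (by norm_num) hB0.le
    linarith
  have h9 : ‖w‖ ^ 2 * (1 + 1 / 10) ≤ ‖w‖ ^ 2 * (B * (‖w‖ - ‖x.2‖) - ‖A1 e x‖) :=
    mul_le_mul_of_nonneg_left h7 (by positivity)
  have h10 : ‖w‖ ^ 2 ≤ ‖zF e B x w‖ := by nlinarith
  have h11 : 0 < e ^ 10 := pow_pos h.he 10
  have h12 : ‖zF e B x w‖ ^ 2 ≤ ‖w‖ := by linarith
  have h13 : (‖w‖ ^ 2) ^ 2 ≤ ‖zF e B x w‖ ^ 2 := by
    apply pow_le_pow_left₀ (by positivity) h10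
  have h14 : ‖w‖ * 1 ≤ ‖w‖ * ‖w‖ := mul_le_mul_of_nonneg_left (by linarith) (norm_nonneg w)
  nlinarith

private lemma cb_ratio {x : ℂ × ℂ} (hi : x.2.im = 1 + ‖x.1‖ ^ 2) :
    ‖x.1 / x.2 ^ 2‖ ≤ 1 / 3 := by
  have h1 : x.2.im ≤ ‖x.2‖ := (le_abs_self _).trans (Complex.abs_im_le_norm _)
  have h0 : 0 ≤ ‖x.1‖ := norm_nonneg _
  rw [hi] at h1
  have h2 : (1 + ‖x.1‖ ^ 2) ^ 2 ≤ ‖x.2‖ ^ 2 := pow_le_pow_left₀ (by positivity) h1 2
  rw [norm_div, norm_pow, div_le_iff₀ (by nlinarith)]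
  nlinarith [sq_nonneg (‖x.1‖ ^ 2 - 1 / 3), sq_nonneg (‖x.1‖ - 9 / 16)]

private lemma cb_decomp {e B : ℝ} {x : ℂ × ℂ} (h : Adm e B x) {w : ℂ}
    (ha : 1 / 2 ≤ ‖aF e w‖) (hwn : ‖w‖ ≤ 163 / 100) :
    ‖zF e B x w - w ^ 2 * (x.1 / x.2 ^ 2)‖ ≤ 9 / 1000 := by
  obtain ⟨hi1, hi2, hn1, hn2, hA, hA2⟩ := adm_basic h
  have hB0 : 0 < B := by linarith [h.hB]
  have h1 := cb_first h.he h.he1 ha
  have h2 : zF e B x w - w ^ 2 * (x.1 / x.2 ^ 2) =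
      ((e / 1000 : ℝ) : ℂ) / aF e w + w ^ 2 * (A1 e x - x.1 / x.2 ^ 2) +
        w ^ 2 * (B * (w - x.2)) := by
    unfold zF qF; ring
  have h3 : ‖w ^ 2 * (A1 e x - x.1 / x.2 ^ 2)‖ ≤ (163 / 100) ^ 2 * (1 / 500000) := by
    rw [norm_mul, norm_pow]
    apply mul_le_mul (pow_le_pow_left₀ (norm_nonneg _) hwn 2) _ (norm_nonneg _) (by norm_num)
    have := h.he1
    linarith
  have h4 : ‖w ^ 2 * (B * (w - x.2))‖ ≤ (163 / 100) ^ 2 * ((1 / 1000) * (163 / 100 + 8 / 5)) := by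
    rw [norm_mul, norm_pow, norm_mul, Complex.norm_real, Real.norm_of_nonneg hB0.le]
    have h5 : ‖w - x.2‖ ≤ 163 / 100 + 8 / 5 := (norm_sub_le _ _).trans (by linarith)
    apply mul_le_mul (pow_le_pow_left₀ (norm_nonneg _) hwn 2) _ (by positivity) (by norm_num)
    exact mul_le_mul h.hB1 h5 (norm_nonneg _) (by norm_num)
  have h3' := h3.trans (by norm_num : ((163 : ℝ) / 100) ^ 2 * (1 / 500000) ≤ 1 / 100000)
  have h4' := h4.trans (by norm_num :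
    ((163 : ℝ) / 100) ^ 2 * ((1 / 1000) * (163 / 100 + 8 / 5)) ≤ 87 / 10000)
  rw [h2]
  refine (norm_add₃_le).trans ?_
  linarith

private lemma cb_sq {u r Z : ℝ} (hu0 : 0 ≤ u) (hu1 : u ≤ 1) (hr0 : 0 ≤ r) (hr : r ≤ 18 / 25)
    (hZ0 : 0 ≤ Z) (hZ : Z ≤ u ^ 2 * r + 1 / 50) : Z ^ 2 ≤ u * r ^ 2 + 30 / 1000 := by
  have h15 : Z ^ 2 ≤ (u ^ 2 * r + 1 / 50) ^ 2 := pow_le_pow_left₀ hZ0 hZ 2
  have hu2 : u ^ 2 ≤ 1 := pow_le_one₀ hu0 hu1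
  have hu4 : u ^ 4 ≤ u := by
    have h : u ^ 4 = u * u ^ 3 := by ring
    rw [h]
    have h16 : u ^ 3 ≤ 1 := pow_le_one₀ hu0 hu1
    exact mul_le_of_le_one_right hu0 h16
  have h17 : u ^ 4 * r ^ 2 ≤ u * r ^ 2 := mul_le_mul_of_nonneg_right hu4 (sq_nonneg _)
  have h18 : u ^ 2 * r ≤ 18 / 25 := by
    calc u ^ 2 * r ≤ 1 * r := mul_le_mul_of_nonneg_right hu2 hr0
      _ ≤ 18 / 25 := by linarith
  have h19 : (u ^ 2 * r + 1 / 50) ^ 2 = u ^ 4 * r ^ 2 + (u ^ 2 * r) / 25 + 1 / 2500 := by ring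
  rw [h19] at h15
  linarith

private lemma cb_fin {t r E W Z : ℝ} (ht1 : t ≤ 1) (ht : 0 ≤ t) (hr2 : r ^ 2 ≤ 1 / 2)
    (hE : E ≤ 1 / 1000) (hW : (1 - t) / 4 + t * (1 + r ^ 2) - 1 / 100 < W)
    (hZ : Z ≤ (t + (1 - t) / 4) * r ^ 2 + 30 / 1000) : Z < W - E := by
  have h1 : (1 - t) / 4 * r ^ 2 ≤ (1 - t) / 4 * (1 / 2) :=
    mul_le_mul_of_nonneg_left hr2 (by linarith)
  have h2 : (t + (1 - t) / 4) * r ^ 2 = t * r ^ 2 + (1 - t) / 4 * r ^ 2 := by ring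
  have h3 : t * (1 + r ^ 2) = t + t * r ^ 2 := by ring
  rw [h2] at hZ
  rw [h3] at hW
  linarith

private lemma cb_norm {t n r Wt : ℝ} (ht : 0 ≤ t) (ht1 : t ≤ 1) (hn : 1 ≤ n) (hr : 0 ≤ r)
    (hW0 : 0 ≤ Wt) (hW : Wt ≤ (1 - t) / 4 + t * n) :
    Wt ^ 2 * r ≤ (t + (1 - t) / 4) ^ 2 * r * n ^ 2 := by
  have h1 : Wt ≤ (t + (1 - t) / 4) * n := by
    have h2 : (1 - t) / 4 * 1 ≤ (1 - t) / 4 * n := mul_le_mul_of_nonneg_left hn (by linarith)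
    have h3 : (t + (1 - t) / 4) * n = t * n + (1 - t) / 4 * n := by ring
    rw [h3]
    linarith
  have h2 : Wt ^ 2 ≤ ((t + (1 - t) / 4) * n) ^ 2 := pow_le_pow_left₀ hW0 h1 2
  have h3 := mul_le_mul_of_nonneg_right h2 hr
  have h4 : ((t + (1 - t) / 4) * n) ^ 2 * r = (t + (1 - t) / 4) ^ 2 * r * n ^ 2 := by ring
  rw [h4] at h3
  exact h3

/-- The tube around the segment from `i/4` to `w_x`. At `B = 0` and `e → 0`,
`Im w_t - |w_t|⁴|z_x|²/|w_x|⁴ ≥ (1-t)/8 + t ≥ 1/8`. -/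
theorem tube_Om {e B : ℝ} {x : ℂ × ℂ} (h : Adm e B x) {t : ℝ} (ht : 0 ≤ t) (ht1 : t ≤ 1) {w : ℂ}
    (h1 : ‖w - (I / 4 + t * (x.2 - I / 4))‖ < 1 / 100) : w ∈ Om e B x := by
  obtain ⟨hi1, hi2, hn1, hn2, hA, hA2⟩ := adm_basic h
  have hi : x.2.im = 1 + ‖x.1‖ ^ 2 := by
    have := h.hρ
    unfold rho at this
    linarith
  have hr0 : 0 ≤ ‖x.1‖ := norm_nonneg _
  have hr2 := h.hz
  have hr : ‖x.1‖ ≤ 18 / 25 := by nlinarith
  set wt : ℂ := I / 4 + t * (x.2 - I / 4) with hwt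
  have hwt_im : wt.im = (1 - t) / 4 + t * x.2.im := by
    rw [hwt]
    simp
    ring
  have hwt_norm : ‖wt‖ ≤ (1 - t) / 4 + t * ‖x.2‖ := by
    have h2 : wt = (((1 - t) / 4 : ℝ) : ℂ) * I + (t : ℂ) * x.2 := by
      rw [hwt]
      push_cast
      ring
    rw [h2]
    refine (norm_add_le _ _).trans ?_
    rw [norm_mul, norm_mul, Complex.norm_I, Complex.norm_real, Complex.norm_real,
      Real.norm_of_nonneg (by linarith), Real.norm_of_nonneg ht, mul_one]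
  have hwt2 : ‖wt‖ ≤ 8 / 5 := by
    have h2 : t * ‖x.2‖ ≤ t * (8 / 5) := mul_le_mul_of_nonneg_left hn2 ht
    linarith
  have him : |(w - wt).im| ≤ ‖w - wt‖ := Complex.abs_im_le_norm _
  rw [Complex.sub_im] at him
  have him2 := (abs_le.mp him).1
  have hwim : (1 - t) / 4 + t * (1 + ‖x.1‖ ^ 2) - 1 / 100 < w.im := by
    rw [hwt_im, hi] at him2
    linarith
  have hwim2 : 1 / 4 - 1 / 100 < w.im := by
    have h2 : 0 ≤ t * ‖x.1‖ ^ 2 := by positivity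
    have h3 : t * (1 + ‖x.1‖ ^ 2) = t + t * ‖x.1‖ ^ 2 := by ring
    rw [h3] at hwim
    linarith
  have hwn : ‖w‖ ≤ 161 / 100 := by
    have : ‖w‖ ≤ ‖w - wt‖ + ‖wt‖ := by
      have := norm_add_le (w - wt) wt
      simpa using this
    linarith
  have hwn1 : 1 / 10 ≤ ‖w‖ := by
    have := (le_abs_self _).trans (Complex.abs_im_le_norm w)
    linarith
  have ha : 1 / 2 ≤ ‖aF e w‖ := aF_far h.he h.he1 (by linarith) hwn1
  have hd := cb_decomp h ha (by linarith)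
  have hc := cb_ratio hi
  set c : ℂ := x.1 / x.2 ^ 2 with hcdef
  have h3 : ‖w ^ 2 * c - wt ^ 2 * c‖ ≤ 11 / 1000 := by
    have h4 : w ^ 2 * c - wt ^ 2 * c = (w - wt) * (w + wt) * c := by ring
    rw [h4, norm_mul, norm_mul]
    have h5 : ‖w + wt‖ ≤ 321 / 100 := (norm_add_le _ _).trans (by linarith)
    have h6 : ‖w - wt‖ * ‖w + wt‖ ≤ 1 / 100 * (321 / 100) :=
      mul_le_mul h1.le h5 (norm_nonneg _) (by norm_num)
    have h7 := mul_le_mul h6 hc (norm_nonneg _) (by norm_num)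
    exact h7.trans (by norm_num)
  have h8 : ‖zF e B x w‖ ≤ ‖wt ^ 2 * c‖ + 1 / 50 := by
    have h9 : zF e B x w = (zF e B x w - w ^ 2 * c) + (w ^ 2 * c - wt ^ 2 * c) + wt ^ 2 * c := by
      ring
    rw [h9]
    refine (norm_add₃_le).trans ?_
    linarith
  have hu0 : 0 ≤ t + (1 - t) / 4 := by linarith
  have hu1 : t + (1 - t) / 4 ≤ 1 := by linarith
  have h10 : ‖wt ^ 2 * c‖ ≤ (t + (1 - t) / 4) ^ 2 * ‖x.1‖ := by
    rw [hcdef, norm_mul, norm_pow, norm_div, norm_pow, mul_div_assoc', div_le_iff₀ (by positivity)]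
    exact cb_norm ht ht1 hn1 hr0 (norm_nonneg _) hwt_norm
  have h13 := cb_sq hu0 hu1 hr0 hr (norm_nonneg (zF e B x w)) (by linarith)
  have he10 : e ^ 10 ≤ 1 / 1000 := by
    have h19 : e ^ 10 ≤ (1 / 1000) ^ 10 := pow_le_pow_left₀ h.he.le h.he1 10
    exact h19.trans (by norm_num)
  have hfin : ‖zF e B x w‖ ^ 2 < w.im - e ^ 10 := cb_fin ht1 ht hr2 he10 hwim h13
  refine ⟨by linarith, ?_⟩
  have ha0 : aF e w ≠ 0 := by
    intro h0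
    rw [h0, norm_zero] at ha
    linarith
  have h21 : ((e / 1000 : ℝ) : ℂ) + aF e w * qF (A1 e x) B x.2 w = aF e w * zF e B x w := by
    unfold zF
    field_simp
  rw [h21, norm_mul, mul_pow]
  exact mul_lt_mul_of_pos_left hfin (by positivity)

/-- near `w_x` the curve stays at height `≥ 1/2` -/
theorem near_x {e B : ℝ} {x : ℂ × ℂ} (h : Adm e B x) {w : ℂ} (h1 : ‖w - x.2‖ ≤ 1 / 50) :
    1 / 2 ≤ rho (zF e B x w, w) := by
  obtain ⟨hi1, hi2, hn1, hn2, hA, hA2⟩ := adm_basic h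
  have hi : x.2.im = 1 + ‖x.1‖ ^ 2 := by
    have := h.hρ
    unfold rho at this
    linarith
  have hr0 : 0 ≤ ‖x.1‖ := norm_nonneg _
  have hr2 := h.hz
  have hr : ‖x.1‖ ≤ 18 / 25 := by nlinarith
  have him : |(w - x.2).im| ≤ ‖w - x.2‖ := Complex.abs_im_le_norm _
  rw [Complex.sub_im] at him
  have him2 := (abs_le.mp him).1
  have hwn : ‖w‖ ≤ 162 / 100 := by
    have : ‖w‖ ≤ ‖w - x.2‖ + ‖x.2‖ := by
      have := norm_add_le (w - x.2) x.2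
      simpa using this
    linarith
  have hwn1 : 1 / 10 ≤ ‖w‖ := by
    have := (le_abs_self _).trans (Complex.abs_im_le_norm w)
    linarith
  have ha : 1 / 2 ≤ ‖aF e w‖ := aF_far h.he h.he1 (by linarith) hwn1
  have hd := cb_decomp h ha (by linarith)
  have hc := cb_ratio hi
  have hx0 : x.2 ≠ 0 := by
    intro h0
    rw [h0, norm_zero] at hn1
    linarith
  have h3 : ‖w ^ 2 * (x.1 / x.2 ^ 2) - x.1‖ ≤ 22 / 1000 := by
    have h4 : w ^ 2 * (x.1 / x.2 ^ 2) - x.1 = (w - x.2) * (w + x.2) * (x.1 / x.2 ^ 2) := by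
      field_simp
      ring
    rw [h4, norm_mul, norm_mul]
    have h5 : ‖w + x.2‖ ≤ 322 / 100 := (norm_add_le _ _).trans (by linarith)
    have h6 : ‖w - x.2‖ * ‖w + x.2‖ ≤ 1 / 50 * (322 / 100) :=
      mul_le_mul h1 h5 (norm_nonneg _) (by norm_num)
    have h7 := mul_le_mul h6 hc (norm_nonneg _) (by norm_num)
    exact h7.trans (by norm_num)
  have h8 : ‖zF e B x w‖ ≤ ‖x.1‖ + 31 / 1000 := by
    have h9 : zF e B x w = (zF e B x w - w ^ 2 * (x.1 / x.2 ^ 2)) +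
        (w ^ 2 * (x.1 / x.2 ^ 2) - x.1) + x.1 := by
      ring
    rw [h9]
    refine (norm_add₃_le).trans ?_
    linarith
  have h10 : ‖zF e B x w‖ ^ 2 ≤ (‖x.1‖ + 31 / 1000) ^ 2 :=
    pow_le_pow_left₀ (norm_nonneg _) h8 2
  unfold rho
  simp only
  linarith

end

end P250
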