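import Mathlib.Algebra.Ring.IsFormallyReal
import Vale.Agent.Lib.P250.ChartsA
import Vale.Agent.Lib.P250.CurveB

/-! # P250 module O2: choosing the parameter `B` so that the curve avoids the other lattice points -/

open Complex Metric Set

namespace P250

/-- the location of the lattice point `b` on the boundary -/
private noncomputable def avWb (b : ℤ × ℤ × ℤ) : ℂ :=
  ((b.2.2 : ℝ) : ℂ) + ((‖ga b‖ ^ 2 : ℝ) : ℂ) * I

private theorem avWb_re (b : ℤ × ℤ × ℤ) : (avWb b).re = (b.2.2 : ℝ) := by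
  unfold avWb
  rw [Complex.add_re, Complex.ofReal_re, Complex.re_ofReal_mul, Complex.I_re]
  ring

private theorem avWb_im (b : ℤ × ℤ × ℤ) : (avWb b).im = ‖ga b‖ ^ 2 := by
  unfold avWb
  rw [Complex.add_im, Complex.ofReal_im, Complex.im_ofReal_mul, Complex.I_im]
  ring

private theorem av_ga_re (b : ℤ × ℤ × ℤ) : (ga b).re = (b.1 : ℝ) := by
  simp [ga]

private theorem av_ga_im (b : ℤ × ℤ × ℤ) : (ga b).im = (b.2.1 : ℝ) := by
  simp [ga]

private theorem av_ga_sq (b : ℤ × ℤ × ℤ) : ‖ga b‖ ^ 2 = (b.1 : ℝ) ^ 2 + (b.2.1 : ℝ) ^ 2 := by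
  rw [← Complex.normSq_eq_norm_sq, Complex.normSq_apply, av_ga_re, av_ga_im]
  ring

/-- nonzero lattice points are far from the origin -/
private theorem avWb_norm {b : ℤ × ℤ × ℤ} (hb : b ≠ 0) : 1 ≤ ‖avWb b‖ := by
  by_cases hτ : b.2.2 = 0
  · have h1 : 1 ≤ b.1 ^ 2 + b.2.1 ^ 2 := by
      by_contra hc
      push Not at hc
      have h2 : b.1 ^ 2 = 0 := by
        have := sq_nonneg b.1
        have := sq_nonneg b.2.1
        omega
      have h3 : b.2.1 ^ 2 = 0 := by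
        have := sq_nonneg b.1
        have := sq_nonneg b.2.1
        omega
      apply hb
      refine Prod.ext ?_ (Prod.ext ?_ hτ)
      · simpa using h2
      · simpa using h3
    have h2 : (1 : ℝ) ≤ (b.1 : ℝ) ^ 2 + (b.2.1 : ℝ) ^ 2 := by exact_mod_cast h1
    have h3 := Complex.abs_im_le_norm (avWb b)
    rw [avWb_im, av_ga_sq] at h3
    exact (h2.trans (le_abs_self _)).trans h3
  · have h1 : 1 ≤ |b.2.2| := Int.one_le_abs hτ
    have h2 : (1 : ℝ) ≤ |(b.2.2 : ℝ)| := by exact_mod_cast h1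
    have h3 := Complex.abs_re_le_norm (avWb b)
    rw [avWb_re] at h3
    exact h2.trans h3

private theorem av_identity (b : ℤ × ℤ × ℤ) (z w : ℂ) :
    w - avWb b = chW b (z, w) + 2 * I * (starRingEnd ℂ (ga b)) * (z - ga b) := by
  have h : (((‖ga b‖ ^ 2 : ℝ)) : ℂ) = starRingEnd ℂ (ga b) * ga b := by
    rw [← Complex.normSq_eq_norm_sq, Complex.normSq_eq_conj_mul_self]
  unfold avWb chW
  rw [h]
  push_cast
  ring

private theorem av_q_sub (A wx u v : ℂ) (B : ℝ) :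
    qF A B wx u - qF A B wx v =
      (u - v) * ((u + v) * (A - B * wx) + B * (u ^ 2 + u * v + v ^ 2)) := by
  unfold qF
  ring

private theorem av_q_param (A wx u : ℂ) (B B' : ℝ) :
    qF A B wx u - qF A B' wx u = ((B - B' : ℝ) : ℂ) * u ^ 2 * (u - wx) := by
  unfold qF
  push_cast
  ring

private theorem av_q_lip {A wx u v : ℂ} {B : ℝ} (hA : ‖A‖ ≤ 3 / 4) (hwx : ‖wx‖ ≤ 8 / 5)
    (hB0 : 0 ≤ B) (hB : B ≤ 1 / 1000) (hu : ‖u‖ ≤ 4001) (hv : ‖v‖ ≤ 4001) :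
    ‖qF A B wx u - qF A B wx v‖ ≤ ‖u - v‖ * 60000 := by
  rw [av_q_sub, norm_mul]
  apply mul_le_mul_of_nonneg_left _ (norm_nonneg _)
  have hBn : ‖(B : ℂ)‖ = B := by rw [Complex.norm_real, Real.norm_of_nonneg hB0]
  have h1 : ‖A - B * wx‖ ≤ 1 := by
    calc ‖A - B * wx‖ ≤ ‖A‖ + ‖(B : ℂ) * wx‖ := norm_sub_le _ _
      _ = ‖A‖ + B * ‖wx‖ := by rw [norm_mul, hBn]
      _ ≤ 3 / 4 + (1 / 1000) * (8 / 5) := by
          apply add_le_add hA
          exact mul_le_mul hB hwx (norm_nonneg _) (by norm_num)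
      _ ≤ 1 := by norm_num
  have h2 : ‖(u + v) * (A - B * wx)‖ ≤ 8002 * 1 := by
    rw [norm_mul]
    apply mul_le_mul _ h1 (norm_nonneg _) (by norm_num)
    have := norm_add_le u v
    linarith
  have h3 : ‖u ^ 2 + u * v + v ^ 2‖ ≤ 3 * 4001 ^ 2 := by
    have e1 : ‖u ^ 2‖ ≤ 4001 ^ 2 := by
      rw [norm_pow]
      exact pow_le_pow_left₀ (norm_nonneg _) hu 2
    have e2 : ‖v ^ 2‖ ≤ 4001 ^ 2 := by
      rw [norm_pow]
      exact pow_le_pow_left₀ (norm_nonneg _) hv 2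
    have e3 : ‖u * v‖ ≤ 4001 ^ 2 := by
      rw [norm_mul, sq]
      exact mul_le_mul hu hv (norm_nonneg _) (by norm_num)
    have e4 := norm_add₃_le (a := u ^ 2) (b := u * v) (c := v ^ 2)
    linarith
  have h4 : ‖(B : ℂ) * (u ^ 2 + u * v + v ^ 2)‖ ≤ (1 / 1000) * (3 * 4001 ^ 2) := by
    rw [norm_mul, hBn]
    exact mul_le_mul hB h3 (norm_nonneg _) (by norm_num)
  calc ‖(u + v) * (A - B * wx) + B * (u ^ 2 + u * v + v ^ 2)‖
      ≤ ‖(u + v) * (A - B * wx)‖ + ‖(B : ℂ) * (u ^ 2 + u * v + v ^ 2)‖ := norm_add_le _ _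
    _ ≤ 8002 * 1 + (1 / 1000) * (3 * 4001 ^ 2) := add_le_add h2 h4
    _ ≤ 60000 := by norm_num

/-- consequences of a bad pair -/
private theorem av_bad {e B : ℝ} {x : ℂ × ℂ} (h : Adm e B x) (he : Real.sqrt e ≤ 1 / 20000)
    {w : ℂ} (hw : w ∈ OmC e B x) {b : ℤ × ℤ × ℤ} (hb : b ≠ 0)
    (hbad : ‖chW b (zF e B x w, w)‖ < e) :
    (|b.1| ≤ 65 ∧ |b.2.1| ≤ 65 ∧ |b.2.2| ≤ 4001) ∧ 1 / 100 ≤ ‖avWb b - x.2‖ ∧
    ‖qF (A1 e x) B x.2 (avWb b) - ga b‖ ≤ 10000000 * Real.sqrt e := by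
  have he0 := h.he
  have hs0 : 0 ≤ Real.sqrt e := Real.sqrt_nonneg e
  have hss : Real.sqrt e * Real.sqrt e = e := Real.mul_self_sqrt he0.le
  have hes : e ≤ Real.sqrt e := by
    nlinarith
  obtain ⟨haF, hz2, hρ⟩ := mem_OmC h hw
  have hwn := OmC_bounded h hw
  have h10 : 0 < e ^ 10 := by positivity
  set z : ℂ := zF e B x w with hzdef
  have hzn : ‖z‖ ≤ 64 := by
    have h1 : w.im ≤ ‖w‖ := (le_abs_self _).trans (Complex.abs_im_le_norm w)
    have h2 : ‖z‖ ^ 2 ≤ 64 ^ 2 := by linarith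
    exact le_of_sq_le_sq h2 (by norm_num)
  have him := chW_im b (z, w)
  have hWim : (chW b (z, w)).im < e :=
    lt_of_le_of_lt ((le_abs_self _).trans (Complex.abs_im_le_norm _)) hbad
  have hza2 : ‖z - ga b‖ ^ 2 ≤ e := by
    have h1 : chZ b (z, w) = z - ga b := rfl
    rw [h1] at him
    linarith
  have hρe : rho (z, w) < e := by
    have h1 : 0 ≤ ‖chZ b (z, w)‖ ^ 2 := by positivity
    linarith
  have hza : ‖z - ga b‖ ≤ Real.sqrt e := Real.le_sqrt_of_sq_le hza2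
  have hga : ‖ga b‖ ≤ 65 := by
    have h1 : ga b = z - (z - ga b) := by ring
    rw [h1]
    have h2 := norm_sub_le z (z - ga b)
    linarith
  have hwb : ‖w - avWb b‖ ≤ 131 * Real.sqrt e := by
    rw [av_identity b z w]
    have h1 : ‖2 * I * (starRingEnd ℂ (ga b)) * (z - ga b)‖ ≤ 2 * 65 * Real.sqrt e := by
      rw [norm_mul, norm_mul, norm_mul, Complex.norm_I, mul_one, RCLike.norm_conj,
        Complex.norm_ofNat]
      exact mul_le_mul (mul_le_mul_of_nonneg_left hga (by norm_num)) hza (norm_nonneg _)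
        (by norm_num)
    have h2 := norm_add_le (chW b (z, w)) (2 * I * (starRingEnd ℂ (ga b)) * (z - ga b))
    linarith
  have hwb1 : 131 * Real.sqrt e ≤ 131 / 20000 := by linarith
  have hwbn : ‖avWb b‖ ≤ 4001 := by
    have h1 : avWb b = w - (w - avWb b) := by ring
    rw [h1]
    have h2 := norm_sub_le w (w - avWb b)
    linarith
  have hwlow : 1 / 10 ≤ ‖w‖ := by
    have h1 : avWb b = w - (w - avWb b) := by ring
    have h2 := norm_sub_le w (w - avWb b)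
    rw [← h1] at h2
    have h3 := avWb_norm hb
    linarith
  refine ⟨⟨?_, ?_, ?_⟩, ?_, ?_⟩
  · have h1 := (Complex.abs_re_le_norm (ga b)).trans hga
    rw [av_ga_re] at h1
    exact_mod_cast h1
  · have h1 := (Complex.abs_im_le_norm (ga b)).trans hga
    rw [av_ga_im] at h1
    exact_mod_cast h1
  · have h1 := (Complex.abs_re_le_norm (avWb b)).trans hwbn
    rw [avWb_re] at h1
    exact_mod_cast h1
  · have h1 : 1 / 50 < ‖w - x.2‖ := by
      by_contra hc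
      push Not at hc
      have h2 := near_x h hc
      have h3 := h.he1
      rw [← hzdef] at h2
      linarith
    have h2 : w - x.2 = (w - avWb b) + (avWb b - x.2) := by ring
    have h3 := norm_add_le (w - avWb b) (avWb b - x.2)
    rw [← h2] at h3
    linarith
  · obtain ⟨-, -, -, hxn, hA1, -⟩ := adm_basic h
    have haFn := aF_far he0 h.he1 hw.1.le hwlow
    have h1 : qF (A1 e x) B x.2 w - ga b = (z - ga b) - ((e / 1000 : ℝ) : ℂ) / aF e w := by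
      rw [hzdef]
      unfold zF
      ring
    have h2 : ‖((e / 1000 : ℝ) : ℂ) / aF e w‖ ≤ e / 500 := by
      rw [norm_div, Complex.norm_real, Real.norm_of_nonneg (by positivity),
        div_le_iff₀ (by linarith)]
      nlinarith
    have h3 : ‖qF (A1 e x) B x.2 w - ga b‖ ≤ 2 * Real.sqrt e := by
      rw [h1]
      have h4 := norm_sub_le (z - ga b) (((e / 1000 : ℝ) : ℂ) / aF e w)
      linarith
    have hB0 : 0 ≤ B := by
      have := h.hB
      linarith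
    have h4 := av_q_lip (u := avWb b) (v := w) hA1 hxn hB0 h.hB1 hwbn (by linarith)
    have h5 : ‖avWb b - w‖ ≤ 131 * Real.sqrt e := by
      rw [norm_sub_rev]
      exact hwb
    have h6 : qF (A1 e x) B x.2 (avWb b) - ga b =
        (qF (A1 e x) B x.2 (avWb b) - qF (A1 e x) B x.2 w) +
          (qF (A1 e x) B x.2 w - ga b) := by ring
    rw [h6]
    have h7 := norm_add_le (qF (A1 e x) B x.2 (avWb b) - qF (A1 e x) B x.2 w)
      (qF (A1 e x) B x.2 w - ga b)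
    linarith

/-- two bad parameters for the same lattice point are close -/
private theorem av_two {e B B' : ℝ} {x : ℂ × ℂ} {b : ℤ × ℤ × ℤ} (hb : b ≠ 0)
    (hfar : 1 / 100 ≤ ‖avWb b - x.2‖)
    (h1 : ‖qF (A1 e x) B x.2 (avWb b) - ga b‖ ≤ 10000000 * Real.sqrt e)
    (h2 : ‖qF (A1 e x) B' x.2 (avWb b) - ga b‖ ≤ 10000000 * Real.sqrt e) :
    |B - B'| ≤ 2000000000 * Real.sqrt e := by
  have h3 : ‖qF (A1 e x) B x.2 (avWb b) - qF (A1 e x) B' x.2 (avWb b)‖ ≤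
      20000000 * Real.sqrt e := by
    have h4 : qF (A1 e x) B x.2 (avWb b) - qF (A1 e x) B' x.2 (avWb b) =
        (qF (A1 e x) B x.2 (avWb b) - ga b) - (qF (A1 e x) B' x.2 (avWb b) - ga b) := by ring
    rw [h4]
    have h5 := norm_sub_le (qF (A1 e x) B x.2 (avWb b) - ga b)
      (qF (A1 e x) B' x.2 (avWb b) - ga b)
    linarith
  rw [av_q_param, norm_mul, norm_mul, norm_pow, Complex.norm_real, Real.norm_eq_abs] at h3
  have h4 : (1 : ℝ) ≤ ‖avWb b‖ ^ 2 := by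
    have := avWb_norm hb
    nlinarith
  have h5 : |B - B'| * 1 * (1 / 100) ≤ |B - B'| * ‖avWb b‖ ^ 2 * ‖avWb b - x.2‖ :=
    mul_le_mul (mul_le_mul_of_nonneg_left h4 (abs_nonneg _)) hfar (by norm_num) (by positivity)
  linarith

/-- the finite set of dangerous lattice points -/
private theorem av_set (M N : ℤ) : ∃ S : Finset (ℤ × ℤ × ℤ), ∀ b : ℤ × ℤ × ℤ,
    |b.1| ≤ M ∧ |b.2.1| ≤ M ∧ |b.2.2| ≤ N → b ∈ S := by
  refine ⟨Finset.Icc (-M) M ×ˢ (Finset.Icc (-M) M ×ˢ Finset.Icc (-N) N), ?_⟩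
  rintro b ⟨h1, h2, h3⟩
  rw [abs_le] at h1 h2 h3
  rw [Finset.mem_product, Finset.mem_product, Finset.mem_Icc, Finset.mem_Icc, Finset.mem_Icc]
  exact ⟨h1, h2, h3⟩

/-- Pigeonhole. Let `S` be the finite set of lattice points with `|m|,|n| ≤ 65`, `|τ| ≤ 4001`.
If the curve with parameter `B` comes `e`-close to `b ≠ 0` at `w ∈ OmC` then `b ∈ S`,
`|zF w - a| < √e`, `|w - w_b| ≤ 131 √e` (`w_b = τ + i|a|²`), `|w_b - w_x| ≥ 1/100` (`near_x`), hence
`|qF (w_b) - a| ≤ C √e` and two such parameters `B, B'` for the same `b` satisfy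
`|B - B'| |w_b|² |w_b - w_x| ≤ 2 C √e`, so `|B - B'| ≤ 200 C √e`. Take `|S| + 1` equally spaced
candidates in `[1/2000, 1/1000]`. -/
theorem exists_avoid : ∃ e1 : ℝ, 0 < e1 ∧ e1 ≤ 1 / 1000 ∧ ∀ e : ℝ, 0 < e → e ≤ e1 →
    ∀ x : ℂ × ℂ, rho x = 1 → ‖x.1‖ ^ 2 ≤ 1 / 2 → |x.2.re| ≤ 1 / 2 →
    ∃ B : ℝ, Adm e B x ∧ ∀ w ∈ OmC e B x, ∀ b : ℤ × ℤ × ℤ, b ≠ 0 →
      e ≤ ‖chW b (zF e B x w, w)‖ := by
  obtain ⟨S, hS⟩ := av_set 65 4001
  obtain ⟨K, hK⟩ : ∃ K : ℕ, K = S.card + 1 := ⟨_, rfl⟩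
  have hK1 : (1 : ℝ) ≤ (K : ℝ) := by
    have : 1 ≤ K := by omega
    exact_mod_cast this
  have hK0 : (0 : ℝ) < (K : ℝ) := by linarith
  -- the bound for `√e`
  obtain ⟨η, hη⟩ : ∃ η : ℝ, η = 1 / (8000000000000 * (K : ℝ)) := ⟨_, rfl⟩
  have hη0 : 0 < η := by rw [hη]; positivity
  have hη1 : η ≤ 1 / 8000000000000 := by
    rw [hη]
    apply one_div_le_one_div_of_le (by norm_num)
    linarith
  have hηK : 2000000000 * η < 1 / (2000 * (K : ℝ)) := by
    rw [hη, lt_div_iff₀ (by positivity)]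
    have : 2000000000 * (1 / (8000000000000 * (K : ℝ))) * (2000 * (K : ℝ)) = 1 / 2 := by
      field_simp
      norm_num
    rw [this]
    norm_num
  refine ⟨η ^ 2, by positivity, ?_, ?_⟩
  · have : η ^ 2 ≤ η := by nlinarith
    linarith
  intro e he he1 x hρ hz hx
  have hse : Real.sqrt e ≤ η := Real.sqrt_le_iff.mpr ⟨hη0.le, he1⟩
  have hse1 : Real.sqrt e ≤ 1 / 20000 := by linarith
  have hee : e ≤ 1 / 1000 := by
    have : η ^ 2 ≤ η := by nlinarith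
    linarith
  by_contra hcon
  push Not at hcon
  -- the candidates
  have hadm : ∀ i : ℕ, i ≤ K → Adm e (1 / 2000 + (i : ℝ) / (2000 * (K : ℝ))) x := by
    intro i hi
    have hi' : (i : ℝ) ≤ (K : ℝ) := by exact_mod_cast hi
    have h1 : (i : ℝ) / (2000 * (K : ℝ)) ≤ 1 / 2000 := by
      rw [div_le_div_iff₀ (by positivity) (by norm_num)]
      linarith
    have h2 : 0 ≤ (i : ℝ) / (2000 * (K : ℝ)) := by positivity
    exact ⟨he, hee, by linarith, by linarith, hρ, hz, hx⟩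
  have hbad : ∀ i : ℕ, ∃ b : ℤ × ℤ × ℤ, i ≤ K → b ≠ 0 ∧ b ∈ S ∧
      1 / 100 ≤ ‖avWb b - x.2‖ ∧
      ‖qF (A1 e x) (1 / 2000 + (i : ℝ) / (2000 * (K : ℝ))) x.2 (avWb b) - ga b‖ ≤
        10000000 * Real.sqrt e := by
    intro i
    by_cases hi : i ≤ K
    · obtain ⟨w, hw, b, hb, hlt⟩ := hcon _ (hadm i hi)
      obtain ⟨h1, h2, h3⟩ := av_bad (hadm i hi) hse1 hw hb hlt
      exact ⟨b, fun _ => ⟨hb, hS b h1, h2, h3⟩⟩
    · exact ⟨0, fun h => absurd h hi⟩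
  choose f hf using hbad
  obtain ⟨i, hi, j, hj, hij, hfij⟩ :=
    Finset.exists_ne_map_eq_of_card_lt_of_maps_to (s := Finset.range K) (t := S) (f := f)
      (by rw [Finset.card_range]; omega)
      (fun i hi => (hf i (Finset.mem_range.mp hi).le).2.1)
  obtain ⟨hb1, -, hb2, hb3⟩ := hf i (Finset.mem_range.mp hi).le
  obtain ⟨-, -, -, hb4⟩ := hf j (Finset.mem_range.mp hj).le
  rw [← hfij] at hb4
  have h1 := av_two hb1 hb2 hb3 hb4
  have h2 : |(1 / 2000 + (i : ℝ) / (2000 * (K : ℝ))) - (1 / 2000 + (j : ℝ) / (2000 * (K : ℝ)))| =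
      |(i : ℝ) - (j : ℝ)| / (2000 * (K : ℝ)) := by
    have h3 : (1 / 2000 + (i : ℝ) / (2000 * (K : ℝ))) - (1 / 2000 + (j : ℝ) / (2000 * (K : ℝ))) =
        ((i : ℝ) - (j : ℝ)) / (2000 * (K : ℝ)) := by ring
    rw [h3, abs_div, abs_of_pos (show (0 : ℝ) < 2000 * (K : ℝ) by positivity)]
  have h3 : (1 : ℝ) ≤ |(i : ℝ) - (j : ℝ)| := by
    have h4 : (1 : ℤ) ≤ |(i : ℤ) - (j : ℤ)| := by
      apply Int.one_le_abs
      intro h5
      apply hij
      omega
    exact_mod_cast h4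
  rw [h2] at h1
  have h4 : 1 / (2000 * (K : ℝ)) ≤ |(i : ℝ) - (j : ℝ)| / (2000 * (K : ℝ)) := by
    apply div_le_div_of_nonneg_right h3 (by positivity)
  have h5 : 2000000000 * Real.sqrt e ≤ 2000000000 * η := by linarith
  linarith

end P250
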