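import Mathlib.Order.CompletePartialOrder
import Vale.Agent.Lib.P250.PotA

/-! # P250 module G4b: pull back of potential metrics -/

open scoped ContDiff
open Complex Set

namespace P250

variable {E : Type*} [NormedAddCommGroup E] [NormedSpace ℂ E] [FiniteDimensional ℂ E]
variable {E' : Type*} [NormedAddCommGroup E'] [NormedSpace ℂ E'] [FiniteDimensional ℂ E']

private theorem potB_two_le : (2 : WithTop ℕ∞) ≤ ∞ := WithTop.coe_le_coe.2 le_top

omit [FiniteDimensional ℂ E] [FiniteDimensional ℂ E'] in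
/-- second derivative of a composition -/
private theorem potB_second_comp {Φ : E → ℝ} {F : E' → E} {p : E'}
    (hΦ : ContDiffAt ℝ 2 Φ (F p)) (hF : ContDiffAt ℝ 2 F p) (u v : E') :
    fderiv ℝ (fderiv ℝ (fun q => Φ (F q))) p u v
      = fderiv ℝ (fderiv ℝ Φ) (F p) (fderiv ℝ F p u) (fderiv ℝ F p v)
        + fderiv ℝ Φ (F p) (fderiv ℝ (fderiv ℝ F) p u v) := by
  have h1 : ∀ᶠ y in nhds (F p), DifferentiableAt ℝ Φ y := by
    filter_upwards [hΦ.eventually (by simp)] with y hy
    exact hy.differentiableAt (by simp)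
  have h2 : ∀ᶠ q in nhds p, DifferentiableAt ℝ F q := by
    filter_upwards [hF.eventually (by simp)] with y hy
    exact hy.differentiableAt (by simp)
  have h3 : ∀ᶠ q in nhds p, DifferentiableAt ℝ Φ (F q) := hF.continuousAt.eventually h1
  have h4 : fderiv ℝ (fun q => Φ (F q)) =ᶠ[nhds p]
      fun q => (fderiv ℝ Φ (F q)).comp (fderiv ℝ F q) := by
    filter_upwards [h2, h3] with q hq2 hq3
    exact fderiv_comp q hq3 hq2
  have h5 : HasFDerivAt (fderiv ℝ Φ) (fderiv ℝ (fderiv ℝ Φ) (F p)) (F p) := by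
    have : ContDiffAt ℝ 1 (fderiv ℝ Φ) (F p) := hΦ.fderiv_right (by norm_num)
    exact (this.differentiableAt (by simp)).hasFDerivAt
  have h6 : HasFDerivAt (fderiv ℝ F) (fderiv ℝ (fderiv ℝ F) p) p := by
    have : ContDiffAt ℝ 1 (fderiv ℝ F) p := hF.fderiv_right (by norm_num)
    exact (this.differentiableAt (by simp)).hasFDerivAt
  have h7 : HasFDerivAt F (fderiv ℝ F p) p := h2.self_of_nhds.hasFDerivAt
  have h8 := (h5.comp p h7).clm_comp h6
  rw [h4.fderiv_eq]
  have h9 := h8.fderiv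
  simp only [Function.comp_def] at h9
  rw [h9]
  simp only [_root_.add_apply, ContinuousLinearMap.comp_apply,
    ContinuousLinearMap.compL_apply, ContinuousLinearMap.flip_apply]
  rw [add_comm]

omit [FiniteDimensional ℂ E] [FiniteDimensional ℂ E'] in
/-- second derivative of a holomorphic map -/
private theorem potB_second_holo {F : E' → E} {p : E'} {M' : Set E'} (hM' : IsOpen M')
    (hF : ContDiffOn ℂ ∞ F M') (hp : p ∈ M') (u v : E') :
    fderiv ℝ (fderiv ℝ F) p (I • u) (I • v) = - fderiv ℝ (fderiv ℝ F) p u v := by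
  have hR : ContDiffAt ℝ 2 F p := by
    have h1 : ContDiffOn ℝ ∞ F M' := hF.restrict_scalars ℝ
    exact (h1.contDiffAt (hM'.mem_nhds hp)).of_le potB_two_le
  have h6 : HasFDerivAt (fderiv ℝ F) (fderiv ℝ (fderiv ℝ F) p) p := by
    have : ContDiffAt ℝ 1 (fderiv ℝ F) p := hR.fderiv_right (by norm_num)
    exact (this.differentiableAt (by simp)).hasFDerivAt
  have hlin : ∀ v : E', ∀ᶠ q in nhds p, fderiv ℝ F q (I • v) = I • fderiv ℝ F q v := by
    intro v
    filter_upwards [hM'.mem_nhds hp] with q hq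
    have h2 : DifferentiableAt ℂ F q :=
      (hF.contDiffAt (hM'.mem_nhds hq)).differentiableAt (by simp)
    rw [h2.fderiv_restrictScalars ℝ]
    simp
  have happ : ∀ v : E', HasFDerivAt (fun q => fderiv ℝ F q v)
      ((fderiv ℝ (fderiv ℝ F) p).flip v) p := by
    intro v
    have h7 := h6.clm_apply (hasFDerivAt_const v p)
    simpa using h7
  have hA : ∀ u v : E', fderiv ℝ (fderiv ℝ F) p u (I • v)
      = I • fderiv ℝ (fderiv ℝ F) p u v := by
    intro u v
    have h8 := happ (I • v)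
    have h9 := ((happ v).const_smul I).congr_of_eventuallyEq (hlin v)
    have h10 := h8.unique h9
    have h11 := DFunLike.congr_fun h10 u
    simpa using h11
  have hS : ∀ u v : E', fderiv ℝ (fderiv ℝ F) p u v = fderiv ℝ (fderiv ℝ F) p v u := by
    intro u v
    exact (hR.isSymmSndFDerivAt (by simp)).eq u v
  rw [hA, hS (I • u) v, hA, smul_smul, I_mul_I, hS v u]
  simp

/-- Pull back under a holomorphic map. -/
theorem potMetric_comp {M : Set E} {M' : Set E'} (hM : IsOpen M) (hM' : IsOpen M')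
    {Φ : E → ℝ} (hΦ : ContDiffOn ℝ ∞ Φ M) {F : E' → E} (hF : ContDiffOn ℂ ∞ F M')
    (hmap : MapsTo F M' M) {p : E'} (hp : p ∈ M') (u v : E') :
    potMetric (fun q => Φ (F q)) p u v = potMetric Φ (F p) (fderiv ℝ F p u) (fderiv ℝ F p v) := by
  have hR : ContDiffAt ℝ 2 F p := by
    have h1 : ContDiffOn ℝ ∞ F M' := hF.restrict_scalars ℝ
    exact (h1.contDiffAt (hM'.mem_nhds hp)).of_le potB_two_le
  have hP : ContDiffAt ℝ 2 Φ (F p) :=
    (hΦ.contDiffAt (hM.mem_nhds (hmap hp))).of_le potB_two_le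
  have hlin : ∀ v : E', fderiv ℝ F p (I • v) = I • fderiv ℝ F p v := by
    intro v
    have h2 : DifferentiableAt ℂ F p :=
      (hF.contDiffAt (hM'.mem_nhds hp)).differentiableAt (by simp)
    rw [h2.fderiv_restrictScalars ℝ]
    simp
  rw [potMetric_apply, potMetric_apply, potB_second_comp hP hR, potB_second_comp hP hR,
    potB_second_holo hM' hF hp, hlin, hlin, map_neg]
  ring

omit [FiniteDimensional ℂ E] in
private theorem potB_second_re (z : ℂ) : fderiv ℝ (fderiv ℝ (fun w : ℂ => w.re)) z = 0 := by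
  have h : fderiv ℝ (fun w : ℂ => w.re) = fun _ => reCLM := by
    funext w
    exact reCLM.hasFDerivAt.fderiv
  rw [h]
  simp

/-- Pluriharmonic functions do not contribute. -/
theorem potMetric_add_re {M : Set E} (hM : IsOpen M) {Φ : E → ℝ} (hΦ : ContDiffOn ℝ ∞ Φ M)
    {k : E → ℂ} (hk : ContDiffOn ℂ ∞ k M) {p : E} (hp : p ∈ M) :
    potMetric (fun q => Φ q + (k q).re) p = potMetric Φ p := by
  have h1 : ∀ u v : E, potMetric (fun q => (k q).re) p u v = 0 := by
    intro u v
    have h2 := potMetric_comp (M := (univ : Set ℂ)) (M' := M) isOpen_univ hM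
      (Φ := fun w : ℂ => w.re) (reCLM.contDiff.contDiffOn) hk (mapsTo_univ _ _) hp u v
    rw [h2, potMetric_apply, potB_second_re]
    simp
  have hP : ContDiffOn ℝ 2 Φ M := hΦ.of_le potB_two_le
  have hK : ContDiffOn ℝ 2 (fun q => (k q).re) M := by
    have h3 : ContDiffOn ℝ ∞ k M := hk.restrict_scalars ℝ
    exact (reCLM.contDiff.comp_contDiffOn h3).of_le potB_two_le
  have h4 : fderiv ℝ (fun q => Φ q + (k q).re) =ᶠ[nhds p]
      fun q => fderiv ℝ Φ q + fderiv ℝ (fun q => (k q).re) q := by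
    filter_upwards [hM.mem_nhds hp] with q hq
    exact fderiv_fun_add
      ((hP.contDiffAt (hM.mem_nhds hq)).differentiableAt (by simp))
      ((hK.contDiffAt (hM.mem_nhds hq)).differentiableAt (by simp))
  have h5 : fderiv ℝ (fderiv ℝ (fun q => Φ q + (k q).re)) p
      = fderiv ℝ (fderiv ℝ Φ) p + fderiv ℝ (fderiv ℝ (fun q => (k q).re)) p := by
    rw [h4.fderiv_eq]
    have h6 : ContDiffAt ℝ 1 (fderiv ℝ Φ) p :=
      (hP.contDiffAt (hM.mem_nhds hp)).fderiv_right (by norm_num)
    have h7 : ContDiffAt ℝ 1 (fderiv ℝ (fun q => (k q).re)) p :=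
      (hK.contDiffAt (hM.mem_nhds hp)).fderiv_right (by norm_num)
    exact fderiv_fun_add (h6.differentiableAt (by simp)) (h7.differentiableAt (by simp))
  ext u v
  have h8 := h1 u v
  rw [potMetric_apply] at h8
  rw [potMetric_apply, potMetric_apply, h5]
  simp only [_root_.add_apply]
  linarith

end P250
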