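import Mathlib.Algebra.Lie.OfAssociative
import Vale.Agent.Lib.P250.BPA
import Vale.Agent.Lib.P250.BPB
import Vale.Agent.Lib.P250.PotB

/-! # P250 module G13c: phiL is plurisubharmonic -/

open scoped ContDiff
open Complex Metric Set

namespace P250

/-- `x ↦ (x, conj x)` -/
private noncomputable def bpcDiag : (ℂ × ℂ) →L[ℝ] (ℂ × ℂ) × (ℂ × ℂ) :=
  (ContinuousLinearMap.id ℝ (ℂ × ℂ)).prod
    (((Complex.conjCLE : ℂ ≃L[ℝ] ℂ).toContinuousLinearMap.comp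
      (ContinuousLinearMap.fst ℝ ℂ ℂ)).prod
      ((Complex.conjCLE : ℂ ≃L[ℝ] ℂ).toContinuousLinearMap.comp
      (ContinuousLinearMap.snd ℝ ℂ ℂ)))

private theorem bpcDiag_apply (x : ℂ × ℂ) : bpcDiag x = (x, cj x) := rfl

private theorem bpc_norm_cj (x : ℂ × ℂ) : ‖cj x‖ = ‖x‖ := by
  simp [cj, Prod.norm_def]

private theorem bpcDiag_mem {r0 : ℝ} {x : ℂ × ℂ} (hx : x ∈ ball (0 : ℂ × ℂ) r0) :
    bpcDiag x ∈ ball (0 : (ℂ × ℂ) × (ℂ × ℂ)) r0 := by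
  rw [mem_ball_zero_iff] at hx ⊢
  rw [bpcDiag_apply, Prod.norm_def, bpc_norm_cj, max_self]
  exact hx

/-- the derivative of `x ↦ Re fh (x, conj x)` as a function of the complex derivative of `fh` -/
private noncomputable def bpcPsi :
    ((ℂ × ℂ) × (ℂ × ℂ) →L[ℂ] ℂ) →L[ℝ] (ℂ × ℂ →L[ℝ] ℝ) :=
  (ContinuousLinearMap.compL ℝ (ℂ × ℂ) ℂ ℝ Complex.reCLM).comp
    (((ContinuousLinearMap.compL ℝ (ℂ × ℂ) ((ℂ × ℂ) × (ℂ × ℂ)) ℂ).flip bpcDiag).comp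
      (ContinuousLinearMap.restrictScalarsL ℂ ((ℂ × ℂ) × (ℂ × ℂ)) ℂ ℝ ℝ))

private theorem bpcPsi_apply (T : (ℂ × ℂ) × (ℂ × ℂ) →L[ℂ] ℂ) (v : ℂ × ℂ) :
    bpcPsi T v = (T (bpcDiag v)).re := rfl

private theorem bpc_smooth {fh : (ℂ × ℂ) × (ℂ × ℂ) → ℂ} {r0 : ℝ}
    (hf : ContDiffOn ℂ ∞ fh (ball 0 r0)) :
    ContDiffOn ℝ ∞ (fun x : ℂ × ℂ => (fh (x, cj x)).re) (ball 0 r0) := by
  have h1 : ContDiffOn ℝ ∞ fh (ball 0 r0) := hf.restrict_scalars ℝ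
  have h2 : ContDiffOn ℝ ∞ (fun x : ℂ × ℂ => fh (bpcDiag x)) (ball 0 r0) :=
    h1.comp bpcDiag.contDiff.contDiffOn fun x hx => bpcDiag_mem hx
  exact Complex.reCLM.contDiff.comp_contDiffOn h2

private theorem bpc_levi {fh : (ℂ × ℂ) × (ℂ × ℂ) → ℂ} {r0 : ℝ} (hr0 : 0 < r0)
    (hf : ContDiffOn ℂ ∞ fh (ball 0 r0)) (u : ℂ × ℂ) :
    potMetric (fun x : ℂ × ℂ => (fh (x, cj x)).re) 0 u u =
      (dd (dd fh (0, cj u)) (u, 0) 0).re := by
  have h0 : (0 : (ℂ × ℂ) × (ℂ × ℂ)) ∈ ball (0 : (ℂ × ℂ) × (ℂ × ℂ)) r0 := mem_ball_self hr0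
  have hc0 : ContDiffAt ℂ ∞ fh 0 := hf.contDiffAt (isOpen_ball.mem_nhds h0)
  have hA' : HasFDerivAt (fderiv ℂ fh) (fderiv ℂ (fderiv ℂ fh) 0) 0 := by
    have h1 : ContDiffAt ℂ 1 (fderiv ℂ fh) 0 := by
      refine hc0.fderiv_right (m := 1) ?_
      exact WithTop.coe_le_coe.2 le_top
    exact (h1.differentiableAt one_ne_zero).hasFDerivAt
  have hsymm : IsSymmSndFDerivAt ℂ fh 0 := by
    refine hc0.isSymmSndFDerivAt ?_
    rw [minSmoothness_of_isRCLikeNormedField]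
    exact WithTop.coe_le_coe.2 le_top
  obtain ⟨A', hA'e⟩ : ∃ A' , A' = fderiv ℂ (fderiv ℂ fh) 0 := ⟨_, rfl⟩
  rw [← hA'e] at hA'
  -- the first derivative
  have h1 : ∀ x ∈ ball (0 : ℂ × ℂ) r0, fderiv ℝ (fun x : ℂ × ℂ => (fh (x, cj x)).re) x =
      bpcPsi (fderiv ℂ fh (bpcDiag x)) := by
    intro x hx
    have h2 : HasFDerivAt fh (fderiv ℂ fh (bpcDiag x)) (bpcDiag x) :=
      ((hf.contDiffAt (isOpen_ball.mem_nhds (bpcDiag_mem hx))).differentiableAt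
        (by simp)).hasFDerivAt
    have h3 : HasFDerivAt (fun x : ℂ × ℂ => (fh (x, cj x)).re)
        (Complex.reCLM.comp (((fderiv ℂ fh (bpcDiag x)).restrictScalars ℝ).comp bpcDiag)) x :=
      Complex.reCLM.hasFDerivAt.comp x ((h2.restrictScalars ℝ).comp x bpcDiag.hasFDerivAt)
    rw [h3.fderiv]
    rfl
  have h2 : fderiv ℝ (fun x : ℂ × ℂ => (fh (x, cj x)).re) =ᶠ[nhds 0]
      fun x => bpcPsi (fderiv ℂ fh (bpcDiag x)) := by
    filter_upwards [isOpen_ball.mem_nhds (mem_ball_self hr0 : (0 : ℂ × ℂ) ∈ ball 0 r0)]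
      with x hx using h1 x hx
  have h3 : HasFDerivAt (fun x => bpcPsi (fderiv ℂ fh (bpcDiag x)))
      (bpcPsi.comp ((A'.restrictScalars ℝ).comp bpcDiag)) 0 := by
    have h4 : HasFDerivAt (fderiv ℂ fh) A' (bpcDiag 0) := by
      rw [map_zero]
      exact hA'
    exact bpcPsi.hasFDerivAt.comp 0 ((h4.restrictScalars ℝ).comp 0 bpcDiag.hasFDerivAt)
  have h4 : ∀ v w : ℂ × ℂ, fderiv ℝ (fderiv ℝ (fun x : ℂ × ℂ => (fh (x, cj x)).re)) 0 v w =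
      (A' (bpcDiag v) (bpcDiag w)).re := by
    intro v w
    rw [h2.fderiv_eq, h3.fderiv]
    rfl
  have h5 : dd (dd fh (0, cj u)) (u, 0) 0 = A' (u, 0) (0, cj u) := by
    have h6 : HasFDerivAt (fun z => fderiv ℂ fh z (0, cj u)) (A'.flip (0, cj u)) 0 := by
      have h7 := hA'.clm_apply (hasFDerivAt_const ((0, cj u) : (ℂ × ℂ) × (ℂ × ℂ)) 0)
      simpa using h7
    unfold dd
    rw [h6.fderiv]
    rfl
  have hs : A' (0, cj u) (u, 0) = A' (u, 0) (0, cj u) := by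
    rw [hA'e]
    exact hsymm.eq _ _
  have ha : bpcDiag u = (u, 0) + (0, cj u) := by
    rw [bpcDiag_apply]
    simp
  have hb : bpcDiag (I • u) = I • ((u, 0) : (ℂ × ℂ) × (ℂ × ℂ)) - I • ((0, cj u) :
      (ℂ × ℂ) × (ℂ × ℂ)) := by
    rw [bpcDiag_apply]
    ext <;> simp [cj]
  rw [potMetric_apply, h4, h4, h5, ha, hb]
  simp only [map_add, map_sub, map_smul, ContinuousLinearMap.add_apply,
    ContinuousLinearMap.sub_apply, ContinuousLinearMap.smul_apply, hs, smul_eq_mul]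
  generalize A' (u, 0) (u, 0) = p
  generalize A' (u, 0) (0, cj u) = q
  generalize A' (0, cj u) (0, cj u) = s
  simp
  ring

private theorem bpc_gam_smooth (y0 : ℂ × ℂ) {r0 : ℝ} (hr : r0 ≤ 1 / 8) :
    ContDiffOn ℂ ∞ (gam y0) (ball 0 r0) := by
  have hne : ∀ x ∈ ball (0 : ℂ × ℂ) r0, 1 + x.2 ≠ 0 := fun x hx =>
    one_add_x_ne (by
      rw [mem_ball_zero_iff] at hx
      linarith)
  have h1 : ContDiffOn ℂ ∞ (fun x : ℂ × ℂ => 1 + x.2) (ball 0 r0) := by fun_prop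
  unfold gam
  refine ContDiffOn.prodMk ?_ ?_
  · exact contDiffOn_const.add ((contDiffOn_const.mul (by fun_prop)).div h1 hne)
  · exact (contDiffOn_const.sub ((contDiffOn_const.mul (by fun_prop)).div h1 hne)).add
      ((contDiffOn_const.mul (by fun_prop)).div h1 hne)

private theorem bpc_gam_deriv (y0 : ℂ × ℂ) {r0 : ℝ} (hr0 : 0 < r0) (hr : r0 ≤ 1 / 8)
    (x : ℂ × ℂ) : fderiv ℝ (gam y0) 0 x = ((Real.sqrt (rho y0) : ℂ) * x.1,
      -(2 * I * (rho y0 : ℂ) * x.2) + 2 * I * starRingEnd ℂ y0.1 * (Real.sqrt (rho y0) : ℂ) * x.1) := by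
  have hF : DifferentiableAt ℝ (gam y0) 0 :=
    (((bpc_gam_smooth y0 hr).contDiffAt (isOpen_ball.mem_nhds (mem_ball_self hr0))).differentiableAt
      (by simp)).restrictScalars ℝ
  have hl : HasDerivAt (fun t : ℝ => t • x) x 0 := by
    have := (hasDerivAt_id (0 : ℝ)).smul_const x
    simpa using this
  have h1 : HasDerivAt (fun t : ℝ => gam y0 (t • x)) (fderiv ℝ (gam y0) 0 x) 0 := by
    have h2 : HasFDerivAt (gam y0) (fderiv ℝ (gam y0) 0) ((0 : ℝ) • x) := by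
      rw [zero_smul]
      exact hF.hasFDerivAt
    exact h2.comp_hasDerivAt 0 hl
  have hn : ∀ c z : ℂ, HasDerivAt (fun t : ℝ => c * ((t : ℂ) * z) / (1 + (t : ℂ) * x.2))
      (c * z) 0 := by
    intro c z
    have h2 : HasDerivAt (fun t : ℝ => (t : ℂ)) 1 0 := by
      simpa using (hasDerivAt_id (0 : ℝ)).ofReal_comp
    have h3 : HasDerivAt (fun t : ℝ => c * ((t : ℂ) * z)) (c * (1 * z)) 0 :=
      (h2.mul_const z).const_mul c
    have h4 : HasDerivAt (fun t : ℝ => 1 + (t : ℂ) * x.2) (1 * x.2) 0 :=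
      (h2.mul_const x.2).const_add 1
    have h5 := h3.fun_div h4 (by simp)
    simpa using h5
  have h6 : HasDerivAt (fun t : ℝ => gam y0 (t • x)) ((Real.sqrt (rho y0) : ℂ) * x.1,
      -(2 * I * (rho y0 : ℂ) * x.2) + 2 * I * starRingEnd ℂ y0.1 * (Real.sqrt (rho y0) : ℂ) * x.1)
      0 := by
    refine HasDerivAt.prodMk ?_ ?_
    · exact (hn (Real.sqrt (rho y0) : ℂ) x.1).const_add y0.1
    · exact ((hn (2 * I * (rho y0 : ℂ)) x.2).const_sub y0.2).add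
        (hn (2 * I * starRingEnd ℂ y0.1 * (Real.sqrt (rho y0) : ℂ)) x.1)
  exact h1.unique h6

/-- Levi form of `phiL` at `y0`: pull back by `gam y0` (`potMetric_comp`, `potMetric_add_re`) and
`NF.levi`; `gam y0` has derivative `(√ρ ξ₁, -2iρ ξ₂ + 2i conj(z₀) √ρ ξ₁)` at `0`, and the Levi form
of `-log rho` pulls back to `|ξ|²`. -/
theorem phiL_psh {e δ : ℝ} (N : ℕ) (he : 0 < e) (he1 : e < 1) (hδ : 0 < δ) {y : ℂ × ℂ}
    (hy : y ∈ U2) (ξ : ℂ × ℂ) :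
    N * δ * potMetric (fun y : ℂ × ℂ => -Real.log (rho y)) y ξ ξ ≤
      potMetric (phiL e δ N 0) y ξ ξ := by
  obtain ⟨r0, hr0, hr1, H⟩ := exists_NF
  obtain ⟨C0, hC0, H2⟩ := H e δ N he he1 hδ
  obtain ⟨h, fh, hNF⟩ := H2 y hy
  have hρ : 0 < rho y := hy
  have hsq : 0 < Real.sqrt (rho y) := Real.sqrt_pos.2 hρ
  have hsq2 : Real.sqrt (rho y) ^ 2 = rho y := Real.sq_sqrt hρ.le
  have hρc : (rho y : ℂ) ≠ 0 := by exact_mod_cast hρ.ne'
  have hsc : ((Real.sqrt (rho y) : ℝ) : ℂ) ≠ 0 := by exact_mod_cast hsq.ne'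
  -- the preimage of `ξ`
  obtain ⟨x, hx⟩ : ∃ x : ℂ × ℂ, fderiv ℝ (gam y) 0 x = ξ := by
    refine ⟨(ξ.1 / (Real.sqrt (rho y) : ℂ),
      (2 * I * starRingEnd ℂ y.1 * ξ.1 - ξ.2) / (2 * I * (rho y : ℂ))), ?_⟩
    rw [bpc_gam_deriv y hr0 hr1]
    refine Prod.ext ?_ ?_
    · field_simp
    · have hI : (2 * I * (rho y : ℂ)) ≠ 0 :=
        mul_ne_zero (mul_ne_zero two_ne_zero Complex.I_ne_zero) hρc
      show -(2 * I * (rho y : ℂ) * ((2 * I * starRingEnd ℂ y.1 * ξ.1 - ξ.2) /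
        (2 * I * (rho y : ℂ)))) + 2 * I * starRingEnd ℂ y.1 * (Real.sqrt (rho y) : ℂ) *
        (ξ.1 / (Real.sqrt (rho y) : ℂ)) = ξ.2
      rw [mul_div_cancel₀ _ hI, mul_assoc (2 * I * starRingEnd ℂ y.1), mul_div_cancel₀ _ hsc]
      ring
  have hx' := bpc_gam_deriv y hr0 hr1 x
  rw [hx] at hx'
  have hmaps : MapsTo (gam y) (ball 0 r0) U2 := fun z hz => gam_mem hy (by
    rw [mem_ball_zero_iff] at hz
    linarith)
  have h0 : (0 : ℂ × ℂ) ∈ ball (0 : ℂ × ℂ) r0 := mem_ball_self hr0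
  -- pull back of `phiL`
  have h1 : potMetric (phiL e δ N 0) y ξ ξ = (dd (dd fh (0, cj x)) (x, 0) 0).re := by
    have h2 := potMetric_comp U2_open isOpen_ball (phiL_smooth N he he1 hδ)
      (bpc_gam_smooth y hr1) hmaps h0 x x
    rw [hx, gam_zero] at h2
    have h3 : potMetric (fun q => phiL e δ N 0 (gam y q)) 0 =
        potMetric (fun q : ℂ × ℂ => (fh (q, cj q)).re + (2 * h q).re) 0 := by
      refine potMetric_congr ?_
      filter_upwards [isOpen_ball.mem_nhds h0] with q hq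
      rw [hNF.decomp q hq]
      simp
      ring
    have h4 := potMetric_add_re isOpen_ball (bpc_smooth hNF.f_smooth)
      (k := fun q => 2 * h q) (contDiffOn_const.mul hNF.h_smooth) h0
    rw [← h2, h3, h4, bpc_levi hr0 hNF.f_smooth]
  have h5 : potMetric (fun y : ℂ × ℂ => -Real.log (rho y)) y ξ ξ = ‖x.1‖ ^ 2 + ‖x.2‖ ^ 2 := by
    rw [potMetric_logrho hy, hx']
    have h6 : (-(2 * I * (rho y : ℂ) * x.2) +
        2 * I * starRingEnd ℂ y.1 * (Real.sqrt (rho y) : ℂ) * x.1) / (2 * I) -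
        starRingEnd ℂ y.1 * ((Real.sqrt (rho y) : ℂ) * x.1) = -((rho y : ℂ) * x.2) := by
      have hI : (2 * I) ≠ 0 := mul_ne_zero two_ne_zero Complex.I_ne_zero
      field_simp
      ring
    show ‖(-(2 * I * (rho y : ℂ) * x.2) +
        2 * I * starRingEnd ℂ y.1 * (Real.sqrt (rho y) : ℂ) * x.1) / (2 * I) -
        starRingEnd ℂ y.1 * ((Real.sqrt (rho y) : ℂ) * x.1)‖ ^ 2 / rho y ^ 2 +
        ‖(Real.sqrt (rho y) : ℂ) * x.1‖ ^ 2 / rho y = ‖x.1‖ ^ 2 + ‖x.2‖ ^ 2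
    rw [h6, norm_neg, norm_mul, norm_mul, Complex.norm_real, Complex.norm_real,
      Real.norm_eq_abs, Real.norm_eq_abs, mul_pow, mul_pow, sq_abs, sq_abs, hsq2]
    field_simp
    ring
  rw [h1, h5]
  exact hNF.levi x

end P250
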