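import Mathlib.Algebra.Order.Star.Real
import Mathlib.Analysis.CStarAlgebra.Classes
import Mathlib.Tactic.Positivity
import Vale.Agent.Lib.P250.Defs

/-! # P250 module A1a: elementary facts on v and P -/

open Complex

namespace P250

private lemma bfa_one_add_ne {s : ℂ} (hs : 0 ≤ s.re) : 1 + s ≠ 0 := by
  intro h
  have h1 := congrArg Complex.re h
  simp only [add_re, one_re, zero_re] at h1
  linarith

private lemma bfa_norm_ge {s : ℂ} (hs : 0 ≤ s.re) : 1 ≤ ‖1 + s‖ := by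
  have h1 : (1 + s).re ≤ ‖1 + s‖ := Complex.re_le_norm _
  simp only [add_re, one_re] at h1
  linarith

theorem vv_re_nonneg {s : ℂ} (hs : 0 ≤ s.re) : 0 ≤ (vv s).re := by
  unfold vv
  rw [Complex.div_re]
  have h1 : 0 ≤ Complex.normSq (1 + s) := Complex.normSq_nonneg _
  have h2 : (2 : ℂ).re = 2 := by norm_num
  have h3 : (2 : ℂ).im = 0 := by norm_num
  rw [h2, h3]
  simp only [add_re, one_re, zero_mul, zero_div, add_zero]
  positivity

theorem vv_norm_le_two {s : ℂ} (hs : 0 ≤ s.re) : ‖vv s‖ ≤ 2 := by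
  unfold vv
  rw [norm_div]
  have h1 := bfa_norm_ge hs
  have h2 : ‖(2 : ℂ)‖ = 2 := by norm_num
  rw [h2, div_le_iff₀ (by linarith)]
  linarith

theorem one_sub_vv {s : ℂ} (hs : 1 + s ≠ 0) : 1 - vv s = (s - 1) / (s + 1) := by
  unfold vv
  have h : s + 1 ≠ 0 := by rwa [add_comm]
  field_simp
  ring

private lemma bfa_norm_sub_one {s : ℂ} (hs : 0 ≤ s.re) : ‖vv s - 1‖ ≤ 1 := by
  have h0 := bfa_one_add_ne hs
  have h1 : ‖vv s - 1‖ = ‖s - 1‖ / ‖s + 1‖ := by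
    rw [← norm_neg, neg_sub, one_sub_vv h0, norm_div]
  rw [h1]
  have h2 : 0 < ‖s + 1‖ := norm_pos_iff.2 (by rwa [add_comm])
  rw [div_le_one h2]
  rw [← sq_le_sq₀ (norm_nonneg _) (norm_nonneg _), ← Complex.normSq_eq_norm_sq,
    ← Complex.normSq_eq_norm_sq, Complex.normSq_apply, Complex.normSq_apply]
  simp only [sub_re, add_re, sub_im, add_im, one_re, one_im, sub_zero, add_zero]
  linarith

private lemma bfa_sqrt_two : (141 / 100 : ℝ) ≤ ‖(1 : ℂ) - I‖ ∧ (141 / 100 : ℝ) ≤ ‖(1 : ℂ) + I‖ := by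
  constructor
  · rw [← sq_le_sq₀ (by norm_num) (norm_nonneg _), ← Complex.normSq_eq_norm_sq,
      Complex.normSq_apply]
    simp
    norm_num
  · rw [← sq_le_sq₀ (by norm_num) (norm_nonneg _), ← Complex.normSq_eq_norm_sq,
      Complex.normSq_apply]
    simp
    norm_num

private lemma bfa_factor (v : ℂ) : ‖1 + v ^ 2‖ = ‖v - I‖ * ‖v + I‖ := by
  rw [← norm_mul]
  congr 1
  have h : (v - I) * (v + I) = v ^ 2 - I * I := by ring
  rw [h, I_mul_I]
  ring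

/-- `v` lies in the disc `|v - 1| ≤ 1`; there `|v - i|, |v + i| ≥ √2 - 1` and one of them is `≥ 1`
(according to the sign of `Im v`). -/
theorem norm_one_add_vv_sq_ge {s : ℂ} (hs : 0 ≤ s.re) : (41 / 100 : ℝ) ≤ ‖1 + vv s ^ 2‖ := by
  have h1 := bfa_norm_sub_one hs
  obtain ⟨h2, h3⟩ := bfa_sqrt_two
  generalize vv s = v at h1 ⊢
  rw [bfa_factor]
  have h4 : (41 / 100 : ℝ) ≤ ‖v - I‖ := by
    have h5 : ‖(1 : ℂ) - I‖ ≤ ‖v - 1‖ + ‖v - I‖ := by
      have h6 : (1 : ℂ) - I = (v - I) - (v - 1) := by ring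
      rw [h6]
      have := norm_sub_le (v - I) (v - 1)
      linarith
    linarith
  have h4' : (41 / 100 : ℝ) ≤ ‖v + I‖ := by
    have h5 : ‖(1 : ℂ) + I‖ ≤ ‖v - 1‖ + ‖v + I‖ := by
      have h6 : (1 : ℂ) + I = (v + I) - (v - 1) := by ring
      rw [h6]
      have := norm_sub_le (v + I) (v - 1)
      linarith
    linarith
  rcases le_total 0 v.im with h | h
  · have h5 : 1 ≤ ‖v + I‖ := by
      have h6 := Complex.abs_im_le_norm (v + I)
      simp only [add_im, I_im] at h6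
      rw [abs_of_nonneg (by linarith)] at h6
      linarith
    nlinarith
  · have h5 : 1 ≤ ‖v - I‖ := by
      have h6 := Complex.abs_im_le_norm (v - I)
      simp only [sub_im, I_im] at h6
      rw [abs_of_nonpos (by linarith)] at h6
      linarith
    nlinarith

/-- `1 - v^4 = (1 - v)(1 + v)(1 + v^2)` and `|1 + v| ≥ 1`. -/
theorem PP_lower {s : ℂ} (hs : 0 ≤ s.re) :
    (41 / 100 : ℝ) * (‖s - 1‖ / ‖s + 1‖) ≤ ‖PP s‖ := by
  have h0 := bfa_one_add_ne hs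
  have h1 : PP s = (1 - vv s) * (1 + vv s) * (1 + vv s ^ 2) := by
    unfold PP
    ring
  have h2 : ‖1 - vv s‖ = ‖s - 1‖ / ‖s + 1‖ := by rw [one_sub_vv h0, norm_div]
  have h3 := norm_one_add_vv_sq_ge hs
  have h4 : 1 ≤ ‖1 + vv s‖ := bfa_norm_ge (vv_re_nonneg hs)
  rw [h1, norm_mul, norm_mul, h2]
  have h5 : 0 ≤ ‖s - 1‖ / ‖s + 1‖ := by positivity
  calc (41 / 100 : ℝ) * (‖s - 1‖ / ‖s + 1‖) = (‖s - 1‖ / ‖s + 1‖) * 1 * (41 / 100 : ℝ) := by ring
    _ ≤ (‖s - 1‖ / ‖s + 1‖) * ‖1 + vv s‖ * ‖1 + vv s ^ 2‖ := by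
        apply mul_le_mul _ h3 (by norm_num) (by positivity)
        exact mul_le_mul_of_nonneg_left h4 h5

theorem PP_ne_zero {s : ℂ} (hs : 0 ≤ s.re) (h1 : s ≠ 1) : PP s ≠ 0 := by
  intro h
  have h2 := PP_lower hs
  rw [h, norm_zero] at h2
  have h3 : 0 < ‖s - 1‖ := norm_pos_iff.2 (sub_ne_zero.2 h1)
  have h4 : 0 < ‖s + 1‖ := norm_pos_iff.2 (by
    rw [add_comm]
    exact bfa_one_add_ne hs)
  have h5 : 0 < ‖s - 1‖ / ‖s + 1‖ := div_pos h3 h4
  linarith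

end P250
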