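import Vale.Agent.Lib.P250.BaseFunA

/-! # P250 module A1b: bounds on P, Q, psi0 -/

open Complex

namespace P250

/-- If `|P| < 1/4000` then `s` is within `0.002` of `1`, `|t| ≤ 1.001`, so `|1000 P t| ≤ 0.26` and
`|Q| ≥ 1/2`. -/
theorem PQ_lower : ∃ c0 : ℝ, 0 < c0 ∧ ∀ t s : ℂ, ‖t‖ ^ 2 ≤ s.re →
    c0 ≤ ‖PP s‖ ^ 2 + ‖QQ t s‖ ^ 2 := by
  refine ⟨1 / 16000000, by norm_num, fun t s ht => ?_⟩
  have hs : 0 ≤ s.re := le_trans (by positivity) ht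
  by_cases hP : 1 / 4000 ≤ ‖PP s‖
  · have h1 : (1 / 4000 : ℝ) ^ 2 ≤ ‖PP s‖ ^ 2 := by gcongr
    have h2 : 0 ≤ ‖QQ t s‖ ^ 2 := by positivity
    norm_num at h1 ⊢
    linarith
  · push Not at hP
    have hlow := PP_lower hs
    have h1s : 1 ≤ ‖s + 1‖ := by
      have h := Complex.re_le_norm (s + 1)
      rw [Complex.add_re, Complex.one_re] at h
      linarith
    have hpos : 0 < ‖s + 1‖ := by linarith
    have h2 : ‖s - 1‖ / ‖s + 1‖ ≤ 1 / 1640 := by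
      have h3 : (41 / 100 : ℝ) * (‖s - 1‖ / ‖s + 1‖) ≤ 1 / 4000 := hlow.trans hP.le
      linarith
    rw [div_le_iff₀ hpos] at h2
    have h3 : ‖s + 1‖ ≤ ‖s - 1‖ + 2 := by
      have h := norm_add_le (s - 1) 2
      rw [show s - 1 + 2 = s + 1 by ring] at h
      have h' : ‖(2 : ℂ)‖ = 2 := by simp
      rw [h'] at h
      exact h
    have h4 : ‖s - 1‖ ≤ 2 / 1639 := by linarith
    have h5 : s.re ≤ 1 + 2 / 1639 := by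
      have h := Complex.re_le_norm (s - 1)
      rw [Complex.sub_re, Complex.one_re] at h
      linarith
    have h6 : ‖t‖ ≤ 1001 / 1000 := by
      have h7 : ‖t‖ ^ 2 ≤ (1001 / 1000 : ℝ) ^ 2 := by
        refine (ht.trans h5).trans ?_
        norm_num
      exact le_of_sq_le_sq h7 (by norm_num)
    have h7 : ‖1000 * PP s * t‖ ≤ 26 / 100 := by
      rw [norm_mul, norm_mul]
      have h' : ‖(1000 : ℂ)‖ = 1000 := by simp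
      rw [h']
      calc 1000 * ‖PP s‖ * ‖t‖ ≤ 1000 * (1 / 4000) * (1001 / 1000) := by gcongr
        _ ≤ 26 / 100 := by norm_num
    have h8 : 74 / 100 ≤ ‖1000 * PP s * t - 1‖ := by
      have h := norm_sub_norm_le (1 : ℂ) (1000 * PP s * t)
      rw [norm_one, norm_sub_rev] at h
      linarith
    have h9 : ‖1 + s‖ ≤ 2 + 2 / 1639 := by
      rw [add_comm]
      linarith
    have h9' : 0 < ‖1 + s‖ := by rw [add_comm]; exact hpos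
    have h10 : 9 / 10 ≤ ‖vv s‖ ^ 4 := by
      have h11 : 99 / 100 ≤ ‖vv s‖ := by
        unfold vv
        rw [norm_div]
        have h' : ‖(2 : ℂ)‖ = 2 := by simp
        rw [h', le_div_iff₀ h9']
        linarith
      calc (9 / 10 : ℝ) ≤ (99 / 100) ^ 4 := by norm_num
        _ ≤ ‖vv s‖ ^ 4 := by gcongr
    have h11 : 1 / 2 ≤ ‖QQ t s‖ := by
      unfold QQ
      rw [norm_mul, norm_pow]
      calc (1 / 2 : ℝ) ≤ 9 / 10 * (74 / 100) := by norm_num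
        _ ≤ ‖vv s‖ ^ 4 * ‖1000 * PP s * t - 1‖ := by gcongr
    have h12 : (1 / 2 : ℝ) ^ 2 ≤ ‖QQ t s‖ ^ 2 := by gcongr
    have h13 : 0 ≤ ‖PP s‖ ^ 2 := by positivity
    norm_num at h12 ⊢
    linarith

/-- `|v| ≤ 4`, `|P| ≤ 257`, `|Q| ≤ |v|^4 (1 + 257000 |t|)`, `|t|^2 ≤ 16 / |v|`. -/
theorem PQ_upper : ∃ C : ℝ, 0 < C ∧ ∀ t s : ℂ, 1 / 2 ≤ ‖1 + s‖ → ‖t‖ ^ 2 ≤ 8 * ‖1 + s‖ →
    ‖PP s‖ ≤ C ∧ ‖QQ t s‖ ≤ C ∧ ‖QQ t s‖ ^ 2 ≤ C * ‖vv s‖ ^ 7 := by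
  refine ⟨8 + 32 * 257000 ^ 2, by norm_num, fun t s hs ht => ?_⟩
  have hpos : 0 < ‖1 + s‖ := by linarith
  have hv : ‖vv s‖ = 2 / ‖1 + s‖ := by
    unfold vv
    rw [norm_div]
    have h' : ‖(2 : ℂ)‖ = 2 := by simp
    rw [h']
  have hv0 : 0 < ‖vv s‖ := by rw [hv]; positivity
  have hv4 : ‖vv s‖ ≤ 4 := by
    rw [hv, div_le_iff₀ hpos]
    linarith
  have hP : ‖PP s‖ ≤ 257 := by
    unfold PP
    refine (norm_sub_le _ _).trans ?_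
    rw [norm_one, norm_pow]
    have : ‖vv s‖ ^ 4 ≤ 4 ^ 4 := by gcongr
    norm_num at this
    linarith
  have ht2 : ‖t‖ ^ 2 * ‖vv s‖ ≤ 16 := by
    rw [hv]
    have h1 : ‖t‖ ^ 2 * (2 / ‖1 + s‖) ≤ (8 * ‖1 + s‖) * (2 / ‖1 + s‖) := by gcongr
    have h2 : (8 * ‖1 + s‖) * (2 / ‖1 + s‖) = 16 := by
      field_simp
      norm_num
    linarith
  have hQ : ‖QQ t s‖ ≤ ‖vv s‖ ^ 4 * (257000 * ‖t‖ + 1) := by
    unfold QQ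
    rw [norm_mul, norm_pow]
    gcongr
    refine (norm_sub_le _ _).trans ?_
    rw [norm_one, norm_mul, norm_mul]
    have h' : ‖(1000 : ℂ)‖ = 1000 := by simp
    rw [h']
    have : 1000 * ‖PP s‖ * ‖t‖ ≤ 257000 * ‖t‖ := by
      have h0 := norm_nonneg t
      nlinarith
    linarith
  have hQ2 : ‖QQ t s‖ ^ 2 ≤ (8 + 32 * 257000 ^ 2) * ‖vv s‖ ^ 7 := by
    have h1 : ‖QQ t s‖ ^ 2 ≤ (‖vv s‖ ^ 4 * (257000 * ‖t‖ + 1)) ^ 2 := by gcongr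
    have h2 : (‖vv s‖ ^ 4 * (257000 * ‖t‖ + 1)) ^ 2 ≤
        ‖vv s‖ ^ 7 * (2 * 257000 ^ 2 * (‖t‖ ^ 2 * ‖vv s‖) + 2 * ‖vv s‖) := by
      have h3 : (257000 * ‖t‖ + 1) ^ 2 ≤ 2 * (257000 * ‖t‖) ^ 2 + 2 := by
        nlinarith [sq_nonneg (257000 * ‖t‖ - 1)]
      calc (‖vv s‖ ^ 4 * (257000 * ‖t‖ + 1)) ^ 2 = ‖vv s‖ ^ 8 * (257000 * ‖t‖ + 1) ^ 2 := by ring
        _ ≤ ‖vv s‖ ^ 8 * (2 * (257000 * ‖t‖) ^ 2 + 2) := by gcongr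
        _ = _ := by ring
    have h3 : ‖vv s‖ ^ 7 * (2 * 257000 ^ 2 * (‖t‖ ^ 2 * ‖vv s‖) + 2 * ‖vv s‖) ≤
        ‖vv s‖ ^ 7 * (2 * 257000 ^ 2 * 16 + 2 * 4) := by gcongr
    calc ‖QQ t s‖ ^ 2 ≤ _ := h1
      _ ≤ _ := h2
      _ ≤ _ := h3
      _ = _ := by ring
  refine ⟨?_, ?_, hQ2⟩
  · refine hP.trans ?_
    norm_num
  · have h1 : ‖vv s‖ ^ 7 ≤ 4 ^ 7 := by gcongr
    have h2 : ‖QQ t s‖ ^ 2 ≤ (8 + 32 * 257000 ^ 2 : ℝ) ^ 2 := by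
      calc ‖QQ t s‖ ^ 2 ≤ (8 + 32 * 257000 ^ 2) * ‖vv s‖ ^ 7 := hQ2
        _ ≤ (8 + 32 * 257000 ^ 2) * 4 ^ 7 := by gcongr
        _ ≤ (8 + 32 * 257000 ^ 2 : ℝ) ^ 2 := by norm_num
    exact le_of_sq_le_sq h2 (by norm_num)

/-- `||P|^2 + |Q|^2 - 1| ≤ C |v|^4` and `|P|^2 + |Q|^2 ≥ c0`. -/
theorem psi0_bound : ∃ C : ℝ, 0 < C ∧ ∀ t s : ℂ, ‖t‖ ^ 2 ≤ s.re →
    |psi0 t s| ≤ C * ‖vv s‖ ^ 4 := by
  obtain ⟨c0, hc0, hlow⟩ := PQ_lower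
  obtain ⟨C1, hC1, hup⟩ := PQ_upper
  refine ⟨(18 + 8 * C1) * (1 + 1 / c0), by positivity, fun t s ht => ?_⟩
  have hs : 0 ≤ s.re := le_trans (by positivity) ht
  have hv2 := vv_norm_le_two hs
  have hv0 : 0 ≤ ‖vv s‖ := norm_nonneg _
  have h1s : s.re + 1 ≤ ‖1 + s‖ := by
    have h := Complex.re_le_norm (1 + s)
    rw [Complex.add_re, Complex.one_re] at h
    linarith
  obtain ⟨-, -, hQ⟩ := hup t s (by linarith) (by linarith)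
  have hX := hlow t s ht
  set X := ‖PP s‖ ^ 2 + ‖QQ t s‖ ^ 2 with hXdef
  have hXpos : 0 < X := by linarith
  have hv7 : ‖vv s‖ ^ 7 ≤ 8 * ‖vv s‖ ^ 4 := by
    have : ‖vv s‖ ^ 3 ≤ 2 ^ 3 := by gcongr
    calc ‖vv s‖ ^ 7 = ‖vv s‖ ^ 4 * ‖vv s‖ ^ 3 := by ring
      _ ≤ ‖vv s‖ ^ 4 * 2 ^ 3 := by gcongr
      _ = 8 * ‖vv s‖ ^ 4 := by ring
  have hv4 : ‖vv s‖ ^ 4 ≤ 16 := by
    calc ‖vv s‖ ^ 4 ≤ 2 ^ 4 := by gcongr
      _ = 16 := by norm_num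
  -- the first coordinate
  have hPn : |‖PP s‖ - 1| ≤ ‖vv s‖ ^ 4 := by
    have h1 := abs_norm_sub_norm_le (PP s) 1
    rw [norm_one] at h1
    have h2 : ‖PP s - 1‖ = ‖vv s‖ ^ 4 := by
      unfold PP
      rw [show 1 - vv s ^ 4 - 1 = -(vv s ^ 4) by ring, norm_neg, norm_pow]
    rwa [h2] at h1
  have hP2 : |‖PP s‖ ^ 2 - 1| ≤ 18 * ‖vv s‖ ^ 4 := by
    have h1 : ‖PP s‖ ^ 2 - 1 = (‖PP s‖ - 1) * (‖PP s‖ + 1) := by ring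
    rw [h1, abs_mul]
    have h2 : |‖PP s‖ + 1| ≤ 18 := by
      rw [abs_of_nonneg (by positivity)]
      have := (abs_le.mp hPn).2
      linarith
    calc |‖PP s‖ - 1| * |‖PP s‖ + 1| ≤ ‖vv s‖ ^ 4 * 18 := by gcongr
      _ = 18 * ‖vv s‖ ^ 4 := by ring
  have hX1 : |X - 1| ≤ (18 + 8 * C1) * ‖vv s‖ ^ 4 := by
    have h1 : 0 ≤ ‖QQ t s‖ ^ 2 := by positivity
    have h2 : ‖QQ t s‖ ^ 2 ≤ 8 * C1 * ‖vv s‖ ^ 4 := by
      calc ‖QQ t s‖ ^ 2 ≤ C1 * ‖vv s‖ ^ 7 := hQ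
        _ ≤ C1 * (8 * ‖vv s‖ ^ 4) := by gcongr
        _ = _ := by ring
    have h3 := abs_le.mp hP2
    have h4 : 0 ≤ 8 * C1 * ‖vv s‖ ^ 4 := by positivity
    rw [abs_le]
    constructor
    · rw [hXdef]
      nlinarith [h3.1]
    · rw [hXdef]
      nlinarith [h3.2]
  have hlog1 : Real.log X ≤ |X - 1| := (Real.log_le_sub_one_of_pos hXpos).trans (le_abs_self _)
  have hlog2 : -Real.log X ≤ |X - 1| / c0 := by
    have h1 := Real.log_le_sub_one_of_pos (inv_pos.mpr hXpos)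
    rw [Real.log_inv] at h1
    have h2 : X⁻¹ - 1 = (1 - X) / X := by
      field_simp
    rw [h2] at h1
    refine h1.trans ?_
    calc (1 - X) / X ≤ |X - 1| / X := by
          gcongr
          rw [abs_sub_comm]
          exact le_abs_self _
      _ ≤ |X - 1| / c0 := by gcongr
  have h5 : 0 ≤ |X - 1| := abs_nonneg _
  have h6 : 0 ≤ |X - 1| / c0 := by positivity
  unfold psi0
  calc |Real.log (‖PP s‖ ^ 2 + ‖QQ t s‖ ^ 2)| ≤ |X - 1| * (1 + 1 / c0) := by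
        rw [← hXdef, abs_le]
        have h7 : |X - 1| * (1 + 1 / c0) = |X - 1| + |X - 1| / c0 := by ring
        rw [h7]
        constructor <;> linarith
    _ ≤ (18 + 8 * C1) * ‖vv s‖ ^ 4 * (1 + 1 / c0) := by gcongr
    _ = _ := by ring

end P250
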