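import Vale.Agent.Lib.P250.BaseFunB

/-! # P250 module A1c: Lipschitz bounds -/

open Complex

namespace P250

/-- The basic facts on `v`, with `r = √|1 + s|`. -/
theorem BaseFunC_v (s s' : ℂ) (κ : ℝ) (h1 : 1 ≤ ‖1 + s‖) (h2 : ‖s' - s‖ ≤ ‖1 + s‖ / 2)
    (h3 : ‖s' - s‖ ≤ κ * Real.sqrt ‖1 + s‖) :
    1 ≤ Real.sqrt ‖1 + s‖ ∧ ‖vv s‖ = 2 / Real.sqrt ‖1 + s‖ ^ 2 ∧ ‖vv s'‖ ≤ 2 * ‖vv s‖ ∧
      ‖vv s' - vv s‖ ≤ 4 * κ / Real.sqrt ‖1 + s‖ ^ 3 := by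
  have hr2 : Real.sqrt ‖1 + s‖ ^ 2 = ‖1 + s‖ := Real.sq_sqrt (by linarith)
  have hr1 : 1 ≤ Real.sqrt ‖1 + s‖ := by
    rw [show (1 : ℝ) = Real.sqrt 1 by simp]
    exact Real.sqrt_le_sqrt h1
  set r := Real.sqrt ‖1 + s‖ with hr
  have hr0 : 0 < r := by linarith
  have hv : ‖vv s‖ = 2 / r ^ 2 := by
    unfold vv
    rw [norm_div, hr2]
    norm_num
  have hs' : ‖1 + s‖ / 2 ≤ ‖1 + s'‖ := by
    have h4 : (1 + s) = (1 + s') - (s' - s) := by ring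
    have h5 : ‖1 + s‖ ≤ ‖1 + s'‖ + ‖s' - s‖ := by
      calc ‖1 + s‖ = ‖(1 + s') - (s' - s)‖ := by rw [← h4]
        _ ≤ _ := norm_sub_le _ _
    linarith
  have hs'0 : 0 < ‖1 + s'‖ := by linarith
  have hv' : ‖vv s'‖ ≤ 2 * ‖vv s‖ := by
    unfold vv
    rw [norm_div, norm_div]
    have h6 : ‖(2 : ℂ)‖ = 2 := by norm_num
    rw [h6, div_le_iff₀ hs'0]
    have h7 : 0 < ‖1 + s‖ := by linarith
    have h8 : 2 * (2 / ‖1 + s‖) * ‖1 + s'‖ = 4 * (‖1 + s'‖ / ‖1 + s‖) := by ring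
    rw [h8]
    have h9 : 1 / 2 ≤ ‖1 + s'‖ / ‖1 + s‖ := by
      rw [le_div_iff₀ h7]
      linarith
    linarith
  refine ⟨hr1, hv, hv', ?_⟩
  have hs0 : (1 + s) ≠ 0 := by
    rw [← norm_pos_iff]
    linarith
  have hs0' : (1 + s') ≠ 0 := by
    rw [← norm_pos_iff]
    exact hs'0
  have h10 : vv s' - vv s = 2 * (s - s') / ((1 + s') * (1 + s)) := by
    unfold vv
    field_simp
    ring
  have h6 : ‖(2 : ℂ)‖ = 2 := by norm_num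
  rw [h10, norm_div, norm_mul, norm_mul, h6, norm_sub_rev s s']
  have h11 : r ^ 2 * r ^ 2 / 2 ≤ ‖1 + s'‖ * ‖1 + s‖ := by
    rw [hr2]
    nlinarith
  have h12 : 0 < r ^ 2 * r ^ 2 / 2 := by positivity
  calc 2 * ‖s' - s‖ / (‖1 + s'‖ * ‖1 + s‖) ≤ 2 * ‖s' - s‖ / (r ^ 2 * r ^ 2 / 2) := by
        gcongr
    _ ≤ 2 * (κ * r) / (r ^ 2 * r ^ 2 / 2) := by gcongr
    _ = 4 * κ / r ^ 3 := by
        field_simp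
        ring

theorem BaseFunC_v4 (s s' : ℂ) (κ : ℝ) (hκ : 0 ≤ κ) (h1 : 1 ≤ ‖1 + s‖)
    (h2 : ‖s' - s‖ ≤ ‖1 + s‖ / 2) (h3 : ‖s' - s‖ ≤ κ * Real.sqrt ‖1 + s‖) :
    ‖vv s' ^ 4 - vv s ^ 4‖ * Real.sqrt ‖1 + s‖ ≤ 30 * κ * ‖vv s‖ ^ 4 := by
  obtain ⟨hr1, hv, hv', hd⟩ := BaseFunC_v s s' κ h1 h2 h3
  set r := Real.sqrt ‖1 + s‖ with hr
  have hr0 : 0 < r := by linarith
  have h4 : vv s' ^ 4 - vv s ^ 4 =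
      (vv s' - vv s) * (vv s' ^ 3 + vv s' ^ 2 * vv s + vv s' * vv s ^ 2 + vv s ^ 3) := by ring
  have hv0 : 0 ≤ ‖vv s‖ := norm_nonneg _
  have hv0' : 0 ≤ ‖vv s'‖ := norm_nonneg _
  have h5 : ‖vv s' ^ 3 + vv s' ^ 2 * vv s + vv s' * vv s ^ 2 + vv s ^ 3‖ ≤ 15 * ‖vv s‖ ^ 3 := by
    calc ‖vv s' ^ 3 + vv s' ^ 2 * vv s + vv s' * vv s ^ 2 + vv s ^ 3‖
        ≤ ‖vv s'‖ ^ 3 + ‖vv s'‖ ^ 2 * ‖vv s‖ + ‖vv s'‖ * ‖vv s‖ ^ 2 + ‖vv s‖ ^ 3 := by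
          refine (norm_add_le _ _).trans ?_
          refine add_le_add ((norm_add_le _ _).trans (add_le_add ((norm_add_le _ _).trans ?_) ?_)) ?_
          · rw [norm_mul, norm_pow, norm_pow]
          · rw [norm_mul, norm_pow]
          · rw [norm_pow]
      _ ≤ (2 * ‖vv s‖) ^ 3 + (2 * ‖vv s‖) ^ 2 * ‖vv s‖ + (2 * ‖vv s‖) * ‖vv s‖ ^ 2
          + ‖vv s‖ ^ 3 := by gcongr
      _ = 15 * ‖vv s‖ ^ 3 := by ring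
  rw [h4, norm_mul]
  calc ‖vv s' - vv s‖ * ‖vv s' ^ 3 + vv s' ^ 2 * vv s + vv s' * vv s ^ 2 + vv s ^ 3‖ * r
      ≤ (4 * κ / r ^ 3) * (15 * ‖vv s‖ ^ 3) * r := by gcongr
    _ = 30 * κ * ‖vv s‖ ^ 4 := by
        rw [hv]
        field_simp
        ring

/-- Lipschitz estimate. With `v' = vv s'`, `|v'| ≤ 2|v|`,
`|v' - v| = |v||v'||s - s'|/2 ≤ √2 κ |v|^{3/2}`. -/
theorem PQ_lip : ∃ C : ℝ, 0 < C ∧ ∀ (t s t' s' : ℂ) (κ : ℝ), 1 ≤ ‖1 + s‖ → ‖t‖ ^ 2 ≤ ‖1 + s‖ →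
    ‖s' - s‖ ≤ ‖1 + s‖ / 2 → ‖s' - s‖ ≤ κ * Real.sqrt ‖1 + s‖ → ‖t' - t‖ ≤ κ →
    ‖t'‖ ^ 2 ≤ 4 * ‖1 + s‖ →
    ‖PP s' - PP s‖ ≤ C * κ * ‖vv s‖ ^ 4 ∧ ‖QQ t' s' - QQ t s‖ ≤ C * κ * ‖vv s‖ ^ 4 := by
  refine ⟨20000000, by norm_num, ?_⟩
  intro t s t' s' κ h1 ht h2 h3 hκt ht'
  have hκ : 0 ≤ κ := le_trans (norm_nonneg _) hκt
  obtain ⟨hr1, hv, hv', hd⟩ := BaseFunC_v s s' κ h1 h2 h3
  have h4 := BaseFunC_v4 s s' κ hκ h1 h2 h3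
  have hr2 : Real.sqrt ‖1 + s‖ ^ 2 = ‖1 + s‖ := Real.sq_sqrt (by linarith)
  set r := Real.sqrt ‖1 + s‖ with hr
  have hr0 : 0 < r := by linarith
  have hv0 : 0 ≤ ‖vv s‖ := norm_nonneg _
  have hv0' : 0 ≤ ‖vv s'‖ := norm_nonneg _
  have hv2 : ‖vv s‖ ≤ 2 := by
    rw [hv, div_le_iff₀ (by positivity)]
    linarith
  have hX : 0 ≤ κ * ‖vv s‖ ^ 4 := by positivity
  have hw1 : ‖vv s' ^ 4 - vv s ^ 4‖ ≤ 30 * κ * ‖vv s‖ ^ 4 := by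
    calc ‖vv s' ^ 4 - vv s ^ 4‖ = ‖vv s' ^ 4 - vv s ^ 4‖ * 1 := by ring
      _ ≤ ‖vv s' ^ 4 - vv s ^ 4‖ * r := by gcongr
      _ ≤ _ := h4
  constructor
  · have h5 : PP s' - PP s = -(vv s' ^ 4 - vv s ^ 4) := by
      unfold PP
      ring
    rw [h5, norm_neg]
    linarith
  · have ht2 : ‖t'‖ ≤ 2 * r := by
      have h6 : ‖t'‖ ^ 2 ≤ (2 * r) ^ 2 := by
        rw [mul_pow, hr2]
        linarith
      exact le_of_sq_le_sq h6 (by positivity)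
    have hw : ‖vv s ^ 4‖ ≤ 16 := by
      rw [norm_pow]
      calc ‖vv s‖ ^ 4 ≤ 2 ^ 4 := by gcongr
        _ = 16 := by norm_num
    have hw' : ‖vv s' ^ 4‖ ≤ 256 := by
      rw [norm_pow]
      calc ‖vv s'‖ ^ 4 ≤ (2 * 2) ^ 4 := by
            gcongr
            linarith
        _ = 256 := by norm_num
    have h7 : QQ t' s' - QQ t s =
        1000 * ((vv s' ^ 4 - vv s ^ 4) * (1 - vv s ^ 4 - vv s' ^ 4) * t' +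
          vv s ^ 4 * (1 - vv s ^ 4) * (t' - t)) - (vv s' ^ 4 - vv s ^ 4) := by
      unfold QQ PP
      ring
    have h8 : ‖1 - vv s ^ 4 - vv s' ^ 4‖ ≤ 273 := by
      calc ‖1 - vv s ^ 4 - vv s' ^ 4‖ ≤ ‖(1 : ℂ) - vv s ^ 4‖ + ‖vv s' ^ 4‖ := norm_sub_le _ _
        _ ≤ (‖(1 : ℂ)‖ + ‖vv s ^ 4‖) + ‖vv s' ^ 4‖ := by
            gcongr
            exact norm_sub_le _ _
        _ ≤ 273 := by
            rw [norm_one]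
            linarith
    have h9 : ‖1 - vv s ^ 4‖ ≤ 17 := by
      calc ‖1 - vv s ^ 4‖ ≤ ‖(1 : ℂ)‖ + ‖vv s ^ 4‖ := norm_sub_le _ _
        _ ≤ 17 := by
            rw [norm_one]
            linarith
    have h10 : ‖(vv s' ^ 4 - vv s ^ 4) * (1 - vv s ^ 4 - vv s' ^ 4) * t'‖ ≤
        16380 * (κ * ‖vv s‖ ^ 4) := by
      rw [norm_mul, norm_mul]
      calc ‖vv s' ^ 4 - vv s ^ 4‖ * ‖1 - vv s ^ 4 - vv s' ^ 4‖ * ‖t'‖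
          ≤ ‖vv s' ^ 4 - vv s ^ 4‖ * 273 * (2 * r) := by gcongr
        _ = 546 * (‖vv s' ^ 4 - vv s ^ 4‖ * r) := by ring
        _ ≤ 546 * (30 * κ * ‖vv s‖ ^ 4) := by gcongr
        _ = 16380 * (κ * ‖vv s‖ ^ 4) := by ring
    have h11 : ‖vv s ^ 4 * (1 - vv s ^ 4) * (t' - t)‖ ≤ 17 * (κ * ‖vv s‖ ^ 4) := by
      rw [norm_mul, norm_mul, norm_pow]
      calc ‖vv s‖ ^ 4 * ‖1 - vv s ^ 4‖ * ‖t' - t‖ ≤ ‖vv s‖ ^ 4 * 17 * κ := by gcongr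
        _ = 17 * (κ * ‖vv s‖ ^ 4) := by ring
    rw [h7]
    refine (norm_sub_le _ _).trans ?_
    rw [norm_mul]
    have h12 : ‖(1000 : ℂ)‖ = 1000 := by norm_num
    rw [h12]
    have h13 := norm_add_le ((vv s' ^ 4 - vv s ^ 4) * (1 - vv s ^ 4 - vv s' ^ 4) * t')
      (vv s ^ 4 * (1 - vv s ^ 4) * (t' - t))
    linarith

theorem BaseFunC_log {c0 N N' : ℝ} (hc : 0 < c0) (h : c0 ≤ N) (h' : c0 ≤ N') :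
    |Real.log N' - Real.log N| ≤ |N' - N| / c0 := by
  have key : ∀ a b : ℝ, c0 ≤ a → c0 ≤ b → Real.log b - Real.log a ≤ |b - a| / c0 := by
    intro a b ha hb
    have ha0 : 0 < a := by linarith
    have hb0 : 0 < b := by linarith
    have h1 : Real.log b - Real.log a = Real.log (b / a) := (Real.log_div hb0.ne' ha0.ne').symm
    rw [h1]
    have h2 := Real.log_le_sub_one_of_pos (div_pos hb0 ha0)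
    have h3 : b / a - 1 = (b - a) / a := by field_simp
    rw [h3] at h2
    have h4 : (b - a) / a ≤ |b - a| / a := by
      gcongr
      exact le_abs_self _
    have h5 : |b - a| / a ≤ |b - a| / c0 := by gcongr
    linarith
  rw [abs_le]
  constructor
  · have := key N' N h' h
    rw [abs_sub_comm] at this
    linarith
  · exact key N N' h h'

/-- Lipschitz estimate for `ψ₀` (both points in the domain `|t|^2 ≤ Re s`). -/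
theorem psi0_lip : ∃ C : ℝ, 0 < C ∧ ∀ (t s t' s' : ℂ) (κ : ℝ), ‖t‖ ^ 2 ≤ s.re →
    ‖t'‖ ^ 2 ≤ s'.re → ‖s' - s‖ ≤ ‖1 + s‖ / 2 → ‖s' - s‖ ≤ κ * Real.sqrt ‖1 + s‖ →
    ‖t' - t‖ ≤ κ →
    |psi0 t' s' - psi0 t s| ≤ C * κ * ‖vv s‖ ^ 4 := by
  obtain ⟨c0, hc0, hlow⟩ := PQ_lower
  obtain ⟨C1, hC1, hup⟩ := PQ_upper
  obtain ⟨C2, hC2, hlip⟩ := PQ_lip
  refine ⟨4 * C1 * C2 / c0, by positivity, ?_⟩
  intro t s t' s' κ ht ht' h2 h3 hκt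
  have hκ : 0 ≤ κ := le_trans (norm_nonneg _) hκt
  have hre : ∀ (t s : ℂ), ‖t‖ ^ 2 ≤ s.re → 1 ≤ ‖1 + s‖ ∧ ‖t‖ ^ 2 ≤ ‖1 + s‖ := by
    intro t s h
    have h4 : (1 + s).re ≤ ‖1 + s‖ := Complex.re_le_norm _
    rw [Complex.add_re, Complex.one_re] at h4
    have h5 : 0 ≤ ‖t‖ ^ 2 := by positivity
    constructor <;> linarith
  obtain ⟨a1, a2⟩ := hre t s ht
  obtain ⟨b1, b2⟩ := hre t' s' ht'
  have h6 : ‖1 + s'‖ ≤ 3 / 2 * ‖1 + s‖ := by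
    have h7 : ‖1 + s'‖ ≤ ‖1 + s‖ + ‖s' - s‖ := by
      calc ‖1 + s'‖ = ‖(1 + s) + (s' - s)‖ := by ring_nf
        _ ≤ _ := norm_add_le _ _
    linarith
  obtain ⟨hP, hQ⟩ := hlip t s t' s' κ a1 a2 h2 h3 hκt (by linarith)
  obtain ⟨u1, u2, -⟩ := hup t s (by linarith) (by linarith)
  obtain ⟨w1, w2, -⟩ := hup t' s' (by linarith) (by linarith)
  have hlog := BaseFunC_log hc0 (hlow t s ht) (hlow t' s' ht')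
  unfold psi0
  refine hlog.trans ?_
  have hsq : ∀ (z z' : ℂ), ‖z‖ ≤ C1 → ‖z'‖ ≤ C1 → ‖z' - z‖ ≤ C2 * κ * ‖vv s‖ ^ 4 →
      |‖z'‖ ^ 2 - ‖z‖ ^ 2| ≤ 2 * C1 * (C2 * κ * ‖vv s‖ ^ 4) := by
    intro z z' hz hz' hd
    have h8 : ‖z'‖ ^ 2 - ‖z‖ ^ 2 = (‖z'‖ + ‖z‖) * (‖z'‖ - ‖z‖) := by ring
    rw [h8, abs_mul]
    have h9 : |‖z'‖ - ‖z‖| ≤ ‖z' - z‖ := abs_norm_sub_norm_le _ _
    have h10 : |‖z'‖ + ‖z‖| ≤ 2 * C1 := by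
      rw [abs_of_nonneg (by positivity)]
      linarith
    calc |‖z'‖ + ‖z‖| * |‖z'‖ - ‖z‖| ≤ 2 * C1 * ‖z' - z‖ := by gcongr
      _ ≤ _ := by gcongr
  have e1 := hsq _ _ u1 w1 hP
  have e2 := hsq _ _ u2 w2 hQ
  have h11 : |‖PP s'‖ ^ 2 + ‖QQ t' s'‖ ^ 2 - (‖PP s‖ ^ 2 + ‖QQ t s‖ ^ 2)| ≤
      4 * C1 * C2 * κ * ‖vv s‖ ^ 4 := by
    have h12 : ‖PP s'‖ ^ 2 + ‖QQ t' s'‖ ^ 2 - (‖PP s‖ ^ 2 + ‖QQ t s‖ ^ 2) =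
        (‖PP s'‖ ^ 2 - ‖PP s‖ ^ 2) + (‖QQ t' s'‖ ^ 2 - ‖QQ t s‖ ^ 2) := by ring
    rw [h12]
    refine (abs_add_le _ _).trans ?_
    linarith
  calc |‖PP s'‖ ^ 2 + ‖QQ t' s'‖ ^ 2 - (‖PP s‖ ^ 2 + ‖QQ t s‖ ^ 2)| / c0
      ≤ (4 * C1 * C2 * κ * ‖vv s‖ ^ 4) / c0 := by gcongr
    _ = 4 * C1 * C2 / c0 * κ * ‖vv s‖ ^ 4 := by ring

end P250
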