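import Mathlib.LinearAlgebra.FiniteDimensional.Defs
import Vale.Agent.Lib.P250.GeoCore

/-! # P250 module G1b: uniqueness and Koszul formula -/

open scoped ContDiff
open Complex Set

namespace P250

variable {E : Type*} [NormedAddCommGroup E] [NormedSpace ℂ E] [FiniteDimensional ℂ E]

/-- uniqueness at a point -/
theorem leviCivita_unique {M : Set E} {g : E → E →L[ℝ] E →L[ℝ] ℝ}
    (hg : IsRiemannianMetric M g) {Γ Γ' : E → E →L[ℝ] E →L[ℝ] E} (h : IsLeviCivita M g Γ)
    (h' : IsLeviCivita M g Γ') {p : E} (hp : p ∈ M) : Γ p = Γ' p := by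
  have hT : ∀ u v w : E, g p (Γ p u v) w - g p (Γ' p u v) w = 0 := by
    intro u v w
    have m1 := h.metric p hp u v w
    have m1' := h'.metric p hp u v w
    have m2 := h.metric p hp v w u
    have m2' := h'.metric p hp v w u
    have m3 := h.metric p hp w u v
    have m3' := h'.metric p hp w u v
    have s1 := h.torsion_free p hp v u
    have s2 := h.torsion_free p hp w u
    have s3 := h.torsion_free p hp w v
    have s1' := h'.torsion_free p hp v u
    have s2' := h'.torsion_free p hp w u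
    have s3' := h'.torsion_free p hp w v
    rw [s1] at m2
    rw [s1'] at m2'
    rw [s2, s3] at m3
    rw [s2', s3'] at m3'
    have g1 := hg.symm p hp v (Γ p u w)
    have g2 := hg.symm p hp w (Γ p u v)
    have g3 := hg.symm p hp u (Γ p v w)
    have g1' := hg.symm p hp v (Γ' p u w)
    have g2' := hg.symm p hp w (Γ' p u v)
    have g3' := hg.symm p hp u (Γ' p v w)
    rw [g1] at m1
    rw [g1'] at m1'
    rw [g2] at m2
    rw [g2'] at m2'
    rw [g3] at m3
    rw [g3'] at m3'
    linarith
  ext u v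
  by_contra hne
  have hne' : Γ p u v - Γ' p u v ≠ 0 := sub_ne_zero.mpr hne
  have hpos := hg.pos p hp _ hne'
  have h0 := hT u v (Γ p u v - Γ' p u v)
  have e1 : g p (Γ p u v - Γ' p u v) = g p (Γ p u v) - g p (Γ' p u v) := map_sub _ _ _
  have e2 : g p (Γ p u v - Γ' p u v) (Γ p u v - Γ' p u v) =
      g p (Γ p u v) (Γ p u v - Γ' p u v) - g p (Γ' p u v) (Γ p u v - Γ' p u v) := by
    rw [e1]
    rfl
  linarith

/-- Koszul -/
theorem koszul {M : Set E} {g : E → E →L[ℝ] E →L[ℝ] ℝ} (hM : IsOpen M)
    (hg : IsRiemannianMetric M g) {Γ : E → E →L[ℝ] E →L[ℝ] E} (h : IsLeviCivita M g Γ)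
    {p : E} (hp : p ∈ M) (u v w : E) :
    g p (Γ p u v) w = (1 / 2 : ℝ) * (fderiv ℝ g p u v w + fderiv ℝ g p v u w
      - fderiv ℝ g p w u v) := by
  have m1 := h.metric p hp u v w
  have m2 := h.metric p hp v u w
  have m3 := h.metric p hp w u v
  have s1 := h.torsion_free p hp v u
  have s2 := h.torsion_free p hp w u
  have s3 := h.torsion_free p hp w v
  rw [s1] at m2
  rw [s2, s3] at m3
  have g1 := hg.symm p hp v (Γ p u w)
  rw [g1] at m1
  linarith

end P250
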