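import Mathlib.Analysis.Calculus.ContDiff.Comp
import Mathlib.Analysis.Calculus.FDeriv.Mul
import Mathlib.Topology.Algebra.Module.ModuleTopology
import Vale.Agent.Lib.P250.GeoDefs
import Vale.Agent.Lib.P250.LCB

/-! # P250 module G2: the curvature numerator in terms of second derivatives of the metric -/

open scoped ContDiff
open Complex Set

namespace P250

variable {E : Type*} [NormedAddCommGroup E] [NormedSpace ℂ E] [FiniteDimensional ℂ E]

omit [FiniteDimensional ℂ E] in
private theorem curvNum_diff {M : Set E} (hM : IsOpen M) {F : Type*} [NormedAddCommGroup F]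
    [NormedSpace ℝ F] {f : E → F} (hf : ContDiffOn ℝ ∞ f M) {q : E} (hq : q ∈ M) :
    ContDiffAt ℝ ∞ f q := hf.contDiffAt (hM.mem_nhds hq)

omit [FiniteDimensional ℂ E] in
private theorem curvNum_fderiv_apply {M : Set E} {g : E → E →L[ℝ] E →L[ℝ] ℝ} (hM : IsOpen M)
    (hg : IsRiemannianMetric M g) {q : E} (hq : q ∈ M) (a b w : E) :
    fderiv ℝ (fun q' => g q' a b) q w = fderiv ℝ g q w a b := by
  have h1 : HasFDerivAt g (fderiv ℝ g q) q :=
    ((curvNum_diff hM hg.smooth hq).differentiableAt (by simp)).hasFDerivAt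
  have h2 := (h1.clm_apply (hasFDerivAt_const a q)).clm_apply (hasFDerivAt_const b q)
  rw [h2.fderiv]
  simp

omit [FiniteDimensional ℂ E] in
private theorem curvNum_symm {M : Set E} {g : E → E →L[ℝ] E →L[ℝ] ℝ}
    (hg : IsRiemannianMetric M g) {Γ : E → E →L[ℝ] E →L[ℝ] E} (h : IsLeviCivita M g Γ)
    {q : E} (hq : q ∈ M) (w a b : E) : fderiv ℝ g q w a b = fderiv ℝ g q w b a := by
  rw [h.metric q hq, h.metric q hq, hg.symm q hq (Γ q w a) b, hg.symm q hq a (Γ q w b)]
  ring

omit [FiniteDimensional ℂ E] in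
private theorem curvNum_second {M : Set E} {g : E → E →L[ℝ] E →L[ℝ] ℝ} (hM : IsOpen M)
    (hg : IsRiemannianMetric M g) {p : E} (hp : p ∈ M) (a b w : E) :
    DifferentiableAt ℝ (fun q => fderiv ℝ (fun q' => g q' a b) q w) p := by
  have h1 : ContDiffAt ℝ ∞ (fun q' => g q' a b) p :=
    ((curvNum_diff hM hg.smooth hp).clm_apply contDiffAt_const).clm_apply contDiffAt_const
  have h2 : ContDiffAt ℝ 1 (fderiv ℝ (fun q' => g q' a b)) p :=
    h1.fderiv_right (by norm_cast)
  have h3 : DifferentiableAt ℝ (fderiv ℝ (fun q' => g q' a b)) p :=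
    h2.differentiableAt (by norm_num)
  exact (h3.hasFDerivAt.clm_apply (hasFDerivAt_const w p)).differentiableAt

omit [FiniteDimensional ℂ E] in
private theorem curvNum_prod {M : Set E} {g : E → E →L[ℝ] E →L[ℝ] ℝ} (hM : IsOpen M)
    (hg : IsRiemannianMetric M g) {Γ : E → E →L[ℝ] E →L[ℝ] E} (h : IsLeviCivita M g Γ)
    {p : E} (hp : p ∈ M) (a b c w : E) :
    fderiv ℝ (fun q => g q (Γ q a b) c) p w =
      g p (Γ p w (Γ p a b)) c + g p (Γ p a b) (Γ p w c) + g p (fderiv ℝ Γ p w a b) c := by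
  have h1 : HasFDerivAt g (fderiv ℝ g p) p :=
    ((curvNum_diff hM hg.smooth hp).differentiableAt (by simp)).hasFDerivAt
  have h2 : HasFDerivAt Γ (fderiv ℝ Γ p) p :=
    ((curvNum_diff hM h.smooth hp).differentiableAt (by simp)).hasFDerivAt
  have h3 := (h2.clm_apply (hasFDerivAt_const a p)).clm_apply (hasFDerivAt_const b p)
  have h4 := (h1.clm_apply h3).clm_apply (hasFDerivAt_const c p)
  rw [h4.fderiv, ← h.metric p hp w (Γ p a b) c]
  simp
  ring

/-- `g(R(u,v)v,u) = ∂u∂v g(u,v) - ½ ∂u² g(v,v) - ½ ∂v² g(u,u) + |Γ(u,v)|² - g(Γ(u,u),Γ(v,v))`.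
Proof: differentiate the Koszul identities `g(Γ(v,v),w) = ∂v g(v,w) - ½ ∂w g(v,v)` along `u`, etc. -/
theorem curvNum_formula {M : Set E} {g : E → E →L[ℝ] E →L[ℝ] ℝ} (hM : IsOpen M)
    (hg : IsRiemannianMetric M g) {Γ : E → E →L[ℝ] E →L[ℝ] E} (h : IsLeviCivita M g Γ)
    {p : E} (hp : p ∈ M) (u v : E) :
    curvNum g Γ p u v =
      fderiv ℝ (fun q => fderiv ℝ (fun q' => g q' u v) q v) p u
      - (1 / 2 : ℝ) * fderiv ℝ (fun q => fderiv ℝ (fun q' => g q' v v) q u) p u
      - (1 / 2 : ℝ) * fderiv ℝ (fun q => fderiv ℝ (fun q' => g q' u u) q v) p v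
      + g p (Γ p u v) (Γ p u v) - g p (Γ p u u) (Γ p v v) := by
  have hnh : M ∈ nhds p := hM.mem_nhds hp
  -- first Koszul identity
  have e1 : (fun q => g q (Γ q v v) u) =ᶠ[nhds p] fun q =>
      fderiv ℝ (fun q' => g q' u v) q v - (1 / 2 : ℝ) * fderiv ℝ (fun q' => g q' v v) q u := by
    filter_upwards [hnh] with q hq
    rw [koszul hM hg h hq, curvNum_fderiv_apply hM hg hq, curvNum_fderiv_apply hM hg hq,
      curvNum_symm hg h hq v u v]
    ring
  have e2 : (fun q => g q (Γ q u v) u) =ᶠ[nhds p] fun q =>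
      (1 / 2 : ℝ) * fderiv ℝ (fun q' => g q' u u) q v := by
    filter_upwards [hnh] with q hq
    rw [koszul hM hg h hq, curvNum_fderiv_apply hM hg hq, curvNum_symm hg h hq u v u]
    ring
  have d1 := curvNum_prod hM hg h hp v v u u
  have d2 := curvNum_prod hM hg h hp u v u v
  rw [e1.fderiv_eq, fderiv_fun_sub (curvNum_second hM hg hp u v v)
    ((curvNum_second hM hg hp v v u).const_mul _),
    fderiv_const_mul (curvNum_second hM hg hp v v u)] at d1
  rw [e2.fderiv_eq, fderiv_const_mul (curvNum_second hM hg hp u u v)] at d2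
  simp only [_root_.sub_apply, _root_.smul_apply, smul_eq_mul] at d1 d2
  have ht : Γ p v u = Γ p u v := h.torsion_free p hp v u
  have hs : g p (Γ p v v) (Γ p u u) = g p (Γ p u u) (Γ p v v) := hg.symm p hp _ _
  rw [ht] at d2
  rw [hs] at d1
  unfold curvNum curvatureTensor
  simp only [map_sub, map_add, _root_.sub_apply, _root_.add_apply]
  linarith

end P250
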