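import Vale.Agent.Lib.P250.Defs

/-! # P250 module O1: definitions of the curve -/

open Complex Metric Set

namespace P250

noncomputable section

/-- normalised variable -/
def sF (e : ℝ) (w : ℂ) : ℂ := -I * w / ((e ^ 2 : ℝ) : ℂ)

/-- `a (s) = 1 - v^4` along the curve -/
def aF (e : ℝ) (w : ℂ) : ℂ := PP (sF e w)

/-- quadratic/cubic correction -/
def qF (A : ℂ) (B : ℝ) (wx w : ℂ) : ℂ := w ^ 2 * (A + B * (w - wx))

/-- the coefficient making the curve pass through `x` -/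
def A1 (e : ℝ) (x : ℂ × ℂ) : ℂ := (x.1 - ((e / 1000 : ℝ) : ℂ) / aF e x.2) / x.2 ^ 2

/-- the curve `z = zF w` -/
def zF (e : ℝ) (B : ℝ) (x : ℂ × ℂ) (w : ℂ) : ℂ :=
  ((e / 1000 : ℝ) : ℂ) / aF e w + qF (A1 e x) B x.2 w

/-- the parameter domain of the curve: `Im w - |zF w|^2 > e^10` (written without division) -/
def Om (e : ℝ) (B : ℝ) (x : ℂ × ℂ) : Set ℂ :=
  {w | 0 < w.im ∧ ‖((e / 1000 : ℝ) : ℂ) + aF e w * qF (A1 e x) B x.2 w‖ ^ 2 <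
    ‖aF e w‖ ^ 2 * (w.im - e ^ 10)}

/-- its closed version -/
def OmC (e : ℝ) (B : ℝ) (x : ℂ × ℂ) : Set ℂ :=
  {w | 0 < w.im ∧ ‖((e / 1000 : ℝ) : ℂ) + aF e w * qF (A1 e x) B x.2 w‖ ^ 2 ≤
    ‖aF e w‖ ^ 2 * (w.im - e ^ 10)}

/-- admissible points `x` and parameters -/
structure Adm (e : ℝ) (B : ℝ) (x : ℂ × ℂ) : Prop where
  he : 0 < e
  he1 : e ≤ 1 / 1000
  hB : 1 / 2000 ≤ B
  hB1 : B ≤ 1 / 1000
  hρ : rho x = 1
  hz : ‖x.1‖ ^ 2 ≤ 1 / 2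
  hw : |x.2.re| ≤ 1 / 2

end

end P250
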