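import Mathlib.Algebra.Order.Star.Real
import Mathlib.Analysis.CStarAlgebra.Classes
import Mathlib.Analysis.Calculus.Deriv.Inv
import Mathlib.Analysis.Calculus.FDeriv.Pow
import Mathlib.Topology.Algebra.Module.ModuleTopology
import Vale.Agent.Lib.P250.CurveDefs

/-! # P250 module O1a: basic facts on the curve -/

open Complex Metric Set

namespace P250

noncomputable section

private lemma cva_sF_re {e : ℝ} (w : ℂ) : (sF e w).re = w.im / e ^ 2 := by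
  unfold sF
  rw [Complex.div_ofReal_re]
  simp

private lemma cva_sF_norm {e : ℝ} (w : ℂ) : ‖sF e w‖ = ‖w‖ / e ^ 2 := by
  unfold sF
  rw [norm_div, norm_mul, norm_neg, Complex.norm_I, one_mul, Complex.norm_real,
    Real.norm_eq_abs, abs_of_nonneg (by positivity)]

private lemma cva_one_add_ne {e : ℝ} {w : ℂ} (hw : 0 ≤ w.im) : 1 + sF e w ≠ 0 := by
  intro h
  have h1 := congrArg Complex.re h
  simp only [add_re, one_re, zero_re, cva_sF_re] at h1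
  have h2 : 0 ≤ w.im / e ^ 2 := by positivity
  linarith

private lemma cva_norm_ge {e : ℝ} {w : ℂ} (hw : 0 ≤ w.im) : ‖sF e w‖ ≤ ‖1 + sF e w‖ := by
  have h2 : 0 ≤ (sF e w).re := by
    rw [cva_sF_re]; positivity
  rw [← abs_of_nonneg (norm_nonneg (sF e w)), ← abs_of_nonneg (norm_nonneg (1 + sF e w))]
  rw [← sq_le_sq, Complex.sq_norm, Complex.sq_norm, Complex.normSq_apply, Complex.normSq_apply]
  simp
  linarith

/-- far from the location `a` is close to `1`: if `0 ≤ Im w` and `|w| ≥ 1/10` then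
`|a w| ≥ 1/2`. -/
private lemma cva_aF_far {e : ℝ} (he : 0 < e) (he1 : e ≤ 1 / 1000) {w : ℂ} (hw : 0 ≤ w.im)
    (hw1 : 1 / 10 ≤ ‖w‖) : 1 / 2 ≤ ‖aF e w‖ := by
  have he2 : 0 < e ^ 2 := by positivity
  have he3 : e ^ 2 ≤ 1 / 1000 := by nlinarith
  have h1 : 100 ≤ ‖sF e w‖ := by
    rw [cva_sF_norm, le_div_iff₀ he2]
    linarith
  have h2 : 100 ≤ ‖1 + sF e w‖ := le_trans h1 (cva_norm_ge hw)
  have h3 : ‖vv (sF e w)‖ ≤ 1 / 50 := by
    unfold vv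
    rw [norm_div]
    have : ‖(2 : ℂ)‖ = 2 := by norm_num
    rw [this, div_le_iff₀ (by linarith)]
    linarith
  have h4 : ‖vv (sF e w) ^ 4‖ ≤ 1 / 2 := by
    rw [norm_pow]
    calc ‖vv (sF e w)‖ ^ 4 ≤ (1 / 50) ^ 4 := by gcongr
      _ ≤ 1 / 2 := by norm_num
  unfold aF PP
  have h5 : ‖(1 : ℂ)‖ ≤ ‖1 - vv (sF e w) ^ 4‖ + ‖vv (sF e w) ^ 4‖ := by
    calc ‖(1 : ℂ)‖ = ‖(1 - vv (sF e w) ^ 4) + vv (sF e w) ^ 4‖ := by
          congr 1; ring
      _ ≤ _ := norm_add_le _ _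
  rw [norm_one] at h5
  linarith

private lemma cva_im {e B : ℝ} {x : ℂ × ℂ} (h : Adm e B x) :
    x.2.im = 1 + ‖x.1‖ ^ 2 := by
  have := h.hρ
  unfold rho at this
  linarith

/-- elementary bounds: `1 ≤ |w_x| ≤ 1.6`, `|a(w_x)| ≥ 1/2`, `|A1| ≤ 3/4`. -/
theorem adm_basic {e B : ℝ} {x : ℂ × ℂ} (h : Adm e B x) :
    1 ≤ x.2.im ∧ x.2.im ≤ 3 / 2 ∧ 1 ≤ ‖x.2‖ ∧ ‖x.2‖ ≤ 8 / 5 ∧ ‖A1 e x‖ ≤ 3 / 4 ∧
    ‖A1 e x - x.1 / x.2 ^ 2‖ ≤ e / 500 := by
  have him := cva_im h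
  have hz := h.hz
  have hz0 : 0 ≤ ‖x.1‖ ^ 2 := by positivity
  have h1 : 1 ≤ x.2.im := by linarith
  have h2 : x.2.im ≤ 3 / 2 := by linarith
  have h3 : 1 ≤ ‖x.2‖ := by
    have := Complex.abs_im_le_norm x.2
    rw [abs_of_nonneg (by linarith)] at this
    linarith
  have h4 : ‖x.2‖ ≤ 8 / 5 := by
    have h5 : ‖x.2‖ ^ 2 ≤ (8 / 5) ^ 2 := by
      rw [Complex.sq_norm, Complex.normSq_apply]
      have h6 := h.hw
      rw [abs_le] at h6
      nlinarith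
    exact le_of_sq_le_sq h5 (by norm_num)
  have hfar : 1 / 2 ≤ ‖aF e x.2‖ := cva_aF_far h.he h.he1 (by linarith) (by linarith)
  have hapos : 0 < ‖aF e x.2‖ := by linarith
  have hxpos : 1 ≤ ‖x.2‖ ^ 2 := by nlinarith
  have hx0 : x.2 ≠ 0 := by
    intro h0
    rw [h0, norm_zero] at h3
    linarith
  have hterm : ‖((e / 1000 : ℝ) : ℂ) / aF e x.2‖ ≤ e / 500 := by
    rw [norm_div, Complex.norm_real, Real.norm_eq_abs, abs_of_nonneg (by have := h.he; positivity)]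
    rw [div_le_iff₀ hapos]
    have := h.he
    nlinarith
  have hdiff : ‖A1 e x - x.1 / x.2 ^ 2‖ ≤ e / 500 := by
    have : A1 e x - x.1 / x.2 ^ 2 = -((((e / 1000 : ℝ) : ℂ) / aF e x.2) / x.2 ^ 2) := by
      unfold A1
      rw [sub_div]
      ring
    rw [this, norm_neg, norm_div _ (x.2 ^ 2), norm_pow]
    rw [div_le_iff₀ (by linarith)]
    have h7 : 0 ≤ e / 500 := by have := h.he; positivity
    nlinarith
  refine ⟨h1, h2, h3, h4, ?_, hdiff⟩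
  have h8 : ‖x.1 / x.2 ^ 2‖ ≤ 71 / 100 := by
    rw [norm_div, norm_pow, div_le_iff₀ (by linarith)]
    have h9 : ‖x.1‖ ≤ 71 / 100 := by
      have : ‖x.1‖ ^ 2 ≤ (71 / 100) ^ 2 := by linarith [hz, (by norm_num : (1 / 2 : ℝ) ≤ (71/100)^2)]
      exact le_of_sq_le_sq this (by norm_num)
    linarith
  calc ‖A1 e x‖ = ‖(A1 e x - x.1 / x.2 ^ 2) + x.1 / x.2 ^ 2‖ := by congr 1; ring
    _ ≤ ‖A1 e x - x.1 / x.2 ^ 2‖ + ‖x.1 / x.2 ^ 2‖ := norm_add_le _ _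
    _ ≤ 3 / 4 := by
      have := h.he1
      linarith

/-- far from the location `a` is close to `1`: if `0 ≤ Im w` and `|w| ≥ 1/10` then
`|a w| ≥ 1/2`. -/
theorem aF_far {e : ℝ} (he : 0 < e) (he1 : e ≤ 1 / 1000) {w : ℂ} (hw : 0 ≤ w.im)
    (hw1 : 1 / 10 ≤ ‖w‖) : 1 / 2 ≤ ‖aF e w‖ :=
  cva_aF_far he he1 hw hw1

private lemma cva_ne {e B : ℝ} {x : ℂ × ℂ} {w : ℂ} (h : Adm e B x) (hw : w ∈ OmC e B x) :
    aF e w ≠ 0 := by
  intro ha
  have h1 := hw.2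
  rw [ha] at h1
  simp only [zero_mul, add_zero, norm_zero] at h1
  rw [Complex.norm_real, Real.norm_eq_abs, sq_abs] at h1
  have := h.he
  have h2 : 0 < (e / 1000) ^ 2 := by positivity
  norm_num at h1
  linarith

private lemma cva_norm_zF {e B : ℝ} {x : ℂ × ℂ} {w : ℂ} (ha : aF e w ≠ 0) :
    ‖((e / 1000 : ℝ) : ℂ) + aF e w * qF (A1 e x) B x.2 w‖ ^ 2 =
      ‖aF e w‖ ^ 2 * ‖zF e B x w‖ ^ 2 := by
  rw [← mul_pow, ← norm_mul]
  congr 2
  unfold zF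
  field_simp

theorem mem_OmC {e B : ℝ} {x : ℂ × ℂ} {w : ℂ} (h : Adm e B x) (hw : w ∈ OmC e B x) :
    aF e w ≠ 0 ∧ ‖zF e B x w‖ ^ 2 ≤ w.im - e ^ 10 ∧ e ^ 10 ≤ rho (zF e B x w, w) := by
  have ha := cva_ne h hw
  have h1 := hw.2
  rw [cva_norm_zF ha] at h1
  have h2 : 0 < ‖aF e w‖ ^ 2 := by
    have := norm_pos_iff.2 ha
    positivity
  have h3 : ‖zF e B x w‖ ^ 2 ≤ w.im - e ^ 10 := le_of_mul_le_mul_left h1 h2
  refine ⟨ha, h3, ?_⟩
  unfold rho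
  simp only
  linarith

private lemma cva_sF_cont {e : ℝ} : Continuous (sF e) := by
  unfold sF
  fun_prop

private lemma cva_aF_diff {e : ℝ} {w : ℂ} (hw : 0 ≤ w.im) : DifferentiableAt ℂ (aF e) w := by
  have h1 := cva_one_add_ne (e := e) hw
  unfold sF at h1
  unfold aF PP vv sF
  fun_prop (disch := assumption)

private lemma cva_aF_contAt {e : ℝ} {w : ℂ} (hw : 0 ≤ w.im) : ContinuousAt (aF e) w :=
  (cva_aF_diff hw).continuousAt

private lemma cva_f_contAt {e B : ℝ} {x : ℂ × ℂ} {w : ℂ} (hw : 0 ≤ w.im) :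
    ContinuousAt (fun w => ‖aF e w‖ ^ 2 * (w.im - e ^ 10) -
      ‖((e / 1000 : ℝ) : ℂ) + aF e w * qF (A1 e x) B x.2 w‖ ^ 2) w := by
  have h1 := cva_aF_contAt (e := e) hw
  have h2 : ContinuousAt (qF (A1 e x) B x.2) w := by
    unfold qF
    fun_prop
  have h3 : ContinuousAt (fun w : ℂ => w.im) w := Complex.continuous_im.continuousAt
  fun_prop

theorem Om_open {e B : ℝ} {x : ℂ × ℂ} (h : Adm e B x) : IsOpen (Om e B x) := by
  have _ := h.he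
  rw [isOpen_iff_mem_nhds]
  intro w hw
  have h1 : ∀ᶠ w' in nhds w, 0 < w'.im :=
    Complex.continuous_im.continuousAt.eventually (lt_mem_nhds hw.1)
  have h2 := (cva_f_contAt (e := e) (B := B) (x := x) hw.1.le).eventually
    (lt_mem_nhds (sub_pos.2 hw.2))
  filter_upwards [h1, h2] with w' h1' h2'
  exact ⟨h1', sub_pos.1 h2'⟩

private lemma cva_Om_sub {e B : ℝ} {x : ℂ × ℂ} : Om e B x ⊆ OmC e B x :=
  fun _ hw => ⟨hw.1, hw.2.le⟩

theorem closure_Om {e B : ℝ} {x : ℂ × ℂ} (h : Adm e B x) : closure (Om e B x) ⊆ OmC e B x := by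
  intro w hw
  have he := h.he
  have h1 : Om e B x ⊆ {w : ℂ | e ^ 10 ≤ w.im} := by
    intro w' hw'
    have h2 := (mem_OmC h (cva_Om_sub hw')).2.1
    have h3 : 0 ≤ ‖zF e B x w'‖ ^ 2 := by positivity
    show e ^ 10 ≤ w'.im
    linarith
  have h2 : IsClosed {w : ℂ | e ^ 10 ≤ w.im} := isClosed_le continuous_const Complex.continuous_im
  have h3 : e ^ 10 ≤ w.im := closure_minimal h1 h2 hw
  have h4 : 0 < w.im := lt_of_lt_of_le (by positivity) h3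
  refine ⟨h4, ?_⟩
  by_contra hcon
  push Not at hcon
  have h5 := (cva_f_contAt (e := e) (B := B) (x := x) h4.le).eventually
    (gt_mem_nhds (sub_neg.2 hcon))
  obtain ⟨w', hw'1, hw'2⟩ := mem_closure_iff_nhds.1 hw _ h5
  have h6 := hw'2.2
  simp only [mem_ofPred_eq] at hw'1
  linarith

theorem frontier_Om {e B : ℝ} {x : ℂ × ℂ} (h : Adm e B x) {w : ℂ} (hw : w ∈ frontier (Om e B x)) :
    w ∈ OmC e B x ∧ rho (zF e B x w, w) = e ^ 10 := by
  rw [(Om_open h).frontier_eq] at hw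
  have h1 := closure_Om h hw.1
  refine ⟨h1, ?_⟩
  have ha := cva_ne h h1
  have h2 : ¬ (‖((e / 1000 : ℝ) : ℂ) + aF e w * qF (A1 e x) B x.2 w‖ ^ 2 <
      ‖aF e w‖ ^ 2 * (w.im - e ^ 10)) := fun hc => hw.2 ⟨h1.1, hc⟩
  have h3 := le_antisymm h1.2 (not_lt.1 h2)
  rw [cva_norm_zF ha] at h3
  have h4 : 0 < ‖aF e w‖ ^ 2 := by
    have := norm_pos_iff.2 ha
    positivity
  have h5 := mul_left_cancel₀ h4.ne' h3
  unfold rho
  simp only
  linarith

theorem zF_x {e B : ℝ} {x : ℂ × ℂ} (h : Adm e B x) : zF e B x x.2 = x.1 := by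
  have h3 := (adm_basic h).2.2.1
  have hx0 : x.2 ≠ 0 := by
    intro h0
    rw [h0, norm_zero] at h3
    linarith
  unfold zF qF A1
  rw [sub_self, mul_zero, add_zero, mul_div_cancel₀ _ (pow_ne_zero 2 hx0)]
  ring

theorem x_mem_Om {e B : ℝ} {x : ℂ × ℂ} (h : Adm e B x) : x.2 ∈ Om e B x := by
  obtain ⟨h1, h2, h3, h4, h5, h6⟩ := adm_basic h
  have hfar : 1 / 2 ≤ ‖aF e x.2‖ := cva_aF_far h.he h.he1 (by linarith) (by linarith)
  have ha : aF e x.2 ≠ 0 := by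
    intro h0
    rw [h0, norm_zero] at hfar
    linarith
  refine ⟨by linarith, ?_⟩
  rw [cva_norm_zF ha, zF_x h]
  have him := cva_im h
  have he10 : e ^ 10 < 1 := by
    have h7 := h.he
    have h8 := h.he1
    exact pow_lt_one₀ h7.le (by linarith) (by norm_num)
  have h9 : 0 < ‖aF e x.2‖ ^ 2 := by positivity
  apply mul_lt_mul_of_pos_left _ h9
  linarith

/-- the curve is holomorphic where `a ≠ 0`, `Im w > 0` -/
theorem zF_diff {e B : ℝ} {x : ℂ × ℂ} (h : Adm e B x) {w : ℂ} (hw : 0 < w.im) (ha : aF e w ≠ 0) :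
    DifferentiableAt ℂ (zF e B x) w ∧ DifferentiableAt ℂ (aF e) w := by
  have _ := h.he
  have h1 := cva_aF_diff (e := e) hw.le
  refine ⟨?_, h1⟩
  unfold zF qF
  fun_prop (disch := assumption)

end

end P250
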