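import Vale.Agent.Lib.P250.BaseFunA
import Vale.Agent.Lib.P250.CurveA

/-! # P250 module O1c: annulus and disc -/

open Complex Metric Set

namespace P250

noncomputable section

private theorem cc_re {e : ℝ} (w : ℂ) : (sF e w).re = w.im / e ^ 2 := by
  unfold sF
  rw [Complex.div_ofReal_re]
  simp

private theorem cc_sub {e : ℝ} (he : 0 < e) (w : ℂ) :
    ‖sF e w - 1‖ = ‖w - I * ((e ^ 2 : ℝ) : ℂ)‖ / e ^ 2 := by
  have he2 : ((e ^ 2 : ℝ) : ℂ) ≠ 0 := by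
    rw [Ne, Complex.ofReal_eq_zero]
    positivity
  have h1 : sF e w - 1 = -I * (w - I * ((e ^ 2 : ℝ) : ℂ)) / ((e ^ 2 : ℝ) : ℂ) := by
    unfold sF
    field_simp
    ring_nf
    rw [I_sq]
    ring
  rw [h1, norm_div, norm_mul, norm_neg, Complex.norm_I, one_mul, Complex.norm_real,
    Real.norm_of_nonneg (by positivity)]

private theorem cc_q {e B : ℝ} {x : ℂ × ℂ} (h : Adm e B x) (w : ℂ) :
    ‖qF (A1 e x) B x.2 w‖ ≤ ‖w‖ ^ 2 * (3 / 4 + 1 / 1000 * (‖w‖ + 8 / 5)) := by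
  obtain ⟨_, _, _, hwx, hA, _⟩ := adm_basic h
  unfold qF
  rw [norm_mul, norm_pow]
  apply mul_le_mul_of_nonneg_left _ (by positivity)
  have h1 := norm_add_le (A1 e x) ((B : ℂ) * (w - x.2))
  have hB0 : 0 ≤ B := by linarith [h.hB]
  have h2 : ‖(B : ℂ) * (w - x.2)‖ ≤ 1 / 1000 * (‖w‖ + 8 / 5) := by
    rw [norm_mul, Complex.norm_real, Real.norm_of_nonneg hB0]
    have h3 := norm_sub_le w x.2
    have h4 : ‖w - x.2‖ ≤ ‖w‖ + 8 / 5 := by linarith
    calc B * ‖w - x.2‖ ≤ 1 / 1000 * ‖w - x.2‖ :=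
          mul_le_mul_of_nonneg_right h.hB1 (norm_nonneg _)
      _ ≤ 1 / 1000 * (‖w‖ + 8 / 5) := by linarith
  linarith

private theorem cc_mem {e B : ℝ} {x : ℂ × ℂ} {w : ℂ} (he : 0 < e) (hw : 0 < w.im) {β γ : ℝ}
    (hβ : e / 1000 ≤ ‖aF e w‖ * β) (ha0 : 0 < ‖aF e w‖)
    (hγ : ‖qF (A1 e x) B x.2 w‖ ≤ γ) (hfin : (β + γ) ^ 2 < w.im - e ^ 10) : w ∈ Om e B x := by
  refine ⟨hw, ?_⟩
  have h1 : ‖((e / 1000 : ℝ) : ℂ) + aF e w * qF (A1 e x) B x.2 w‖ ≤ ‖aF e w‖ * (β + γ) := by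
    refine (norm_add_le _ _).trans ?_
    rw [Complex.norm_real, Real.norm_of_nonneg (by positivity), norm_mul]
    have := mul_le_mul_of_nonneg_left hγ ha0.le
    linarith
  have h2 : ‖((e / 1000 : ℝ) : ℂ) + aF e w * qF (A1 e x) B x.2 w‖ ^ 2 ≤
      (‖aF e w‖ * (β + γ)) ^ 2 := pow_le_pow_left₀ (norm_nonneg _) h1 2
  refine lt_of_le_of_lt h2 ?_
  rw [mul_pow]
  exact mul_lt_mul_of_pos_left hfin (by positivity)

private theorem cc_pow {e : ℝ} (he : 0 < e) (he1 : e ≤ 1 / 1000) :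
    e ^ 10 ≤ e ^ 2 / 1000 := by
  have h1 : e ^ 10 = e ^ 2 * e ^ 8 := by ring
  have h2 : e ^ 8 ≤ (1 / 1000 : ℝ) ^ 8 := pow_le_pow_left₀ he.le he1 8
  rw [h1]
  have h3 : e ^ 2 * e ^ 8 ≤ e ^ 2 * (1 / 1000 : ℝ) ^ 8 :=
    mul_le_mul_of_nonneg_left h2 (by positivity)
  have h4 : e ^ 2 * (1 / 1000 : ℝ) ^ 8 ≤ e ^ 2 * (1 / 1000) := by
    apply mul_le_mul_of_nonneg_left _ (by positivity)
    norm_num
  linarith

/-- The annulus around the location. With `s = sF e w`: `|s - 1| ∈ (0.11, 0.91)`, `Re s ≥ 0.09`,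
`|a| ≥ 0.41 |s-1| / |s+1| ≥ 0.015`, so `|e/(1000 a)| ≤ 0.07 e`, `|q| ≤ 4 e⁴`. -/
theorem annulus_Om {e B : ℝ} {x : ℂ × ℂ} (h : Adm e B x) {w : ℂ}
    (h1 : 11 / 100 * e ^ 2 < ‖w - I * ((e ^ 2 : ℝ) : ℂ)‖)
    (h2 : ‖w - I * ((e ^ 2 : ℝ) : ℂ)‖ < 91 / 100 * e ^ 2) : w ∈ Om e B x := by
  have he := h.he
  have he1 := h.he1
  have he2 : 0 < e ^ 2 := by positivity
  have hs := cc_sub he w
  have hs1 : 11 / 100 < ‖sF e w - 1‖ := by
    rw [hs, lt_div_iff₀ he2]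
    exact h1
  have hs2 : ‖sF e w - 1‖ < 91 / 100 := by
    rw [hs, div_lt_iff₀ he2]
    exact h2
  have him : 9 / 100 * e ^ 2 < w.im := by
    have h3 := Complex.abs_im_le_norm (w - I * ((e ^ 2 : ℝ) : ℂ))
    have h4 : (w - I * ((e ^ 2 : ℝ) : ℂ)).im = w.im - e ^ 2 := by
      simp only [Complex.sub_im, Complex.mul_im, Complex.I_re, Complex.I_im, Complex.ofReal_re,
        Complex.ofReal_im]
      ring
    rw [h4] at h3
    have h5 := (abs_le.mp h3).1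
    linarith
  have him0 : 0 < w.im := lt_trans (by positivity) him
  have hre : 0 ≤ (sF e w).re := by
    rw [cc_re]
    positivity
  have hPP := PP_lower hre
  have hs3 : ‖sF e w + 1‖ ≤ 291 / 100 := by
    have h3 : sF e w + 1 = (sF e w - 1) + 2 := by ring
    rw [h3]
    have h4 := norm_add_le (sF e w - 1) 2
    have h5 : ‖(2 : ℂ)‖ = 2 := by norm_num
    linarith
  have hs4 : 0 < ‖sF e w + 1‖ := by
    rw [norm_pos_iff]
    intro h3
    have h4 := congrArg Complex.re h3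
    rw [Complex.add_re, Complex.one_re, Complex.zero_re] at h4
    linarith
  have ha : 15 / 1000 ≤ ‖aF e w‖ := by
    have h3 : (11 / 291 : ℝ) ≤ ‖sF e w - 1‖ / ‖sF e w + 1‖ := by
      rw [div_le_div_iff₀ (by norm_num) hs4]
      linarith
    unfold aF
    linarith
  have hwn : ‖w‖ ≤ 191 / 100 * e ^ 2 := by
    have h3 : w = (w - I * ((e ^ 2 : ℝ) : ℂ)) + I * ((e ^ 2 : ℝ) : ℂ) := by ring
    have h4 := norm_add_le (w - I * ((e ^ 2 : ℝ) : ℂ)) (I * ((e ^ 2 : ℝ) : ℂ))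
    rw [← h3, norm_mul, Complex.norm_I, one_mul, Complex.norm_real,
      Real.norm_of_nonneg he2.le] at h4
    linarith
  have hee : e ^ 2 ≤ 1 / 1000000 := by
    have := pow_le_pow_left₀ he.le he1 2
    linarith
  have hq : ‖qF (A1 e x) B x.2 w‖ ≤ 1 / 1000 * e := by
    refine (cc_q h w).trans ?_
    have h3 : ‖w‖ ^ 2 ≤ (191 / 100 * e ^ 2) ^ 2 := pow_le_pow_left₀ (norm_nonneg _) hwn 2
    have h4 : 3 / 4 + 1 / 1000 * (‖w‖ + 8 / 5) ≤ 1 := by linarith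
    have h5 : ‖w‖ ^ 2 * (3 / 4 + 1 / 1000 * (‖w‖ + 8 / 5)) ≤ ‖w‖ ^ 2 * 1 :=
      mul_le_mul_of_nonneg_left h4 (by positivity)
    have h6 : (191 / 100 * e ^ 2) ^ 2 ≤ 4 * e ^ 4 := by
      have : (191 / 100 * e ^ 2) ^ 2 = (191 / 100) ^ 2 * e ^ 4 := by ring
      rw [this]
      apply mul_le_mul_of_nonneg_right (by norm_num) (by positivity)
    have h7 : 4 * e ^ 4 ≤ 1 / 1000 * e := by
      have h8 : e ^ 4 = e ^ 2 * e * e := by ring
      have h9 : e ^ 2 * e * e ≤ 1 / 1000000 * e * 1 := by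
        apply mul_le_mul _ (by linarith) he.le (by positivity)
        exact mul_le_mul_of_nonneg_right hee he.le
      rw [h8]
      linarith
    linarith
  apply cc_mem he him0 (β := 67 / 1000 * e) (γ := 1 / 1000 * e) _ (by linarith) hq
  · have h3 := cc_pow he he1
    have h4 : (67 / 1000 * e + 1 / 1000 * e) ^ 2 = (68 / 1000) ^ 2 * e ^ 2 := by ring
    rw [h4]
    have h5 : ((68 : ℝ) / 1000) ^ 2 * e ^ 2 ≤ 1 / 100 * e ^ 2 :=
      mul_le_mul_of_nonneg_right (by norm_num) he2.le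
    linarith
  · have h3 : 15 / 1000 * (67 / 1000 * e) ≤ ‖aF e w‖ * (67 / 1000 * e) :=
      mul_le_mul_of_nonneg_right ha (by positivity)
    linarith

/-- The disc. On it `|w|² < Im w / 2`, `Re s ≥ 1.2`, `|a| ≥ 0.41 · 0.2/2.2`. -/
theorem disc_Om {e B : ℝ} {x : ℂ × ℂ} (h : Adm e B x) {w : ℂ}
    (h1 : ‖w - I / 4‖ < 1 / 4 - 6 / 5 * e ^ 2) : w ∈ Om e B x := by
  have he := h.he
  have he1 := h.he1
  have he2 : 0 < e ^ 2 := by positivity
  have him : 6 / 5 * e ^ 2 < w.im := by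
    have h3 := Complex.abs_im_le_norm (w - I / 4)
    have h4 : (w - I / 4).im = w.im - 1 / 4 := by
      have : I / 4 = I * (((1 / 4 : ℝ)) : ℂ) := by
        push_cast
        ring
      rw [this]
      simp only [Complex.sub_im, Complex.mul_im, Complex.I_re, Complex.I_im, Complex.ofReal_re,
        Complex.ofReal_im]
      ring
    rw [h4] at h3
    have h5 := (abs_le.mp h3).1
    linarith
  have him0 : 0 < w.im := lt_trans (by positivity) him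
  have hnw : ‖w‖ ^ 2 < w.im / 2 := by
    have h3 : ‖w - I / 4‖ ^ 2 < (1 / 4) ^ 2 := by
      apply pow_lt_pow_left₀ (by linarith) (norm_nonneg _) (by norm_num)
    have h4 : I / 4 = I * (((1 / 4 : ℝ)) : ℂ) := by
      push_cast
      ring
    rw [h4, ← Complex.normSq_eq_norm_sq, Complex.normSq_apply] at h3
    rw [← Complex.normSq_eq_norm_sq, Complex.normSq_apply]
    simp only [Complex.sub_im, Complex.sub_re, Complex.mul_re, Complex.mul_im, Complex.I_re,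
      Complex.I_im, Complex.ofReal_re, Complex.ofReal_im] at h3
    linarith
  have him2 : w.im ≤ ‖w‖ := (le_abs_self _).trans (Complex.abs_im_le_norm w)
  have hn1 : ‖w‖ ≤ 1 / 2 := by
    by_contra hcon
    rw [not_le] at hcon
    nlinarith [norm_nonneg w]
  have hre1 : 6 / 5 ≤ (sF e w).re := by
    rw [cc_re, le_div_iff₀ he2]
    exact him.le
  have hPP := PP_lower (by linarith : 0 ≤ (sF e w).re)
  have hs4 : 0 < ‖sF e w + 1‖ := by
    rw [norm_pos_iff]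
    intro h3
    have h4 := congrArg Complex.re h3
    rw [Complex.add_re, Complex.one_re, Complex.zero_re] at h4
    linarith
  have hratio : (1 / 11 : ℝ) ≤ ‖sF e w - 1‖ / ‖sF e w + 1‖ := by
    rw [div_le_div_iff₀ (by norm_num) hs4, one_mul]
    have h3 : ‖sF e w + 1‖ ^ 2 ≤ (‖sF e w - 1‖ * 11) ^ 2 := by
      rw [mul_pow, ← Complex.normSq_eq_norm_sq, ← Complex.normSq_eq_norm_sq, Complex.normSq_apply,
        Complex.normSq_apply]
      simp only [Complex.add_re, Complex.sub_re, Complex.add_im, Complex.sub_im, Complex.one_re,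
        Complex.one_im]
      nlinarith [mul_self_nonneg (sF e w).im, mul_nonneg (by linarith :
        (0 : ℝ) ≤ 10 * (sF e w).re - 12) (by linarith : (0 : ℝ) ≤ 12 * (sF e w).re - 10)]
    exact le_of_sq_le_sq h3 (by positivity)
  have ha : 41 / 1100 ≤ ‖aF e w‖ := by
    unfold aF
    linarith
  have hq : ‖qF (A1 e x) B x.2 w‖ ≤ 753 / 1000 * ‖w‖ ^ 2 := by
    refine (cc_q h w).trans ?_
    have h4 : 3 / 4 + 1 / 1000 * (‖w‖ + 8 / 5) ≤ 753 / 1000 := by linarith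
    have h5 := mul_le_mul_of_nonneg_left h4 (by positivity : 0 ≤ ‖w‖ ^ 2)
    linarith
  apply cc_mem he him0 (β := 3 / 100 * e) (γ := 753 / 1000 * ‖w‖ ^ 2) _ (by linarith) hq
  · have h3 := cc_pow he he1
    have h4 : (3 / 100 * e + 753 / 1000 * ‖w‖ ^ 2) ^ 2 ≤
        2 * (3 / 100 * e) ^ 2 + 2 * (753 / 1000 * ‖w‖ ^ 2) ^ 2 := by
      nlinarith [sq_nonneg (3 / 100 * e - 753 / 1000 * ‖w‖ ^ 2)]
    have h5 : 2 * (3 / 100 * e) ^ 2 ≤ 1 / 100 * e ^ 2 := by linarith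
    have h6 : 2 * (753 / 1000 * ‖w‖ ^ 2) ^ 2 ≤ 12 / 10 * (‖w‖ ^ 2 * ‖w‖ ^ 2) := by
      have : 0 ≤ ‖w‖ ^ 2 * ‖w‖ ^ 2 := by positivity
      linarith
    have h7 : ‖w‖ ^ 2 ≤ 1 / 4 := by nlinarith [norm_nonneg w]
    have h8 : ‖w‖ ^ 2 * ‖w‖ ^ 2 ≤ 1 / 4 * (w.im / 2) := by
      apply mul_le_mul h7 hnw.le (by positivity) (by norm_num)
    linarith
  · have h3 : 41 / 1100 * (3 / 100 * e) ≤ ‖aF e w‖ * (3 / 100 * e) :=
      mul_le_mul_of_nonneg_right ha (by positivity)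
    linarith

end

end P250
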