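import Mathlib.Analysis.CStarAlgebra.Classes
import Mathlib.Analysis.Calculus.ContDiff.Comp
import Mathlib.Analysis.Calculus.Deriv.Comp
import Mathlib.LinearAlgebra.FiniteDimensional.Defs
import Mathlib.Topology.Homotopy.Contractible
import Vale.Agent.Lib.P250.GeoCore

/-! # P250 module F1: transfer along a linear isomorphism -/

open scoped ContDiff
open Complex Metric Set

namespace P250

section

variable {E E' F F' : Type*} [NormedAddCommGroup E] [NormedSpace ℝ E]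
    [NormedAddCommGroup E'] [NormedSpace ℝ E'] [NormedAddCommGroup F] [NormedSpace ℝ F]
    [NormedAddCommGroup F'] [NormedSpace ℝ F']

/-- transfer of bilinear maps: `(u, v) ↦ C (B (L u, L v))` -/
private noncomputable def trB (L : E' →L[ℝ] E) (C : F →L[ℝ] F') :
    (E →L[ℝ] E →L[ℝ] F) →L[ℝ] (E' →L[ℝ] E' →L[ℝ] F') :=
  (ContinuousLinearMap.compL ℝ E' (E →L[ℝ] F) (E' →L[ℝ] F')
    ((ContinuousLinearMap.compL ℝ E' F F' C).comp
      ((ContinuousLinearMap.compL ℝ E' E F).flip L))).comp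
    ((ContinuousLinearMap.compL ℝ E' E (E →L[ℝ] F)).flip L)

private theorem trB_apply (L : E' →L[ℝ] E) (C : F →L[ℝ] F') (B : E →L[ℝ] E →L[ℝ] F)
    (u v : E') : trB L C B u v = C (B (L u) (L v)) := rfl

private theorem trB_contDiffOn (L : E' →L[ℝ] E) (C : F →L[ℝ] F') {M : Set E}
    {B : E → E →L[ℝ] E →L[ℝ] F} (hB : ContDiffOn ℝ ∞ B M) :
    ContDiffOn ℝ ∞ (fun p => trB L C (B (L p))) (L ⁻¹' M) := by
  have h1 : ContDiff ℝ ∞ (fun x : E →L[ℝ] E →L[ℝ] F => trB L C x) :=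
    ContinuousLinearMap.contDiff (𝕜 := ℝ) (E := E →L[ℝ] E →L[ℝ] F)
      (F := E' →L[ℝ] E' →L[ℝ] F') (trB L C)
  have h2 : ContDiffOn ℝ ∞ (fun p => B (L p)) (L ⁻¹' M) :=
    hB.comp L.contDiff.contDiffOn fun _ h => h
  exact h1.comp_contDiffOn h2

private theorem trB_fderiv (L : E' →L[ℝ] E) (C : F →L[ℝ] F') {M : Set E} (hM : IsOpen M)
    {B : E → E →L[ℝ] E →L[ℝ] F} (hB : ContDiffOn ℝ ∞ B M) {p : E'} (hp : L p ∈ M) (u : E') :
    fderiv ℝ (fun p => trB L C (B (L p))) p u = trB L C (fderiv ℝ B (L p) (L u)) := by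
  have h1 : DifferentiableAt ℝ B (L p) :=
    (hB.contDiffAt (hM.mem_nhds hp)).differentiableAt (by simp)
  have h3 : HasFDerivAt (fun p => B (L p)) ((fderiv ℝ B (L p)).comp L) p :=
    HasFDerivAt.comp (g := B) (f := fun p => L p) p h1.hasFDerivAt L.hasFDerivAt
  have h4 : HasFDerivAt (fun x : E →L[ℝ] E →L[ℝ] F => trB L C x) (trB L C) (B (L p)) :=
    ContinuousLinearMap.hasFDerivAt (𝕜 := ℝ) (E := E →L[ℝ] E →L[ℝ] F)
      (F := E' →L[ℝ] E' →L[ℝ] F') (trB L C)
  have h2 := HasFDerivAt.comp (𝕜 := ℝ) (E := E') (F := E →L[ℝ] E →L[ℝ] F)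
    (G := E' →L[ℝ] E' →L[ℝ] F') (f := fun p => B (L p)) (f' := (fderiv ℝ B (L p)).comp L)
    (g := fun x => trB L C x) (g' := trB L C) p h4 h3
  have h5 := h2.fderiv
  have h6 : fderiv ℝ (fun p => trB L C (B (L p))) p =
      (trB L C).comp ((fderiv ℝ B (L p)).comp L) := h5
  rw [h6]
  rfl

end

/-- Transfer of all notions along a complex linear isomorphism. -/
theorem transfer {E E' : Type*} [NormedAddCommGroup E] [NormedSpace ℂ E] [FiniteDimensional ℂ E]
    [NormedAddCommGroup E'] [NormedSpace ℂ E'] [FiniteDimensional ℂ E'] (L : E' ≃L[ℂ] E)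
    {M : Set E} {g : E → E →L[ℝ] E →L[ℝ] ℝ} {Γ : E → E →L[ℝ] E →L[ℝ] E} (hM : IsOpen M)
    (hc : ContractibleSpace M) (hK : IsKahlerMetric M g) (hΓ : IsLeviCivita M g Γ)
    (hcomp : IsGeodesicallyComplete M Γ) (hp : IsNegativelyPinched M g Γ) :
    ∃ (g' : E' → E' →L[ℝ] E' →L[ℝ] ℝ) (Γ' : E' → E' →L[ℝ] E' →L[ℝ] E'),
      IsOpen (L ⁻¹' M) ∧ ContractibleSpace (L ⁻¹' M) ∧ IsKahlerMetric (L ⁻¹' M) g' ∧
      IsLeviCivita (L ⁻¹' M) g' Γ' ∧ IsGeodesicallyComplete (L ⁻¹' M) Γ' ∧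
      IsNegativelyPinched (L ⁻¹' M) g' Γ' := by
  set LR : E' →L[ℝ] E := (L : E' →L[ℂ] E).restrictScalars ℝ with hLR
  set LS : E →L[ℝ] E' := (L.symm : E →L[ℂ] E').restrictScalars ℝ with hLS
  have hLRa : ∀ x, LR x = L x := fun _ => rfl
  have hLSa : ∀ x, LS x = L.symm x := fun _ => rfl
  have hRS : ∀ x, LR (LS x) = x := fun x => L.apply_symm_apply x
  have hSR : ∀ x, LS (LR x) = x := fun x => L.symm_apply_apply x
  have hLI : ∀ x : E', LR (I • x) = I • LR x := fun x => L.map_smul I x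
  set g' : E' → E' →L[ℝ] E' →L[ℝ] ℝ := fun p =>
    trB LR (ContinuousLinearMap.id ℝ ℝ) (g (LR p)) with hg'
  set Γ' : E' → E' →L[ℝ] E' →L[ℝ] E' := fun p => trB LR LS (Γ (LR p)) with hΓ'
  have hga : ∀ p u v, g' p u v = g (LR p) (LR u) (LR v) := fun _ _ _ => rfl
  have hΓa : ∀ p u v, Γ' p u v = LS (Γ (LR p) (LR u) (LR v)) := fun _ _ _ => rfl
  have hgd : ∀ p, LR p ∈ M → ∀ u v w, fderiv ℝ g' p u v w =
      fderiv ℝ g (LR p) (LR u) (LR v) (LR w) := by
    intro p hpM u v w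
    rw [hg', trB_fderiv LR _ hM hK.smooth hpM u]
    rfl
  have hΓd : ∀ p, LR p ∈ M → ∀ u v w, fderiv ℝ Γ' p u v w =
      LS (fderiv ℝ Γ (LR p) (LR u) (LR v) (LR w)) := by
    intro p hpM u v w
    rw [hΓ', trB_fderiv LR _ hM hΓ.smooth hpM u]
    rfl
  refine ⟨g', Γ', hM.preimage L.continuous, ?_, ?_, ?_, ?_, ?_⟩
  · exact (L.toHomeomorph.sets (s := L ⁻¹' M) (t := M) rfl).contractibleSpace
  · refine { smooth := ?_, symm := ?_, pos := ?_, hermitian := ?_, closed := ?_ }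
    · exact trB_contDiffOn LR _ hK.smooth
    · intro p hpM u v
      rw [hga, hga]
      exact hK.symm _ hpM _ _
    · intro p hpM u hu
      rw [hga]
      apply hK.pos _ hpM
      intro h0
      apply hu
      rw [← hSR u, h0, map_zero]
    · intro p hpM u v
      rw [hga, hga, hLI, hLI]
      exact hK.hermitian _ hpM _ _
    · intro p hpM u v w
      rw [hgd p hpM, hgd p hpM, hgd p hpM, hLI, hLI, hLI]
      exact hK.closed _ hpM _ _ _
  · refine { smooth := ?_, torsion_free := ?_, metric := ?_ }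
    · exact trB_contDiffOn LR _ hΓ.smooth
    · intro p hpM u v
      rw [hΓa, hΓa]
      exact congrArg LS (hΓ.torsion_free (LR p) hpM (LR u) (LR v))
    · intro p hpM u v w
      rw [hgd p hpM, hga, hga, hΓa, hΓa, hRS, hRS]
      exact hΓ.metric _ hpM _ _ _
  · intro p hpM v
    obtain ⟨c, hc0, hc1, hc2⟩ := hcomp (LR p) hpM (LR v)
    have hder : deriv (fun t => LS (c t)) = fun t => LS (deriv c t) := by
      funext t
      exact (LS.hasFDerivAt.comp_hasDerivAt t (hc2 t).2.1.hasDerivAt).deriv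
    refine ⟨fun t => LS (c t), ?_, ?_, fun t => ⟨?_, ?_, ?_⟩⟩
    · show LS (c 0) = p
      rw [hc0, hSR]
    · rw [hder]
      show LS (deriv c 0) = v
      rw [hc1, hSR]
    · show LR (LS (c t)) ∈ M
      rw [hRS]
      exact (hc2 t).1
    · exact (LS.hasFDerivAt.comp_hasDerivAt t (hc2 t).2.1.hasDerivAt).differentiableAt
    · rw [hder]
      have h1 : -(Γ' (LS (c t)) (LS (deriv c t)) (LS (deriv c t))) =
          LS (-(Γ (c t) (deriv c t) (deriv c t))) := by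
        rw [hΓa, hRS, hRS, map_neg]
      show HasDerivAt (fun t => LS (deriv c t))
        (-(Γ' (LS (c t)) (LS (deriv c t)) (LS (deriv c t)))) t
      rw [h1]
      exact LS.hasFDerivAt.comp_hasDerivAt t (hc2 t).2.2
  · obtain ⟨a, b, ha, hab, h⟩ := hp
    refine ⟨a, b, ha, hab, fun p hpM u v huv => ?_⟩
    have h1 : ∀ w, curvatureTensor Γ' p u v w =
        LS (curvatureTensor Γ (LR p) (LR u) (LR v) (LR w)) := by
      intro w
      unfold curvatureTensor
      rw [hΓd p hpM, hΓd p hpM, hΓa, hΓa, hΓa, hΓa, hRS, hRS, map_sub, map_add, map_sub]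
    have h2 : sectionalCurvature g' Γ' p u v =
        sectionalCurvature g Γ (LR p) (LR u) (LR v) := by
      unfold sectionalCurvature
      rw [h1, hga, hga, hga, hga, hRS]
    rw [h2]
    apply h (LR p) hpM
    have h3 := huv.map' (LR : E' →ₗ[ℝ] E) (LinearMap.ker_eq_bot.mpr fun x y hxy => by
      have h4 : LR x = LR y := hxy
      rw [← hSR x, h4, hSR])
    have h5 : (⇑(LR : E' →ₗ[ℝ] E) ∘ ![u, v]) = ![LR u, LR v] := by
      ext i
      fin_cases i <;> rfl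
    rw [h5] at h3
    exact h3

end P250
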