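import Mathlib.Analysis.CStarAlgebra.Classes
import Mathlib.Analysis.Calculus.ContDiff.Defs
import Mathlib.Analysis.SpecialFunctions.Complex.Log
import Vale.Agent.Lib.P250.Defs

/-! # P250 module A8: definitions of the normal form -/

open scoped ContDiff
open Complex Metric Set

namespace P250

/-- directional derivative along a constant vector -/
noncomputable def dd {V : Type*} [NormedAddCommGroup V] [NormedSpace ℂ V] (F : V → ℂ) (u : V) :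
    V → ℂ := fun z => fderiv ℂ F z u

/-- Normal form at `y0`: in the coordinate `x` (`y = gam y0 x`) the potential is twice the real part
of a holomorphic function plus a function `fh (x, conj x)` with `fh` holomorphic, bounded by `C0`,
without pure terms, and with Levi form `≥ N δ`. -/
structure NF (e δ : ℝ) (N : ℕ) (r0 C0 : ℝ) (y0 : ℂ × ℂ) (h : ℂ × ℂ → ℂ)
    (fh : (ℂ × ℂ) × (ℂ × ℂ) → ℂ) : Prop where
  h_smooth : ContDiffOn ℂ ∞ h (ball 0 r0)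
  f_smooth : ContDiffOn ℂ ∞ fh (ball 0 r0)
  f_bound : ∀ z ∈ ball (0 : (ℂ × ℂ) × (ℂ × ℂ)) r0, ‖fh z‖ ≤ C0
  f_herm : ∀ x ∈ ball (0 : ℂ × ℂ) r0, ∀ y ∈ ball (0 : ℂ × ℂ) r0,
    starRingEnd ℂ (fh (x, y)) = fh (cj y, cj x)
  f_nonneg : ∀ x ∈ ball (0 : ℂ × ℂ) r0, 0 ≤ (fh (x, cj x)).re
  f_left : ∀ x ∈ ball (0 : ℂ × ℂ) r0, fh (x, 0) = 0
  f_right : ∀ y ∈ ball (0 : ℂ × ℂ) r0, fh (0, y) = 0
  decomp : ∀ x ∈ ball (0 : ℂ × ℂ) r0,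
    phiL e δ N 0 (gam y0 x) = 2 * (h x).re + (fh (x, cj x)).re
  levi : ∀ ξ : ℂ × ℂ, N * δ * (‖ξ.1‖ ^ 2 + ‖ξ.2‖ ^ 2) ≤
    (dd (dd fh (0, cj ξ)) (ξ, 0) 0).re

/-- the explicit polarised function -/
noncomputable def fhat (e δ : ℝ) (N : ℕ) (y0 : ℂ × ℂ) (z : (ℂ × ℂ) × (ℂ × ℂ)) : ℂ :=
  N * (∑' i : ℕ × (ℤ × ℤ × ℤ), Complex.log (1 +
      chi (tc e (i.1 : ℤ) i.2 y0) (sc e (i.1 : ℤ) i.2 y0) (Real.sqrt (rho y0) / (sg e (i.1 : ℤ) * e)) z.1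
      * chi (starRingEnd ℂ (tc e (i.1 : ℤ) i.2 y0)) (starRingEnd ℂ (sc e (i.1 : ℤ) i.2 y0))
          (Real.sqrt (rho y0) / (sg e (i.1 : ℤ) * e)) z.2))
    - N * δ * Complex.log (1 - z.1.1 * z.2.1 - z.1.2 * z.2.2)

/-- the explicit holomorphic part -/
noncomputable def hhat (e δ : ℝ) (N : ℕ) (y0 : ℂ × ℂ) (x : ℂ × ℂ) : ℂ :=
  N * (∑' i : ℕ × (ℤ × ℤ × ℤ), (Complex.log (BB (tc e (i.1 : ℤ) i.2 y0) (sc e (i.1 : ℤ) i.2 y0)
        (Real.sqrt (rho y0) / (sg e (i.1 : ℤ) * e)) x 0)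
      - (1 / 2 : ℂ) * Real.log (BB (tc e (i.1 : ℤ) i.2 y0) (sc e (i.1 : ℤ) i.2 y0)
        (Real.sqrt (rho y0) / (sg e (i.1 : ℤ) * e)) 0 0).re))
    + N * δ * (Complex.log (1 + x.2) - (1 / 2 : ℂ) * Real.log (rho y0))

end P250
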