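import Vale.Agent.Lib.P250.Lattice

/-! # P250 module A5: sums over one generation -/

open Complex

namespace P250

private theorem genSum_scl_mem {e : ℝ} (he : 0 < e) (j : ℤ) {y : ℂ × ℂ} (hy : y ∈ U2) :
    scl (sg e j) y ∈ U2 := by
  show 0 < rho (scl (sg e j) y)
  rw [rho_scl (sg_pos he j)]
  have h1 : 0 < rho y := hy
  have h2 := sg_pos he j
  positivity

/-- From `lattice_sum` at `scl (sg e j) y` and `vv_sc_bounds`: exceptional point by
`2e²/(e²+ρ')`, the others by `16 e⁸ |W_b|⁻⁴`. -/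
theorem gen_sum : ∃ C : ℝ, 0 < C ∧ ∀ e : ℝ, 0 < e → e ≤ 1 → ∀ (j : ℤ), ∀ y ∈ U2,
    Summable (fun b : ℤ × ℤ × ℤ => ‖vv (sc e j b y)‖ ^ 4) ∧
    ∑' b : ℤ × ℤ × ℤ, ‖vv (sc e j b y)‖ ^ 4 ≤
      C * ((e ^ 2 / (e ^ 2 + rho y / sg e j ^ 2)) ^ 4
        + e ^ 8 / Real.sqrt (1 + rho y / sg e j ^ 2)) := by
  classical
  obtain ⟨C0, hC0, hlat⟩ := lattice_sum
  refine ⟨16 + 16 * C0, by positivity, fun e he _ j y hy => ?_⟩
  obtain ⟨bs, -, hsum, hle⟩ := hlat _ (genSum_scl_mem he j hy)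
  rw [rho_scl (sg_pos he j)] at hle
  set A : ℝ := (e ^ 2 / (e ^ 2 + rho y / sg e j ^ 2)) ^ 4 with hA
  have hσ := sg_pos he j
  have hr : 0 < rho y := hy
  have hA0 : 0 ≤ A := by positivity
  set F : ℤ × ℤ × ℤ → ℝ := fun b => if b = bs then 16 * A else 0 with hF
  set G : ℤ × ℤ × ℤ → ℝ := fun b => if b = bs then 0 else (‖chW b (scl (sg e j) y)‖ ^ 4)⁻¹ with hG
  have hFs : HasSum F (16 * A) := by
    have := hasSum_ite_eq bs (16 * A)
    exact this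
  have hbound : ∀ b, ‖vv (sc e j b y)‖ ^ 4 ≤ F b + 16 * e ^ 8 * G b := by
    intro b
    obtain ⟨h1, h2, -, -⟩ := vv_sc_bounds he j b hy
    by_cases hb : b = bs
    · simp only [hF, hG, hb, if_true, mul_zero, add_zero]
      rw [← hb]
      calc ‖vv (sc e j b y)‖ ^ 4 ≤ (2 * e ^ 2 / (e ^ 2 + rho y / sg e j ^ 2)) ^ 4 :=
            pow_le_pow_left₀ (norm_nonneg _) h2 4
        _ = 16 * A := by rw [hA, mul_div_assoc, mul_pow]; norm_num
    · simp only [hF, hG, hb, if_false, zero_add]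
      calc ‖vv (sc e j b y)‖ ^ 4 ≤ (2 * e ^ 2 / ‖chW b (scl (sg e j) y)‖) ^ 4 :=
            pow_le_pow_left₀ (norm_nonneg _) h1 4
        _ = 16 * e ^ 8 * (‖chW b (scl (sg e j) y)‖ ^ 4)⁻¹ := by
            rw [div_pow, mul_pow, div_eq_mul_inv]
            ring
  have hsumFG : Summable (fun b => F b + 16 * e ^ 8 * G b) :=
    hFs.summable.add (hsum.mul_left _)
  have hs : Summable (fun b : ℤ × ℤ × ℤ => ‖vv (sc e j b y)‖ ^ 4) :=
    Summable.of_nonneg_of_le (fun b => by positivity) hbound hsumFG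
  refine ⟨hs, ?_⟩
  have h1 : ∑' b : ℤ × ℤ × ℤ, ‖vv (sc e j b y)‖ ^ 4 ≤ ∑' b, (F b + 16 * e ^ 8 * G b) :=
    hs.tsum_le_tsum hbound hsumFG
  have h2 : ∑' b, (F b + 16 * e ^ 8 * G b) = 16 * A + 16 * e ^ 8 * ∑' b, G b := by
    rw [hFs.summable.tsum_add (hsum.mul_left _), hFs.tsum_eq, tsum_mul_left]
  have h3 : 16 * e ^ 8 * ∑' b, G b ≤ 16 * e ^ 8 * (C0 / Real.sqrt (1 + rho y / sg e j ^ 2)) :=
    mul_le_mul_of_nonneg_left hle (by positivity)
  have h4 : 16 * e ^ 8 * (C0 / Real.sqrt (1 + rho y / sg e j ^ 2))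
      = 16 * C0 * (e ^ 8 / Real.sqrt (1 + rho y / sg e j ^ 2)) := by ring
  have h5 : 0 ≤ e ^ 8 / Real.sqrt (1 + rho y / sg e j ^ 2) := by positivity
  have h6 : 0 ≤ C0 * A := by positivity
  rw [h4] at h3
  linarith

/-- generation `0`, all lattice points except `b0`, if `y` avoids them -/
theorem gen0_sum_avoid : ∃ C : ℝ, 0 < C ∧ ∀ e : ℝ, 0 < e → e ≤ 1 → ∀ y ∈ U2,
    ∀ b0 : ℤ × ℤ × ℤ, (∀ b, b ≠ b0 → e ≤ ‖chW b y‖) →
    Summable (fun b : ℤ × ℤ × ℤ => if b = b0 then 0 else ‖vv (sc e 0 b y)‖ ^ 4) ∧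
    ∑' b : ℤ × ℤ × ℤ, (if b = b0 then 0 else ‖vv (sc e 0 b y)‖ ^ 4) ≤ C * e ^ 4 := by
  classical
  obtain ⟨C0, hC0, hlat⟩ := lattice_sum
  refine ⟨16 + 16 * C0, by positivity, fun e he he1 y hy b0 hav => ?_⟩
  have hscl : scl (sg e 0) y = y := by
    simp [scl, sg]
  obtain ⟨bs, -, hsum, hle⟩ := hlat y hy
  have hr : 0 < rho y := hy
  set F : ℤ × ℤ × ℤ → ℝ := fun b => if b = bs then 16 * e ^ 4 else 0 with hF
  set G : ℤ × ℤ × ℤ → ℝ := fun b => if b = bs then 0 else (‖chW b y‖ ^ 4)⁻¹ with hG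
  have hFs : HasSum F (16 * e ^ 4) := by
    have := hasSum_ite_eq bs (16 * e ^ 4)
    exact this
  have hF0 : ∀ b, 0 ≤ F b := by
    intro b
    simp only [hF]
    split_ifs <;> positivity
  have hG0 : ∀ b, 0 ≤ G b := by
    intro b
    simp only [hG]
    split_ifs <;> positivity
  have hbound : ∀ b, (if b = b0 then 0 else ‖vv (sc e 0 b y)‖ ^ 4) ≤ F b + 16 * e ^ 8 * G b := by
    intro b
    obtain ⟨h1, -, -, -⟩ := vv_sc_bounds he 0 b hy
    rw [hscl] at h1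
    by_cases hb0 : b = b0
    · rw [if_pos hb0]
      have := hF0 b
      have := hG0 b
      positivity
    · rw [if_neg hb0]
      have hWe := hav b hb0
      have hWpos : 0 < ‖chW b y‖ := lt_of_lt_of_le he hWe
      by_cases hb : b = bs
      · have h3 : ‖vv (sc e 0 b y)‖ ≤ 2 * e := by
          refine h1.trans ?_
          rw [div_le_iff₀ hWpos]
          nlinarith
        have h4 : F b = 16 * e ^ 4 := by simp only [hF, hb, if_true]
        have h5 : G b = 0 := by simp only [hG, hb, if_true]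
        rw [h4, h5, mul_zero, add_zero]
        calc ‖vv (sc e 0 b y)‖ ^ 4 ≤ (2 * e) ^ 4 := pow_le_pow_left₀ (norm_nonneg _) h3 4
          _ = 16 * e ^ 4 := by ring
      · simp only [hF, hG, hb, if_false, zero_add]
        calc ‖vv (sc e 0 b y)‖ ^ 4 ≤ (2 * e ^ 2 / ‖chW b y‖) ^ 4 :=
              pow_le_pow_left₀ (norm_nonneg _) h1 4
          _ = 16 * e ^ 8 * (‖chW b y‖ ^ 4)⁻¹ := by
              rw [div_pow, mul_pow, div_eq_mul_inv]
              ring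
  have hsumFG : Summable (fun b => F b + 16 * e ^ 8 * G b) :=
    hFs.summable.add (hsum.mul_left _)
  have hs : Summable (fun b : ℤ × ℤ × ℤ => if b = b0 then 0 else ‖vv (sc e 0 b y)‖ ^ 4) := by
    refine Summable.of_nonneg_of_le (fun b => ?_) hbound hsumFG
    split_ifs <;> positivity
  refine ⟨hs, ?_⟩
  have h1 : ∑' b : ℤ × ℤ × ℤ, (if b = b0 then 0 else ‖vv (sc e 0 b y)‖ ^ 4)
      ≤ ∑' b, (F b + 16 * e ^ 8 * G b) := hs.tsum_le_tsum hbound hsumFG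
  have h2 : ∑' b, (F b + 16 * e ^ 8 * G b) = 16 * e ^ 4 + 16 * e ^ 8 * ∑' b, G b := by
    rw [hFs.summable.tsum_add (hsum.mul_left _), hFs.tsum_eq, tsum_mul_left]
  have h3 : ∑' b, G b ≤ C0 := by
    refine hle.trans ?_
    apply div_le_self hC0.le
    rw [Real.one_le_sqrt]
    linarith
  have h4 : 16 * e ^ 8 * ∑' b, G b ≤ 16 * e ^ 8 * C0 :=
    mul_le_mul_of_nonneg_left h3 (by positivity)
  have h5 : e ^ 8 ≤ e ^ 4 := pow_le_pow_of_le_one he.le he1 (by norm_num)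
  have h6 : 16 * e ^ 8 * C0 ≤ 16 * e ^ 4 * C0 := by
    have : 0 ≤ C0 := hC0.le
    nlinarith
  linarith

end P250
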