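import Mathlib.Algebra.Order.Star.Real
import Mathlib.Analysis.CStarAlgebra.Classes
import Mathlib.Analysis.Complex.HasPrimitives
import Mathlib.Analysis.Complex.Schwarz

/-! # P250 module O4: Harnack inequality for bounded zero-free holomorphic functions -/

open Complex Metric Set

namespace P250

theorem harnack_core_pos {H : ℂ → ℂ} {c : ℂ} {R a : ℝ} (hR : 0 < R)
    (hH : DifferentiableOn ℂ H (ball c R)) (hpos : ∀ w ∈ ball c R, 0 < (H w).re) (ha : 0 < a)
    (hc : H c = a) {w : ℂ} {r : ℝ} (hr : ‖w - c‖ ≤ r) (hrR : r < R) :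
    (R - r) / (R + r) * a ≤ (H w).re ∧ (R - r) / (R + r) * (H w).re ≤ a := by
  have hr0 : 0 ≤ r := (norm_nonneg _).trans hr
  have hw : w ∈ ball c R := by
    rw [mem_ball, dist_eq_norm]
    exact hr.trans_lt hrR
  have hne : ∀ z ∈ ball c R, H z + a ≠ 0 := by
    intro z hz h
    have h1 := congrArg Complex.re h
    simp only [add_re, ofReal_re, zero_re] at h1
    have := hpos z hz
    linarith
  -- the Cayley transform
  have hφ : DifferentiableOn ℂ (fun z => (H z - a) / (H z + a)) (ball c R) :=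
    (hH.sub_const _).div (hH.add_const _) hne
  have hφc : (H c - a) / (H c + a) = 0 := by rw [hc, sub_self, zero_div]
  have hmaps : MapsTo (fun z => (H z - a) / (H z + a)) (ball c R)
      (closedBall ((fun z => (H z - a) / (H z + a)) c) 1) := by
    intro z hz
    simp only [hφc]
    rw [mem_closedBall_zero_iff, norm_div, div_le_one (norm_pos_iff.2 (hne z hz))]
    have h1 : ‖H z - a‖ ^ 2 ≤ ‖H z + a‖ ^ 2 := by
      rw [Complex.sq_norm, Complex.sq_norm, normSq_apply, normSq_apply]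
      simp only [sub_re, sub_im, add_re, add_im, ofReal_re, ofReal_im]
      nlinarith [mul_pos ha (hpos z hz)]
    exact le_of_sq_le_sq h1 (norm_nonneg _)
  have h2 := dist_le_div_mul_dist_of_mapsTo_ball hφ hmaps hw
  simp only [hφc] at h2
  rw [dist_zero_right, norm_div, dist_eq_norm] at h2
  set x : ℝ := (H w).re with hx
  have hxpos : 0 < x := hpos w hw
  have hden : 0 < ‖H w + a‖ := norm_pos_iff.2 (hne w hw)
  have h3 : ‖H w - a‖ * R ≤ r * ‖H w + a‖ := by
    rw [div_le_iff₀ hden] at h2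
    have h4 : 1 / R * ‖w - c‖ ≤ r / R := by
      rw [one_div_mul_eq_div]
      gcongr
    have h5 : ‖H w - a‖ ≤ r / R * ‖H w + a‖ := h2.trans (by gcongr)
    calc ‖H w - a‖ * R ≤ r / R * ‖H w + a‖ * R := by gcongr
      _ = r * ‖H w + a‖ := by field_simp
  have h6 : (‖H w - a‖ * R) ^ 2 ≤ (r * ‖H w + a‖) ^ 2 := by
    gcongr
  rw [mul_pow, mul_pow, Complex.sq_norm, Complex.sq_norm, normSq_apply, normSq_apply] at h6
  simp only [sub_re, sub_im, add_re, add_im, ofReal_re, ofReal_im, sub_zero, add_zero] at h6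
  rw [← hx] at h6
  have h7 : ((x - a) * R) ^ 2 ≤ (r * (x + a)) ^ 2 := by
    have h8 : 0 ≤ (R ^ 2 - r ^ 2) * ((H w).im * (H w).im) := by
      refine mul_nonneg ?_ (mul_self_nonneg _)
      nlinarith
    linarith
  have h9 := abs_le_of_sq_le_sq' h7 (by positivity)
  have hRr : 0 < R + r := by linarith
  constructor
  · rw [div_mul_eq_mul_div, div_le_iff₀ hRr]
    nlinarith [h9.1]
  · rw [div_mul_eq_mul_div, div_le_iff₀ hRr]
    nlinarith [h9.2]

theorem harnack_core {H : ℂ → ℂ} {c : ℂ} {R a : ℝ} (hR : 0 < R)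
    (hH : DifferentiableOn ℂ H (ball c R)) (hpos : ∀ w ∈ ball c R, 0 ≤ (H w).re)
    (hc : H c = a) {w : ℂ} {r : ℝ} (hr : ‖w - c‖ ≤ r) (hrR : r < R) :
    (R - r) / (R + r) * a ≤ (H w).re ∧ (R - r) / (R + r) * (H w).re ≤ a := by
  have hr0 : 0 ≤ r := (norm_nonneg _).trans hr
  have ha : 0 ≤ a := by
    have h1 := hpos c (mem_ball_self hR)
    rwa [hc, ofReal_re] at h1
  have hk : 0 ≤ (R - r) / (R + r) := div_nonneg (by linarith) (by linarith)
  have key : ∀ ε : ℝ, 0 < ε → (R - r) / (R + r) * (a + ε) ≤ (H w).re + ε ∧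
      (R - r) / (R + r) * ((H w).re + ε) ≤ a + ε := by
    intro ε hε
    have h1 := harnack_core_pos (H := fun z => H z + ε) (a := a + ε) hR (hH.add_const _)
      (fun z hz => by
        simp only [add_re, ofReal_re]
        have := hpos z hz
        linarith) (by linarith) (by rw [hc]; push_cast; ring) hr hrR
    simpa only [add_re, ofReal_re] using h1
  constructor
  · refine le_of_forall_pos_le_add fun ε hε => ?_
    refine le_trans ?_ (key ε hε).1
    gcongr
    linarith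
  · refine le_of_forall_pos_le_add fun ε hε => ?_
    refine le_trans ?_ (key ε hε).2
    gcongr
    linarith

/-- Harnack, both directions, for `u = log M - log |Ψ| ≥ 0`. -/
theorem harnack {Ψ : ℂ → ℂ} {c : ℂ} {R M : ℝ} (hR : 0 < R) (hΨ : DifferentiableOn ℂ Ψ (ball c R))
    (h0 : ∀ w ∈ ball c R, Ψ w ≠ 0) (hM : ∀ w ∈ ball c R, ‖Ψ w‖ ≤ M) {w : ℂ} {r : ℝ}
    (hr : ‖w - c‖ ≤ r) (hrR : r < R) :
    (R - r) / (R + r) * (Real.log M - Real.log ‖Ψ c‖) ≤ Real.log M - Real.log ‖Ψ w‖ ∧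
    (R - r) / (R + r) * (Real.log M - Real.log ‖Ψ w‖) ≤ Real.log M - Real.log ‖Ψ c‖ := by
  have hcm : c ∈ ball c R := mem_ball_self hR
  have hw : w ∈ ball c R := by
    rw [mem_ball, dist_eq_norm]
    exact hr.trans_lt hrR
  have hder : DifferentiableOn ℂ (fun z => deriv Ψ z / Ψ z) (ball c R) :=
    (hΨ.deriv isOpen_ball).div hΨ h0
  obtain ⟨g, hg⟩ := hder.isExactOn_ball
  have hconst : ∀ z ∈ ball c R, Ψ z * exp (-g z) = Ψ c * exp (-g c) := by
    have hd : ∀ z ∈ ball c R, HasDerivAt (fun z => Ψ z * exp (-g z)) 0 z := by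
      intro z hz
      have h1 : HasDerivAt Ψ (deriv Ψ z) z :=
        (hΨ.differentiableAt (isOpen_ball.mem_nhds hz)).hasDerivAt
      have h2 : HasDerivAt (fun z => exp (-g z)) (exp (-g z) * -(deriv Ψ z / Ψ z)) z :=
        (hg z hz).neg.cexp
      refine (h1.mul h2).congr_deriv ?_
      have := h0 z hz
      field_simp
      ring
    intro z hz
    exact isOpen_ball.is_const_of_deriv_eq_zero (convex_ball c R).isPreconnected
      (fun z hz => (hd z hz).differentiableAt.differentiableWithinAt)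
      (fun z hz => (hd z hz).deriv) hz hcm
  have hlog : ∀ z ∈ ball c R, Real.log ‖Ψ z‖ = Real.log ‖Ψ c‖ + (g z - g c).re := by
    intro z hz
    have h1 : Ψ z = Ψ c * exp (g z - g c) := by
      have h2 := hconst z hz
      have h3 : exp (g z) * exp (-g z) = 1 := by rw [← Complex.exp_add]; simp
      calc Ψ z = (Ψ z * exp (-g z)) * exp (g z) := by
            rw [mul_assoc, mul_comm (exp (-g z)), h3, mul_one]
        _ = Ψ c * exp (-g c) * exp (g z) := by rw [h2]
        _ = Ψ c * exp (g z - g c) := by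
            rw [mul_assoc, ← Complex.exp_add]
            congr 2
            ring
    rw [h1, norm_mul, Complex.norm_exp,
      Real.log_mul (norm_ne_zero_iff.2 (h0 c hcm)) (Real.exp_pos _).ne', Real.log_exp]
  have hMle : ∀ z ∈ ball c R, Real.log ‖Ψ z‖ ≤ Real.log M := fun z hz =>
    Real.log_le_log (norm_pos_iff.2 (h0 z hz)) (hM z hz)
  have hgd : DifferentiableOn ℂ g (ball c R) := fun z hz =>
    (hg z hz).differentiableAt.differentiableWithinAt
  have hre : ∀ z ∈ ball c R, ((((Real.log M - Real.log ‖Ψ c‖ : ℝ) : ℂ) - (g z - g c))).re =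
      Real.log M - Real.log ‖Ψ z‖ := by
    intro z hz
    rw [sub_re, ofReal_re, hlog z hz]
    ring
  have h1 := harnack_core (H := fun z => ((Real.log M - Real.log ‖Ψ c‖ : ℝ) : ℂ) - (g z - g c))
    (a := Real.log M - Real.log ‖Ψ c‖) hR ((hgd.sub_const _).const_sub _)
    (fun z hz => by
      rw [hre z hz]
      have := hMle z hz
      linarith) (by rw [sub_self, sub_zero]) hr hrR
  rw [hre w hw] at h1
  exact h1

/-- Chain of balls: consecutive centres at distance `≤ r/2`, balls of radius `r` in the domain. -/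
theorem harnack_chain {Ψ : ℂ → ℂ} {Ω : Set ℂ} {M r : ℝ} (hr : 0 < r)
    (hΨ : DifferentiableOn ℂ Ψ Ω) (h0 : ∀ w ∈ Ω, Ψ w ≠ 0) (hM : ∀ w ∈ Ω, ‖Ψ w‖ ≤ M)
    (p : ℕ → ℂ) (n : ℕ) (hp : ∀ i ≤ n, ball (p i) r ⊆ Ω) (hd : ∀ i < n, ‖p (i + 1) - p i‖ ≤ r / 2) :
    (1 / 3 : ℝ) ^ n * (Real.log M - Real.log ‖Ψ (p 0)‖) ≤ Real.log M - Real.log ‖Ψ (p n)‖ := by
  induction n with
  | zero => simp
  | succ n ih =>
    have h1 := ih (fun i hi => hp i (by omega)) (fun i hi => hd i (by omega))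
    have hsub := hp n (by omega)
    have h2 := (harnack hr (hΨ.mono hsub) (fun w hw => h0 w (hsub hw))
      (fun w hw => hM w (hsub hw)) (hd n (by omega)) (by linarith)).1
    have h3 : (r - r / 2) / (r + r / 2) = 1 / 3 := by
      field_simp
      ring
    rw [h3] at h2
    rw [pow_succ]
    linarith

/-- along a segment -/
theorem harnack_segment {L r : ℝ} (hL : 0 < L) (hr : 0 < r) : ∃ c : ℝ, 0 < c ∧
    ∀ (Ψ : ℂ → ℂ) (Ω : Set ℂ) (M : ℝ), DifferentiableOn ℂ Ψ Ω → (∀ w ∈ Ω, Ψ w ≠ 0) →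
    (∀ w ∈ Ω, ‖Ψ w‖ ≤ M) → ∀ p q : ℂ, ‖q - p‖ ≤ L →
    (∀ t : ℝ, 0 ≤ t → t ≤ 1 → ball (p + t * (q - p)) r ⊆ Ω) →
    c * (Real.log M - Real.log ‖Ψ p‖) ≤ Real.log M - Real.log ‖Ψ q‖ := by
  obtain ⟨n, hn⟩ := exists_nat_ge (2 * L / r)
  have hn0 : 0 < (n : ℝ) := lt_of_lt_of_le (by positivity) hn
  refine ⟨(1 / 3) ^ n, by positivity, ?_⟩
  intro Ψ Ω M hΨ h0 hM p q hpq hball
  have h1 := harnack_chain hr hΨ h0 hM (fun i => p + (((i : ℝ) / (n : ℝ) : ℝ) : ℂ) * (q - p)) n
    (fun i hi => hball _ (by positivity) (by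
      rw [div_le_one hn0]
      exact_mod_cast hi)) (fun i hi => by
      have h2 : p + ((((i + 1 : ℕ) : ℝ) / (n : ℝ) : ℝ) : ℂ) * (q - p) -
          (p + (((i : ℝ) / (n : ℝ) : ℝ) : ℂ) * (q - p)) = ((1 / (n : ℝ) : ℝ) : ℂ) * (q - p) := by
        push_cast
        ring
      rw [h2, norm_mul, Complex.norm_real, Real.norm_eq_abs, abs_of_pos (by positivity)]
      calc 1 / (n : ℝ) * ‖q - p‖ ≤ 1 / (n : ℝ) * L := by gcongr
        _ ≤ r / 2 := by
          rw [div_mul_eq_mul_div, one_mul, div_le_iff₀ hn0]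
          rw [div_le_iff₀ hr] at hn
          nlinarith)
  have hn1 : (((n : ℝ) / (n : ℝ) : ℝ) : ℂ) = 1 := by rw [div_self hn0.ne', ofReal_one]
  simp only [hn1, one_mul, Nat.cast_zero, zero_div, ofReal_zero, zero_mul, add_zero,
    add_sub_cancel] at h1
  exact h1

end P250
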