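import Vale.Agent.Lib.P250.HC
import Vale.Agent.Lib.P250.HD
import Vale.Agent.Lib.P250.HE

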