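import Mathlib.Analysis.SpecialFunctions.Complex.Log
import Mathlib.Tactic.Positivity
import Vale.Agent.Lib.P250.Defs

/-! # P250 module A2a: algebra of the polarised functions -/

open Complex

namespace P250

private theorem ia_conj_Sx (t0 s0 : ℂ) (m : ℝ) (x : ℂ × ℂ) :
    starRingEnd ℂ (Sx t0 s0 m x) = Sx (starRingEnd ℂ t0) (starRingEnd ℂ s0) m (cj x) := by
  simp only [Sx, cj, map_sub, map_add, map_mul, map_div₀, map_pow, conj_ofReal, map_one,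
    Complex.conj_ofNat]

private theorem ia_conj_Tx (t0 : ℂ) (m : ℝ) (x : ℂ × ℂ) :
    starRingEnd ℂ (Tx t0 m x) = Tx (starRingEnd ℂ t0) m (cj x) := by
  simp only [Tx, cj, map_add, map_mul, map_div₀, conj_ofReal, map_one]

private theorem ia_conj_PP (s : ℂ) : starRingEnd ℂ (PP s) = PP (starRingEnd ℂ s) := by
  simp only [PP, vv, map_sub, map_add, map_div₀, map_pow, map_one, Complex.conj_ofNat]

private theorem ia_conj_QQ (t s : ℂ) :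
    starRingEnd ℂ (QQ t s) = QQ (starRingEnd ℂ t) (starRingEnd ℂ s) := by
  simp only [QQ, map_sub, map_mul, map_pow, map_one, Complex.conj_ofNat, ia_conj_PP, vv, map_div₀,
    map_add]

theorem conj_Px (t0 s0 : ℂ) (m : ℝ) (x : ℂ × ℂ) :
    starRingEnd ℂ (Px t0 s0 m x) = Px (starRingEnd ℂ t0) (starRingEnd ℂ s0) m (cj x) := by
  rw [Px, Px, ia_conj_PP, ia_conj_Sx]

theorem conj_Qx (t0 s0 : ℂ) (m : ℝ) (x : ℂ × ℂ) :
    starRingEnd ℂ (Qx t0 s0 m x) = Qx (starRingEnd ℂ t0) (starRingEnd ℂ s0) m (cj x) := by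
  rw [Qx, Qx, ia_conj_QQ, ia_conj_Sx, ia_conj_Tx]

private theorem ia_cj_cj (x : ℂ × ℂ) : cj (cj x) = x := by
  simp [cj]

private theorem ia_cj_zero : cj 0 = 0 := by
  simp [cj]

theorem conj_BB (t0 s0 : ℂ) (m : ℝ) (x y : ℂ × ℂ) :
    starRingEnd ℂ (BB t0 s0 m x y) = BB t0 s0 m (cj y) (cj x) := by
  rw [BB, BB, map_add, map_mul, map_mul, conj_Px, conj_Px, conj_Qx, conj_Qx]
  simp only [Complex.conj_conj]
  ring

theorem conj_chi (t0 s0 : ℂ) (m : ℝ) (x : ℂ × ℂ) :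
    starRingEnd ℂ (chi t0 s0 m x) = chi (starRingEnd ℂ t0) (starRingEnd ℂ s0) m (cj x) := by
  have h : ∀ y : ℂ × ℂ, BB (starRingEnd ℂ t0) (starRingEnd ℂ s0) m y 0 = BB t0 s0 m 0 y := by
    intro y
    rw [BB, BB]
    simp only [Complex.conj_conj]
    ring
  rw [chi, chi, map_div₀, map_sub, map_mul, map_mul, conj_BB, conj_Px, conj_Px, conj_Qx, conj_Qx,
    ia_cj_zero, h]

theorem BB_diag (t0 s0 : ℂ) (m : ℝ) (x : ℂ × ℂ) :
    BB t0 s0 m x (cj x) = ((‖Px t0 s0 m x‖ ^ 2 + ‖Qx t0 s0 m x‖ ^ 2 : ℝ) : ℂ) := by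
  rw [BB, ← conj_Px, ← conj_Qx, Complex.mul_conj, Complex.mul_conj, Complex.normSq_eq_norm_sq,
    Complex.normSq_eq_norm_sq]
  push_cast
  ring

/-- Lagrange identity. -/
theorem BB_mul (t0 s0 : ℂ) (m : ℝ) (x y : ℂ × ℂ) (h1 : BB t0 s0 m x 0 ≠ 0)
    (h2 : BB t0 s0 m 0 y ≠ 0) :
    BB t0 s0 m x y * BB t0 s0 m 0 0 = BB t0 s0 m x 0 * BB t0 s0 m 0 y *
      (1 + chi t0 s0 m x * chi (starRingEnd ℂ t0) (starRingEnd ℂ s0) m y) := by
  have h : BB (starRingEnd ℂ t0) (starRingEnd ℂ s0) m y 0 = BB t0 s0 m 0 y := by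
    rw [BB, BB]
    simp only [Complex.conj_conj]
    ring
  rw [chi, chi, h]
  field_simp
  rw [BB, BB, BB, BB]
  ring

/-- On the diagonal: `log (|P|^2 + |Q|^2) = log (1 + |χ|^2) + 2 Re Log B(x,0) - log B(0,0)`. -/
theorem log_diag (t0 s0 : ℂ) (m : ℝ) (x : ℂ × ℂ) (h1 : 0 < (BB t0 s0 m x 0).re)
    (h0 : 0 < (BB t0 s0 m 0 0).re) (hx : 0 < (BB t0 s0 m x (cj x)).re) :
    Real.log (‖Px t0 s0 m x‖ ^ 2 + ‖Qx t0 s0 m x‖ ^ 2) =
      2 * (Complex.log (BB t0 s0 m x 0)).re - Real.log (BB t0 s0 m 0 0).re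
        + Real.log (1 + ‖chi t0 s0 m x‖ ^ 2) := by
  have hn1 : BB t0 s0 m x 0 ≠ 0 := by
    intro h
    rw [h] at h1
    simp at h1
  have hc : BB t0 s0 m 0 (cj x) = starRingEnd ℂ (BB t0 s0 m x 0) := by
    rw [conj_BB, ia_cj_zero]
  have hn2 : BB t0 s0 m 0 (cj x) ≠ 0 := by
    rw [hc]
    exact (map_ne_zero _).mpr hn1
  have hmul := BB_mul t0 s0 m x (cj x) hn1 hn2
  have h00 : BB t0 s0 m 0 0 = ((‖Px t0 s0 m 0‖ ^ 2 + ‖Qx t0 s0 m 0‖ ^ 2 : ℝ) : ℂ) := by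
    have := BB_diag t0 s0 m 0
    rwa [ia_cj_zero] at this
  have hxx := BB_diag t0 s0 m x
  rw [← conj_chi, hc, Complex.mul_conj, Complex.mul_conj, Complex.normSq_eq_norm_sq,
    Complex.normSq_eq_norm_sq, hxx, h00] at hmul
  rw [hxx, Complex.ofReal_re] at hx
  rw [h00, Complex.ofReal_re] at h0
  rw [h00, Complex.ofReal_re]
  have hR : (‖Px t0 s0 m x‖ ^ 2 + ‖Qx t0 s0 m x‖ ^ 2) * (‖Px t0 s0 m 0‖ ^ 2 + ‖Qx t0 s0 m 0‖ ^ 2) =
      ‖BB t0 s0 m x 0‖ ^ 2 * (1 + ‖chi t0 s0 m x‖ ^ 2) := by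
    exact_mod_cast hmul
  have hb : 0 < ‖BB t0 s0 m x 0‖ := norm_pos_iff.mpr hn1
  have hch : 0 < 1 + ‖chi t0 s0 m x‖ ^ 2 := by positivity
  have hlog := congrArg Real.log hR
  rw [Real.log_mul hx.ne' h0.ne', Real.log_mul (by positivity) hch.ne', Real.log_pow] at hlog
  rw [Complex.log_re]
  push_cast at hlog
  linarith

end P250
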