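import Mathlib.Analysis.SpecialFunctions.Complex.LogDeriv
import Vale.Agent.Lib.P250.BaseFunC
import Vale.Agent.Lib.P250.IndexA

/-! # P250 module A2b: estimates of the polarised functions -/

open Complex

namespace P250

private theorem IB_Sx0 (t0 s0 : ℂ) (m : ℝ) : Sx t0 s0 m 0 = s0 := by simp [Sx]

private theorem IB_Tx0 (t0 : ℂ) (m : ℝ) : Tx t0 m 0 = t0 := by simp [Tx]

private theorem IB_geo {t0 s0 : ℂ} {m : ℝ} (hm : 0 < m) (hs : s0.re = m ^ 2 + ‖t0‖ ^ 2) {r0 : ℝ}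
    (hr : r0 ≤ 1 / 8) {x : ℂ × ℂ} (hx : ‖x‖ < r0) :
    1 ≤ ‖1 + s0‖ ∧ ‖t0‖ ^ 2 ≤ ‖1 + s0‖ ∧ m ^ 2 ≤ ‖1 + s0‖ ∧
      ‖Sx t0 s0 m x - s0‖ ≤ ‖1 + s0‖ / 2 ∧
      ‖Sx t0 s0 m x - s0‖ ≤ 4 * r0 * m * Real.sqrt ‖1 + s0‖ ∧
      ‖Tx t0 m x - t0‖ ≤ 4 * r0 * m ∧ ‖Tx t0 m x‖ ^ 2 ≤ 4 * ‖1 + s0‖ := by
  have hD : 1 + m ^ 2 + ‖t0‖ ^ 2 ≤ ‖1 + s0‖ := by
    have h := Complex.re_le_norm (1 + s0)
    rw [add_re, one_re, hs] at h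
    linarith
  have hr0 : 0 < r0 := lt_of_le_of_lt (norm_nonneg _) hx
  have hx1 : ‖x.1‖ < r0 := lt_of_le_of_lt (norm_fst_le x) hx
  have hx2 : ‖x.2‖ < r0 := lt_of_le_of_lt (norm_snd_le x) hx
  have hden : 7 / 8 ≤ ‖1 + x.2‖ := by
    have h := norm_sub_norm_le (1 : ℂ) (-x.2)
    rw [norm_neg, norm_one, sub_neg_eq_add] at h
    linarith
  have hden0 : 0 < ‖1 + x.2‖ := by linarith
  have hu : ‖x.1 / (1 + x.2)‖ ≤ 8 / 7 * r0 := by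
    rw [norm_div, div_le_iff₀ hden0]
    nlinarith
  have hw : ‖x.2 / (1 + x.2)‖ ≤ 8 / 7 * r0 := by
    rw [norm_div, div_le_iff₀ hden0]
    nlinarith
  have ht0 : 0 ≤ ‖t0‖ := norm_nonneg _
  have hmm : ‖(m : ℂ)‖ = m := by rw [Complex.norm_real, Real.norm_eq_abs, abs_of_pos hm]
  have hS : ‖Sx t0 s0 m x - s0‖ ≤ (2 * m ^ 2 + 2 * ‖t0‖ * m) * (8 / 7 * r0) := by
    have h1 : Sx t0 s0 m x - s0 = -(2 * (m : ℂ) ^ 2 * (x.2 / (1 + x.2))) +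
        2 * starRingEnd ℂ t0 * m * (x.1 / (1 + x.2)) := by
      rw [Sx]; ring
    rw [h1]
    refine (norm_add_le _ _).trans ?_
    rw [norm_neg, norm_mul, norm_mul, norm_mul, norm_mul, norm_mul, norm_pow, hmm,
      RCLike.norm_conj, Complex.norm_ofNat]
    have h2 : 2 * m ^ 2 * ‖x.2 / (1 + x.2)‖ ≤ 2 * m ^ 2 * (8 / 7 * r0) :=
      mul_le_mul_of_nonneg_left hw (by positivity)
    have h3 : 2 * ‖t0‖ * m * ‖x.1 / (1 + x.2)‖ ≤ 2 * ‖t0‖ * m * (8 / 7 * r0) :=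
      mul_le_mul_of_nonneg_left hu (by positivity)
    linarith
  have hT : ‖Tx t0 m x - t0‖ ≤ 4 * r0 * m := by
    have h1 : Tx t0 m x - t0 = (m : ℂ) * (x.1 / (1 + x.2)) := by
      rw [Tx]; ring
    rw [h1, norm_mul, hmm]
    have h2 : m * ‖x.1 / (1 + x.2)‖ ≤ m * (8 / 7 * r0) := mul_le_mul_of_nonneg_left hu hm.le
    nlinarith
  have hD0 : 0 ≤ ‖1 + s0‖ := norm_nonneg _
  refine ⟨by nlinarith [sq_nonneg m, sq_nonneg ‖t0‖], by nlinarith [sq_nonneg m],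
    by nlinarith [sq_nonneg ‖t0‖], ?_, ?_, hT, ?_⟩
  · refine hS.trans ?_
    have h2 : 2 * m ^ 2 + 2 * ‖t0‖ * m ≤ 3 * ‖1 + s0‖ := by
      nlinarith [sq_nonneg (m - ‖t0‖), sq_nonneg ‖t0‖]
    have h3 : (2 * m ^ 2 + 2 * ‖t0‖ * m) * (8 / 7 * r0) ≤ 3 * ‖1 + s0‖ * (8 / 7 * r0) :=
      mul_le_mul_of_nonneg_right h2 (by positivity)
    have h4 : 3 * ‖1 + s0‖ * (8 / 7 * r0) ≤ 3 * ‖1 + s0‖ * (8 / 7 * (1 / 8)) :=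
      mul_le_mul_of_nonneg_left (by linarith) (by positivity)
    linarith
  · refine hS.trans ?_
    set q : ℝ := Real.sqrt ‖1 + s0‖ with hq
    have hq0 : 0 ≤ q := Real.sqrt_nonneg _
    have hqq : q ^ 2 = ‖1 + s0‖ := Real.sq_sqrt hD0
    have h1 : m + ‖t0‖ ≤ 7 / 4 * q := by
      by_contra hcon
      push Not at hcon
      nlinarith [sq_nonneg (m - ‖t0‖), mul_nonneg hq0 hq0]
    have h2 : (m + ‖t0‖) * (16 / 7 * (r0 * m)) ≤ 7 / 4 * q * (16 / 7 * (r0 * m)) :=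
      mul_le_mul_of_nonneg_right h1 (by positivity)
    linarith
  · have h1 : ‖Tx t0 m x‖ ≤ ‖t0‖ + m / 2 := by
      have h2 : ‖Tx t0 m x‖ ≤ ‖t0‖ + ‖Tx t0 m x - t0‖ := by
        have h3 := norm_add_le t0 (Tx t0 m x - t0)
        rwa [add_sub_cancel] at h3
      nlinarith
    have h4 : ‖Tx t0 m x‖ ^ 2 ≤ (‖t0‖ + m / 2) ^ 2 :=
      pow_le_pow_left₀ (norm_nonneg _) h1 2
    nlinarith [sq_nonneg (m - ‖t0‖), sq_nonneg m]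

private theorem IB_vv {s0 : ℂ} (hD : 1 ≤ ‖1 + s0‖) {s : ℂ} (h : ‖s - s0‖ ≤ ‖1 + s0‖ / 2) :
    ‖1 + s0‖ / 2 ≤ ‖1 + s‖ ∧ ‖vv s‖ ≤ 2 * ‖vv s0‖ ∧ ‖vv s0‖ ≤ 2 ∧
      ‖vv s0‖ = 2 / ‖1 + s0‖ := by
  have h1 : ‖1 + s0‖ / 2 ≤ ‖1 + s‖ := by
    have h2 : ‖1 + s0‖ ≤ ‖1 + s‖ + ‖s - s0‖ := by
      have h3 := norm_sub_le (1 + s) (s - s0)
      have h4 : 1 + s - (s - s0) = 1 + s0 := by ring
      rwa [h4] at h3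
    linarith
  have hv : ‖vv s0‖ = 2 / ‖1 + s0‖ := by rw [vv, norm_div, Complex.norm_ofNat]
  refine ⟨h1, ?_, ?_, hv⟩
  · rw [hv, vv, norm_div, Complex.norm_ofNat, div_le_iff₀ (by linarith)]
    have h5 : 2 * (2 / ‖1 + s0‖) * (‖1 + s0‖ / 2) ≤ 2 * (2 / ‖1 + s0‖) * ‖1 + s‖ :=
      mul_le_mul_of_nonneg_left h1 (by positivity)
    have h6 : 2 * (2 / ‖1 + s0‖) * (‖1 + s0‖ / 2) = 2 := by
      have : ‖1 + s0‖ ≠ 0 := by linarith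
      field_simp
    linarith
  · rw [hv, div_le_iff₀ (by linarith)]
    linarith

private theorem IB_pq : ∃ C : ℝ, 1 ≤ C ∧ ∀ (t0 s0 : ℂ) (m : ℝ), 0 < m →
    s0.re = m ^ 2 + ‖t0‖ ^ 2 → ∀ r0 : ℝ, r0 ≤ 1 / 8 → ∀ x : ℂ × ℂ, ‖x‖ < r0 →
      1 / 2 ≤ ‖1 + Sx t0 s0 m x‖ ∧ ‖Px t0 s0 m x‖ ≤ C ∧ ‖Qx t0 s0 m x‖ ≤ C ∧
      ‖Qx t0 s0 m x‖ ^ 2 ≤ C * ‖vv s0‖ ^ 4 ∧ ‖Px t0 s0 m x - 1‖ ≤ C * ‖vv s0‖ ^ 4 ∧
      ‖Px t0 s0 m x - Px t0 s0 m 0‖ ≤ C * r0 * (m * ‖vv s0‖ ^ 4) ∧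
      ‖Qx t0 s0 m x - Qx t0 s0 m 0‖ ≤ C * r0 * (m * ‖vv s0‖ ^ 4) := by
  obtain ⟨C1, hC1, hup⟩ := PQ_upper
  obtain ⟨C2, hC2, hlip⟩ := PQ_lip
  refine ⟨1024 * C1 + 4 * C2 + 16, by linarith, ?_⟩
  intro t0 s0 m hm hs r0 hr x hx
  obtain ⟨hD, ht, _, hS2, hSq, hT, hT4⟩ := IB_geo hm hs hr hx
  obtain ⟨h1, hvs, hv2, _⟩ := IB_vv hD hS2
  have hr0 : 0 < r0 := lt_of_le_of_lt (norm_nonneg _) hx
  have hhalf : 1 / 2 ≤ ‖1 + Sx t0 s0 m x‖ := by linarith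
  obtain ⟨hP, hQ, hQ2⟩ := hup (Tx t0 m x) (Sx t0 s0 m x) hhalf (by linarith)
  obtain ⟨hlP, hlQ⟩ := hlip t0 s0 (Tx t0 m x) (Sx t0 s0 m x) (4 * r0 * m) hD ht hS2 hSq hT hT4
  have hv0 : 0 ≤ ‖vv s0‖ := norm_nonneg _
  have hvx0 : 0 ≤ ‖vv (Sx t0 s0 m x)‖ := norm_nonneg _
  have hQ' : ‖Qx t0 s0 m x‖ ^ 2 ≤ C1 * ‖vv (Sx t0 s0 m x)‖ ^ 7 := hQ2
  have hP' : ‖Px t0 s0 m x‖ ≤ C1 := hP
  have hQ'' : ‖Qx t0 s0 m x‖ ≤ C1 := hQ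
  have hv4 : 0 ≤ ‖vv s0‖ ^ 4 := by positivity
  refine ⟨hhalf, by linarith, by linarith, ?_, ?_, ?_, ?_⟩
  · have h2 : ‖vv (Sx t0 s0 m x)‖ ^ 7 ≤ (2 * ‖vv s0‖) ^ 7 := pow_le_pow_left₀ hvx0 hvs 7
    have h3 : (2 * ‖vv s0‖) ^ 7 = 128 * ‖vv s0‖ ^ 3 * ‖vv s0‖ ^ 4 := by ring
    have h4 : ‖vv s0‖ ^ 3 ≤ 2 ^ 3 := pow_le_pow_left₀ hv0 hv2 3
    have h5 : 128 * ‖vv s0‖ ^ 3 * ‖vv s0‖ ^ 4 ≤ 128 * 2 ^ 3 * ‖vv s0‖ ^ 4 :=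
      mul_le_mul_of_nonneg_right (by linarith) hv4
    have h6 : C1 * ‖vv (Sx t0 s0 m x)‖ ^ 7 ≤ C1 * (1024 * ‖vv s0‖ ^ 4) :=
      mul_le_mul_of_nonneg_left (by linarith) hC1.le
    nlinarith [mul_nonneg hC2.le hv4]
  · have h2 : Px t0 s0 m x - 1 = -vv (Sx t0 s0 m x) ^ 4 := by
      rw [Px, PP]; ring
    rw [h2, norm_neg, norm_pow]
    have h3 : ‖vv (Sx t0 s0 m x)‖ ^ 4 ≤ (2 * ‖vv s0‖) ^ 4 := pow_le_pow_left₀ hvx0 hvs 4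
    have h4 : (2 * ‖vv s0‖) ^ 4 = 16 * ‖vv s0‖ ^ 4 := by ring
    nlinarith [mul_nonneg hC2.le hv4, mul_nonneg hC1.le hv4]
  · have h2 : ‖Px t0 s0 m x - Px t0 s0 m 0‖ ≤ C2 * (4 * r0 * m) * ‖vv s0‖ ^ 4 := by
      rw [Px, Px, IB_Sx0]
      exact hlP
    have h3 : 0 ≤ r0 * (m * ‖vv s0‖ ^ 4) := by positivity
    nlinarith [mul_nonneg hC1.le h3]
  · have h2 : ‖Qx t0 s0 m x - Qx t0 s0 m 0‖ ≤ C2 * (4 * r0 * m) * ‖vv s0‖ ^ 4 := by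
      rw [Qx, Qx, IB_Sx0, IB_Tx0]
      exact hlQ
    have h3 : 0 ≤ r0 * (m * ‖vv s0‖ ^ 4) := by positivity
    nlinarith [mul_nonneg hC1.le h3]

private theorem IB_mul {a b a' b' : ℂ} {C d : ℝ} (hb : ‖b‖ ≤ C) (ha' : ‖a'‖ ≤ C)
    (h1 : ‖a - a'‖ ≤ d) (h2 : ‖b - b'‖ ≤ d) (hd : 0 ≤ d) (hC : 0 ≤ C) :
    ‖a * b - a' * b'‖ ≤ 2 * (C * d) := by
  have h3 : a * b - a' * b' = (a - a') * b + a' * (b - b') := by ring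
  rw [h3]
  refine (norm_add_le _ _).trans ?_
  rw [norm_mul, norm_mul]
  have h4 : ‖a - a'‖ * ‖b‖ ≤ d * C := mul_le_mul h1 hb (norm_nonneg _) hd
  have h5 : ‖a'‖ * ‖b - b'‖ ≤ C * d := mul_le_mul ha' h2 (norm_nonneg _) hC
  linarith

private theorem IB_mbounds {m D v : ℝ} (hm : 0 < m) (hD : 1 ≤ D) (hDm : m ^ 2 ≤ D)
    (hv : v = 2 / D) : m * v ^ 4 ≤ 16 ∧ m ^ 2 * v ^ 4 ≤ 16 * min 1 (m ^ 2) := by
  have hD0 : 0 < D := by linarith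
  have hv0 : 0 ≤ v := by rw [hv]; positivity
  have hv2 : v ≤ 2 := by rw [hv, div_le_iff₀ hD0]; linarith
  have hv4 : 0 ≤ v ^ 4 := by positivity
  have hm2v : m ^ 2 * v ^ 4 ≤ 16 := by
    have h1 : m ^ 2 * v ^ 4 ≤ D * v ^ 4 := mul_le_mul_of_nonneg_right hDm hv4
    have h2 : D * v = 2 := by rw [hv]; field_simp
    have h3 : D * v ^ 4 = 2 * v ^ 3 := by
      calc D * v ^ 4 = (D * v) * v ^ 3 := by ring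
        _ = 2 * v ^ 3 := by rw [h2]
    have h4 : v ^ 3 ≤ 2 ^ 3 := pow_le_pow_left₀ hv0 hv2 3
    linarith
  have hv16 : v ^ 4 ≤ 16 := by
    have h := pow_le_pow_left₀ hv0 hv2 4
    linarith
  constructor
  · by_cases hm1 : m ≤ 1
    · have : m * v ^ 4 ≤ 1 * v ^ 4 := mul_le_mul_of_nonneg_right hm1 hv4
      linarith
    · push Not at hm1
      have : m * v ^ 4 ≤ m ^ 2 * v ^ 4 :=
        mul_le_mul_of_nonneg_right (by nlinarith) hv4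
      linarith
  · rcases le_total 1 (m ^ 2) with h | h
    · rw [min_eq_left h]; linarith
    · rw [min_eq_right h]
      have : m ^ 2 * v ^ 4 ≤ m ^ 2 * 16 := mul_le_mul_of_nonneg_left hv16 (sq_nonneg m)
      linarith

/-- lower bound of the polarised form -/
private theorem IB_re {p q p' q' p0 q0 p0' q0' : ℂ} {C d c0 : ℝ} (hC : 0 ≤ C) (hd : 0 ≤ d)
    (hCd : C * d * 8 ≤ c0) (h1 : ‖p'‖ ≤ C) (h2 : ‖q'‖ ≤ C) (h3 : ‖p0‖ ≤ C) (h4 : ‖q0‖ ≤ C)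
    (h5 : ‖p - p0‖ ≤ d) (h6 : ‖q - q0‖ ≤ d) (h7 : ‖p' - p0'‖ ≤ d) (h8 : ‖q' - q0'‖ ≤ d)
    (h0 : c0 ≤ (p0 * p0' + q0 * q0').re) : c0 / 2 ≤ (p * p' + q * q').re := by
  have e1 := IB_mul h1 h3 h5 h7 hd hC
  have e2 := IB_mul h2 h4 h6 h8 hd hC
  have e3 : ‖(p * p' + q * q') - (p0 * p0' + q0 * q0')‖ ≤ 4 * (C * d) := by
    have e4 : (p * p' + q * q') - (p0 * p0' + q0 * q0') =
        (p * p' - p0 * p0') + (q * q' - q0 * q0') := by ring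
    rw [e4]
    refine (norm_add_le _ _).trans ?_
    linarith
  have e5 := (abs_le.1 ((Complex.abs_re_le_norm _).trans e3)).1
  rw [sub_re] at e5
  linarith

/-- upper bound of the affine coordinate -/
private theorem IB_chi {p q p0 q0 b : ℂ} {C d c0 : ℝ} (hd : 0 ≤ d) (hC : 0 ≤ C)
    (hc0 : 0 < c0) (h3 : ‖p0‖ ≤ C) (h4 : ‖q0‖ ≤ C)
    (h5 : ‖p - p0‖ ≤ d) (h6 : ‖q - q0‖ ≤ d) (hb : c0 / 2 ≤ ‖b‖) :
    ‖(p * q0 - q * p0) / b‖ ≤ 4 * (C * d) / c0 := by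
  rw [norm_div]
  have e1 : p * q0 - q * p0 = (p - p0) * q0 - (q - q0) * p0 := by ring
  have e2 : ‖p * q0 - q * p0‖ ≤ 2 * (C * d) := by
    rw [e1]
    refine (norm_sub_le _ _).trans ?_
    rw [norm_mul, norm_mul]
    have e3 : ‖p - p0‖ * ‖q0‖ ≤ d * C := mul_le_mul h5 h4 (norm_nonneg _) hd
    have e4 : ‖q - q0‖ * ‖p0‖ ≤ d * C := mul_le_mul h6 h3 (norm_nonneg _) hd
    linarith
  rw [div_le_div_iff₀ (by linarith) hc0]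
  have e5 : ‖p * q0 - q * p0‖ * c0 ≤ 2 * (C * d) * c0 := mul_le_mul_of_nonneg_right e2 hc0.le
  have e6 : 4 * (C * d) * (c0 / 2) ≤ 4 * (C * d) * ‖b‖ :=
    mul_le_mul_of_nonneg_left hb (by positivity)
  linarith

/-- the distance of the polarised form to `1` -/
private theorem IB_one {p q p' q' : ℂ} {C w : ℝ} (hC : 0 ≤ C) (hw : 0 ≤ w) (h1 : ‖p'‖ ≤ C)
    (h2 : ‖p - 1‖ ≤ C * w) (h3 : ‖p' - 1‖ ≤ C * w) (h4 : ‖q‖ ^ 2 ≤ C * w)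
    (h5 : ‖q'‖ ^ 2 ≤ C * w) : ‖p * p' + q * q' - 1‖ ≤ (C ^ 2 + 3 * C) * w := by
  have e1 : p * p' + q * q' - 1 = (p - 1) * p' + (p' - 1) + q * q' := by ring
  rw [e1]
  refine norm_add₃_le.trans ?_
  rw [norm_mul, norm_mul]
  have e2 : ‖p - 1‖ * ‖p'‖ ≤ C * w * C := mul_le_mul h2 h1 (norm_nonneg _) (by positivity)
  have e3 : ‖q‖ * ‖q'‖ ≤ C * w := by nlinarith [sq_nonneg (‖q‖ - ‖q'‖)]
  nlinarith [mul_nonneg hC hw]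

/-- final form of the estimate of the square of the affine coordinate -/
private theorem IB_sq {C c0 r0 m w x : ℝ} (hC : 0 ≤ C) (hc0 : 0 < c0) (hr0 : 0 < r0)
    (hr8 : r0 ≤ 1 / 8) (hw : 0 ≤ w) (hm : 0 < m) (hx0 : 0 ≤ x)
    (hx : x ≤ 4 * (C * (C * r0 * (m * w))) / c0) (hmin : m ^ 2 * w ≤ 16 * min 1 (m ^ 2)) :
    x ^ 2 ≤ (C ^ 2 + 3 * C + 256 * C ^ 4 / c0 ^ 2) * min 1 (m ^ 2) * w := by
  have h1 : x ^ 2 ≤ (4 * (C * (C * r0 * (m * w))) / c0) ^ 2 := pow_le_pow_left₀ hx0 hx 2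
  have h2 : (4 * (C * (C * r0 * (m * w))) / c0) ^ 2 =
      16 * C ^ 4 / c0 ^ 2 * (r0 ^ 2 * (m ^ 2 * w) * w) := by ring
  have hmin0 : 0 ≤ min 1 (m ^ 2) := le_min zero_le_one (sq_nonneg m)
  have h3 : r0 ^ 2 * (m ^ 2 * w) * w ≤ 16 * min 1 (m ^ 2) * w := by
    apply mul_le_mul_of_nonneg_right _ hw
    have h4 : r0 ^ 2 ≤ 1 := by nlinarith
    have h5 : r0 ^ 2 * (m ^ 2 * w) ≤ 1 * (m ^ 2 * w) :=
      mul_le_mul_of_nonneg_right h4 (by positivity)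
    linarith
  have h6 : 16 * C ^ 4 / c0 ^ 2 * (r0 ^ 2 * (m ^ 2 * w) * w) ≤
      16 * C ^ 4 / c0 ^ 2 * (16 * min 1 (m ^ 2) * w) :=
    mul_le_mul_of_nonneg_left h3 (by positivity)
  have h7 : 0 ≤ (C ^ 2 + 3 * C) * (min 1 (m ^ 2) * w) := by positivity
  have h8 : (C ^ 2 + 3 * C + 256 * C ^ 4 / c0 ^ 2) * min 1 (m ^ 2) * w =
      (C ^ 2 + 3 * C) * (min 1 (m ^ 2) * w) +
      16 * C ^ 4 / c0 ^ 2 * (16 * min 1 (m ^ 2) * w) := by ring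
  rw [h8]
  linarith

private theorem IB_vconj (s0 : ℂ) : ‖vv (starRingEnd ℂ s0)‖ = ‖vv s0‖ := by
  have h : 1 + starRingEnd ℂ s0 = starRingEnd ℂ (1 + s0) := by
    rw [map_add, map_one]
  rw [vv, vv, norm_div, norm_div, h, RCLike.norm_conj]

private theorem IB_BB0 {c0 : ℝ} (hlow : ∀ t s : ℂ, ‖t‖ ^ 2 ≤ s.re → c0 ≤ ‖PP s‖ ^ 2 + ‖QQ t s‖ ^ 2)
    {t0 s0 : ℂ} {m : ℝ} (hs : s0.re = m ^ 2 + ‖t0‖ ^ 2) : c0 ≤ (BB t0 s0 m 0 0).re := by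
  have h := BB_diag t0 s0 m 0
  have hcj : cj (0 : ℂ × ℂ) = 0 := by simp [cj]
  rw [hcj] at h
  rw [h, ofReal_re, Px, Qx, IB_Sx0, IB_Tx0]
  exact hlow t0 s0 (by rw [hs]; nlinarith [sq_nonneg m])

/-- The main estimates, with absolute constants. -/
theorem indexForm : ∃ r0 C c1 : ℝ, 0 < r0 ∧ r0 ≤ 1 / 8 ∧ 0 < C ∧ 0 < c1 ∧
    ∀ (t0 s0 : ℂ) (m : ℝ), 0 < m → s0.re = m ^ 2 + ‖t0‖ ^ 2 →
    ∀ x y : ℂ × ℂ, ‖x‖ < r0 → ‖y‖ < r0 →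
      1 / 2 ≤ ‖1 + Sx t0 s0 m x‖ ∧
      c1 ≤ (BB t0 s0 m x y).re ∧
      ‖BB t0 s0 m x y - 1‖ ≤ C * ‖vv s0‖ ^ 4 ∧
      ‖chi t0 s0 m x‖ ≤ 1 / 2 ∧
      ‖chi t0 s0 m x‖ ^ 2 ≤ C * min 1 (m ^ 2) * ‖vv s0‖ ^ 4 := by
  obtain ⟨C, hC, hpq⟩ := IB_pq
  obtain ⟨c0, hc0, hlow⟩ := PQ_lower
  have hC0 : 0 < C := by linarith
  obtain ⟨r0, hr0pos, hr8, hrc⟩ : ∃ r0 : ℝ, 0 < r0 ∧ r0 ≤ 1 / 8 ∧ 128 * C ^ 2 * r0 ≤ c0 := by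
    refine ⟨min (1 / 8) (c0 / (128 * C ^ 2)), lt_min (by norm_num) (by positivity),
      min_le_left _ _, ?_⟩
    have h := min_le_right (1 / 8) (c0 / (128 * C ^ 2))
    rw [le_div_iff₀ (by positivity)] at h
    linarith
  refine ⟨r0, C ^ 2 + 3 * C + 256 * C ^ 4 / c0 ^ 2, c0 / 2,
    hr0pos, hr8, by positivity, by positivity, ?_⟩
  intro t0 s0 m hm hs x y hx hy
  have hz : ‖(0 : ℂ × ℂ)‖ < r0 := by rw [norm_zero]; exact hr0pos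
  -- the conjugated data
  have hs' : (starRingEnd ℂ s0).re = m ^ 2 + ‖starRingEnd ℂ t0‖ ^ 2 := by
    rw [conj_re, RCLike.norm_conj, hs]
  obtain ⟨hx0, hx1, hx2, hx3, hx4, hx5, hx6⟩ := hpq t0 s0 m hm hs r0 hr8 x hx
  obtain ⟨_, hy1, hy2, hy3, hy4, hy5, hy6⟩ :=
    hpq (starRingEnd ℂ t0) (starRingEnd ℂ s0) m hm hs' r0 hr8 y hy
  obtain ⟨_, ho1, ho2, _, _, _, _⟩ := hpq t0 s0 m hm hs r0 hr8 0 hz
  obtain ⟨_, ho1', ho2', _, _, ho5', ho6'⟩ :=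
    hpq (starRingEnd ℂ t0) (starRingEnd ℂ s0) m hm hs' r0 hr8 0 hz
  rw [IB_vconj] at hy3 hy4 hy5 hy6 ho5' ho6'
  obtain ⟨hD, _, hDm, hS2, _, _, _⟩ := IB_geo hm hs hr8 hx
  obtain ⟨_, _, _, hv⟩ := IB_vv hD hS2
  obtain ⟨hmv, hmin⟩ := IB_mbounds hm hD hDm hv
  have hw : 0 ≤ ‖vv s0‖ ^ 4 := by positivity
  have hd0 : 0 ≤ C * r0 * (m * ‖vv s0‖ ^ 4) := by positivity
  have hCd : C * (C * r0 * (m * ‖vv s0‖ ^ 4)) * 8 ≤ c0 := by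
    have h2 : C ^ 2 * r0 * (m * ‖vv s0‖ ^ 4) ≤ C ^ 2 * r0 * 16 :=
      mul_le_mul_of_nonneg_left hmv (by positivity)
    have h3 : C * (C * r0 * (m * ‖vv s0‖ ^ 4)) * 8 = C ^ 2 * r0 * (m * ‖vv s0‖ ^ 4) * 8 := by ring
    rw [h3]
    linarith
  have h00 := IB_BB0 hlow hs
  rw [BB] at h00
  have hBx0 : c0 / 2 ≤ (BB t0 s0 m x 0).re :=
    IB_re hC0.le hd0 hCd ho1' ho2' ho1 ho2 hx5 hx6 ho5' ho6' h00
  have hchi : ‖chi t0 s0 m x‖ ≤ 4 * (C * (C * r0 * (m * ‖vv s0‖ ^ 4))) / c0 :=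
    IB_chi hd0 hC0.le hc0 ho1 ho2 hx5 hx6 (hBx0.trans (Complex.re_le_norm _))
  refine ⟨hx0, IB_re hC0.le hd0 hCd hy1 hy2 ho1 ho2 hx5 hx6 hy5 hy6 h00, ?_, ?_, ?_⟩
  · have h1 : ‖BB t0 s0 m x y - 1‖ ≤ (C ^ 2 + 3 * C) * ‖vv s0‖ ^ 4 :=
      IB_one hC0.le hw hy1 hx4 hy4 hx3 hy3
    have h4 : 0 ≤ 256 * C ^ 4 / c0 ^ 2 * ‖vv s0‖ ^ 4 := by positivity
    rw [add_mul]
    linarith
  · refine hchi.trans ?_
    rw [div_le_iff₀ hc0]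
    linarith
  · exact IB_sq hC0.le hc0 hr0pos hr8 hw hm (norm_nonneg _) hchi hmin

private theorem IB_log {c : ℝ} (hc : 0 < c) (hc1 : c ≤ 1) {z : ℂ} (hz : c ≤ z.re) :
    ‖Complex.log z‖ ≤ 1 / c * ‖z - 1‖ := by
  have hconv : Convex ℝ {w : ℂ | c ≤ w.re} := by
    intro a ha b hb s t hs ht hst
    change c ≤ (s • a + t • b).re
    have ha' : c ≤ a.re := ha
    have hb' : c ≤ b.re := hb
    rw [add_re, Complex.real_smul, Complex.real_smul, Complex.re_ofReal_mul,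
      Complex.re_ofReal_mul]
    nlinarith
  have h := hconv.norm_image_sub_le_of_norm_hasDerivWithin_le (f := Complex.log)
    (f' := fun w => w⁻¹) (C := 1 / c) (x := 1) (y := z) (fun w hw => by
      have hw' : c ≤ w.re := hw
      exact (Complex.hasDerivAt_log (Or.inl (by linarith))).hasDerivWithinAt) (fun w hw => by
      have hw' : c ≤ w.re := hw
      rw [norm_inv, ← one_div]
      exact one_div_le_one_div_of_le hc (hw'.trans (Complex.re_le_norm w))) hc1 hz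
  rwa [Complex.log_one, sub_zero] at h

/-- consequence: the logarithm of `B` -/
theorem log_BB_bound : ∃ r0 C : ℝ, 0 < r0 ∧ r0 ≤ 1 / 8 ∧ 0 < C ∧
    ∀ (t0 s0 : ℂ) (m : ℝ), 0 < m → s0.re = m ^ 2 + ‖t0‖ ^ 2 →
    ∀ x y : ℂ × ℂ, ‖x‖ < r0 → ‖y‖ < r0 →
      ‖Complex.log (BB t0 s0 m x y)‖ ≤ C * ‖vv s0‖ ^ 4 := by
  obtain ⟨r0, C, c1, hr0, hr8, hC, hc1, h⟩ := indexForm
  have hc : 0 < min c1 1 := lt_min hc1 one_pos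
  refine ⟨r0, 1 / min c1 1 * C, hr0, hr8, by positivity, ?_⟩
  intro t0 s0 m hm hs x y hx hy
  obtain ⟨_, h1, h2, _, _⟩ := h t0 s0 m hm hs x y hx hy
  refine (IB_log hc (min_le_right _ _) ((min_le_left _ _).trans h1)).trans ?_
  rw [mul_assoc]
  exact mul_le_mul_of_nonneg_left h2 (by positivity)

end P250
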