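import Mathlib

/-! # P250 module JB: definition of the Jacobian -/

open scoped ContDiff
open Complex Metric Set

namespace P250

/-- Jacobian along the zero section -/
noncomputable def Jac (F : (ℂ × ℂ) × ℂ → (ℂ × ℂ) × ℂ) (y : ℂ × ℂ) : ℂ :=
  (fderiv ℂ F (y, 0)).det

end P250
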