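import Vale.Agent.Lib.P250.HB
import Vale.Agent.Lib.P250.JBdefs

/-! # P250 module JBa: Jacobian is holomorphic; determinant bound -/

open scoped ContDiff
open Complex Metric Set

namespace P250

private noncomputable def jbaBasis : Module.Basis (Fin 3) ℂ ((ℂ × ℂ) × ℂ) :=
  Module.finBasisOfFinrankEq ℂ ((ℂ × ℂ) × ℂ) (by simp)

private theorem jba_det (T : ((ℂ × ℂ) × ℂ) →L[ℂ] ((ℂ × ℂ) × ℂ)) :
    T.det = Matrix.det (Matrix.of fun i j : Fin 3 =>
      (LinearMap.toContinuousLinearMap (jbaBasis.coord i)) (T (jbaBasis j))) := by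
  rw [ContinuousLinearMap.det, ← LinearMap.det_toMatrix jbaBasis]
  congr 1
  ext i j
  simp [LinearMap.toMatrix_apply]

private theorem jba_det_differentiable :
    Differentiable ℂ (fun T : ((ℂ × ℂ) × ℂ) →L[ℂ] ((ℂ × ℂ) × ℂ) => T.det) := by
  have h : ∀ i j : Fin 3, Differentiable ℂ (fun T : ((ℂ × ℂ) × ℂ) →L[ℂ] ((ℂ × ℂ) × ℂ) =>
      (LinearMap.toContinuousLinearMap (jbaBasis.coord i)) (T (jbaBasis j))) := by
    intro i j
    fun_prop
  have e : (fun T : ((ℂ × ℂ) × ℂ) →L[ℂ] ((ℂ × ℂ) × ℂ) => T.det) =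
      fun T => Matrix.det (Matrix.of fun i j : Fin 3 =>
      (LinearMap.toContinuousLinearMap (jbaBasis.coord i)) (T (jbaBasis j))) :=
    funext jba_det
  rw [e]
  simp only [Matrix.det_fin_three, Matrix.of_apply]
  fun_prop

theorem Jac_differentiable {e δ : ℝ} (N : ℕ) (he : 0 < e) (he1 : e < 1) (hδ : 0 < δ)
    {F : (ℂ × ℂ) × ℂ → (ℂ × ℂ) × ℂ} (hF : DifferentiableOn ℂ F (M3 e δ N)) :
    DifferentiableOn ℂ (Jac F) U2 := by
  have h1 := differentiableOn_fderiv (M3_open N he he1 hδ) hF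
  have h2 : DifferentiableOn ℂ (fun y : ℂ × ℂ => ((y, (0 : ℂ)) : (ℂ × ℂ) × ℂ)) U2 := by
    fun_prop
  have hmaps : MapsTo (fun y : ℂ × ℂ => ((y, (0 : ℂ)) : (ℂ × ℂ) × ℂ)) U2 (M3 e δ N) := by
    intro y hy
    refine ⟨hy, ?_⟩
    simp
  exact jba_det_differentiable.comp_differentiableOn (h1.comp h2 hmaps)

/-- bounded operator norm gives bounded determinant -/
theorem det_bound : ∃ C : ℝ, 0 < C ∧ ∀ T : ((ℂ × ℂ) × ℂ) →L[ℂ] ((ℂ × ℂ) × ℂ),
    ‖T.det‖ ≤ C * ‖T‖ ^ 3 := by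
  set c : ℝ := 1 + ∑ i : Fin 3, ∑ j : Fin 3,
    ‖LinearMap.toContinuousLinearMap (jbaBasis.coord i)‖ * ‖jbaBasis j‖ with hc
  have hcpos : 0 < c := by positivity
  refine ⟨6 * c ^ 3, by positivity, fun T => ?_⟩
  have hent : ∀ i j : Fin 3,
      ‖(LinearMap.toContinuousLinearMap (jbaBasis.coord i)) (T (jbaBasis j))‖ ≤ c * ‖T‖ := by
    intro i j
    have h1 := (LinearMap.toContinuousLinearMap (jbaBasis.coord i)).le_opNorm (T (jbaBasis j))
    have h2 := T.le_opNorm (jbaBasis j)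
    have h3 : ‖LinearMap.toContinuousLinearMap (jbaBasis.coord i)‖ * ‖jbaBasis j‖ ≤ c := by
      have h4 : ‖LinearMap.toContinuousLinearMap (jbaBasis.coord i)‖ * ‖jbaBasis j‖ ≤
          ∑ j : Fin 3, ‖LinearMap.toContinuousLinearMap (jbaBasis.coord i)‖ * ‖jbaBasis j‖ :=
        Finset.single_le_sum (f := fun j : Fin 3 =>
          ‖LinearMap.toContinuousLinearMap (jbaBasis.coord i)‖ * ‖jbaBasis j‖)
          (fun _ _ => by positivity) (Finset.mem_univ j)
      have h5 : ∑ j : Fin 3, ‖LinearMap.toContinuousLinearMap (jbaBasis.coord i)‖ * ‖jbaBasis j‖ ≤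
          ∑ i : Fin 3, ∑ j : Fin 3,
            ‖LinearMap.toContinuousLinearMap (jbaBasis.coord i)‖ * ‖jbaBasis j‖ :=
        Finset.single_le_sum (f := fun i : Fin 3 => ∑ j : Fin 3,
          ‖LinearMap.toContinuousLinearMap (jbaBasis.coord i)‖ * ‖jbaBasis j‖)
          (fun _ _ => by positivity) (Finset.mem_univ i)
      linarith
    calc ‖(LinearMap.toContinuousLinearMap (jbaBasis.coord i)) (T (jbaBasis j))‖
        ≤ ‖LinearMap.toContinuousLinearMap (jbaBasis.coord i)‖ * ‖T (jbaBasis j)‖ := h1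
      _ ≤ ‖LinearMap.toContinuousLinearMap (jbaBasis.coord i)‖ * (‖T‖ * ‖jbaBasis j‖) :=
          mul_le_mul_of_nonneg_left h2 (norm_nonneg _)
      _ = (‖LinearMap.toContinuousLinearMap (jbaBasis.coord i)‖ * ‖jbaBasis j‖) * ‖T‖ := by ring
      _ ≤ c * ‖T‖ := mul_le_mul_of_nonneg_right h3 (norm_nonneg _)
  have h := Matrix.det_le (A := Matrix.of fun i j : Fin 3 =>
      (LinearMap.toContinuousLinearMap (jbaBasis.coord i)) (T (jbaBasis j)))
      (abv := NormedField.toAbsoluteValue ℂ) (x := c * ‖T‖) (by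
        intro i j
        exact hent i j)
  rw [jba_det]
  have h' : ‖Matrix.det (Matrix.of fun i j : Fin 3 =>
      (LinearMap.toContinuousLinearMap (jbaBasis.coord i)) (T (jbaBasis j)))‖ ≤
      Nat.factorial (Fintype.card (Fin 3)) • (c * ‖T‖) ^ Fintype.card (Fin 3) := h
  refine h'.trans (le_of_eq ?_)
  simp [Nat.factorial]
  ring

end P250
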