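import Mathlib.Algebra.Order.Star.Real
import Mathlib.Analysis.PSeries
import Vale.Agent.Lib.P250.ChartsA

/-! # P250 module A4: the lattice sum -/

open Complex

namespace P250

/-! ### one dimensional weights -/

private theorem lat_ga_re (b : ℤ × ℤ × ℤ) : (ga b).re = (b.1 : ℝ) := by simp [ga]

private theorem lat_ga_im (b : ℤ × ℤ × ℤ) : (ga b).im = (b.2.1 : ℝ) := by simp [ga]


/-- the weight `(1+|x|)^{3/2}` -/
private noncomputable def lth (x : ℝ) : ℝ := (1 + |x|) * Real.sqrt (1 + |x|)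

private theorem lth_pos (x : ℝ) : 0 < lth x := by
  have : 0 < 1 + |x| := by positivity
  unfold lth
  positivity

private theorem lth_le_sq (x : ℝ) : lth x ≤ 2 * (1 + x ^ 2) := by
  unfold lth
  have h1 : 1 ≤ 1 + |x| := by linarith [abs_nonneg x]
  have h2 : Real.sqrt (1 + |x|) ≤ 1 + |x| := by
    rw [Real.sqrt_le_left (by linarith)]
    nlinarith
  have h3 : |x| ^ 2 = x ^ 2 := sq_abs x
  calc (1 + |x|) * Real.sqrt (1 + |x|) ≤ (1 + |x|) * (1 + |x|) :=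
        mul_le_mul_of_nonneg_left h2 (by linarith)
    _ ≤ 2 * (1 + x ^ 2) := by nlinarith [sq_nonneg (1 - |x|)]

private theorem lth_double {x x' : ℝ} (h : 1 + |x| ≤ 2 * (1 + |x'|)) : lth x ≤ 4 * lth x' := by
  unfold lth
  have h0 : 0 ≤ 1 + |x'| := by positivity
  have h1 : Real.sqrt (1 + |x|) ≤ 2 * Real.sqrt (1 + |x'|) := by
    rw [Real.sqrt_le_left (by positivity), mul_pow, Real.sq_sqrt h0]
    linarith
  calc (1 + |x|) * Real.sqrt (1 + |x|) ≤ (2 * (1 + |x'|)) * (2 * Real.sqrt (1 + |x'|)) :=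
        mul_le_mul h h1 (Real.sqrt_nonneg _) (by positivity)
    _ = 4 * ((1 + |x'|) * Real.sqrt (1 + |x'|)) := by ring

private theorem lth_shift {x : ℝ} {r t : ℤ} (h : |x - r| ≤ 1 / 2) :
    lth ((r - t : ℤ) : ℝ) ≤ 4 * lth (x - t) := by
  apply lth_double
  push_cast
  have h1 : |(r : ℝ) - t| ≤ |x - t| + |x - r| := by
    have := abs_sub_le (r : ℝ) x t
    rw [abs_sub_comm (r : ℝ) x] at this
    linarith
  linarith [abs_nonneg (x - (t : ℝ))]

private theorem lth_le_mul {x D : ℝ} (h : 1 + |x| ≤ 9 * D) (hD : 0 ≤ D) :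
    lth x ≤ 27 * (D * Real.sqrt D) := by
  unfold lth
  have h1 : Real.sqrt (1 + |x|) ≤ 3 * Real.sqrt D := by
    rw [Real.sqrt_le_left (by positivity), mul_pow, Real.sq_sqrt hD]
    linarith
  calc (1 + |x|) * Real.sqrt (1 + |x|) ≤ (9 * D) * (3 * Real.sqrt D) :=
        mul_le_mul h h1 (Real.sqrt_nonneg _) (by positivity)
    _ = 27 * (D * Real.sqrt D) := by ring

private theorem lth_rpow (k : ℤ) : lth (k : ℝ) = (1 + |(k : ℝ)|) ^ (3 / 2 : ℝ) := by
  have h0 : 0 < 1 + |(k : ℝ)| := by positivity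
  unfold lth
  rw [Real.sqrt_eq_rpow]
  nth_rewrite 1 [← Real.rpow_one (1 + |(k : ℝ)|)]
  rw [← Real.rpow_add h0]
  norm_num

private theorem lth_summable_nat : Summable (fun n : ℕ => (lth ((n : ℤ) : ℝ))⁻¹) := by
  have h1 : Summable (fun n : ℕ => (((n + 1 : ℕ) : ℝ) ^ (3 / 2 : ℝ))⁻¹) := by
    have := (Real.summable_nat_rpow_inv (p := 3 / 2)).2 (by norm_num)
    exact (summable_nat_add_iff 1).2 this
  refine h1.congr fun n => ?_
  rw [lth_rpow]
  have : (1 + |(((n : ℕ) : ℤ) : ℝ)|) = ((n + 1 : ℕ) : ℝ) := by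
    rw [Int.cast_natCast, abs_of_nonneg (Nat.cast_nonneg n)]
    push_cast
    ring
  rw [this]

private theorem lth_neg (x : ℝ) : lth (-x) = lth x := by
  unfold lth
  rw [abs_neg]

private theorem lth_summable : Summable (fun k : ℤ => (lth (k : ℝ))⁻¹) := by
  apply Summable.of_nat_of_neg
  · exact lth_summable_nat
  · refine lth_summable_nat.congr fun n => ?_
    push_cast
    rw [lth_neg]

/-! ### the triple sum -/

private noncomputable def lG (b : ℤ × ℤ × ℤ) : ℝ :=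
  (lth (b.1 : ℝ))⁻¹ * ((lth (b.2.1 : ℝ))⁻¹ * (lth (b.2.2 : ℝ))⁻¹)

private theorem lG_nonneg (b : ℤ × ℤ × ℤ) : 0 ≤ lG b := by
  have h1 := lth_pos (b.1 : ℝ)
  have h2 := lth_pos (b.2.1 : ℝ)
  have h3 := lth_pos (b.2.2 : ℝ)
  unfold lG
  positivity

private theorem lG_summable : Summable lG := by
  have h0 : ∀ k : ℤ, 0 ≤ (lth (k : ℝ))⁻¹ := fun k => (inv_pos.2 (lth_pos _)).le
  have h2 : Summable (fun b : ℤ × ℤ => (lth (b.1 : ℝ))⁻¹ * (lth (b.2 : ℝ))⁻¹) :=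
    lth_summable.mul_of_nonneg lth_summable h0 h0
  exact lth_summable.mul_of_nonneg h2 h0 fun b => mul_nonneg (h0 _) (h0 _)

/-- the shear of the index lattice -/
private def lE (m n : ℤ) (r : ℤ → ℤ → ℤ) : (ℤ × ℤ × ℤ) ≃ (ℤ × ℤ × ℤ) where
  toFun b := (m - b.1, n - b.2.1, r b.1 b.2.1 - b.2.2)
  invFun c := (m - c.1, n - c.2.1, r (m - c.1) (n - c.2.1) - c.2.2)
  left_inv b := by
    simp
  right_inv c := by
    simp

private theorem lat_re (m n t : ℤ) (y : ℂ × ℂ) :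
    (chW (m, n, t) y).re = (chW (m, n, 0) y).re - t := by
  have h : ga (m, n, t) = ga (m, n, 0) := rfl
  simp only [chW, h]
  rw [Complex.sub_re _ ((t : ℤ) : ℂ), Complex.intCast_re]
  simp

/-- the pointwise bound -/
private theorem lat_point {y : ℂ × ℂ} (hy : y ∈ U2) {bs b : ℤ × ℤ × ℤ}
    (h1 : |(chZ bs y).re| ≤ 1 / 2) (h2 : |(chZ bs y).im| ≤ 1 / 2)
    (hD : rho y + 1 / 4 ≤ 2 * ‖chW b y‖) :
    (‖chW b y‖ ^ 4)⁻¹ ≤ 2239488 * (Real.sqrt (1 + rho y))⁻¹ *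
      lG (lE bs.1 bs.2.1 (fun m n => round (chW (m, n, 0) y).re) b) := by
  obtain ⟨m, n, t⟩ := b
  have hr : 0 < rho y := hy
  set D := ‖chW (m, n, t) y‖ with hDdef
  have hD0 : 0 < D := by linarith
  have him := Complex.abs_im_le_norm (chW (m, n, t) y)
  have hre := Complex.abs_re_le_norm (chW (m, n, t) y)
  rw [← hDdef] at him hre
  rw [chW_im] at him
  have hZ : ‖chZ (m, n, t) y‖ ^ 2 = (y.1.re - m) ^ 2 + (y.1.im - n) ^ 2 := by
    rw [Complex.sq_norm, Complex.normSq_apply]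
    simp only [chZ, Complex.sub_re, Complex.sub_im, lat_ga_re, lat_ga_im]
    ring
  have him' : rho y + ((y.1.re - m) ^ 2 + (y.1.im - n) ^ 2) ≤ D := by
    rw [← hZ]
    exact (le_abs_self _).trans him
  have hp : (y.1.re - m) ^ 2 ≤ D := by nlinarith [sq_nonneg (y.1.im - n)]
  have hq : (y.1.im - n) ^ 2 ≤ D := by nlinarith [sq_nonneg (y.1.re - m)]
  rw [lat_re] at hre
  have e1 : lth ((bs.1 - m : ℤ) : ℝ) ≤ 72 * D := by
    have ha : |y.1.re - bs.1| ≤ 1 / 2 := by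
      simpa [chZ, lat_ga_re] using h1
    have hb := lth_shift (t := m) ha
    have hc := lth_le_sq (y.1.re - m)
    linarith
  have e2 : lth ((bs.2.1 - n : ℤ) : ℝ) ≤ 72 * D := by
    have ha : |y.1.im - bs.2.1| ≤ 1 / 2 := by
      simpa [chZ, lat_ga_im] using h2
    have hb := lth_shift (t := n) ha
    have hc := lth_le_sq (y.1.im - n)
    linarith
  have e3 : lth ((round (chW (m, n, 0) y).re - t : ℤ) : ℝ) ≤ 108 * (D * Real.sqrt D) := by
    have ha : |(chW (m, n, 0) y).re - round (chW (m, n, 0) y).re| ≤ 1 / 2 := abs_sub_round _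
    have hb := lth_shift (t := t) ha
    have hc := lth_le_mul (x := (chW (m, n, 0) y).re - t) (D := D) (by linarith) hD0.le
    linarith
  have e4 : Real.sqrt (1 + rho y) ≤ 4 * Real.sqrt D := by
    rw [Real.sqrt_le_left (by positivity), mul_pow, Real.sq_sqrt hD0.le]
    linarith
  have hs : 0 < Real.sqrt (1 + rho y) := Real.sqrt_pos.2 (by linarith)
  have p1 := lth_pos ((bs.1 - m : ℤ) : ℝ)
  have p2 := lth_pos ((bs.2.1 - n : ℤ) : ℝ)
  have p3 := lth_pos ((round (chW (m, n, 0) y).re - t : ℤ) : ℝ)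
  have hprod : Real.sqrt (1 + rho y) * (lth ((bs.1 - m : ℤ) : ℝ) *
      (lth ((bs.2.1 - n : ℤ) : ℝ) * lth ((round (chW (m, n, 0) y).re - t : ℤ) : ℝ))) ≤
      2239488 * D ^ 4 := by
    calc Real.sqrt (1 + rho y) * (lth ((bs.1 - m : ℤ) : ℝ) *
      (lth ((bs.2.1 - n : ℤ) : ℝ) * lth ((round (chW (m, n, 0) y).re - t : ℤ) : ℝ)))
        ≤ (4 * Real.sqrt D) * ((72 * D) * ((72 * D) * (108 * (D * Real.sqrt D)))) := by
          apply mul_le_mul e4 _ (by positivity) (by positivity)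
          apply mul_le_mul e1 _ (by positivity) (by positivity)
          exact mul_le_mul e2 e3 p3.le (by positivity)
      _ = 2239488 * (D ^ 3 * (Real.sqrt D * Real.sqrt D)) := by ring
      _ = 2239488 * D ^ 4 := by
          rw [Real.mul_self_sqrt hD0.le]
          ring
  change (D ^ 4)⁻¹ ≤ 2239488 * (Real.sqrt (1 + rho y))⁻¹ *
    ((lth ((bs.1 - m : ℤ) : ℝ))⁻¹ * ((lth ((bs.2.1 - n : ℤ) : ℝ))⁻¹ *
      (lth ((round (chW (m, n, 0) y).re - t : ℤ) : ℝ))⁻¹))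
  have hD4 : 0 < D ^ 4 := by positivity
  rw [inv_le_iff_one_le_mul₀ hD4]
  have hX : 0 < Real.sqrt (1 + rho y) * (lth ((bs.1 - m : ℤ) : ℝ) *
      (lth ((bs.2.1 - n : ℤ) : ℝ) * lth ((round (chW (m, n, 0) y).re - t : ℤ) : ℝ))) := by
    positivity
  have hrw : 2239488 * (Real.sqrt (1 + rho y))⁻¹ *
      ((lth ((bs.1 - m : ℤ) : ℝ))⁻¹ * ((lth ((bs.2.1 - n : ℤ) : ℝ))⁻¹ *
        (lth ((round (chW (m, n, 0) y).re - t : ℤ) : ℝ))⁻¹)) * D ^ 4 =
      (2239488 * D ^ 4) / (Real.sqrt (1 + rho y) * (lth ((bs.1 - m : ℤ) : ℝ) *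
      (lth ((bs.2.1 - n : ℤ) : ℝ) * lth ((round (chW (m, n, 0) y).re - t : ℤ) : ℝ)))) := by
    rw [div_eq_mul_inv, mul_inv, mul_inv, mul_inv]
    ring
  rw [hrw, one_le_div hX]
  exact hprod

/-- the other lattice points are far -/
private theorem lat_far {y : ℂ × ℂ} (hy : y ∈ U2) {bs b : ℤ × ℤ × ℤ} (hne : b ≠ bs)
    (h1 : |(chZ bs y).re| ≤ 1 / 2) (h2 : |(chZ bs y).im| ≤ 1 / 2)
    (h3 : |(chW bs y).re| ≤ 1 / 2) : rho y + 1 / 4 ≤ 2 * ‖chW b y‖ := by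
  obtain ⟨m, n, t⟩ := b
  obtain ⟨m0, n0, t0⟩ := bs
  have hr : 0 < rho y := hy
  have him := Complex.abs_im_le_norm (chW (m, n, t) y)
  have hre := Complex.abs_re_le_norm (chW (m, n, t) y)
  rw [chW_im] at him
  have hZ : ‖chZ (m, n, t) y‖ ^ 2 = (y.1.re - m) ^ 2 + (y.1.im - n) ^ 2 := by
    rw [Complex.sq_norm, Complex.normSq_apply]
    simp only [chZ, Complex.sub_re, Complex.sub_im, lat_ga_re, lat_ga_im]
    ring
  have him' : rho y + ((y.1.re - m) ^ 2 + (y.1.im - n) ^ 2) ≤ ‖chW (m, n, t) y‖ := by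
    rw [← hZ]
    exact (le_abs_self _).trans him
  have ha : |y.1.re - m0| ≤ 1 / 2 := by
    simpa [chZ, lat_ga_re] using h1
  have hb : |y.1.im - n0| ≤ 1 / 2 := by
    simpa [chZ, lat_ga_im] using h2
  -- distance to another integer
  have key : ∀ (x : ℝ) (i j : ℤ), |x - j| ≤ 1 / 2 → i ≠ j → 1 / 4 ≤ (x - i) ^ 2 := by
    intro x i j hx hij
    have hij1 : (1 : ℝ) ≤ |(j : ℝ) - i| := by
      have h4 : (1 : ℤ) ≤ |j - i| := Int.one_le_abs (sub_ne_zero.2 (Ne.symm hij))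
      have h5 : ((1 : ℤ) : ℝ) ≤ ((|j - i| : ℤ) : ℝ) := by exact_mod_cast h4
      push_cast at h5
      exact h5
    have h6 : |(j : ℝ) - i| ≤ |x - i| + |x - j| := by
      have := abs_sub_le (j : ℝ) x i
      rw [abs_sub_comm (j : ℝ) x] at this
      linarith
    have h7 : 1 / 2 ≤ |x - i| := by linarith
    rw [← sq_abs]
    nlinarith
  by_cases hm : m = m0
  · by_cases hn : n = n0
    · subst hm hn
      have ht : t ≠ t0 := fun h => hne (by rw [h])
      rw [lat_re] at hre h3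
      have h8 := key ((chW (m, n, 0) y).re) t t0 h3 ht
      have h9 : 1 / 2 ≤ |(chW (m, n, 0) y).re - t| := by
        rw [← sq_abs] at h8
        nlinarith [abs_nonneg ((chW (m, n, 0) y).re - t)]
      have h10 : rho y ≤ ‖chW (m, n, t) y‖ := by
        nlinarith [sq_nonneg (y.1.re - m), sq_nonneg (y.1.im - n)]
      linarith
    · have h8 := key y.1.im n n0 hb hn
      nlinarith [sq_nonneg (y.1.re - m)]
  · have h8 := key y.1.re m m0 ha hm
    nlinarith [sq_nonneg (y.1.im - n)]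

/-- For every point there is one exceptional lattice point `bs` (nearest Gaussian integer `a*` to
`z`, nearest integer to `Re` of the chart at `a*`), and the sum over all others of `|W_b|⁻⁴` is at
most `C / √(1+ρ)`. Proof: `Re W_b = x_a - τ`, `Im W_b = ρ + |z - a|²`. For `b ≠ bs`,
`|W_b| ≥ (ρ + 1/4)/2` and `|W_b| ≥ c max (1, |x_a - τ|)`, `|W_b| ≥ c (1 + |z-a|²)`; so
`|W_b|⁴ ≥ c (1+ρ)^{1/2} (1+|z-a|²)² (1+|x_a - τ|)^{3/2}` and the triple sum factors, uniformly in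
the shifts. -/
theorem lattice_sum : ∃ C : ℝ, 0 < C ∧ ∀ y ∈ U2, ∃ bs : ℤ × ℤ × ℤ,
    (∀ b, b ≠ bs → rho y + 1 / 4 ≤ 2 * ‖chW b y‖) ∧
    Summable (fun b : ℤ × ℤ × ℤ => if b = bs then 0 else (‖chW b y‖ ^ 4)⁻¹) ∧
    ∑' b : ℤ × ℤ × ℤ, (if b = bs then 0 else (‖chW b y‖ ^ 4)⁻¹) ≤
      C / Real.sqrt (1 + rho y) := by
  have hS0 : 0 ≤ ∑' b, lG b := tsum_nonneg lG_nonneg
  refine ⟨2239488 * (∑' b, lG b) + 1, by positivity, ?_⟩
  intro y hy
  obtain ⟨bs, h1, h2, h3⟩ := exists_near y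
  have hfar : ∀ b, b ≠ bs → rho y + 1 / 4 ≤ 2 * ‖chW b y‖ := fun b hb =>
    lat_far hy hb h1 h2 h3
  have hr : 0 < rho y := hy
  have hs : 0 < Real.sqrt (1 + rho y) := Real.sqrt_pos.2 (by linarith)
  set E := lE bs.1 bs.2.1 (fun m n => round (chW (m, n, 0) y).re) with hE
  have hle : ∀ b, (if b = bs then 0 else (‖chW b y‖ ^ 4)⁻¹) ≤
      2239488 * (Real.sqrt (1 + rho y))⁻¹ * lG (E b) := by
    intro b
    split_ifs with hb
    · exact mul_nonneg (by positivity) (lG_nonneg _)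
    · exact lat_point hy h1 h2 (hfar b hb)
  have h0 : ∀ b, 0 ≤ (if b = bs then 0 else (‖chW b y‖ ^ 4)⁻¹) := by
    intro b
    split_ifs
    · exact le_rfl
    · positivity
  have hsum : Summable (fun b => lG (E b)) := (Equiv.summable_iff E).2 lG_summable
  have hsum2 : Summable (fun b => 2239488 * (Real.sqrt (1 + rho y))⁻¹ * lG (E b)) :=
    hsum.mul_left _
  have hsum3 : Summable (fun b : ℤ × ℤ × ℤ => if b = bs then 0 else (‖chW b y‖ ^ 4)⁻¹) :=
    Summable.of_nonneg_of_le h0 hle hsum2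
  refine ⟨bs, hfar, hsum3, ?_⟩
  calc ∑' b : ℤ × ℤ × ℤ, (if b = bs then 0 else (‖chW b y‖ ^ 4)⁻¹)
      ≤ ∑' b, 2239488 * (Real.sqrt (1 + rho y))⁻¹ * lG (E b) := hsum3.tsum_le_tsum hle hsum2
    _ = 2239488 * (Real.sqrt (1 + rho y))⁻¹ * ∑' b, lG b := by
        rw [tsum_mul_left, Equiv.tsum_eq E lG]
    _ ≤ (2239488 * (∑' b, lG b) + 1) / Real.sqrt (1 + rho y) := by
        rw [div_eq_mul_inv]
        have : 0 < (Real.sqrt (1 + rho y))⁻¹ := inv_pos.2 hs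
        linarith

end P250
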