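import Mathlib
import Vale.Agent.Lib.P250.Asm
import Vale.Agent.Lib.P250.Trans

/-! # P250: the main theorem in `EuclideanSpace ℂ (Fin 3)` -/

open scoped ContDiff
open Complex Metric Set

namespace P250

/-- the complex linear coordinates -/
noncomputable def e3 : EuclideanSpace ℂ (Fin 3) ≃L[ℂ] V3 :=
  ContinuousLinearEquiv.ofFinrankEq (by
    simp [Module.finrank_prod])

theorem main_E3 : ∃ (M : Set (EuclideanSpace ℂ (Fin 3)))
    (g : EuclideanSpace ℂ (Fin 3) → EuclideanSpace ℂ (Fin 3) →L[ℝ] EuclideanSpace ℂ (Fin 3) →L[ℝ] ℝ)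
    (Γ : EuclideanSpace ℂ (Fin 3) → EuclideanSpace ℂ (Fin 3) →L[ℝ]
      EuclideanSpace ℂ (Fin 3) →L[ℝ] EuclideanSpace ℂ (Fin 3)),
    IsOpen M ∧ IsConnected M ∧ SimplyConnectedSpace M ∧
    IsKahlerMetric M g ∧ IsLeviCivita M g Γ ∧ IsGeodesicallyComplete M Γ ∧
    IsNegativelyPinched M g Γ ∧
    ∀ D : Set (EuclideanSpace ℂ (Fin 3)), IsOpen D → Bornology.IsBounded D →
      ¬ AreBiholomorphic M D := by
  obtain ⟨M, g, Γ, hM, hc, hK, hΓ, hcomp, hp, hno⟩ := main_V3
  obtain ⟨g', Γ', hM', hc', hK', hΓ', hcomp', hp'⟩ := transfer e3 hM hc hK hΓ hcomp hp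
  refine ⟨e3 ⁻¹' M, g', Γ', hM', ?_, inferInstance, hK', hΓ', hcomp', hp', ?_⟩
  · exact isConnected_iff_connectedSpace.mpr inferInstance
  · rintro D hD hb ⟨f, h, hf, hh, hfm, hhm, hl, hr⟩
    refine hno (e3 '' D) (e3.toHomeomorph.isOpenMap D hD) ?_ ⟨fun q => e3 (f (e3.symm q)),
      fun q => e3 (h (e3.symm q)), ?_, ?_, ?_, ?_, ?_, ?_⟩
    · exact (e3 : EuclideanSpace ℂ (Fin 3) →L[ℂ] V3).lipschitz.isBounded_image hb
    · refine e3.differentiable.comp_differentiableOn (hf.comp e3.symm.differentiable.differentiableOn ?_)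
      intro q hq
      simpa using hq
    · refine e3.differentiable.comp_differentiableOn (hh.comp e3.symm.differentiable.differentiableOn ?_)
      rintro q ⟨q', hq', rfl⟩
      simpa using hq'
    · intro q hq
      exact ⟨_, hfm (by simpa using hq : e3.symm q ∈ e3 ⁻¹' M), rfl⟩
    · rintro q ⟨q', hq', rfl⟩
      have := hhm hq'
      simpa using this
    · intro q hq
      have := hl (by simpa using hq : e3.symm q ∈ e3 ⁻¹' M)
      simp [this]
    · rintro q ⟨q', hq', rfl⟩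
      have := hr hq'
      simp [this]

end P250
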