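import Mathlib.Topology.GDelta.MetrizableSpace
import Mathlib.Topology.Separation.CompletelyRegular
import Vale.Agent.Lib.P250.BaseFunB
import Vale.Agent.Lib.P250.GenSum

/-! # P250 module A6: sums over all generations -/

open Complex

namespace P250

/-- the ratio `√ρ / sg e (K + i)` is geometric in `i` -/
private theorem ms_ratio {e : ℝ} (he : 0 < e) (K : ℤ) {y : ℂ × ℂ} (hy : y ∈ U2) (i : ℕ) :
    rho y / sg e (K + (i : ℤ)) ^ 2 =
      (Real.sqrt (rho y) / sg e K * ((e ^ 5)⁻¹) ^ i) ^ 2 := by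
  have hr : 0 < rho y := hy
  have h1 : sg e (K + (i : ℤ)) = sg e K * (e ^ 5) ^ i := by
    unfold sg
    rw [mul_add, zpow_add₀ he.ne', ← pow_mul]
    congr 1
  rw [h1, mul_pow (Real.sqrt (rho y) / sg e K), div_pow, Real.sq_sqrt hr.le, mul_pow, inv_pow,
    inv_pow, div_mul_eq_div_div, div_eq_mul_inv]

private theorem ms_ratio_pos {e : ℝ} (he : 0 < e) (K : ℤ) {y : ℂ × ℂ} (hy : y ∈ U2) (i : ℕ) :
    0 < Real.sqrt (rho y) / sg e K * ((e ^ 5)⁻¹) ^ i := by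
  have hr : 0 < rho y := hy
  have h2 : 0 < sg e K := zpow_pos he _
  have h3 : 0 < Real.sqrt (rho y) := Real.sqrt_pos.mpr hr
  positivity

/-- crude bound for the profile of one generation -/
private theorem ms_profile_le {e r : ℝ} (he : 0 < e) (he1 : e < 1) (hr : 0 < r) :
    (e ^ 2 / (e ^ 2 + r ^ 2)) ^ 4 + e ^ 8 / Real.sqrt (1 + r ^ 2) ≤ 1 / r ^ 2 + 1 / r := by
  have he2 : e ^ 2 ≤ 1 := pow_le_one₀ he.le he1.le
  have he8 : e ^ 8 ≤ 1 := pow_le_one₀ he.le he1.le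
  have hr2 : 0 < r ^ 2 := by positivity
  have h0 : 0 ≤ e ^ 2 / (e ^ 2 + r ^ 2) := by positivity
  have h1 : e ^ 2 / (e ^ 2 + r ^ 2) ≤ 1 := by
    rw [div_le_one (by positivity)]
    linarith
  have h2 : e ^ 2 / (e ^ 2 + r ^ 2) ≤ 1 / r ^ 2 := by
    apply div_le_div₀ zero_le_one he2 hr2
    have : 0 ≤ e ^ 2 := by positivity
    linarith
  have h3 : (e ^ 2 / (e ^ 2 + r ^ 2)) ^ 4 ≤ e ^ 2 / (e ^ 2 + r ^ 2) :=
    pow_le_of_le_one h0 h1 (by norm_num)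
  have h4 : r ≤ Real.sqrt (1 + r ^ 2) := by
    apply Real.le_sqrt_of_sq_le
    linarith
  have h5 : e ^ 8 / Real.sqrt (1 + r ^ 2) ≤ 1 / r :=
    div_le_div₀ zero_le_one he8 hr h4
  linarith

private theorem ms_profile_le_two {e r : ℝ} (he : 0 < e) (he1 : e < 1) :
    (e ^ 2 / (e ^ 2 + r ^ 2)) ^ 4 + e ^ 8 / Real.sqrt (1 + r ^ 2) ≤ 2 := by
  have he8 : e ^ 8 ≤ 1 := pow_le_one₀ he.le he1.le
  have h0 : 0 ≤ e ^ 2 / (e ^ 2 + r ^ 2) := by positivity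
  have h1 : e ^ 2 / (e ^ 2 + r ^ 2) ≤ 1 := by
    rw [div_le_one (by positivity)]
    have : 0 ≤ r ^ 2 := by positivity
    linarith
  have h3 : (e ^ 2 / (e ^ 2 + r ^ 2)) ^ 4 ≤ 1 := pow_le_one₀ h0 h1
  have h4 : 1 ≤ Real.sqrt (1 + r ^ 2) := by
    apply Real.le_sqrt_of_sq_le
    have : 0 ≤ r ^ 2 := by positivity
    linarith
  have h5 : e ^ 8 / Real.sqrt (1 + r ^ 2) ≤ 1 := by
    rw [div_le_one (by linarith)]
    linarith
  linarith

private theorem ms_profile_nonneg {e r : ℝ} (he : 0 < e) :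
    0 ≤ (e ^ 2 / (e ^ 2 + r ^ 2)) ^ 4 + e ^ 8 / Real.sqrt (1 + r ^ 2) := by
  positivity

/-- weighted profile, bounded by the bump `r / (1 + r)²` -/
private theorem ms_weighted {e r : ℝ} (he : 0 < e) (he1 : e < 1) (hr : 0 < r) :
    min 1 (r ^ 2 / e ^ 2) * ((e ^ 2 / (e ^ 2 + r ^ 2)) ^ 4 + e ^ 8 / Real.sqrt (1 + r ^ 2)) ≤
      8 / e ^ 2 * (r / (1 + r) ^ 2) := by
  have he2 : e ^ 2 ≤ 1 := pow_le_one₀ he.le he1.le
  have he2p : 0 < e ^ 2 := by positivity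
  have hA0 := ms_profile_nonneg (r := r) he
  rcases le_total r 1 with h | h
  · have h1 : min 1 (r ^ 2 / e ^ 2) ≤ r ^ 2 / e ^ 2 := min_le_right _ _
    have h2 := ms_profile_le_two (r := r) he he1
    have h3 : min 1 (r ^ 2 / e ^ 2) *
        ((e ^ 2 / (e ^ 2 + r ^ 2)) ^ 4 + e ^ 8 / Real.sqrt (1 + r ^ 2)) ≤ r ^ 2 / e ^ 2 * 2 :=
      mul_le_mul h1 h2 hA0 (by positivity)
    refine h3.trans ?_
    have h4 : r / 4 ≤ r / (1 + r) ^ 2 := by
      apply div_le_div_of_nonneg_left hr.le (by positivity)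
      nlinarith
    have h5 : r ^ 2 / e ^ 2 * 2 ≤ 8 / e ^ 2 * (r / 4) := by
      have : r ^ 2 / e ^ 2 * 2 = 2 / e ^ 2 * r ^ 2 := by ring
      rw [this]
      have h6 : 8 / e ^ 2 * (r / 4) = 2 / e ^ 2 * r := by ring
      rw [h6]
      apply mul_le_mul_of_nonneg_left _ (by positivity)
      nlinarith
    refine h5.trans ?_
    exact mul_le_mul_of_nonneg_left h4 (by positivity)
  · have h1 : min 1 (r ^ 2 / e ^ 2) ≤ 1 := min_le_left _ _
    have h2 := ms_profile_le he he1 hr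
    have h2' : 1 / r ^ 2 ≤ 1 / r := by
      apply div_le_div_of_nonneg_left zero_le_one hr
      nlinarith
    have h3 : min 1 (r ^ 2 / e ^ 2) *
        ((e ^ 2 / (e ^ 2 + r ^ 2)) ^ 4 + e ^ 8 / Real.sqrt (1 + r ^ 2)) ≤ 1 * (2 / r) := by
      apply mul_le_mul h1 _ hA0 zero_le_one
      have : 2 / r = 1 / r + 1 / r := by ring
      rw [this]
      linarith
    refine h3.trans ?_
    have h4 : 1 / (4 * r) ≤ r / (1 + r) ^ 2 := by
      rw [div_le_div_iff₀ (by positivity) (by positivity)]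
      nlinarith
    have h5 : 1 * (2 / r) = 8 * (1 / (4 * r)) := by
      field_simp
      norm_num
    rw [h5]
    have h6 : (8 : ℝ) ≤ 8 / e ^ 2 := by
      rw [le_div_iff₀ he2p]
      linarith
    exact mul_le_mul h6 h4 (by positivity) (by positivity)

/-- telescoping bound for the bump -/
private theorem ms_bump {μ r : ℝ} (hμ : 1 < μ) (hr : 0 < r) :
    r / (1 + r) ^ 2 ≤ μ / (μ - 1) * (r * μ / (1 + r * μ) - r / (1 + r)) := by
  have hμ0 : 0 < μ := by linarith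
  have hμ1 : 0 < μ - 1 := by linarith
  have h1 : r * μ / (1 + r * μ) - r / (1 + r) = (μ - 1) * r / ((1 + r * μ) * (1 + r)) := by
    have : (1 + r * μ) ≠ 0 := by positivity
    have : (1 + r) ≠ 0 := by positivity
    field_simp
    ring
  rw [h1]
  have h2 : μ / (μ - 1) * ((μ - 1) * r / ((1 + r * μ) * (1 + r))) =
      μ * r / ((1 + r * μ) * (1 + r)) := by
    have : μ - 1 ≠ 0 := hμ1.ne'
    field_simp
  rw [h2, div_le_div_iff₀ (by positivity) (by positivity)]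
  have h3 : (1 + r * μ) ≤ μ * (1 + r) := by linarith
  have h4 : 0 ≤ r * (1 + r) := by positivity
  nlinarith [mul_le_mul_of_nonneg_left h3 h4]

private theorem ms_sum_bump {μ r : ℝ} (hμ : 1 < μ) (hr : 0 < r) (n : ℕ) :
    ∑ i ∈ Finset.range n, (r * μ ^ i) / (1 + r * μ ^ i) ^ 2 ≤ μ / (μ - 1) := by
  have hμ0 : 0 < μ := by linarith
  have hμ1 : 0 < μ - 1 := by linarith
  have hkey : ∀ n : ℕ, ∑ i ∈ Finset.range n, (r * μ ^ i) / (1 + r * μ ^ i) ^ 2 ≤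
      μ / (μ - 1) * ((r * μ ^ n) / (1 + r * μ ^ n) - r / (1 + r)) := by
    intro n
    induction n with
    | zero => simp
    | succ n ih =>
      rw [Finset.sum_range_succ]
      have h1 := ms_bump hμ (r := r * μ ^ n) (by positivity)
      have h0 : r * μ ^ (n + 1) = r * μ ^ n * μ := by ring
      rw [h0]
      have h2 : μ / (μ - 1) * ((r * μ ^ n * μ) / (1 + r * μ ^ n * μ) - r / (1 + r)) =
          μ / (μ - 1) * ((r * μ ^ n * μ) / (1 + r * μ ^ n * μ) - (r * μ ^ n) / (1 + r * μ ^ n))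
          + μ / (μ - 1) * ((r * μ ^ n) / (1 + r * μ ^ n) - r / (1 + r)) := by ring
      rw [h2]
      linarith
  refine (hkey n).trans ?_
  have h1 : (r * μ ^ n) / (1 + r * μ ^ n) ≤ 1 := by
    rw [div_le_one (by positivity)]
    linarith
  have h2 : 0 ≤ r / (1 + r) := by positivity
  have h3 : 0 < μ / (μ - 1) := by positivity
  calc μ / (μ - 1) * ((r * μ ^ n) / (1 + r * μ ^ n) - r / (1 + r))
      ≤ μ / (μ - 1) * 1 := by
        apply mul_le_mul_of_nonneg_left _ h3.le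
        linarith
    _ = μ / (μ - 1) := mul_one _

private theorem ms_one_lt {e : ℝ} (he : 0 < e) (he1 : e < 1) : 1 < (e ^ 5)⁻¹ := by
  have h1 : e ^ 5 < 1 := pow_lt_one₀ he.le he1 (by norm_num)
  exact (one_lt_inv₀ (by positivity)).mpr h1

/-- All generations `≥ K`: `ρ / sg² = ρ e^{-10 j} → ∞` geometrically, so `gen_sum` is summable
over the generations. -/
theorem idx_summable {e : ℝ} (he : 0 < e) (he1 : e < 1) (K : ℤ) {y : ℂ × ℂ} (hy : y ∈ U2) :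
    Summable (fun i : ℕ × (ℤ × ℤ × ℤ) => ‖vv (sc e (K + (i.1 : ℤ)) i.2 y)‖ ^ 4) := by
  obtain ⟨C, hC, hgen⟩ := gen_sum
  rw [summable_prod_of_nonneg (fun i => by positivity)]
  refine ⟨fun i => (hgen e he he1.le (K + (i : ℤ)) y hy).1, ?_⟩
  set μ : ℝ := (e ^ 5)⁻¹ with hμdef
  have hμ : 1 < μ := ms_one_lt he he1
  have hμ0 : 0 < μ := by linarith
  set R : ℝ := Real.sqrt (rho y) / sg e K with hR
  have hRp : 0 < R := by
    have := ms_ratio_pos he K hy 0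
    simpa using this
  clear_value μ R
  have hbound : ∀ i : ℕ, ∑' b : ℤ × ℤ × ℤ, ‖vv (sc e (K + (i : ℤ)) b y)‖ ^ 4 ≤
      C * (1 / R ^ 2 * ((μ ^ 2)⁻¹) ^ i + 1 / R * (μ⁻¹) ^ i) := by
    intro i
    have h1 := (hgen e he he1.le (K + (i : ℤ)) y hy).2
    rw [ms_ratio he K hy i] at h1
    have h2 := ms_profile_le he he1 (ms_ratio_pos he K hy i)
    refine h1.trans ?_
    apply mul_le_mul_of_nonneg_left _ hC.le
    refine h2.trans (le_of_eq ?_)
    rw [← hμdef, ← hR, mul_pow]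
    have e1 : (μ ^ i) ^ 2 = (μ ^ 2) ^ i := by rw [← pow_mul, ← pow_mul, mul_comm]
    rw [e1, inv_pow, inv_pow, one_div_mul_eq_div, one_div_mul_eq_div]
    generalize (μ ^ 2) ^ i = a
    generalize μ ^ i = b
    simp only [div_eq_mul_inv, mul_inv, one_mul]
    ring
  have hg1 : Summable (fun i : ℕ => ((μ ^ 2)⁻¹) ^ i) := by
    apply summable_geometric_of_lt_one (by positivity)
    apply inv_lt_one_of_one_lt₀
    exact one_lt_pow₀ hμ (by norm_num)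
  have hg2 : Summable (fun i : ℕ => (μ⁻¹) ^ i) := by
    apply summable_geometric_of_lt_one (by positivity)
    exact inv_lt_one_of_one_lt₀ hμ
  exact Summable.of_nonneg_of_le (fun i => tsum_nonneg (fun b => by positivity)) hbound
    (((hg1.mul_left _).add (hg2.mul_left _)).mul_left C)

/-- The weighted sum over all generations is bounded uniformly in `y` (the constant may depend on
`e`): generations with `sg² ≥ ρ` get the weight `ρ / (sg² e²)` (geometric series), the others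
`√(sg² / ρ)` from `gen_sum` (geometric series). -/
theorem master_sum {e : ℝ} (he : 0 < e) (he1 : e < 1) : ∃ C : ℝ, 0 < C ∧ ∀ (K : ℤ), ∀ y ∈ U2,
    Summable (fun i : ℕ × (ℤ × ℤ × ℤ) =>
      min 1 (rho y / (sg e (K + (i.1 : ℤ)) * e) ^ 2) * ‖vv (sc e (K + (i.1 : ℤ)) i.2 y)‖ ^ 4) ∧
    ∑' i : ℕ × (ℤ × ℤ × ℤ),
      min 1 (rho y / (sg e (K + (i.1 : ℤ)) * e) ^ 2) * ‖vv (sc e (K + (i.1 : ℤ)) i.2 y)‖ ^ 4
      ≤ C := by
  obtain ⟨C, hC, hgen⟩ := gen_sum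
  have hμ : 1 < (e ^ 5)⁻¹ := ms_one_lt he he1
  have hμ1 : 0 < (e ^ 5)⁻¹ - 1 := by linarith
  have hμ0 : 0 < (e ^ 5)⁻¹ := by linarith
  refine ⟨C * (8 / e ^ 2) * ((e ^ 5)⁻¹ / ((e ^ 5)⁻¹ - 1)), by positivity, ?_⟩
  intro K y hy
  have hrho : 0 < rho y := hy
  have hs : ∀ i : ℕ, Summable (fun b : ℤ × ℤ × ℤ =>
      min 1 (rho y / (sg e (K + (i : ℤ)) * e) ^ 2) * ‖vv (sc e (K + (i : ℤ)) b y)‖ ^ 4) :=
    fun i => (hgen e he he1.le (K + (i : ℤ)) y hy).1.mul_left _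
  have hw0 : ∀ i : ℕ, 0 ≤ min 1 (rho y / (sg e (K + (i : ℤ)) * e) ^ 2) := fun i =>
    le_min zero_le_one (by positivity)
  have hbound : ∀ i : ℕ, ∑' b : ℤ × ℤ × ℤ,
      min 1 (rho y / (sg e (K + (i : ℤ)) * e) ^ 2) * ‖vv (sc e (K + (i : ℤ)) b y)‖ ^ 4 ≤
      C * (8 / e ^ 2) * ((Real.sqrt (rho y) / sg e K * ((e ^ 5)⁻¹) ^ i) /
        (1 + Real.sqrt (rho y) / sg e K * ((e ^ 5)⁻¹) ^ i) ^ 2) := by
    intro i
    rw [tsum_mul_left]
    have h1 := (hgen e he he1.le (K + (i : ℤ)) y hy).2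
    have h2 := ms_weighted he he1 (ms_ratio_pos he K hy i)
    have h3 : rho y / (sg e (K + (i : ℤ)) * e) ^ 2 =
        (Real.sqrt (rho y) / sg e K * ((e ^ 5)⁻¹) ^ i) ^ 2 / e ^ 2 := by
      rw [← ms_ratio he K hy i, mul_pow, div_mul_eq_div_div]
    rw [ms_ratio he K hy i] at h1
    have h4 := hw0 i
    rw [h3] at h4 ⊢
    calc _ ≤ _ := mul_le_mul_of_nonneg_left h1 h4
      _ = C * (min 1 ((Real.sqrt (rho y) / sg e K * ((e ^ 5)⁻¹) ^ i) ^ 2 / e ^ 2) *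
          ((e ^ 2 / (e ^ 2 + (Real.sqrt (rho y) / sg e K * ((e ^ 5)⁻¹) ^ i) ^ 2)) ^ 4 +
          e ^ 8 / Real.sqrt (1 + (Real.sqrt (rho y) / sg e K * ((e ^ 5)⁻¹) ^ i) ^ 2))) := by ring
      _ ≤ C * (8 / e ^ 2 * ((Real.sqrt (rho y) / sg e K * ((e ^ 5)⁻¹) ^ i) /
        (1 + Real.sqrt (rho y) / sg e K * ((e ^ 5)⁻¹) ^ i) ^ 2)) :=
          mul_le_mul_of_nonneg_left h2 hC.le
      _ = _ := by ring
  have hR0 : 0 < Real.sqrt (rho y) / sg e K := by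
    have := ms_ratio_pos he K hy 0
    simpa using this
  have hpart : ∀ n : ℕ, ∑ i ∈ Finset.range n, ∑' b : ℤ × ℤ × ℤ,
      min 1 (rho y / (sg e (K + (i : ℤ)) * e) ^ 2) * ‖vv (sc e (K + (i : ℤ)) b y)‖ ^ 4 ≤
      C * (8 / e ^ 2) * ((e ^ 5)⁻¹ / ((e ^ 5)⁻¹ - 1)) := by
    intro n
    refine (Finset.sum_le_sum (fun i _ => hbound i)).trans ?_
    rw [← Finset.mul_sum]
    exact mul_le_mul_of_nonneg_left (ms_sum_bump hμ hR0 n) (by positivity)
  have hnn : ∀ i : ℕ, 0 ≤ ∑' b : ℤ × ℤ × ℤ,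
      min 1 (rho y / (sg e (K + (i : ℤ)) * e) ^ 2) * ‖vv (sc e (K + (i : ℤ)) b y)‖ ^ 4 :=
    fun i => tsum_nonneg (fun b => mul_nonneg (hw0 i) (by positivity))
  have hsum2 := summable_of_sum_range_le hnn hpart
  have hS : Summable (fun i : ℕ × (ℤ × ℤ × ℤ) =>
      min 1 (rho y / (sg e (K + (i.1 : ℤ)) * e) ^ 2) * ‖vv (sc e (K + (i.1 : ℤ)) i.2 y)‖ ^ 4) := by
    rw [summable_prod_of_nonneg (fun i => mul_nonneg (hw0 i.1) (by positivity))]
    exact ⟨hs, hsum2⟩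
  refine ⟨hS, ?_⟩
  rw [hS.tsum_prod' hs]
  exact Real.tsum_le_of_sum_range_le hnn hpart

theorem psi_summable {e : ℝ} (he : 0 < e) (he1 : e < 1) (K : ℤ) {y : ℂ × ℂ} (hy : y ∈ U2) :
    Summable (fun i : ℕ × (ℤ × ℤ × ℤ) => psi e (K + (i.1 : ℤ)) i.2 y) := by
  obtain ⟨C, hC, hb⟩ := psi0_bound
  refine Summable.of_norm_bounded ((idx_summable he he1 K hy).mul_left C) ?_
  intro i
  rw [Real.norm_eq_abs]
  exact hb _ _ (vv_sc_bounds he (K + (i.1 : ℤ)) i.2 hy).2.2.1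

end P250
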