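import Vale.Agent.Lib.P250.IndexB
import Vale.Agent.Lib.P250.MasterSum
import Vale.Agent.Lib.P250.NFdefs
import Vale.Agent.Lib.P250.OsgB

/-! # P250 module A8a: hhat is holomorphic -/

open scoped ContDiff
open Complex Metric Set

namespace P250

private theorem nf1_one_add_ne {x : ℂ × ℂ} (hx : ‖x‖ < 1) : 1 + x.2 ≠ 0 := by
  intro h
  have h1 : x.2 = -1 := by linear_combination h
  have h2 : ‖x.2‖ ≤ ‖x‖ := norm_snd_le x
  rw [h1, norm_neg, norm_one] at h2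
  linarith

private theorem nf1_diff_Sx (t0 s0 : ℂ) (m : ℝ) {x : ℂ × ℂ} (hx : 1 + x.2 ≠ 0) :
    DifferentiableAt ℂ (Sx t0 s0 m) x := by
  unfold Sx
  fun_prop (disch := assumption)

private theorem nf1_diff_Tx (t0 : ℂ) (m : ℝ) {x : ℂ × ℂ} (hx : 1 + x.2 ≠ 0) :
    DifferentiableAt ℂ (Tx t0 m) x := by
  unfold Tx
  fun_prop (disch := assumption)

private theorem nf1_diff_vv (t0 s0 : ℂ) (m : ℝ) {x : ℂ × ℂ} (hx : 1 + x.2 ≠ 0)
    (hs : 1 + Sx t0 s0 m x ≠ 0) : DifferentiableAt ℂ (fun x => vv (Sx t0 s0 m x)) x := by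
  have h := nf1_diff_Sx t0 s0 m hx
  unfold vv
  fun_prop (disch := assumption)

private theorem nf1_diff_Px (t0 s0 : ℂ) (m : ℝ) {x : ℂ × ℂ} (hx : 1 + x.2 ≠ 0)
    (hs : 1 + Sx t0 s0 m x ≠ 0) : DifferentiableAt ℂ (Px t0 s0 m) x := by
  have h : Px t0 s0 m = fun x => 1 - vv (Sx t0 s0 m x) ^ 4 := rfl
  rw [h]
  exact ((nf1_diff_vv t0 s0 m hx hs).pow 4).const_sub 1

private theorem nf1_diff_Qx (t0 s0 : ℂ) (m : ℝ) {x : ℂ × ℂ} (hx : 1 + x.2 ≠ 0)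
    (hs : 1 + Sx t0 s0 m x ≠ 0) : DifferentiableAt ℂ (Qx t0 s0 m) x := by
  have h : Qx t0 s0 m = fun x => vv (Sx t0 s0 m x) ^ 4 *
      (1000 * Px t0 s0 m x * Tx t0 m x - 1) := rfl
  rw [h]
  exact ((nf1_diff_vv t0 s0 m hx hs).pow 4).mul
    ((((nf1_diff_Px t0 s0 m hx hs).const_mul 1000).mul (nf1_diff_Tx t0 m hx)).sub_const 1)

private theorem nf1_diff_BB (t0 s0 : ℂ) (m : ℝ) (y : ℂ × ℂ) {x : ℂ × ℂ} (hx : 1 + x.2 ≠ 0)
    (hs : 1 + Sx t0 s0 m x ≠ 0) : DifferentiableAt ℂ (fun x => BB t0 s0 m x y) x := by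
  unfold BB
  exact ((nf1_diff_Px t0 s0 m hx hs).mul_const _).add ((nf1_diff_Qx t0 s0 m hx hs).mul_const _)

private theorem nf1_log_real (t0 s0 : ℂ) (m : ℝ) :
    |Real.log (BB t0 s0 m 0 0).re| ≤ ‖Complex.log (BB t0 s0 m 0 0)‖ := by
  have h0 : cj 0 = 0 := by simp [cj]
  have h1 := BB_diag t0 s0 m 0
  rw [h0] at h1
  have h2 : (Complex.log (BB t0 s0 m 0 0)).re = Real.log (BB t0 s0 m 0 0).re := by
    rw [Complex.log_re, h1, Complex.norm_real, Complex.ofReal_re, Real.norm_eq_abs,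
      abs_of_nonneg (by positivity)]
  rw [← h2]
  exact Complex.abs_re_le_norm _

/-- Part 1: `hhat` is holomorphic. -/
theorem hhat_smooth : ∃ r0 : ℝ, 0 < r0 ∧ r0 ≤ 1 / 8 ∧ ∀ (e δ : ℝ) (N : ℕ), 0 < e → e < 1 →
    0 < δ → ∀ y0 ∈ U2, ContDiffOn ℂ ∞ (hhat e δ N y0) (ball 0 r0) := by
  obtain ⟨r1, C1, c1, hr1, hr1', -, hc1, hI⟩ := indexForm
  obtain ⟨r2, C2, hr2, hr2', hC2, hL⟩ := log_BB_bound
  refine ⟨min r1 r2, lt_min hr1 hr2, (min_le_left _ _).trans hr1', ?_⟩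
  intro e δ N he he1 hδ y0 hy0
  have hρ : 0 < rho y0 := hy0
  have hm : ∀ j : ℤ, 0 < Real.sqrt (rho y0) / (sg e j * e) := fun j =>
    div_pos (Real.sqrt_pos.mpr hρ) (mul_pos (sg_pos he j) he)
  have hs0 : ∀ (j : ℤ) (b : ℤ × ℤ × ℤ), (sc e j b y0).re =
      (Real.sqrt (rho y0) / (sg e j * e)) ^ 2 + ‖tc e j b y0‖ ^ 2 := by
    intro j b
    rw [sc_re he, div_pow, Real.sq_sqrt hρ.le]
  have hsum : ContDiffOn ℂ ∞ (fun x : ℂ × ℂ => ∑' i : ℕ × (ℤ × ℤ × ℤ),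
      (Complex.log (BB (tc e (i.1 : ℤ) i.2 y0) (sc e (i.1 : ℤ) i.2 y0)
        (Real.sqrt (rho y0) / (sg e (i.1 : ℤ) * e)) x 0)
      - (1 / 2 : ℂ) * Real.log (BB (tc e (i.1 : ℤ) i.2 y0) (sc e (i.1 : ℤ) i.2 y0)
        (Real.sqrt (rho y0) / (sg e (i.1 : ℤ) * e)) 0 0).re)) (ball 0 (min r1 r2)) := by
    have hu : Summable (fun i : ℕ × (ℤ × ℤ × ℤ) =>
        (2 * C2) * ‖vv (sc e (i.1 : ℤ) i.2 y0)‖ ^ 4) := by
      have h := idx_summable he he1 0 hy0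
      simp only [zero_add] at h
      exact h.mul_left _
    refine holSum hu ?_ ?_
    · intro i x hx
      rw [mem_ball_zero_iff] at hx
      have hx1 : ‖x‖ < r1 := lt_of_lt_of_le hx (min_le_left _ _)
      have hI' := hI (tc e (i.1 : ℤ) i.2 y0) (sc e (i.1 : ℤ) i.2 y0)
        (Real.sqrt (rho y0) / (sg e (i.1 : ℤ) * e)) (hm _) (hs0 _ _) x 0 hx1
        (by rw [norm_zero]; exact hr1)
      have hne : 1 + x.2 ≠ 0 := nf1_one_add_ne (by linarith)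
      have hSne : 1 + Sx (tc e (i.1 : ℤ) i.2 y0) (sc e (i.1 : ℤ) i.2 y0)
          (Real.sqrt (rho y0) / (sg e (i.1 : ℤ) * e)) x ≠ 0 := by
        intro h
        have h1 := hI'.1
        rw [h, norm_zero] at h1
        norm_num at h1
      have hslit : BB (tc e (i.1 : ℤ) i.2 y0) (sc e (i.1 : ℤ) i.2 y0)
          (Real.sqrt (rho y0) / (sg e (i.1 : ℤ) * e)) x 0 ∈ slitPlane :=
        Or.inl (lt_of_lt_of_le hc1 hI'.2.1)
      exact (((nf1_diff_BB _ _ _ 0 hne hSne).clog hslit).sub_const _).differentiableWithinAt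
    · intro i x hx
      rw [mem_ball_zero_iff] at hx
      have hx2 : ‖x‖ < r2 := lt_of_lt_of_le hx (min_le_right _ _)
      have h02 : ‖(0 : ℂ × ℂ)‖ < r2 := by rw [norm_zero]; exact hr2
      have h1 := hL (tc e (i.1 : ℤ) i.2 y0) (sc e (i.1 : ℤ) i.2 y0)
        (Real.sqrt (rho y0) / (sg e (i.1 : ℤ) * e)) (hm _) (hs0 _ _) x 0 hx2 h02
      have h2 := hL (tc e (i.1 : ℤ) i.2 y0) (sc e (i.1 : ℤ) i.2 y0)
        (Real.sqrt (rho y0) / (sg e (i.1 : ℤ) * e)) (hm _) (hs0 _ _) 0 0 h02 h02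
      have h3 := nf1_log_real (tc e (i.1 : ℤ) i.2 y0) (sc e (i.1 : ℤ) i.2 y0)
        (Real.sqrt (rho y0) / (sg e (i.1 : ℤ) * e))
      refine (norm_sub_le _ _).trans ?_
      have h4 : ‖(1 / 2 : ℂ) * (Real.log (BB (tc e (i.1 : ℤ) i.2 y0) (sc e (i.1 : ℤ) i.2 y0)
          (Real.sqrt (rho y0) / (sg e (i.1 : ℤ) * e)) 0 0).re : ℂ)‖ ≤
          C2 * ‖vv (sc e (i.1 : ℤ) i.2 y0)‖ ^ 4 := by
        rw [norm_mul, Complex.norm_real, Real.norm_eq_abs]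
        have h5 : ‖(1 / 2 : ℂ)‖ = 1 / 2 := by norm_num
        rw [h5]
        have h6 : 0 ≤ |Real.log (BB (tc e (i.1 : ℤ) i.2 y0) (sc e (i.1 : ℤ) i.2 y0)
          (Real.sqrt (rho y0) / (sg e (i.1 : ℤ) * e)) 0 0).re| := abs_nonneg _
        linarith
      linarith
  have hlog : ContDiffOn ℂ ∞ (fun x : ℂ × ℂ => (N : ℂ) * (δ : ℂ) *
      (Complex.log (1 + x.2) - (1 / 2 : ℂ) * Real.log (rho y0))) (ball 0 (min r1 r2)) := by
    refine contDiffOn_of_differentiableOn isOpen_ball ?_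
    intro x hx
    rw [mem_ball_zero_iff] at hx
    have hx1 : ‖x‖ < 1 := by
      have : min r1 r2 ≤ 1 / 8 := (min_le_left _ _).trans hr1'
      linarith
    have hslit : 1 + x.2 ∈ slitPlane := by
      refine Or.inl ?_
      have h1 : ‖x.2‖ ≤ ‖x‖ := norm_snd_le x
      have h2 := Complex.abs_re_le_norm x.2
      have h3 := neg_abs_le x.2.re
      rw [Complex.add_re, Complex.one_re]
      linarith
    have h2 : DifferentiableAt ℂ (fun x : ℂ × ℂ => 1 + x.2) x :=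
      (differentiableAt_snd (𝕜 := ℂ)).const_add 1
    exact (((h2.clog hslit).sub_const _).const_mul _).differentiableWithinAt
  have h := (contDiffOn_const (c := (N : ℂ)) (s := ball (0 : ℂ × ℂ) (min r1 r2)) (n := ∞)
    (𝕜 := ℂ)).mul hsum
  exact h.add hlog

end P250
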