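import Mathlib.Analysis.SpecialFunctions.Complex.LogBounds
import Vale.Agent.Lib.P250.IndexB
import Vale.Agent.Lib.P250.MasterSum
import Vale.Agent.Lib.P250.NFdefs
import Vale.Agent.Lib.P250.OsgB

/-! # P250 module A8b: facts on fhat -/

open scoped ContDiff
open Complex Metric Set

namespace P250

private noncomputable def nf2T (t s : ℂ) (m : ℝ) (z : (ℂ × ℂ) × (ℂ × ℂ)) : ℂ :=
  Complex.log (1 + chi t s m z.1 * chi (starRingEnd ℂ t) (starRingEnd ℂ s) m z.2)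

private def NF2H (r0 C c1 : ℝ) : Prop :=
  ∀ (t0 s0 : ℂ) (m : ℝ), 0 < m → s0.re = m ^ 2 + ‖t0‖ ^ 2 →
    ∀ x y : ℂ × ℂ, ‖x‖ < r0 → ‖y‖ < r0 →
      1 / 2 ≤ ‖1 + Sx t0 s0 m x‖ ∧
      c1 ≤ (BB t0 s0 m x y).re ∧
      ‖BB t0 s0 m x y - 1‖ ≤ C * ‖vv s0‖ ^ 4 ∧
      ‖chi t0 s0 m x‖ ≤ 1 / 2 ∧
      ‖chi t0 s0 m x‖ ^ 2 ≤ C * min 1 (m ^ 2) * ‖vv s0‖ ^ 4

private theorem nf2_ball {r0 : ℝ} {z : (ℂ × ℂ) × (ℂ × ℂ)} (hz : z ∈ ball (0 : (ℂ × ℂ) × (ℂ × ℂ)) r0) :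
    ‖z.1‖ < r0 ∧ ‖z.2‖ < r0 := by
  rw [mem_ball_zero_iff] at hz
  exact ⟨lt_of_le_of_lt (norm_fst_le z) hz, lt_of_le_of_lt (norm_snd_le z) hz⟩

private theorem nf2_cj_norm (x : ℂ × ℂ) : ‖cj x‖ = ‖x‖ := by
  unfold cj
  rw [Prod.norm_def, Prod.norm_def, RCLike.norm_conj, RCLike.norm_conj]

private theorem nf2_cj_cj (x : ℂ × ℂ) : cj (cj x) = x := by
  simp [cj]

private theorem nf2_hs {t s : ℂ} {m : ℝ} (hs : s.re = m ^ 2 + ‖t‖ ^ 2) :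
    (starRingEnd ℂ s).re = m ^ 2 + ‖starRingEnd ℂ t‖ ^ 2 := by
  rw [Complex.conj_re, RCLike.norm_conj]
  exact hs

private theorem nf2_vv_conj (s : ℂ) : ‖vv (starRingEnd ℂ s)‖ = ‖vv s‖ := by
  have : vv (starRingEnd ℂ s) = starRingEnd ℂ (vv s) := by
    simp only [vv, map_div₀, map_add, map_one, Complex.conj_ofNat]
  rw [this, RCLike.norm_conj]

private theorem nf2_chi_zero (t s : ℂ) (m : ℝ) : chi t s m 0 = 0 := by
  unfold chi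
  rw [mul_comm (Px t s m 0) (Qx t s m 0), sub_self, zero_div]

private theorem nf2_diff_chi {r0 C c1 : ℝ} (hr : r0 ≤ 1 / 8) (hc1 : 0 < c1) (H : NF2H r0 C c1)
    {t s : ℂ} {m : ℝ} (hm : 0 < m) (hs : s.re = m ^ 2 + ‖t‖ ^ 2) :
    DifferentiableOn ℂ (chi t s m) (ball 0 r0) := by
  intro x hx
  rw [mem_ball_zero_iff] at hx
  have hr0 : 0 < r0 := lt_of_le_of_lt (norm_nonneg x) hx
  obtain ⟨h1, h2, _, _, _⟩ := H t s m hm hs x 0 hx (by rw [norm_zero]; exact hr0)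
  have hx2 : 1 + x.2 ≠ 0 := by
    intro h
    have h3 : x.2 = -1 := by linear_combination h
    have h4 : ‖x.2‖ ≤ ‖x‖ := norm_snd_le x
    rw [h3, norm_neg, norm_one] at h4
    linarith
  have hS : 1 + Sx t s m x ≠ 0 := by
    intro h
    rw [h, norm_zero] at h1
    linarith
  have hB : BB t s m x 0 ≠ 0 := by
    intro h
    rw [h, Complex.zero_re] at h2
    linarith
  have dS : DifferentiableAt ℂ (fun x => Sx t s m x) x := by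
    unfold Sx
    fun_prop (disch := exact hx2)
  have dT : DifferentiableAt ℂ (fun x => Tx t m x) x := by
    unfold Tx
    fun_prop (disch := exact hx2)
  have dV : DifferentiableAt ℂ (fun x => vv (Sx t s m x)) x := by
    unfold vv
    fun_prop (disch := exact hS)
  have dP : DifferentiableAt ℂ (fun x => Px t s m x) x := by
    unfold Px PP
    fun_prop
  have dQ : DifferentiableAt ℂ (fun x => Qx t s m x) x := by
    have : (fun x => Qx t s m x) = fun x => vv (Sx t s m x) ^ 4 * (1000 * Px t s m x * Tx t m x - 1) := rfl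
    rw [this]
    fun_prop
  have dB : DifferentiableAt ℂ (fun x => BB t s m x 0) x := by
    unfold BB
    fun_prop
  have : chi t s m = fun x => (Px t s m x * Qx t s m 0 - Qx t s m x * Px t s m 0) / BB t s m x 0 := rfl
  rw [this]
  apply DifferentiableAt.differentiableWithinAt
  fun_prop (disch := exact hB)

private theorem nf2_prod {r0 C c1 : ℝ} (H : NF2H r0 C c1) {t s : ℂ} {m : ℝ} (hm : 0 < m)
    (hs : s.re = m ^ 2 + ‖t‖ ^ 2) {x y : ℂ × ℂ} (hx : ‖x‖ < r0) (hy : ‖y‖ < r0) :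
    ‖chi t s m x * chi (starRingEnd ℂ t) (starRingEnd ℂ s) m y‖ ≤ 1 / 4 ∧
    ‖chi t s m x * chi (starRingEnd ℂ t) (starRingEnd ℂ s) m y‖ ≤
      C * (min 1 (m ^ 2) * ‖vv s‖ ^ 4) := by
  obtain ⟨_, _, _, h1, h2⟩ := H t s m hm hs x x hx hx
  obtain ⟨_, _, _, h3, h4⟩ := H (starRingEnd ℂ t) (starRingEnd ℂ s) m hm (nf2_hs hs) y y hy hy
  rw [nf2_vv_conj] at h4
  rw [norm_mul]
  constructor
  · calc ‖chi t s m x‖ * ‖chi (starRingEnd ℂ t) (starRingEnd ℂ s) m y‖ ≤ 1 / 2 * (1 / 2) :=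
        mul_le_mul h1 h3 (norm_nonneg _) (by norm_num)
      _ = 1 / 4 := by norm_num
  · nlinarith [sq_nonneg (‖chi t s m x‖ - ‖chi (starRingEnd ℂ t) (starRingEnd ℂ s) m y‖)]

private theorem nf2_slit {w : ℂ} (hw : ‖w‖ ≤ 1 / 4) : 1 + w ∈ slitPlane := by
  left
  have h1 := Complex.abs_re_le_norm w
  have h2 := (abs_le.mp h1).1
  rw [Complex.add_re, Complex.one_re]
  linarith

private theorem nf2_diff {r0 C c1 : ℝ} (hr : r0 ≤ 1 / 8) (hc1 : 0 < c1) (H : NF2H r0 C c1)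
    {t s : ℂ} {m : ℝ} (hm : 0 < m) (hs : s.re = m ^ 2 + ‖t‖ ^ 2) :
    DifferentiableOn ℂ (nf2T t s m) (ball 0 r0) := by
  intro z hz
  obtain ⟨h1, h2⟩ := nf2_ball hz
  have d1 : DifferentiableAt ℂ (chi t s m) z.1 :=
    (nf2_diff_chi hr hc1 H hm hs).differentiableAt
      (isOpen_ball.mem_nhds (by rw [mem_ball_zero_iff]; exact h1))
  have d2 : DifferentiableAt ℂ (chi (starRingEnd ℂ t) (starRingEnd ℂ s) m) z.2 :=
    (nf2_diff_chi hr hc1 H hm (nf2_hs hs)).differentiableAt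
      (isOpen_ball.mem_nhds (by rw [mem_ball_zero_iff]; exact h2))
  have d3 : DifferentiableAt ℂ (fun z : (ℂ × ℂ) × (ℂ × ℂ) => chi t s m z.1) z :=
    DifferentiableAt.comp (g := chi t s m) z d1 differentiableAt_fst
  have d4 : DifferentiableAt ℂ (fun z : (ℂ × ℂ) × (ℂ × ℂ) =>
      chi (starRingEnd ℂ t) (starRingEnd ℂ s) m z.2) z :=
    DifferentiableAt.comp (g := chi (starRingEnd ℂ t) (starRingEnd ℂ s) m) z d2
      differentiableAt_snd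
  have h3 := nf2_slit (nf2_prod H hm hs h1 h2).1
  apply DifferentiableAt.differentiableWithinAt
  exact ((d3.mul d4).const_add 1).clog h3

private theorem nf2_bound {r0 C c1 : ℝ} (H : NF2H r0 C c1) {t s : ℂ} {m : ℝ} (hm : 0 < m)
    (hs : s.re = m ^ 2 + ‖t‖ ^ 2) {z : (ℂ × ℂ) × (ℂ × ℂ)} (hz : z ∈ ball (0 : (ℂ × ℂ) × (ℂ × ℂ)) r0) :
    ‖nf2T t s m z‖ ≤ 3 / 2 * C * (min 1 (m ^ 2) * ‖vv s‖ ^ 4) := by
  obtain ⟨h1, h2⟩ := nf2_ball hz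
  obtain ⟨h3, h4⟩ := nf2_prod H hm hs h1 h2
  have h5 := Complex.norm_log_one_add_half_le_self (h3.trans (by norm_num : (1 / 4 : ℝ) ≤ 1 / 2))
  unfold nf2T
  linarith

private theorem nf2_herm {r0 C c1 : ℝ} (H : NF2H r0 C c1) {t s : ℂ} {m : ℝ} (hm : 0 < m)
    (hs : s.re = m ^ 2 + ‖t‖ ^ 2) {x y : ℂ × ℂ} (hx : ‖x‖ < r0) (hy : ‖y‖ < r0) :
    starRingEnd ℂ (nf2T t s m (x, y)) = nf2T t s m (cj y, cj x) := by
  have h3 := nf2_slit (nf2_prod H hm hs hx hy).1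
  unfold nf2T
  rw [← Complex.log_conj _ (Complex.slitPlane_arg_ne_pi h3)]
  congr 1
  rw [map_add, map_mul, map_one, conj_chi, conj_chi]
  simp only [Complex.conj_conj]
  ring

private theorem nf2_re {t s : ℂ} {m : ℝ} (x : ℂ × ℂ) : 0 ≤ (nf2T t s m (x, cj x)).re := by
  unfold nf2T
  rw [← conj_chi, Complex.mul_conj, Complex.normSq_eq_norm_sq, Complex.log_re]
  apply Real.log_nonneg
  have h1 : (1 : ℂ) + ((‖chi t s m x‖ ^ 2 : ℝ) : ℂ) = ((1 + ‖chi t s m x‖ ^ 2 : ℝ) : ℂ) := by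
    push_cast
    ring
  rw [h1, Complex.norm_real, Real.norm_of_nonneg (by positivity)]
  have : 0 ≤ ‖chi t s m x‖ ^ 2 := by positivity
  linarith

private theorem nf2_left (t s : ℂ) (m : ℝ) (x : ℂ × ℂ) : nf2T t s m (x, 0) = 0 := by
  unfold nf2T
  rw [nf2_chi_zero, mul_zero, add_zero, Complex.log_one]

private theorem nf2_right (t s : ℂ) (m : ℝ) (y : ℂ × ℂ) : nf2T t s m (0, y) = 0 := by
  unfold nf2T
  rw [nf2_chi_zero, zero_mul, add_zero, Complex.log_one]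

/-! ### the logarithm of the Bergman type factor -/

private noncomputable def nf2L (z : (ℂ × ℂ) × (ℂ × ℂ)) : ℂ :=
  Complex.log (1 - z.1.1 * z.2.1 - z.1.2 * z.2.2)

private theorem nf2L_eq (z : (ℂ × ℂ) × (ℂ × ℂ)) :
    nf2L z = Complex.log (1 + -(z.1.1 * z.2.1 + z.1.2 * z.2.2)) := by
  unfold nf2L
  congr 1
  ring

private theorem nf2L_small {r0 : ℝ} (hr : r0 ≤ 1 / 8) {x y : ℂ × ℂ} (hx : ‖x‖ < r0)
    (hy : ‖y‖ < r0) : ‖-(x.1 * y.1 + x.2 * y.2)‖ ≤ 1 / 4 := by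
  rw [norm_neg]
  refine (norm_add_le _ _).trans ?_
  rw [norm_mul, norm_mul]
  have a1 : ‖x.1‖ ≤ 1 / 8 := (norm_fst_le x).trans (by linarith)
  have a2 : ‖x.2‖ ≤ 1 / 8 := (norm_snd_le x).trans (by linarith)
  have b1 : ‖y.1‖ ≤ 1 / 8 := (norm_fst_le y).trans (by linarith)
  have b2 : ‖y.2‖ ≤ 1 / 8 := (norm_snd_le y).trans (by linarith)
  have c1 : ‖x.1‖ * ‖y.1‖ ≤ 1 / 8 * (1 / 8) := mul_le_mul a1 b1 (norm_nonneg _) (by norm_num)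
  have c2 : ‖x.2‖ * ‖y.2‖ ≤ 1 / 8 * (1 / 8) := mul_le_mul a2 b2 (norm_nonneg _) (by norm_num)
  linarith

private theorem nf2L_diff {r0 : ℝ} (hr : r0 ≤ 1 / 8) : DifferentiableOn ℂ nf2L (ball 0 r0) := by
  intro z hz
  obtain ⟨h1, h2⟩ := nf2_ball hz
  have h3 := nf2_slit (nf2L_small hr h1 h2)
  have h4 : (1 : ℂ) + -(z.1.1 * z.2.1 + z.1.2 * z.2.2) = 1 - z.1.1 * z.2.1 - z.1.2 * z.2.2 := by
    ring
  rw [h4] at h3
  apply DifferentiableAt.differentiableWithinAt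
  have h5 : DifferentiableAt ℂ
      (fun z : (ℂ × ℂ) × (ℂ × ℂ) => 1 - z.1.1 * z.2.1 - z.1.2 * z.2.2) z := by fun_prop
  exact h5.clog h3

private theorem nf2L_bound {r0 : ℝ} (hr : r0 ≤ 1 / 8) {z : (ℂ × ℂ) × (ℂ × ℂ)}
    (hz : z ∈ ball (0 : (ℂ × ℂ) × (ℂ × ℂ)) r0) : ‖nf2L z‖ ≤ 1 := by
  obtain ⟨h1, h2⟩ := nf2_ball hz
  have h3 := nf2L_small hr h1 h2
  have h5 := Complex.norm_log_one_add_half_le_self (h3.trans (by norm_num : (1 / 4 : ℝ) ≤ 1 / 2))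
  rw [nf2L_eq]
  linarith

private theorem nf2L_herm {r0 : ℝ} (hr : r0 ≤ 1 / 8) {x y : ℂ × ℂ} (hx : ‖x‖ < r0)
    (hy : ‖y‖ < r0) : starRingEnd ℂ (nf2L (x, y)) = nf2L (cj y, cj x) := by
  have h3 := nf2_slit (nf2L_small hr hx hy)
  rw [nf2L_eq, nf2L_eq, ← Complex.log_conj _ (Complex.slitPlane_arg_ne_pi h3)]
  congr 1
  simp only [cj, map_add, map_neg, map_mul, map_one]
  ring

private theorem nf2L_re {r0 : ℝ} (hr : r0 ≤ 1 / 8) {x : ℂ × ℂ} (hx : ‖x‖ < r0) :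
    (nf2L (x, cj x)).re = Real.log (1 - ‖x.1‖ ^ 2 - ‖x.2‖ ^ 2) := by
  have a1 : ‖x.1‖ ≤ 1 / 8 := (norm_fst_le x).trans (by linarith)
  have a2 : ‖x.2‖ ≤ 1 / 8 := (norm_snd_le x).trans (by linarith)
  unfold nf2L cj
  simp only
  rw [Complex.mul_conj, Complex.mul_conj, Complex.normSq_eq_norm_sq, Complex.normSq_eq_norm_sq,
    Complex.log_re]
  have h1 : (1 : ℂ) - ((‖x.1‖ ^ 2 : ℝ) : ℂ) - ((‖x.2‖ ^ 2 : ℝ) : ℂ) =
      ((1 - ‖x.1‖ ^ 2 - ‖x.2‖ ^ 2 : ℝ) : ℂ) := by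
    push_cast
    ring
  rw [h1, Complex.norm_real, Real.norm_of_nonneg]
  nlinarith [norm_nonneg x.1, norm_nonneg x.2]

/-! ### the sum -/

private noncomputable def nf2F (e : ℝ) (y0 : ℂ × ℂ) (i : ℕ × (ℤ × ℤ × ℤ))
    (z : (ℂ × ℂ) × (ℂ × ℂ)) : ℂ :=
  nf2T (tc e (i.1 : ℤ) i.2 y0) (sc e (i.1 : ℤ) i.2 y0)
    (Real.sqrt (rho y0) / (sg e (i.1 : ℤ) * e)) z

private theorem nf2_fhat (e δ : ℝ) (N : ℕ) (y0 : ℂ × ℂ) (z : (ℂ × ℂ) × (ℂ × ℂ)) :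
    fhat e δ N y0 z = N * (∑' i : ℕ × (ℤ × ℤ × ℤ), nf2F e y0 i z) - N * δ * nf2L z := rfl

private theorem nf2_m {e : ℝ} (he : 0 < e) {y0 : ℂ × ℂ} (hy : y0 ∈ U2) (j : ℤ) :
    0 < Real.sqrt (rho y0) / (sg e j * e) ∧
    (Real.sqrt (rho y0) / (sg e j * e)) ^ 2 = rho y0 / (sg e j * e) ^ 2 := by
  have h1 : 0 < rho y0 := hy
  have h2 := sg_pos he j
  refine ⟨by positivity, ?_⟩
  rw [div_pow, Real.sq_sqrt h1.le]

/-- Part 2: `fhat` is holomorphic, bounded uniformly in `y0`, hermitian and nonnegative. -/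
theorem fhat_facts : ∃ r0 : ℝ, 0 < r0 ∧ r0 ≤ 1 / 8 ∧ ∀ (e δ : ℝ) (N : ℕ), 0 < e → e < 1 →
    0 < δ → ∃ C0 : ℝ, 0 < C0 ∧ ∀ y0 ∈ U2,
    ContDiffOn ℂ ∞ (fhat e δ N y0) (ball 0 r0) ∧
    (∀ z ∈ ball (0 : (ℂ × ℂ) × (ℂ × ℂ)) r0, ‖fhat e δ N y0 z‖ ≤ C0) ∧
    (∀ x ∈ ball (0 : ℂ × ℂ) r0, ∀ y ∈ ball (0 : ℂ × ℂ) r0,
      starRingEnd ℂ (fhat e δ N y0 (x, y)) = fhat e δ N y0 (cj y, cj x)) ∧
    (∀ x ∈ ball (0 : ℂ × ℂ) r0,
      N * δ * (-Real.log (1 - ‖x.1‖ ^ 2 - ‖x.2‖ ^ 2)) ≤ (fhat e δ N y0 (x, cj x)).re) ∧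
    (∀ x ∈ ball (0 : ℂ × ℂ) r0, fhat e δ N y0 (x, 0) = 0) ∧
    (∀ y ∈ ball (0 : ℂ × ℂ) r0, fhat e δ N y0 (0, y) = 0) := by
  obtain ⟨r0, C, c1, hr0, hr, hC, hc1, H0⟩ := indexForm
  have H : NF2H r0 C c1 := H0
  refine ⟨r0, hr0, hr, ?_⟩
  intro e δ N he he1 hδ
  obtain ⟨Cm, hCm, hms⟩ := master_sum he he1
  refine ⟨N * (3 / 2 * C * Cm) + N * δ + 1, by positivity, ?_⟩
  intro y0 hy0
  obtain ⟨hsum, hbd⟩ := hms 0 y0 hy0
  simp only [zero_add] at hsum hbd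
  have hm := fun j : ℤ => nf2_m he hy0 j
  have hsre : ∀ i : ℕ × (ℤ × ℤ × ℤ), (sc e (i.1 : ℤ) i.2 y0).re =
      (Real.sqrt (rho y0) / (sg e (i.1 : ℤ) * e)) ^ 2 + ‖tc e (i.1 : ℤ) i.2 y0‖ ^ 2 := by
    intro i
    rw [(hm i.1).2]
    exact sc_re he _ _ _
  obtain ⟨u, hu⟩ : ∃ u : ℕ × (ℤ × ℤ × ℤ) → ℝ, u = fun i => 3 / 2 * C *
      (min 1 (rho y0 / (sg e (i.1 : ℤ) * e) ^ 2) * ‖vv (sc e (i.1 : ℤ) i.2 y0)‖ ^ 4) := ⟨_, rfl⟩
  have husum : Summable u := by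
    rw [hu]
    exact hsum.mul_left _
  have hule : ∑' i, u i ≤ 3 / 2 * C * Cm := by
    rw [hu, tsum_mul_left]
    exact mul_le_mul_of_nonneg_left hbd (by positivity)
  have hFu : ∀ i, ∀ z ∈ ball (0 : (ℂ × ℂ) × (ℂ × ℂ)) r0, ‖nf2F e y0 i z‖ ≤ u i := by
    intro i z hz
    have h1 := nf2_bound H (hm i.1).1 (hsre i) hz
    rw [(hm i.1).2] at h1
    rw [hu]
    exact h1
  have hFd : ∀ i, DifferentiableOn ℂ (nf2F e y0 i) (ball 0 r0) := fun i =>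
    nf2_diff hr hc1 H (hm i.1).1 (hsre i)
  have hFs : ∀ z ∈ ball (0 : (ℂ × ℂ) × (ℂ × ℂ)) r0, Summable fun i => nf2F e y0 i z :=
    fun z hz => Summable.of_norm_bounded husum (fun i => hFu i z hz)
  have hFn : ∀ z ∈ ball (0 : (ℂ × ℂ) × (ℂ × ℂ)) r0, ‖∑' i, nf2F e y0 i z‖ ≤ 3 / 2 * C * Cm :=
    fun z hz => (tsum_of_norm_bounded husum.hasSum (fun i => hFu i z hz)).trans hule
  have hpair : ∀ x y : ℂ × ℂ, ‖x‖ < r0 → ‖y‖ < r0 →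
      ((x, y) : (ℂ × ℂ) × (ℂ × ℂ)) ∈ ball (0 : (ℂ × ℂ) × (ℂ × ℂ)) r0 := by
    intro x y hx hy
    rw [mem_ball_zero_iff, Prod.norm_def]
    exact max_lt hx hy
  refine ⟨?_, ?_, ?_, ?_, ?_, ?_⟩
  · have h1 : ContDiffOn ℂ ∞ (fun z => ∑' i, nf2F e y0 i z) (ball 0 r0) := holSum husum hFd hFu
    have h2 : ContDiffOn ℂ ∞ nf2L (ball 0 r0) :=
      contDiffOn_of_differentiableOn isOpen_ball (nf2L_diff hr)
    have h3 : fhat e δ N y0 = fun z => N * (∑' i : ℕ × (ℤ × ℤ × ℤ), nf2F e y0 i z) -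
        N * δ * nf2L z := funext fun z => nf2_fhat e δ N y0 z
    rw [h3]
    exact (contDiffOn_const.mul h1).sub (contDiffOn_const.mul h2)
  · intro z hz
    rw [nf2_fhat]
    refine (norm_sub_le _ _).trans ?_
    rw [norm_mul, norm_mul, norm_mul, Complex.norm_natCast, Complex.norm_real,
      Real.norm_of_nonneg hδ.le]
    have h1 := mul_le_mul_of_nonneg_left (hFn z hz) (Nat.cast_nonneg (α := ℝ) N)
    have h2 := mul_le_mul_of_nonneg_left (nf2L_bound hr hz)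
      (by positivity : 0 ≤ (N : ℝ) * δ)
    linarith
  · intro x hx y hy
    rw [mem_ball_zero_iff] at hx hy
    rw [nf2_fhat, nf2_fhat, map_sub, map_mul, map_mul, map_mul, Complex.conj_natCast,
      Complex.conj_ofReal, nf2L_herm hr hx hy, Complex.conj_tsum]
    congr 2
    apply tsum_congr
    intro i
    exact nf2_herm H (hm i.1).1 (hsre i) hx hy
  · intro x hx
    rw [mem_ball_zero_iff] at hx
    have h1 := hFs _ (hpair x (cj x) hx (by rw [nf2_cj_norm]; exact hx))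
    rw [nf2_fhat, Complex.sub_re]
    have h2 : ((N : ℂ) * ∑' i, nf2F e y0 i (x, cj x)).re =
        N * ∑' i, (nf2F e y0 i (x, cj x)).re := by
      rw [← Complex.ofReal_natCast, Complex.re_ofReal_mul, Complex.re_tsum h1]
    have h3 : ((N : ℂ) * (δ : ℂ) * nf2L (x, cj x)).re =
        N * δ * Real.log (1 - ‖x.1‖ ^ 2 - ‖x.2‖ ^ 2) := by
      rw [← Complex.ofReal_natCast, ← Complex.ofReal_mul, Complex.re_ofReal_mul, nf2L_re hr hx]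
    rw [h2, h3]
    have h4 : 0 ≤ ∑' i, (nf2F e y0 i (x, cj x)).re := tsum_nonneg fun i => nf2_re x
    have h5 : 0 ≤ (N : ℝ) * ∑' i, (nf2F e y0 i (x, cj x)).re := by positivity
    linarith
  · intro x _
    rw [nf2_fhat]
    have h1 : ∀ i, nf2F e y0 i (x, 0) = 0 := fun i => nf2_left _ _ _ x
    simp only [h1, tsum_zero]
    unfold nf2L
    simp
  · intro y _
    rw [nf2_fhat]
    have h1 : ∀ i, nf2F e y0 i (0, y) = 0 := fun i => nf2_right _ _ _ y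
    simp only [h1, tsum_zero]
    unfold nf2L
    simp

end P250
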