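import Vale.Agent.Lib.P250.ChartsB
import Vale.Agent.Lib.P250.IndexB
import Vale.Agent.Lib.P250.MasterSum
import Vale.Agent.Lib.P250.NFdefs

/-! # P250 module A8c: the decomposition -/

open scoped ContDiff
open Complex Metric Set

namespace P250

private theorem nf3_msq {e : ℝ} (j : ℤ) {y0 : ℂ × ℂ} (hy : y0 ∈ U2) :
    (Real.sqrt (rho y0) / (sg e j * e)) ^ 2 = rho y0 / (sg e j * e) ^ 2 := by
  rw [div_pow, Real.sq_sqrt (le_of_lt hy)]

private theorem nf3_norm_cj (x : ℂ × ℂ) : ‖cj x‖ = ‖x‖ := by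
  simp [cj, Prod.norm_def]

private theorem nf3_cj_zero : cj (0 : ℂ × ℂ) = 0 := by
  simp [cj]

private theorem nf3_log00 (t0 s0 : ℂ) (m : ℝ) (h : 0 < (BB t0 s0 m 0 0).re) :
    Real.log (BB t0 s0 m 0 0).re = (Complex.log (BB t0 s0 m 0 0)).re := by
  have h0 : BB t0 s0 m 0 0 = (((BB t0 s0 m 0 0).re : ℝ) : ℂ) := by
    have h1 := BB_diag t0 s0 m 0
    rw [nf3_cj_zero] at h1
    rw [h1, Complex.ofReal_re]
  rw [Complex.log_re]
  conv_rhs => rw [h0]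
  rw [Complex.norm_real, Real.norm_eq_abs, abs_of_pos h]

/-- Part 3: the decomposition (`log_diag`, `rho_gam`, `tc_gam`, `sc_gam`, summability). -/
theorem hf_decomp : ∃ r0 : ℝ, 0 < r0 ∧ r0 ≤ 1 / 8 ∧ ∀ (e δ : ℝ) (N : ℕ), 0 < e → e < 1 →
    0 < δ → ∀ y0 ∈ U2, ∀ x ∈ ball (0 : ℂ × ℂ) r0,
    phiL e δ N 0 (gam y0 x) = 2 * (hhat e δ N y0 x).re + (fhat e δ N y0 (x, cj x)).re := by
  obtain ⟨r1, C1, c1, hr1, hr1', hC1, hc1, hI⟩ := indexForm
  obtain ⟨r2, C2, hr2, hr2', hC2, hL⟩ := log_BB_bound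
  refine ⟨min r1 r2, lt_min hr1 hr2, (min_le_left _ _).trans hr1', ?_⟩
  intro e δ N he he1 hδ y0 hy x hx
  rw [mem_ball_zero_iff] at hx
  have hx1 : ‖x‖ < r1 := hx.trans_le (min_le_left _ _)
  have hx2 : ‖x‖ < r2 := hx.trans_le (min_le_right _ _)
  have hxone : ‖x‖ < 1 := by linarith
  have hxhalf : ‖x‖ < 1 / 2 := by linarith
  have h01 : ‖(0 : ℂ × ℂ)‖ < r1 := by rw [norm_zero]; exact hr1
  have h02 : ‖(0 : ℂ × ℂ)‖ < r2 := by rw [norm_zero]; exact hr2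
  have hcx1 : ‖cj x‖ < r1 := by rw [nf3_norm_cj]; exact hx1
  have hrho : 0 < rho y0 := hy
  -- abbreviations
  obtain ⟨T, hT⟩ : ∃ T : ℕ × (ℤ × ℤ × ℤ) → ℂ, ∀ i, T i = tc e (i.1 : ℤ) i.2 y0 :=
    ⟨_, fun _ => rfl⟩
  obtain ⟨S, hS⟩ : ∃ S : ℕ × (ℤ × ℤ × ℤ) → ℂ, ∀ i, S i = sc e (i.1 : ℤ) i.2 y0 :=
    ⟨_, fun _ => rfl⟩
  obtain ⟨m, hm⟩ : ∃ m : ℕ × (ℤ × ℤ × ℤ) → ℝ,
      ∀ i, m i = Real.sqrt (rho y0) / (sg e (i.1 : ℤ) * e) := ⟨_, fun _ => rfl⟩
  have hmpos : ∀ i, 0 < m i := fun i => by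
    rw [hm]
    exact div_pos (Real.sqrt_pos.2 hrho) (mul_pos (sg_pos he _) he)
  have hSre : ∀ i, (S i).re = m i ^ 2 + ‖T i‖ ^ 2 := fun i => by
    rw [hS, hT, hm, nf3_msq _ hy, sc_re he]
  obtain ⟨A, hA⟩ : ∃ A : ℕ × (ℤ × ℤ × ℤ) → ℂ, ∀ i, A i =
      Complex.log (BB (T i) (S i) (m i) x 0)
        - (1 / 2 : ℂ) * Real.log (BB (T i) (S i) (m i) 0 0).re := ⟨_, fun _ => rfl⟩
  obtain ⟨Cc, hCc⟩ : ∃ Cc : ℕ × (ℤ × ℤ × ℤ) → ℂ, ∀ i, Cc i =
      Complex.log (1 + chi (T i) (S i) (m i) x *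
        chi (starRingEnd ℂ (T i)) (starRingEnd ℂ (S i)) (m i) (cj x)) := ⟨_, fun _ => rfl⟩
  -- positivity
  have hBx : ∀ i, 0 < (BB (T i) (S i) (m i) x 0).re := fun i =>
    hc1.trans_le (hI _ _ _ (hmpos i) (hSre i) x 0 hx1 h01).2.1
  have hB0 : ∀ i, 0 < (BB (T i) (S i) (m i) 0 0).re := fun i =>
    hc1.trans_le (hI _ _ _ (hmpos i) (hSre i) 0 0 h01 h01).2.1
  have hBd : ∀ i, 0 < (BB (T i) (S i) (m i) x (cj x)).re := fun i =>
    hc1.trans_le (hI _ _ _ (hmpos i) (hSre i) x (cj x) hx1 hcx1).2.1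
  -- the summable majorant
  have hV : Summable fun i : ℕ × (ℤ × ℤ × ℤ) => ‖vv (S i)‖ ^ 4 := by
    have h := idx_summable he he1 0 hy
    refine h.congr fun i => ?_
    rw [zero_add, hS]
  -- real parts of the terms
  have hCval : ∀ i, Cc i = ((Real.log (1 + ‖chi (T i) (S i) (m i) x‖ ^ 2) : ℝ) : ℂ) := by
    intro i
    rw [hCc, ← conj_chi, Complex.mul_conj, Complex.normSq_eq_norm_sq]
    rw [Complex.ofReal_log (by positivity)]
    push_cast
    rfl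
  have hAre : ∀ i, 2 * (A i).re = 2 * (Complex.log (BB (T i) (S i) (m i) x 0)).re
      - Real.log (BB (T i) (S i) (m i) 0 0).re := by
    intro i
    rw [hA, Complex.sub_re]
    have h12 : (1 / 2 : ℂ) = ((1 / 2 : ℝ) : ℂ) := by push_cast; rfl
    rw [h12, Complex.re_ofReal_mul, Complex.ofReal_re]
    ring
  have hterm : ∀ i : ℕ × (ℤ × ℤ × ℤ), psi e (0 + (i.1 : ℤ)) i.2 (gam y0 x) =
      2 * (A i).re + (Cc i).re := by
    intro i
    rw [hAre, hCval, Complex.ofReal_re, zero_add]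
    have hlog := log_diag (T i) (S i) (m i) x (hBx i) (hB0 i) (hBd i)
    unfold psi psi0
    rw [tc_gam he _ _ hy hxone, sc_gam he _ _ hy hxone, ← hT, ← hS, ← hm]
    exact hlog
  -- summability
  have hAsum : Summable A := by
    refine Summable.of_norm_bounded (g := fun i => (C2 + C2) * ‖vv (S i)‖ ^ 4)
      (hV.mul_left _) fun i => ?_
    have h1 := hL (T i) (S i) (m i) (hmpos i) (hSre i) x 0 hx2 h02
    have h2 := hL (T i) (S i) (m i) (hmpos i) (hSre i) 0 0 h02 h02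
    have h3 : ‖(1 / 2 : ℂ) * Real.log (BB (T i) (S i) (m i) 0 0).re‖ ≤
        C2 * ‖vv (S i)‖ ^ 4 := by
      rw [norm_mul, Complex.norm_real, nf3_log00 _ _ _ (hB0 i), Real.norm_eq_abs]
      have h4 := (Complex.abs_re_le_norm (Complex.log (BB (T i) (S i) (m i) 0 0))).trans h2
      have h5 : ‖(1 / 2 : ℂ)‖ = 1 / 2 := by norm_num
      rw [h5]
      have h6 := abs_nonneg (Complex.log (BB (T i) (S i) (m i) 0 0)).re
      linarith
    rw [hA]
    refine (norm_sub_le _ _).trans ?_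
    rw [add_mul]
    exact add_le_add h1 h3
  have hCsum : Summable Cc := by
    refine Summable.of_norm_bounded (g := fun i => (3 / 2 * C1) * ‖vv (S i)‖ ^ 4)
      (hV.mul_left _) fun i => ?_
    have h1 := hI (T i) (S i) (m i) (hmpos i) (hSre i) x 0 hx1 h01
    have h2 := h1.2.2.2.1
    have h3 := h1.2.2.2.2
    have h4 : ‖chi (T i) (S i) (m i) x‖ ^ 2 ≤ C1 * ‖vv (S i)‖ ^ 4 := by
      refine h3.trans ?_
      have h5 : C1 * min 1 (m i ^ 2) ≤ C1 * 1 :=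
        mul_le_mul_of_nonneg_left (min_le_left _ _) hC1.le
      rw [mul_one] at h5
      exact mul_le_mul_of_nonneg_right h5 (by positivity)
    have h0 : 0 ≤ ‖chi (T i) (S i) (m i) x‖ ^ 2 := by positivity
    rw [hCval, Complex.norm_real, Real.norm_eq_abs,
      abs_of_nonneg (Real.log_nonneg (by linarith))]
    have h6 := Real.log_le_sub_one_of_pos (x := 1 + ‖chi (T i) (S i) (m i) x‖ ^ 2)
      (by linarith)
    linarith
  -- the sum
  have hsum : phi e 0 (gam y0 x) = 2 * (∑' i, A i).re + (∑' i, Cc i).re := by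
    unfold phi
    rw [tsum_congr hterm, Complex.re_tsum hAsum, Complex.re_tsum hCsum, ← tsum_mul_left,
      ← Summable.tsum_add]
    · exact ((Complex.hasSum_re hAsum.hasSum).summable).mul_left 2
    · exact (Complex.hasSum_re hCsum.hasSum).summable
  have hh : hhat e δ N y0 x = N * (∑' i, A i)
      + N * δ * (Complex.log (1 + x.2) - (1 / 2 : ℂ) * Real.log (rho y0)) := by
    unfold hhat
    congr 2
    refine tsum_congr fun i => ?_
    rw [hA, hT, hS, hm]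
  have hf : fhat e δ N y0 (x, cj x) = N * (∑' i, Cc i)
      - N * δ * Complex.log (1 - x.1 * (cj x).1 - x.2 * (cj x).2) := by
    unfold fhat
    congr 2
    refine tsum_congr fun i => ?_
    rw [hCc, hT, hS, hm]
  -- the logarithm of rho
  have hx2n : ‖x.1‖ < 1 / 2 := (norm_fst_le x).trans_lt hxhalf
  have hx3n : ‖x.2‖ < 1 / 2 := (norm_snd_le x).trans_lt hxhalf
  have hq : 0 < 1 - ‖x.1‖ ^ 2 - ‖x.2‖ ^ 2 := by
    nlinarith [norm_nonneg x.1, norm_nonneg x.2]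
  have hne := one_add_x_ne hxone
  have hnp : 0 < ‖1 + x.2‖ := norm_pos_iff.2 hne
  have hlr : Real.log (rho (gam y0 x)) = Real.log (rho y0) + Real.log (1 - ‖x.1‖ ^ 2 - ‖x.2‖ ^ 2)
      - 2 * Real.log ‖1 + x.2‖ := by
    rw [rho_gam hy hxone, Real.log_div (mul_pos hrho hq).ne' (pow_pos hnp 2).ne',
      Real.log_mul hrho.ne' hq.ne', Real.log_pow]
    push_cast
    ring
  have hlq : Complex.log (1 - x.1 * (cj x).1 - x.2 * (cj x).2) =
      ((Real.log (1 - ‖x.1‖ ^ 2 - ‖x.2‖ ^ 2) : ℝ) : ℂ) := by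
    rw [Complex.ofReal_log hq.le]
    congr 1
    show 1 - x.1 * (starRingEnd ℂ x.1) - x.2 * (starRingEnd ℂ x.2) = _
    rw [Complex.mul_conj, Complex.mul_conj, Complex.normSq_eq_norm_sq,
      Complex.normSq_eq_norm_sq]
    push_cast
    ring
  have hNδ : ((N : ℂ) * (δ : ℂ)) = (((N : ℝ) * δ : ℝ) : ℂ) := by push_cast; rfl
  have hNc : (N : ℂ) = ((N : ℝ) : ℂ) := by push_cast; rfl
  have hhre : (hhat e δ N y0 x).re = N * (∑' i, A i).re
      + N * δ * (Real.log ‖1 + x.2‖ - 1 / 2 * Real.log (rho y0)) := by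
    have h12 : (1 / 2 : ℂ) = ((1 / 2 : ℝ) : ℂ) := by push_cast; rfl
    rw [hh, Complex.add_re, hNδ, Complex.re_ofReal_mul, hNc, Complex.re_ofReal_mul,
      Complex.sub_re, Complex.log_re, h12, Complex.re_ofReal_mul, Complex.ofReal_re]
  have hfre : (fhat e δ N y0 (x, cj x)).re = N * (∑' i, Cc i).re
      - N * δ * Real.log (1 - ‖x.1‖ ^ 2 - ‖x.2‖ ^ 2) := by
    rw [hf, Complex.sub_re, hNδ, Complex.re_ofReal_mul, hNc, Complex.re_ofReal_mul, hlq,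
      Complex.ofReal_re]
  unfold phiL
  rw [hhre, hfre, hsum, hlr]
  ring

end P250
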