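import Mathlib.Algebra.Order.Star.Real
import Mathlib.Analysis.Calculus.Deriv.MeanValue
import Mathlib.Analysis.Calculus.FDeriv.Symmetric
import Mathlib.Analysis.Complex.RealDeriv
import Mathlib.Analysis.InnerProductSpace.Basic
import Mathlib.Topology.Algebra.Module.ModuleTopology
import Vale.Agent.Lib.P250.NFdefs

/-! # P250 module A8d: the Levi form from the diagonal -/

open scoped ContDiff
open Complex Metric Set

namespace P250

private theorem nf4_curve {E : Type*} [NormedAddCommGroup E] [NormedSpace ℂ E] {F : E → ℂ}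
    {r0 : ℝ} (hf : ContDiffOn ℂ ∞ F (ball 0 r0)) (w : E) {t : ℝ} (ht : (t : ℂ) • w ∈ ball (0 : E) r0) :
    HasDerivAt (fun s : ℝ => F ((s : ℂ) • w)) (fderiv ℂ F ((t : ℂ) • w) w) t ∧
    HasDerivAt (fun s : ℝ => fderiv ℂ F ((s : ℂ) • w) w)
      (fderiv ℂ (fderiv ℂ F) ((t : ℂ) • w) w w) t := by
  have hline : HasDerivAt (fun s : ℂ => s • w) w (t : ℂ) := by
    simpa using (hasDerivAt_id (t : ℂ)).smul_const w
  have hF : HasFDerivAt F (fderiv ℂ F ((t : ℂ) • w)) ((t : ℂ) • w) :=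
    ((hf.contDiffAt (isOpen_ball.mem_nhds ht)).differentiableAt (by simp)).hasFDerivAt
  have hA : ContDiffOn ℂ ∞ (fderiv ℂ F) (ball 0 r0) :=
    hf.fderiv_of_isOpen isOpen_ball (by simp)
  have hA' : HasFDerivAt (fderiv ℂ F) (fderiv ℂ (fderiv ℂ F) ((t : ℂ) • w)) ((t : ℂ) • w) :=
    ((hA.contDiffAt (isOpen_ball.mem_nhds ht)).differentiableAt (by simp)).hasFDerivAt
  constructor
  · exact (hF.comp_hasDerivAt (t : ℂ) hline).comp_ofReal
  · have h2 : HasDerivAt (fun s : ℂ => fderiv ℂ F (s • w))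
        (fderiv ℂ (fderiv ℂ F) ((t : ℂ) • w) w) (t : ℂ) :=
      hA'.comp_hasDerivAt (t : ℂ) hline
    have h3 : HasDerivAt (fun s : ℂ => fderiv ℂ F (s • w) w)
        (fderiv ℂ (fderiv ℂ F) ((t : ℂ) • w) w w) (t : ℂ) := by
      have := h2.clm_apply (hasDerivAt_const (t : ℂ) w)
      simpa using this
    exact h3.comp_ofReal

private theorem nf4_cont {E : Type*} [NormedAddCommGroup E] [NormedSpace ℂ E] {F : E → ℂ}
    {r0 : ℝ} (hr0 : 0 < r0) (hf : ContDiffOn ℂ ∞ F (ball 0 r0)) (w : E) :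
    ContinuousAt (fun s : ℝ => fderiv ℂ (fderiv ℂ F) ((s : ℂ) • w) w w) 0 := by
  have hA : ContDiffOn ℂ ∞ (fderiv ℂ F) (ball 0 r0) :=
    hf.fderiv_of_isOpen isOpen_ball (by simp)
  have hB : ContDiffOn ℂ ∞ (fderiv ℂ (fderiv ℂ F)) (ball 0 r0) :=
    hA.fderiv_of_isOpen isOpen_ball (by simp)
  have h0 : ContinuousAt (fderiv ℂ (fderiv ℂ F)) (((0 : ℝ) : ℂ) • w) := by
    have h1 : ((0 : ℝ) : ℂ) • w = 0 := by simp
    rw [h1]
    exact (hB.contDiffAt (isOpen_ball.mem_nhds (mem_ball_self hr0))).continuousAt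
  have hl : ContinuousAt (fun s : ℝ => (s : ℂ) • w) 0 := by fun_prop
  have h2 : ContinuousAt (fun s : ℝ => fderiv ℂ (fderiv ℂ F) ((s : ℂ) • w)) 0 :=
    ContinuousAt.comp (f := fun s : ℝ => (s : ℂ) • w) h0 hl
  exact (h2.clm_apply continuousAt_const).clm_apply continuousAt_const

private theorem nf4_ev {E : Type*} [NormedAddCommGroup E] [NormedSpace ℂ E]
    {r0 : ℝ} (hr0 : 0 < r0) (w : E) : ∀ᶠ t : ℝ in nhds 0, (t : ℂ) • w ∈ ball (0 : E) r0 := by
  have hl : ContinuousAt (fun s : ℝ => (s : ℂ) • w) 0 := by fun_prop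
  apply hl
  simp only [ofReal_zero, zero_smul]
  exact ball_mem_nhds _ hr0

/-- if `F` vanishes along the line, the first and second derivatives vanish -/
private theorem nf4_zero {E : Type*} [NormedAddCommGroup E] [NormedSpace ℂ E] {F : E → ℂ}
    {r0 : ℝ} (hr0 : 0 < r0) (hf : ContDiffOn ℂ ∞ F (ball 0 r0)) (w : E)
    (h : ∀ t : ℝ, (t : ℂ) • w ∈ ball (0 : E) r0 → F ((t : ℂ) • w) = 0) :
    fderiv ℂ F 0 w = 0 ∧ fderiv ℂ (fderiv ℂ F) 0 w w = 0 := by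
  have hev := nf4_ev hr0 w
  have h1 : ∀ᶠ t : ℝ in nhds 0, fderiv ℂ F ((t : ℂ) • w) w = 0 := by
    filter_upwards [hev.eventually_nhds] with t ht
    have h2 := (nf4_curve hf w ht.self_of_nhds).1
    have h3 : HasDerivAt (fun s : ℝ => F ((s : ℂ) • w)) 0 t := by
      refine (hasDerivAt_const t (0 : ℂ)).congr_of_eventuallyEq ?_
      filter_upwards [ht] with s hs
      exact h s hs
    exact h2.unique h3
  constructor
  · simpa using h1.self_of_nhds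
  · have h2 := (nf4_curve hf w (t := 0) hev.self_of_nhds).2
    have h3 : HasDerivAt (fun s : ℝ => fderiv ℂ F ((s : ℂ) • w) w) 0 0 :=
      (hasDerivAt_const (0 : ℝ) (0 : ℂ)).congr_of_eventuallyEq h1
    have := h2.unique h3
    simpa using this

/-- second order comparison -/
private theorem nf4_second {φ φ1 φ2 : ℝ → ℝ} {k : ℝ}
    (h1 : ∀ᶠ t in nhds (0 : ℝ), HasDerivAt φ (φ1 t) t)
    (h2 : ∀ᶠ t in nhds (0 : ℝ), HasDerivAt φ1 (φ2 t) t)
    (hc : ContinuousAt φ2 0) (h0 : φ 0 = 0) (h10 : φ1 0 = 0)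
    (hlow : ∀ᶠ t in nhds (0 : ℝ), k * t ^ 2 ≤ φ t) : 2 * k ≤ φ2 0 := by
  by_contra hlt
  push Not at hlt
  have hev : ∀ᶠ t in nhds (0 : ℝ), φ2 t < 2 * k := hc.eventually_lt continuousAt_const hlt
  obtain ⟨ε, hε, hball⟩ := Metric.eventually_nhds_iff_ball.1 (((h1.and h2).and hev).and hlow)
  have hin : ∀ t ∈ Icc (0 : ℝ) (ε / 2), t ∈ ball (0 : ℝ) ε := by
    intro t ht
    rw [mem_ball_zero_iff, Real.norm_eq_abs, abs_of_nonneg ht.1]
    linarith [ht.2]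
  have hd1 : ∀ t ∈ Icc (0 : ℝ) (ε / 2), HasDerivAt (fun s => φ1 s - 2 * k * s)
      (φ2 t - 2 * k) t := by
    intro t ht
    have h3 := (hball t (hin t ht)).1.1.2
    have h4 : HasDerivAt (fun s => φ1 s - 2 * k * s) (φ2 t - 2 * k * 1) t :=
      h3.sub ((hasDerivAt_id t).const_mul (2 * k))
    rwa [mul_one] at h4
  have hanti1 : StrictAntiOn (fun s => φ1 s - 2 * k * s) (Icc (0 : ℝ) (ε / 2)) := by
    apply strictAntiOn_of_deriv_neg (convex_Icc _ _)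
    · intro t ht
      exact (hd1 t ht).continuousAt.continuousWithinAt
    · intro t ht
      rw [interior_Icc] at ht
      have ht' : t ∈ Icc (0 : ℝ) (ε / 2) := ⟨ht.1.le, ht.2.le⟩
      rw [(hd1 t ht').deriv]
      have := (hball t (hin t ht')).1.2
      linarith
  have hd0 : ∀ t ∈ Icc (0 : ℝ) (ε / 2), HasDerivAt (fun s => φ s - k * s ^ 2)
      (φ1 t - 2 * k * t) t := by
    intro t ht
    have h3 := (hball t (hin t ht)).1.1.1
    have h4 : HasDerivAt (fun s => φ s - k * s ^ 2)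
        (φ1 t - k * (((2 : ℕ) : ℝ) * t ^ (2 - 1))) t :=
      h3.sub ((hasDerivAt_pow 2 t).const_mul k)
    have e : φ1 t - k * (((2 : ℕ) : ℝ) * t ^ (2 - 1)) = φ1 t - 2 * k * t := by
      norm_num; ring
    rwa [e] at h4
  have hanti0 : StrictAntiOn (fun s => φ s - k * s ^ 2) (Icc (0 : ℝ) (ε / 2)) := by
    apply strictAntiOn_of_deriv_neg (convex_Icc _ _)
    · intro t ht
      exact (hd0 t ht).continuousAt.continuousWithinAt
    · intro t ht
      rw [interior_Icc] at ht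
      have ht' : t ∈ Icc (0 : ℝ) (ε / 2) := ⟨ht.1.le, ht.2.le⟩
      rw [(hd0 t ht').deriv]
      have := hanti1 (left_mem_Icc.2 (by linarith)) ht' ht.1
      simp only [h10] at this
      linarith
  have h5 := hanti0 (left_mem_Icc.2 (by linarith)) (right_mem_Icc.2 (by linarith))
    (half_pos hε)
  have h6 := (hball (ε / 2) (hin _ (right_mem_Icc.2 (by linarith)))).2
  simp only [h0] at h5
  linarith

/-- Part 4: the Levi form from the lower bound on the diagonal: for `fh` holomorphic near `0`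
without pure terms, `fh (λξ, conj (λξ)) = |λ|² c(ξ,ξ) + O(|λ|³)`. -/
theorem levi_of_lower {fh : (ℂ × ℂ) × (ℂ × ℂ) → ℂ} {r0 κ : ℝ} (hr0 : 0 < r0) (hκ : 0 ≤ κ)
    (hf : ContDiffOn ℂ ∞ fh (ball 0 r0))
    (hl : ∀ x ∈ ball (0 : ℂ × ℂ) r0, fh (x, 0) = 0)
    (hr : ∀ y ∈ ball (0 : ℂ × ℂ) r0, fh (0, y) = 0)
    (hlow : ∀ x ∈ ball (0 : ℂ × ℂ) r0,
      κ * (-Real.log (1 - ‖x.1‖ ^ 2 - ‖x.2‖ ^ 2)) ≤ (fh (x, cj x)).re) (ξ : ℂ × ℂ) :
    κ * (‖ξ.1‖ ^ 2 + ‖ξ.2‖ ^ 2) ≤ (dd (dd fh (0, cj ξ)) (ξ, 0) 0).re := by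
  set u : (ℂ × ℂ) × (ℂ × ℂ) := (ξ, 0) with hu
  set v : (ℂ × ℂ) × (ℂ × ℂ) := (0, cj ξ) with hv
  have h0mem : (0 : (ℂ × ℂ) × (ℂ × ℂ)) ∈ ball (0 : (ℂ × ℂ) × (ℂ × ℂ)) r0 := mem_ball_self hr0
  have hA : ContDiffOn ℂ ∞ (fderiv ℂ fh) (ball 0 r0) :=
    hf.fderiv_of_isOpen isOpen_ball (by simp)
  have hA' : HasFDerivAt (fderiv ℂ fh) (fderiv ℂ (fderiv ℂ fh) 0) 0 :=
    ((hA.contDiffAt (isOpen_ball.mem_nhds h0mem)).differentiableAt (by simp)).hasFDerivAt
  have hdd : dd (dd fh v) u 0 = fderiv ℂ (fderiv ℂ fh) 0 u v := by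
    have h1 : HasFDerivAt (fun z => fderiv ℂ fh z v)
        ((fderiv ℂ (fderiv ℂ fh) 0).flip v) 0 := by
      have := hA'.clm_apply (hasFDerivAt_const v (0 : (ℂ × ℂ) × (ℂ × ℂ)))
      simpa using this
    change fderiv ℂ (fun z => fderiv ℂ fh z v) 0 u = _
    rw [h1.fderiv]
    rfl
  have hsymm : fderiv ℂ (fderiv ℂ fh) 0 v u = fderiv ℂ (fderiv ℂ fh) 0 u v := by
    have h1 : IsSymmSndFDerivAt ℂ fh 0 :=
      (hf.contDiffAt (isOpen_ball.mem_nhds h0mem)).isSymmSndFDerivAt (by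
        rw [minSmoothness_of_isRCLikeNormedField]; exact WithTop.coe_le_coe.2 (le_top : (2 : ℕ∞) ≤ ⊤))
    exact h1.eq v u
  obtain ⟨hu1, hu2⟩ := nf4_zero hr0 hf u (by
    intro t ht
    have : (t : ℂ) • u = ((t : ℂ) • ξ, 0) := by simp [hu]
    rw [this] at ht ⊢
    apply hl
    rw [mem_ball_zero_iff] at ht ⊢
    exact lt_of_le_of_lt (le_max_left _ _) ht)
  obtain ⟨hv1, hv2⟩ := nf4_zero hr0 hf v (by
    intro t ht
    have : (t : ℂ) • v = (0, (t : ℂ) • cj ξ) := by simp [hv]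
    rw [this] at ht ⊢
    apply hr
    rw [mem_ball_zero_iff] at ht ⊢
    exact lt_of_le_of_lt (le_max_right _ _) ht)
  have hww : fderiv ℂ (fderiv ℂ fh) 0 (u + v) (u + v) =
      2 * fderiv ℂ (fderiv ℂ fh) 0 u v := by
    have e1 : fderiv ℂ (fderiv ℂ fh) 0 (u + v) =
        fderiv ℂ (fderiv ℂ fh) 0 u + fderiv ℂ (fderiv ℂ fh) 0 v := map_add _ _ _
    have e2 : ∀ z, (fderiv ℂ (fderiv ℂ fh) 0 u + fderiv ℂ (fderiv ℂ fh) 0 v) z =
        fderiv ℂ (fderiv ℂ fh) 0 u z + fderiv ℂ (fderiv ℂ fh) 0 v z := fun z => rfl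
    rw [e1, e2, map_add, map_add, hu2, hv2, hsymm]
    ring
  have hw1 : fderiv ℂ fh 0 (u + v) = 0 := by rw [map_add, hu1, hv1, add_zero]
  set S : ℝ := ‖ξ.1‖ ^ 2 + ‖ξ.2‖ ^ 2 with hS
  have hS0 : 0 ≤ S := by positivity
  have hev := nf4_ev hr0 (u + v)
  have main := nf4_second (φ := fun t : ℝ => (fh ((t : ℂ) • (u + v))).re)
    (φ1 := fun t : ℝ => (fderiv ℂ fh ((t : ℂ) • (u + v)) (u + v)).re)
    (φ2 := fun t : ℝ => (fderiv ℂ (fderiv ℂ fh) ((t : ℂ) • (u + v)) (u + v) (u + v)).re)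
    (k := κ * S) ?_ ?_ ?_ ?_ ?_ ?_
  · simp only [ofReal_zero, zero_smul] at main
    rw [hww] at main
    rw [hdd]
    simp only [mul_re, re_ofNat, im_ofNat, zero_mul, sub_zero] at main
    linarith
  · filter_upwards [hev] with t ht
    have := (nf4_curve hf (u + v) ht).1
    exact (Complex.reCLM.hasFDerivAt.comp_hasDerivAt t this)
  · filter_upwards [hev] with t ht
    have := (nf4_curve hf (u + v) ht).2
    exact (Complex.reCLM.hasFDerivAt.comp_hasDerivAt t this)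
  · exact Complex.continuous_re.continuousAt.comp (nf4_cont hr0 hf (u + v))
  · simp only [ofReal_zero, zero_smul]
    have := hl 0 (mem_ball_self hr0)
    rw [show ((0 : ℂ × ℂ), (0 : ℂ × ℂ)) = 0 from rfl] at this
    rw [this]; rfl
  · simp only [ofReal_zero, zero_smul]
    rw [hw1]; rfl
  · have hsmall : ∀ᶠ t : ℝ in nhds 0, t ^ 2 * S < 1 := by
      have : ContinuousAt (fun t : ℝ => t ^ 2 * S) 0 := by fun_prop
      exact this.eventually_lt continuousAt_const (by simp)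
    filter_upwards [hev, hsmall] with t ht hs
    have hw : (t : ℂ) • (u + v) = ((t : ℂ) • ξ, cj ((t : ℂ) • ξ)) := by
      simp only [hu, hv, Prod.mk_add_mk, add_zero, zero_add, Prod.smul_mk]
      congr 1
      simp [cj]
    rw [hw] at ht ⊢
    have hx : (t : ℂ) • ξ ∈ ball (0 : ℂ × ℂ) r0 := by
      rw [mem_ball_zero_iff] at ht ⊢
      exact lt_of_le_of_lt (le_max_left _ _) ht
    refine le_trans ?_ (hlow _ hx)
    have hn : 1 - ‖((t : ℂ) • ξ).1‖ ^ 2 - ‖((t : ℂ) • ξ).2‖ ^ 2 = 1 - t ^ 2 * S := by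
      simp only [Prod.smul_fst, Prod.smul_snd, smul_eq_mul, norm_mul, Complex.norm_real,
        Real.norm_eq_abs, mul_pow, sq_abs]
      rw [hS]; ring
    rw [hn]
    have hlog := Real.log_le_sub_one_of_pos (x := 1 - t ^ 2 * S) (by linarith)
    have : t ^ 2 * S ≤ -Real.log (1 - t ^ 2 * S) := by linarith
    calc κ * S * t ^ 2 = κ * (t ^ 2 * S) := by ring
      _ ≤ _ := mul_le_mul_of_nonneg_left this hκ

end P250
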