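import Vale.Agent.Lib.P250.NF1
import Vale.Agent.Lib.P250.NF2
import Vale.Agent.Lib.P250.NF3
import Vale.Agent.Lib.P250.NF4

/-! # P250 module A8: the normal form theorem (assembly) -/

open scoped ContDiff
open Complex Metric Set

namespace P250

/-- The normal form theorem. -/
theorem exists_NF : ∃ r0 : ℝ, 0 < r0 ∧ r0 ≤ 1 / 8 ∧ ∀ (e δ : ℝ) (N : ℕ), 0 < e → e < 1 →
    0 < δ → ∃ C0 : ℝ, 0 < C0 ∧ ∀ y0 ∈ U2, ∃ (h : ℂ × ℂ → ℂ) (fh : (ℂ × ℂ) × (ℂ × ℂ) → ℂ),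
    NF e δ N r0 C0 y0 h fh := by
  obtain ⟨ra, ha0, ha1, ha⟩ := hhat_smooth
  obtain ⟨rb, hb0, hb1, hb⟩ := fhat_facts
  obtain ⟨rc, hc0, hc1, hc⟩ := hf_decomp
  set r := min ra (min rb rc) with hr
  have hr0 : 0 < r := lt_min ha0 (lt_min hb0 hc0)
  have hra : r ≤ ra := min_le_left _ _
  have hrb : r ≤ rb := (min_le_right _ _).trans (min_le_left _ _)
  have hrc : r ≤ rc := (min_le_right _ _).trans (min_le_right _ _)
  refine ⟨r, hr0, hra.trans ha1, fun e δ N he he1 hδ => ?_⟩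
  obtain ⟨C0, hC0, hC⟩ := hb e δ N he he1 hδ
  refine ⟨C0, hC0, fun y0 hy0 => ⟨hhat e δ N y0, fhat e δ N y0, ?_⟩⟩
  obtain ⟨k1, k2, k3, k4, k5, k6⟩ := hC y0 hy0
  have k1' := k1.mono (ball_subset_ball hrb)
  have k4' : ∀ x ∈ ball (0 : ℂ × ℂ) r,
      N * δ * (-Real.log (1 - ‖x.1‖ ^ 2 - ‖x.2‖ ^ 2)) ≤ (fhat e δ N y0 (x, cj x)).re :=
    fun x hx => k4 x (ball_subset_ball hrb hx)
  have k5' := fun x (hx : x ∈ ball (0 : ℂ × ℂ) r) => k5 x (ball_subset_ball hrb hx)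
  have k6' := fun x (hx : x ∈ ball (0 : ℂ × ℂ) r) => k6 x (ball_subset_ball hrb hx)
  refine ⟨(ha e δ N he he1 hδ y0 hy0).mono (ball_subset_ball hra), k1',
    fun z hz => k2 z (ball_subset_ball hrb hz),
    fun x hx y hy => k3 x (ball_subset_ball hrb hx) y (ball_subset_ball hrb hy),
    ?_, k5', k6',
    fun x hx => hc e δ N he he1 hδ y0 hy0 x (ball_subset_ball hrc hx), ?_⟩
  · intro x hx
    refine le_trans ?_ (k4' x hx)
    have hx1 : ‖x‖ < 1 / 8 := by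
      have := mem_ball_zero_iff.mp hx
      linarith [hra.trans ha1]
    have h1 : ‖x.1‖ < 1 / 8 := (norm_fst_le x).trans_lt hx1
    have h2 : ‖x.2‖ < 1 / 8 := (norm_snd_le x).trans_lt hx1
    have h3 : Real.log (1 - ‖x.1‖ ^ 2 - ‖x.2‖ ^ 2) ≤ 0 := by
      apply Real.log_nonpos
      · nlinarith [norm_nonneg x.1, norm_nonneg x.2]
      · nlinarith [norm_nonneg x.1, norm_nonneg x.2]
    have : (0 : ℝ) ≤ N * δ := by positivity
    nlinarith [mul_nonneg this (neg_nonneg.mpr h3)]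
  · intro ξ
    exact levi_of_lower hr0 (by positivity) k1' k5' k6' k4' ξ

end P250
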