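import Mathlib.Analysis.SpecialFunctions.Complex.LogDeriv
import Vale.Agent.Lib.P250.BPA
import Vale.Agent.Lib.P250.CurveC

/-! # P250 module O6: logarithm on the annulus -/

open Complex Metric Set

namespace P250

noncomputable section

/-- an explicit logarithm of `(w - i e²) / aF e w` -/
private def osaLam (e : ℝ) (w : ℂ) : ℂ :=
  Complex.log (I * ((e ^ 2 : ℝ) : ℂ)) + ((4 : ℕ) : ℂ) * Complex.log (sF e w + 1)
    - Complex.log (sF e w + 3) - Complex.log (sF e w + 1 - 2 * I)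
    - Complex.log (sF e w + 1 + 2 * I)

private theorem osa_sF_re {e : ℝ} (he : 0 < e) (w : ℂ) : (sF e w).re = w.im / e ^ 2 := by
  have h1 : sF e w = ((w.im / e ^ 2 : ℝ) : ℂ) + ((-w.re / e ^ 2 : ℝ) : ℂ) * I := by
    unfold sF
    have h2 : ((e : ℝ) : ℂ) ≠ 0 := by exact_mod_cast he.ne'
    push_cast
    field_simp
    apply Complex.ext
    · simp
    · simp
  rw [h1, Complex.add_re, Complex.ofReal_re, Complex.mul_re, Complex.ofReal_re, Complex.ofReal_im,
    I_re, I_im]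
  ring

private theorem osa_re_pos {e : ℝ} (he : 0 < e) {w : ℂ} (hw : 0 < w.im) : 0 < (sF e w).re := by
  rw [osa_sF_re he]
  positivity

private theorem osa_exp {e : ℝ} (he : 0 < e) {w : ℂ} (hw : 0 < w.im) :
    Complex.exp (osaLam e w) * aF e w = w - I * ((e ^ 2 : ℝ) : ℂ) := by
  have hre := osa_re_pos he hw
  have he0 : ((e ^ 2 : ℝ) : ℂ) ≠ 0 := by
    have : e ^ 2 ≠ 0 := by positivity
    exact_mod_cast this
  have hw' : w = I * ((e ^ 2 : ℝ) : ℂ) * sF e w := by
    unfold sF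
    field_simp
    rw [I_sq]
    ring
  set s := sF e w with hs
  have h1 : s + 1 ≠ 0 := by
    intro h
    have := congrArg Complex.re h
    simp at this
    linarith
  have h3 : s + 3 ≠ 0 := by
    intro h
    have := congrArg Complex.re h
    simp at this
    linarith
  have h4 : s + 1 - 2 * I ≠ 0 := by
    intro h
    have := congrArg Complex.re h
    simp at this
    linarith
  have h5 : s + 1 + 2 * I ≠ 0 := by
    intro h
    have := congrArg Complex.re h
    simp at this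
    linarith
  have h6 : Complex.exp (osaLam e w) =
      I * ((e ^ 2 : ℝ) : ℂ) * (s + 1) ^ 4 / (s + 3) / (s + 1 - 2 * I) / (s + 1 + 2 * I) := by
    unfold osaLam
    rw [← hs, Complex.exp_sub, Complex.exp_sub, Complex.exp_sub, Complex.exp_add,
      Complex.exp_nat_mul, Complex.exp_log (mul_ne_zero I_ne_zero he0), Complex.exp_log h1,
      Complex.exp_log h3, Complex.exp_log h4, Complex.exp_log h5]
  have h7 : aF e w = (s - 1) * (s + 3) * (s + 1 - 2 * I) * (s + 1 + 2 * I) / (s + 1) ^ 4 := by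
    unfold aF PP vv
    rw [← hs, add_comm 1 s, eq_div_iff (pow_ne_zero 4 h1), div_pow, sub_mul,
      div_mul_cancel₀ _ (pow_ne_zero 4 h1)]
    linear_combination (4 * (s - 1) * (s + 3)) * I_sq
  rw [h6, h7]
  conv_rhs => rw [hw']
  rw [div_div, div_div, div_mul_div_comm, div_eq_iff (mul_ne_zero (mul_ne_zero h3
    (mul_ne_zero h4 h5)) (pow_ne_zero 4 h1))]
  ring

private theorem osa_diff {e : ℝ} (he : 0 < e) {w : ℂ} (hw : 0 < w.im) :
    DifferentiableAt ℂ (osaLam e) w := by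
  have hre := osa_re_pos he hw
  have hs : DifferentiableAt ℂ (sF e) w := by
    unfold sF
    fun_prop
  unfold osaLam
  refine ((((differentiableAt_const _).add ((differentiableAt_const _).mul
    ((hs.add_const 1).clog ?_))).sub ((hs.add_const 3).clog ?_)).sub
    (((hs.add_const 1).sub_const (2 * I)).clog ?_)).sub (((hs.add_const 1).add_const (2 * I)).clog ?_)
  all_goals
    rw [Complex.mem_slitPlane_iff]
    left
    simp
    linarith

/-- O6: the logarithm on the annulus. With `s = sF e w`, `c = i e²`: `w - c = i e² (s - 1)` and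
`aF = (s-1)/(s+1) (1+v)(1+v²)`, so `(w - c)/aF = i e² (s+1)/((1+v)(1+v²))` is holomorphic and
zero-free on the disc `|w - c| < e²`, so it has a holomorphic logarithm there. -/
theorem annulus_log {e B : ℝ} {x : ℂ × ℂ} (h : Adm e B x) (N : ℕ) {L : ℂ × ℂ → ℂ}
    (hL : DifferentiableOn ℂ L U2) :
    ∃ ℓ : ℂ → ℂ, DifferentiableOn ℂ ℓ {w | 11 / 100 * e ^ 2 < ‖w - I * ((e ^ 2 : ℝ) : ℂ)‖ ∧
      ‖w - I * ((e ^ 2 : ℝ) : ℂ)‖ < 91 / 100 * e ^ 2} ∧
    ∀ w, 11 / 100 * e ^ 2 < ‖w - I * ((e ^ 2 : ℝ) : ℂ)‖ →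
      ‖w - I * ((e ^ 2 : ℝ) : ℂ)‖ < 91 / 100 * e ^ 2 →
      Complex.exp (L (zF e B x w, w)) / aF e w ^ N * (w - I * ((e ^ 2 : ℝ) : ℂ)) ^ N
        = Complex.exp (ℓ w) := by
  have himp : ∀ w : ℂ, ‖w - I * ((e ^ 2 : ℝ) : ℂ)‖ < 91 / 100 * e ^ 2 → 0 < w.im := by
    intro w hw
    have h1 := (Complex.abs_im_le_norm (w - I * ((e ^ 2 : ℝ) : ℂ))).trans_lt hw
    have h2 : (w - I * ((e ^ 2 : ℝ) : ℂ)).im = w.im - e ^ 2 := by
      rw [Complex.sub_im, Complex.mul_im, Complex.ofReal_re, Complex.ofReal_im, I_re, I_im]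
      ring
    rw [h2] at h1
    have h3 := (abs_lt.mp h1).1
    have h4 : 0 < e ^ 2 := pow_pos h.he 2
    nlinarith
  have hOm : ∀ w : ℂ, 11 / 100 * e ^ 2 < ‖w - I * ((e ^ 2 : ℝ) : ℂ)‖ →
      ‖w - I * ((e ^ 2 : ℝ) : ℂ)‖ < 91 / 100 * e ^ 2 → aF e w ≠ 0 ∧ (zF e B x w, w) ∈ U2 := by
    intro w h1 h2
    have h3 := annulus_Om h h1 h2
    have h4 : w ∈ OmC e B x := ⟨h3.1, h3.2.le⟩
    obtain ⟨h5, -, h6⟩ := mem_OmC h h4
    exact ⟨h5, (pow_pos h.he 10).trans_le h6⟩
  refine ⟨fun w => L (zF e B x w, w) + (N : ℂ) * osaLam e w, ?_, ?_⟩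
  · rintro w ⟨h1, h2⟩
    obtain ⟨ha, hU⟩ := hOm w h1 h2
    have h3 := (zF_diff h (himp w h2) ha).1
    have h4 : DifferentiableAt ℂ (fun w => (zF e B x w, w)) w := h3.prodMk differentiableAt_id
    have h5 : DifferentiableAt ℂ L (zF e B x w, w) := hL.differentiableAt (U2_open.mem_nhds hU)
    have h6 : DifferentiableAt ℂ (fun w => L (zF e B x w, w)) w :=
      DifferentiableAt.comp w (f := fun w => (zF e B x w, w)) h5 h4
    exact (h6.add ((differentiableAt_const _).mul (osa_diff h.he (himp w h2)))).differentiableWithinAt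
  · intro w h1 h2
    obtain ⟨ha, -⟩ := hOm w h1 h2
    rw [Complex.exp_add, Complex.exp_nat_mul, ← osa_exp h.he (himp w h2), mul_pow]
    have h3 := pow_ne_zero N ha
    field_simp

end

end P250
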