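import Vale.Agent.Lib.P250.Defs

/-! # P250 module O7: definitions -/

open Complex Metric Set

namespace P250

noncomputable section

/-- the potential minus `log |J|²` -/
def DD (e δ : ℝ) (N : ℕ) (K : ℤ) (J : ℂ × ℂ → ℂ) (y : ℂ × ℂ) : ℝ :=
  N * phi e K y + (3 + N * δ) * (-Real.log (rho y)) - Real.log (‖J y‖ ^ 2)

/-- dilation -/
def dil (σ : ℝ) (y : ℂ × ℂ) : ℂ × ℂ := ((σ : ℂ) * y.1, ((σ ^ 2 : ℝ) : ℂ) * y.2)

end

end P250
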