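import Mathlib.Analysis.CStarAlgebra.Classes
import Mathlib.Analysis.Complex.BranchLogRoot
import Mathlib.Analysis.Convex.Contractible
import Mathlib.Analysis.Real.Pi.Bounds
import Mathlib.LinearAlgebra.FiniteDimensional.Defs
import Mathlib.Topology.Algebra.Module.ModuleTopology

/-! # P250 module A7c: holomorphic logarithm -/

open scoped ContDiff
open Complex Metric Set

namespace P250

variable {E : Type*} [NormedAddCommGroup E] [NormedSpace ℂ E]
variable {F : Type*} [NormedAddCommGroup F] [NormedSpace ℂ F]

/-- Holomorphic logarithm of a zero-free holomorphic function on a convex open set. (Mathlib: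
`Complex.exists_continuousOn_eqOn_exp_comp`, then a continuous logarithm is holomorphic.) -/
theorem exists_holLog [FiniteDimensional ℂ E] {J : E → ℂ} {U : Set E} (hU : IsOpen U)
    (hc : Convex ℝ U) (hne : U.Nonempty) (hJ : DifferentiableOn ℂ J U) (h0 : ∀ y ∈ U, J y ≠ 0) :
    ∃ L : E → ℂ, DifferentiableOn ℂ L U ∧ ∀ y ∈ U, J y = Complex.exp (L y) := by
  have hct : ContractibleSpace U := hc.contractibleSpace hne
  have hsc : IsSimplyConnected U := SimplyConnectedSpace.ofContractible U
  have h0' : (0 : ℂ) ∉ J '' U := by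
    rintro ⟨y, hy, h⟩
    exact h0 y hy h
  obtain ⟨L, hLc, hL⟩ := Complex.exists_continuousOn_eqOn_exp_comp hsc hU hJ.continuousOn h0'
  refine ⟨L, ?_, fun y hy => (hL hy).symm⟩
  intro y0 hy0
  apply DifferentiableAt.differentiableWithinAt
  have hLy0 : ContinuousAt L y0 := hLc.continuousAt (hU.mem_nhds hy0)
  have h1 : ∀ᶠ y in nhds y0, ‖L y - L y0‖ < 1 := by
    have h2 : Filter.Tendsto (fun y => ‖L y - L y0‖) (nhds y0) (nhds ‖L y0 - L y0‖) :=
      (hLy0.sub continuousAt_const).norm
    rw [sub_self, norm_zero] at h2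
    exact h2.eventually (gt_mem_nhds one_pos)
  have h3 : ∀ᶠ y in nhds y0, y ∈ U := hU.mem_nhds hy0
  have heq : L =ᶠ[nhds y0] fun y => L y0 + Complex.log (J y / J y0) := by
    filter_upwards [h1, h3] with y hy1 hyU
    have e1 : J y / J y0 = Complex.exp (L y - L y0) := by
      rw [Complex.exp_sub]
      have a1 : Complex.exp (L y) = J y := hL hyU
      have a2 : Complex.exp (L y0) = J y0 := hL hy0
      rw [a1, a2]
    have h4 : |(L y - L y0).im| < 1 := lt_of_le_of_lt (Complex.abs_im_le_norm _) hy1
    have hpi := Real.pi_gt_three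
    rw [abs_lt] at h4
    rw [e1, Complex.log_exp (by linarith) (by linarith)]
    ring
  have hJd : DifferentiableAt ℂ J y0 := hJ.differentiableAt (hU.mem_nhds hy0)
  have hd : DifferentiableAt ℂ (fun y => L y0 + Complex.log (J y / J y0)) y0 := by
    refine DifferentiableAt.const_add _ ?_
    have hq : DifferentiableAt ℂ (fun y => J y / J y0) y0 := by
      simp only [div_eq_mul_inv]
      exact hJd.mul_const _
    refine DifferentiableAt.clog hq ?_
    rw [div_self (h0 y0 hy0)]
    exact Complex.one_mem_slitPlane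
  exact hd.congr_of_eventuallyEq heq

end P250
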