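import Vale.Agent.Lib.P250.BaseFunC
import Vale.Agent.Lib.P250.GenSum

/-! # P250 module O3a: older generations -/

open Complex Metric Set

namespace P250

private theorem oa_diff_t {e : ℝ} (he : 0 < e) (j : ℤ) (b b0 : ℤ × ℤ × ℤ) (y y' : ℂ × ℂ) :
    tc e j b y' - tc e j b y = (chZ b0 y' - chZ b0 y) / ((sg e j * e : ℝ) : ℂ) := by
  have hσ : ((sg e j : ℝ) : ℂ) ≠ 0 := by exact_mod_cast (sg_pos he j).ne'
  have he' : (e : ℂ) ≠ 0 := by exact_mod_cast he.ne'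
  simp only [tc, chZ, scl]
  push_cast
  field_simp
  ring

private theorem oa_diff_s {e : ℝ} (he : 0 < e) (j : ℤ) (b b0 : ℤ × ℤ × ℤ) (y y' : ℂ × ℂ) :
    sc e j b y' - sc e j b y = -I * ((chW b0 y' - chW b0 y) / ((sg e j * e : ℝ) : ℂ) ^ 2
      + 2 * I * ((chZ b0 y' - chZ b0 y) / ((sg e j * e : ℝ) : ℂ)) *
        starRingEnd ℂ (chZ b0 y / ((sg e j * e : ℝ) : ℂ) - tc e j b y) * (-1)) := by
  have hσ : ((sg e j : ℝ) : ℂ) ≠ 0 := by exact_mod_cast (sg_pos he j).ne'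
  have he' : (e : ℂ) ≠ 0 := by exact_mod_cast he.ne'
  simp only [sc, tc, chZ, chW, scl, map_div₀, map_sub, conj_ofReal]
  push_cast
  field_simp
  ring

private theorem oa_zpow {e : ℝ} (he : 0 < e) (j : ℤ) : e ^ (-5 * j - 1) = 1 / (sg e j * e) := by
  rw [sg, ← zpow_add_one₀ he.ne', one_div, ← zpow_neg]
  congr 1
  ring

private theorem oa_L_ge {e : ℝ} (he : 0 < e) (he1 : e ≤ 1) {j : ℤ} (hj : j < 0) :
    1 / e ≤ sg e j * e := by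
  rw [sg, ← zpow_add_one₀ he.ne', one_div, ← zpow_neg_one]
  exact zpow_le_zpow_right_of_le_one₀ he he1 (by omega)

private theorem oa_num {K L q : ℝ} (hK : 1 ≤ K) (hL : 1 ≤ L) (hq : 1 ≤ q) :
    2 * K / L + 2 * (2 * K / L) * (K + q) ≤ (10 * K ^ 2 / L) * q := by
  have hL0 : 0 < L := by linarith
  have e5 : 2 * K / L + 2 * (2 * K / L) * (K + q) = (2 * K + 4 * K * (K + q)) / L := by
    field_simp
    ring
  have e6 : 10 * K ^ 2 / L * q = (10 * K ^ 2 * q) / L := by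
    field_simp
  rw [e5, e6]
  refine div_le_div_of_nonneg_right ?_ hL0.le
  have hK0 : 0 < K := by linarith
  have e7 : K ≤ K ^ 2 := by nlinarith
  have e8 : K ^ 2 ≤ K ^ 2 * q := le_mul_of_one_le_right (by positivity) hq
  have e9 : K * q ≤ K ^ 2 * q := mul_le_mul_of_nonneg_right e7 (by linarith)
  linarith

private theorem oa_le_of_sq {K R x : ℝ} (hRK : R + 1 ≤ K) (h : x ^ 2 ≤ R) : x ≤ K := by
  nlinarith [sq_nonneg (x - 1)]

private theorem oa_core {K L : ℝ} (hK : 1 ≤ K) (hL : 20 * K ^ 2 ≤ L) {s s' t t' z z' w w' : ℂ}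
    (hts : ‖t‖ ^ 2 ≤ s.re) (hz : ‖z‖ ≤ K) (hz' : ‖z'‖ ≤ K) (hw : ‖w‖ ≤ K) (hw' : ‖w'‖ ≤ K)
    (hT : t' - t = (z' - z) / (L : ℂ))
    (hS : s' - s = -I * ((w' - w) / (L : ℂ) ^ 2 + 2 * I * ((z' - z) / (L : ℂ)) *
      starRingEnd ℂ (z / (L : ℂ) - t) * (-1))) :
    ‖s' - s‖ ≤ ‖1 + s‖ / 2 ∧ ‖s' - s‖ ≤ (10 * K ^ 2 / L) * Real.sqrt ‖1 + s‖ ∧
    ‖t' - t‖ ≤ 10 * K ^ 2 / L := by
  have hK2 : 1 ≤ K ^ 2 := by nlinarith
  have hL1 : 1 ≤ L := by linarith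
  have hL0 : 0 < L := by linarith
  have hnL : ‖(L : ℂ)‖ = L := by
    rw [Complex.norm_real, Real.norm_eq_abs, abs_of_pos hL0]
  have hdz : ‖z' - z‖ ≤ 2 * K := (norm_sub_le _ _).trans (by linarith)
  have hdw : ‖w' - w‖ ≤ 2 * K := (norm_sub_le _ _).trans (by linarith)
  have hdt : ‖t' - t‖ ≤ 2 * K / L := by
    rw [hT, norm_div, hnL]
    exact div_le_div_of_nonneg_right hdz hL0.le
  have hKL : 2 * K / L ≤ 10 * K ^ 2 / L := by
    refine div_le_div_of_nonneg_right ?_ hL0.le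
    nlinarith
  -- the size of `1 + s`
  have h1s : 1 + ‖t‖ ^ 2 ≤ ‖1 + s‖ := by
    have h5 := Complex.re_le_norm (1 + s)
    simp only [add_re, one_re] at h5
    linarith
  obtain ⟨n, hn⟩ : ∃ n, n = ‖1 + s‖ := ⟨_, rfl⟩
  rw [← hn] at h1s ⊢
  have hn1 : 1 ≤ n := by
    have := sq_nonneg ‖t‖
    linarith
  have hq1 : 1 ≤ Real.sqrt n := by
    rw [Real.one_le_sqrt]
    exact hn1
  have htq : ‖t‖ ≤ Real.sqrt n := Real.le_sqrt_of_sq_le (by linarith)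
  have hqn : Real.sqrt n ≤ n := by
    have h6 : Real.sqrt n * Real.sqrt n = n := Real.mul_self_sqrt (by linarith)
    calc Real.sqrt n = 1 * Real.sqrt n := (one_mul _).symm
      _ ≤ Real.sqrt n * Real.sqrt n := mul_le_mul_of_nonneg_right hq1 (Real.sqrt_nonneg _)
      _ = n := h6
  have e1 : ‖(w' - w) / (L : ℂ) ^ 2‖ ≤ 2 * K / L := by
    rw [norm_div, norm_pow, hnL, pow_two, ← div_div]
    refine div_le_div_of_nonneg_right ?_ hL0.le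
    exact (div_le_self (norm_nonneg _) hL1).trans hdw
  have e2 : ‖(z' - z) / (L : ℂ)‖ ≤ 2 * K / L := by
    rw [norm_div, hnL]
    exact div_le_div_of_nonneg_right hdz hL0.le
  have e3 : ‖starRingEnd ℂ (z / (L : ℂ) - t)‖ ≤ K + Real.sqrt n := by
    rw [Complex.norm_conj]
    refine (norm_sub_le _ _).trans (add_le_add ?_ htq)
    rw [norm_div, hnL]
    exact (div_le_self (norm_nonneg _) hL1).trans hz
  have e4 : ‖2 * I * ((z' - z) / (L : ℂ)) * starRingEnd ℂ (z / (L : ℂ) - t) * (-1)‖ ≤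
      2 * (2 * K / L) * (K + Real.sqrt n) := by
    rw [norm_mul, norm_mul, norm_mul, norm_mul, norm_neg, norm_one, mul_one, Complex.norm_I,
      mul_one, Complex.norm_ofNat]
    refine mul_le_mul ?_ e3 (norm_nonneg _) (by positivity)
    exact mul_le_mul_of_nonneg_left e2 (by norm_num)
  have hds : ‖s' - s‖ ≤ (10 * K ^ 2 / L) * Real.sqrt n := by
    rw [hS, norm_mul, norm_neg, Complex.norm_I, one_mul]
    exact (norm_add_le _ _).trans ((add_le_add e1 e4).trans (oa_num hK hL1 hq1))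
  refine ⟨?_, hds, hdt.trans hKL⟩
  refine hds.trans ?_
  have h7 : 10 * K ^ 2 / L ≤ 1 / 2 := by
    rw [div_le_iff₀ hL0]
    linarith
  calc (10 * K ^ 2 / L) * Real.sqrt n ≤ 1 / 2 * n :=
        mul_le_mul h7 hqn (Real.sqrt_nonneg _) (by norm_num)
    _ = n / 2 := by ring

private theorem oa_term {R K : ℝ} (hK : 1 ≤ K) (hRK : R + 1 ≤ K) {e : ℝ} (he : 0 < e)
    (he1 : e ≤ 1 / (20 * K ^ 2)) {j : ℤ} (hj : j < 0) (b b0 : ℤ × ℤ × ℤ) {y y' : ℂ × ℂ}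
    (hy : y ∈ U2) (h1 : ‖chZ b0 y‖ ^ 2 ≤ R) (h2 : ‖chZ b0 y'‖ ^ 2 ≤ R) (h3 : ‖chW b0 y‖ ≤ R)
    (h4 : ‖chW b0 y'‖ ≤ R) :
    ‖sc e j b y' - sc e j b y‖ ≤ ‖1 + sc e j b y‖ / 2 ∧
    ‖sc e j b y' - sc e j b y‖ ≤ (10 * K ^ 2 / (sg e j * e)) * Real.sqrt ‖1 + sc e j b y‖ ∧
    ‖tc e j b y' - tc e j b y‖ ≤ 10 * K ^ 2 / (sg e j * e) := by
  have hK2 : 1 ≤ K ^ 2 := by nlinarith
  have he1' : e ≤ 1 := by
    refine he1.trans ?_
    rw [div_le_one (by positivity)]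
    linarith
  have hLe := oa_L_ge he he1' hj
  have hL20 : 20 * K ^ 2 ≤ sg e j * e := by
    refine le_trans ?_ hLe
    rw [le_div_iff₀ he]
    rw [le_div_iff₀ (by positivity)] at he1
    linarith
  exact oa_core hK hL20 (vv_sc_bounds he j b hy).2.2.1 (oa_le_of_sq hRK h1) (oa_le_of_sq hRK h2)
    (by linarith) (by linarith) (oa_diff_t he j b b0 y y') (oa_diff_s he j b b0 y y')

private theorem oa_gen_le {e : ℝ} (he : 0 < e) (he1 : e ≤ 1) (j : ℤ) {y : ℂ × ℂ} (hy : y ∈ U2) :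
    (e ^ 2 / (e ^ 2 + rho y / sg e j ^ 2)) ^ 4
        + e ^ 8 / Real.sqrt (1 + rho y / sg e j ^ 2) ≤ 2 := by
  have hρ : 0 < rho y := hy
  have hσ := sg_pos he j
  have h0 : 0 < rho y / sg e j ^ 2 := by positivity
  have h1 : e ^ 2 / (e ^ 2 + rho y / sg e j ^ 2) ≤ 1 := by
    rw [div_le_one (by positivity)]
    linarith
  have h2 : (e ^ 2 / (e ^ 2 + rho y / sg e j ^ 2)) ^ 4 ≤ 1 := pow_le_one₀ (by positivity) h1
  have h3 : 1 ≤ Real.sqrt (1 + rho y / sg e j ^ 2) := by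
    rw [Real.one_le_sqrt]
    linarith
  have h4 : e ^ 8 ≤ 1 := pow_le_one₀ he.le he1
  have h5 : e ^ 8 / Real.sqrt (1 + rho y / sg e j ^ 2) ≤ 1 := by
    rw [div_le_one (by linarith)]
    linarith
  linarith

/-- older generations: with `l = sg(j)² e² ≥ 1` (`j < 0`), for two points `y = unch b0 (z, w)`,
`y' = unch b0 (z', w')` with `|z|², |w| ≤ R`: `|Δs| ≤ C |1+s|^{1/2} / √l`, `|Δt| ≤ C / √l`, so by
`psi0_lip` each term changes by `C |v|⁴ / √l`; `gen_sum`; `1/√l = e^{-5j-1}`, geometric sum over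
`j ≤ -1` is `≤ 2 e⁴`. -/
theorem older_bound (R : ℝ) : ∃ C e1 : ℝ, 0 < C ∧ 0 < e1 ∧ e1 < 1 ∧ ∀ e : ℝ, 0 < e → e ≤ e1 →
    ∀ j : ℤ, j < 0 → ∀ b0 : ℤ × ℤ × ℤ, ∀ y ∈ U2, ∀ y' ∈ U2,
    ‖chZ b0 y‖ ^ 2 ≤ R → ‖chZ b0 y'‖ ^ 2 ≤ R → ‖chW b0 y‖ ≤ R → ‖chW b0 y'‖ ≤ R →
    |∑' b : ℤ × ℤ × ℤ, psi e j b y - ∑' b : ℤ × ℤ × ℤ, psi e j b y'| ≤ C * e ^ (-5 * j - 1) := by
  obtain ⟨C1, hC1, hlip⟩ := psi0_lip
  obtain ⟨C2, hC2, hbd⟩ := psi0_bound
  obtain ⟨C3, hC3, hgen⟩ := gen_sum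
  set K : ℝ := |R| + 1 with hKdef
  have hK : 1 ≤ K := by
    have := abs_nonneg R
    linarith
  have hRK : R + 1 ≤ K := by
    have := le_abs_self R
    linarith
  have hK2 : 1 ≤ K ^ 2 := by nlinarith
  refine ⟨C1 * (10 * K ^ 2) * (C3 * 2), 1 / (20 * K ^ 2), by positivity, by positivity, ?_, ?_⟩
  · rw [div_lt_one (by positivity)]
    linarith
  intro e he he1 j hj b0 y hy y' hy' h1 h2 h3 h4
  have he1' : e ≤ 1 := by
    refine he1.trans ?_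
    rw [div_le_one (by positivity)]
    linarith
  have hL0 : 0 < sg e j * e := mul_pos (sg_pos he j) he
  obtain ⟨hsum, hle⟩ := hgen e he he1' j y hy
  obtain ⟨hsum', -⟩ := hgen e he he1' j y' hy'
  have hS : Summable (fun b : ℤ × ℤ × ℤ => psi e j b y) :=
    Summable.of_norm_bounded (hsum.mul_left C2) fun b =>
      hbd _ _ (vv_sc_bounds he j b hy).2.2.1
  have hS' : Summable (fun b : ℤ × ℤ × ℤ => psi e j b y') :=
    Summable.of_norm_bounded (hsum'.mul_left C2) fun b =>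
      hbd _ _ (vv_sc_bounds he j b hy').2.2.1
  rw [← hS.tsum_sub hS', ← Real.norm_eq_abs]
  have hterm : ∀ b : ℤ × ℤ × ℤ, ‖psi e j b y - psi e j b y'‖ ≤
      C1 * (10 * K ^ 2 / (sg e j * e)) * ‖vv (sc e j b y)‖ ^ 4 := by
    intro b
    obtain ⟨g1, g2, g3⟩ := oa_term hK hRK he he1 hj b b0 hy h1 h2 h3 h4
    rw [Real.norm_eq_abs, abs_sub_comm]
    exact hlip _ _ _ _ _ (vv_sc_bounds he j b hy).2.2.1 (vv_sc_bounds he j b hy').2.2.1 g1 g2 g3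
  have hmaj := hsum.mul_left (C1 * (10 * K ^ 2 / (sg e j * e)))
  refine (tsum_of_norm_bounded hmaj.hasSum hterm).trans ?_
  rw [tsum_mul_left, oa_zpow he j]
  have h5 : ∑' b : ℤ × ℤ × ℤ, ‖vv (sc e j b y)‖ ^ 4 ≤ C3 * 2 :=
    hle.trans (mul_le_mul_of_nonneg_left (oa_gen_le he he1' j hy) hC3.le)
  calc C1 * (10 * K ^ 2 / (sg e j * e)) * ∑' b : ℤ × ℤ × ℤ, ‖vv (sc e j b y)‖ ^ 4
      ≤ C1 * (10 * K ^ 2 / (sg e j * e)) * (C3 * 2) := by gcongr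
    _ = C1 * (10 * K ^ 2) * (C3 * 2) * (1 / (sg e j * e)) := by ring

end P250
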