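import Vale.Agent.Lib.P250.BaseFunB
import Vale.Agent.Lib.P250.GenSum

/-! # P250 module O3b: same and finer generations -/

open Complex Metric Set

namespace P250

/-- generation `0`, other lattice points (`gen0_sum_avoid`, `psi0_bound`) -/
theorem same_bound : ∃ C : ℝ, 0 < C ∧ ∀ e : ℝ, 0 < e → e ≤ 1 → ∀ y ∈ U2, ∀ b0 : ℤ × ℤ × ℤ,
    (∀ b, b ≠ b0 → e ≤ ‖chW b y‖) →
    |∑' b : ℤ × ℤ × ℤ, psi e 0 b y - psi e 0 b0 y| ≤ C * e ^ 4 := by
  obtain ⟨C1, hC1, h1⟩ := gen0_sum_avoid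
  obtain ⟨C2, hC2, h2⟩ := psi0_bound
  refine ⟨C2 * C1, by positivity, fun e he he1 y hy b0 hb => ?_⟩
  obtain ⟨hs, hle⟩ := h1 e he he1 y hy b0 hb
  have hpsi : ∀ b, |psi e 0 b y| ≤ C2 * ‖vv (sc e 0 b y)‖ ^ 4 := fun b =>
    h2 _ _ (vv_sc_bounds he 0 b hy).2.2.1
  have hbd : ∀ b, ‖(if b = b0 then 0 else psi e 0 b y : ℝ)‖ ≤
      C2 * (if b = b0 then 0 else ‖vv (sc e 0 b y)‖ ^ 4) := by
    intro b
    by_cases hbb : b = b0
    · simp [hbb]
    · rw [if_neg hbb, if_neg hbb, Real.norm_eq_abs]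
      exact hpsi b
  have hs' := hs.mul_left C2
  have hsum : Summable (fun b => (if b = b0 then 0 else psi e 0 b y : ℝ)) :=
    Summable.of_norm_bounded hs' hbd
  have hsumf : Summable (fun b => psi e 0 b y) := by
    have h3 : Summable (fun b => if b = b0 then psi e 0 b0 y else 0) :=
      summable_of_ne_finset_zero (s := {b0}) (by
        intro b hb
        rw [Finset.mem_singleton] at hb
        exact if_neg hb)
    refine (hsum.add h3).congr fun b => ?_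
    by_cases hbb : b = b0
    · simp [hbb]
    · simp [hbb]
  have heq : ∑' b : ℤ × ℤ × ℤ, psi e 0 b y - psi e 0 b0 y =
      ∑' b : ℤ × ℤ × ℤ, (if b = b0 then 0 else psi e 0 b y) := by
    rw [hsumf.tsum_eq_add_tsum_ite b0]
    ring
  rw [heq]
  have h4 := tsum_of_norm_bounded hs'.hasSum hbd
  rw [Real.norm_eq_abs] at h4
  refine h4.trans ?_
  rw [tsum_mul_left, mul_assoc]
  exact mul_le_mul_of_nonneg_left hle hC2.le

/-- finer generations at depth `≥ e^10`: `ρ/sg(j)² ≥ e^{-10(j-1)}` -/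
theorem finer_bound : ∃ C : ℝ, 0 < C ∧ ∀ e : ℝ, 0 < e → e ≤ 1 → ∀ j : ℤ, 1 ≤ j → ∀ y ∈ U2,
    e ^ 10 ≤ rho y → |∑' b : ℤ × ℤ × ℤ, psi e j b y| ≤ C * e ^ 8 * e ^ (5 * (j - 1)) := by
  obtain ⟨C1, hC1, h1⟩ := gen_sum
  obtain ⟨C2, hC2, h2⟩ := psi0_bound
  refine ⟨C2 * (C1 * 2), by positivity, fun e he he1 j hj y hy hρ => ?_⟩
  obtain ⟨hs, hle⟩ := h1 e he he1 j y hy
  have hpsi : ∀ b, ‖psi e j b y‖ ≤ C2 * ‖vv (sc e j b y)‖ ^ 4 := fun b => by
    rw [Real.norm_eq_abs]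
    exact h2 _ _ (vv_sc_bounds he j b hy).2.2.1
  have hs' := hs.mul_left C2
  have h4 := tsum_of_norm_bounded hs'.hasSum hpsi
  rw [Real.norm_eq_abs] at h4
  refine h4.trans ?_
  rw [tsum_mul_left]
  have hx0 : 0 < e ^ (5 * (j - 1)) := zpow_pos he _
  have hx1 : e ^ (5 * (j - 1)) ≤ 1 := by
    apply zpow_le_one₀ he he1
    omega
  have hsg : sg e j ^ 2 = e ^ 10 * (e ^ (5 * (j - 1))) ^ 2 := by
    unfold sg
    have h5 : e ^ (5 * j) = e ^ 5 * e ^ (5 * (j - 1)) := by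
      rw [← zpow_natCast e 5, ← zpow_add₀ he.ne']
      congr 1
      push_cast
      ring
    rw [h5]
    ring
  generalize e ^ (5 * (j - 1)) = x at hx0 hx1 hsg ⊢
  have hρ' : 1 / x ^ 2 ≤ rho y / sg e j ^ 2 := by
    rw [hsg, div_le_div_iff₀ (by positivity) (by positivity)]
    nlinarith [sq_nonneg x, pow_pos hx0 2]
  generalize rho y / sg e j ^ 2 = r at hρ' hle ⊢
  have hr0 : 0 < r := lt_of_lt_of_le (by positivity) hρ'
  have hx2 : 1 ≤ r * x ^ 2 := by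
    rw [div_le_iff₀ (by positivity)] at hρ'
    linarith
  have hb1 : (e ^ 2 / (e ^ 2 + r)) ^ 4 ≤ e ^ 8 * x := by
    have h6 : e ^ 2 / (e ^ 2 + r) ≤ e ^ 2 * x ^ 2 := by
      rw [div_le_iff₀ (by positivity)]
      have h7 : 0 ≤ e ^ 2 * x ^ 2 * e ^ 2 := by positivity
      have h8 : e ^ 2 * 1 ≤ e ^ 2 * (r * x ^ 2) := mul_le_mul_of_nonneg_left hx2 (by positivity)
      linarith
    have h9 : (e ^ 2 / (e ^ 2 + r)) ^ 4 ≤ (e ^ 2 * x ^ 2) ^ 4 :=
      pow_le_pow_left₀ (by positivity) h6 4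
    refine h9.trans ?_
    have h10 : (e ^ 2 * x ^ 2) ^ 4 = e ^ 8 * x ^ 8 := by ring
    rw [h10]
    apply mul_le_mul_of_nonneg_left _ (by positivity)
    have := pow_le_pow_of_le_one hx0.le hx1 (show 1 ≤ 8 by norm_num)
    rwa [pow_one] at this
  have hb2 : e ^ 8 / Real.sqrt (1 + r) ≤ e ^ 8 * x := by
    have h6 : 1 / x ≤ Real.sqrt (1 + r) := by
      apply Real.le_sqrt_of_sq_le
      rw [div_pow, one_pow]
      linarith
    rw [div_le_iff₀ (lt_of_lt_of_le (by positivity) h6)]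
    have h7 : 1 ≤ x * Real.sqrt (1 + r) := by
      rw [div_le_iff₀ hx0] at h6
      linarith
    have h8 : e ^ 8 * 1 ≤ e ^ 8 * (x * Real.sqrt (1 + r)) :=
      mul_le_mul_of_nonneg_left h7 (by positivity)
    linarith
  have h11 : C1 * ((e ^ 2 / (e ^ 2 + r)) ^ 4 + e ^ 8 / Real.sqrt (1 + r)) ≤
      C1 * (e ^ 8 * x + e ^ 8 * x) :=
    mul_le_mul_of_nonneg_left (add_le_add hb1 hb2) hC1.le
  have h12 := mul_le_mul_of_nonneg_left (hle.trans h11) hC2.le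
  refine h12.trans (le_of_eq ?_)
  ring

end P250
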