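import Vale.Agent.Lib.P250.MasterSum
import Vale.Agent.Lib.P250.OthA
import Vale.Agent.Lib.P250.OthB

/-! # P250 module O3c: all other terms -/

open Complex Metric Set

namespace P250

/-- the sum of one generation -/
private noncomputable def othG (e : ℝ) (k n : ℕ) (y : ℂ × ℂ) : ℝ :=
  ∑' b : ℤ × ℤ × ℤ, psi e (-(k : ℤ) + (n : ℤ)) b y

private theorem oth_summable {e : ℝ} (he : 0 < e) (he1 : e < 1) (k : ℕ) {y : ℂ × ℂ} (hy : y ∈ U2) :
    Summable (fun n : ℕ => othG e k n y) :=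
  (psi_summable he he1 (-(k : ℤ)) hy).prod

private theorem oth_phi {e : ℝ} (he : 0 < e) (he1 : e < 1) (k : ℕ) {y : ℂ × ℂ} (hy : y ∈ U2) :
    phi e (-(k : ℤ)) y = ∑' n : ℕ, othG e k n y := by
  unfold phi othG
  exact (psi_summable he he1 (-(k : ℤ)) hy).tsum_prod

private theorem oth_split {e : ℝ} (he : 0 < e) (he1 : e < 1) (k : ℕ) {y : ℂ × ℂ} (hy : y ∈ U2) :
    phi e (-(k : ℤ)) y = (∑ n ∈ Finset.range k, othG e k n y + othG e k k y) +
      ∑' n : ℕ, othG e k (n + (k + 1)) y := by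
  rw [oth_phi he he1 k hy, ← Finset.sum_range_succ]
  exact ((oth_summable he he1 k hy).sum_add_tsum_nat_add (k + 1)).symm

private theorem oth_geom {e : ℝ} (he : 0 < e) (he2 : e ≤ 1 / 2) :
    Summable (fun n : ℕ => (e ^ 5) ^ n) ∧ ∑' n : ℕ, (e ^ 5) ^ n ≤ 2 := by
  have h5 : e ^ 5 ≤ 1 / 2 := by
    calc e ^ 5 = e * e ^ 4 := by ring
      _ ≤ 1 / 2 * 1 := mul_le_mul he2 (pow_le_one₀ he.le (by linarith)) (by positivity) (by norm_num)
      _ = 1 / 2 := by ring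
  have h0 : 0 ≤ e ^ 5 := by positivity
  refine ⟨summable_geometric_of_lt_one h0 (by linarith), ?_⟩
  rw [tsum_geometric_of_lt_one h0 (by linarith)]
  rw [inv_le_comm₀ (by linarith) (by norm_num)]
  linarith

/-- All other terms along the curve (generations `≥ -k`). -/
theorem others_bound (R : ℝ) : ∃ C e1 : ℝ, 0 < C ∧ 0 < e1 ∧ e1 < 1 ∧ ∀ e : ℝ, 0 < e → e ≤ e1 →
    ∀ (k : ℕ) (b0 : ℤ × ℤ × ℤ), ∀ y ∈ U2, ∀ y' ∈ U2,
    ‖chZ b0 y‖ ^ 2 ≤ R → ‖chZ b0 y'‖ ^ 2 ≤ R → ‖chW b0 y‖ ≤ R → ‖chW b0 y'‖ ≤ R →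
    e ^ 10 ≤ rho y → e ^ 10 ≤ rho y' →
    (∀ b, b ≠ b0 → e ≤ ‖chW b y‖) → (∀ b, b ≠ b0 → e ≤ ‖chW b y'‖) →
    |(phi e (-(k : ℤ)) y - psi e 0 b0 y) - (phi e (-(k : ℤ)) y' - psi e 0 b0 y')| ≤ C * e ^ 4 := by
  obtain ⟨C1, e1, hC1, he1, he11, hold⟩ := older_bound R
  obtain ⟨C2, hC2, hsame⟩ := same_bound
  obtain ⟨C3, hC3, hfin⟩ := finer_bound
  refine ⟨2 * C1 + 2 * C2 + 4 * C3, min e1 (1 / 2), by positivity, lt_min he1 (by norm_num),
    lt_of_le_of_lt (min_le_left _ _) he11, ?_⟩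
  intro e he hee k b0 y hy y' hy' hz hz' hw hw' hr hr' ha ha'
  have hee1 : e ≤ e1 := hee.trans (min_le_left _ _)
  have hee2 : e ≤ 1 / 2 := hee.trans (min_le_right _ _)
  have heone : e < 1 := by linarith
  obtain ⟨hgs, hg2⟩ := oth_geom he hee2
  have he4 : 0 < e ^ 4 := by positivity
  have he5 : 0 < e ^ 5 := by positivity
  -- older generations
  have h1 : |∑ n ∈ Finset.range k, othG e k n y - ∑ n ∈ Finset.range k, othG e k n y'| ≤
      2 * C1 * e ^ 4 := by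
    rw [← Finset.sum_sub_distrib]
    refine (Finset.abs_sum_le_sum_abs _ _).trans ?_
    have hterm : ∀ n ∈ Finset.range k, |othG e k n y - othG e k n y'| ≤
        C1 * e ^ 4 * (e ^ 5) ^ (k - 1 - n) := by
      intro n hn
      rw [Finset.mem_range] at hn
      have h := hold e he hee1 (-(k : ℤ) + (n : ℤ)) (by omega) b0 y hy y' hy' hz hz' hw hw'
      have hexp : (-5 * (-(k : ℤ) + (n : ℤ)) - 1) = ((4 + 5 * (k - 1 - n) : ℕ) : ℤ) := by
        push_cast [Nat.sub_sub, Nat.cast_sub (show 1 + n ≤ k by omega)]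
        ring
      rw [hexp, zpow_natCast, pow_add, pow_mul, ← mul_assoc] at h
      exact h
    refine (Finset.sum_le_sum hterm).trans ?_
    rw [← Finset.mul_sum, Finset.sum_range_reflect (fun n => (e ^ 5) ^ n) k]
    have hle : ∑ n ∈ Finset.range k, (e ^ 5) ^ n ≤ 2 :=
      (hgs.sum_le_tsum _ fun n _ => by positivity).trans hg2
    calc C1 * e ^ 4 * ∑ n ∈ Finset.range k, (e ^ 5) ^ n ≤ C1 * e ^ 4 * 2 :=
          mul_le_mul_of_nonneg_left hle (by positivity)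
      _ = 2 * C1 * e ^ 4 := by ring
  -- the same generation
  have hG0 : ∀ z, othG e k k z = ∑' b : ℤ × ℤ × ℤ, psi e 0 b z := by
    intro z
    unfold othG
    simp
  have h2 : |othG e k k y - psi e 0 b0 y| ≤ C2 * e ^ 4 := by
    rw [hG0]
    exact hsame e he heone.le y hy b0 ha
  have h2' : |othG e k k y' - psi e 0 b0 y'| ≤ C2 * e ^ 4 := by
    rw [hG0]
    exact hsame e he heone.le y' hy' b0 ha'
  -- finer generations
  have h3 : ∀ z ∈ U2, e ^ 10 ≤ rho z → |∑' n : ℕ, othG e k (n + (k + 1)) z| ≤ 2 * C3 * e ^ 4 := by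
    intro z hz hrz
    have hterm : ∀ n : ℕ, |othG e k (n + (k + 1)) z| ≤ C3 * e ^ 8 * (e ^ 5) ^ n := by
      intro n
      have h := hfin e he heone.le ((n : ℤ) + 1) (by omega) z hz hrz
      have hexp : (5 * ((n : ℤ) + 1 - 1)) = ((5 * n : ℕ) : ℤ) := by
        push_cast
        ring
      rw [hexp, zpow_natCast, pow_mul] at h
      have hidx : (-(k : ℤ) + ((n + (k + 1) : ℕ) : ℤ)) = (n : ℤ) + 1 := by
        push_cast
        ring
      unfold othG
      rw [hidx]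
      exact h
    have hs : Summable (fun n : ℕ => C3 * e ^ 8 * (e ^ 5) ^ n) := hgs.mul_left _
    have hle := tsum_of_norm_bounded hs.hasSum (f := fun n : ℕ => othG e k (n + (k + 1)) z) hterm
    rw [Real.norm_eq_abs] at hle
    refine hle.trans ?_
    rw [tsum_mul_left]
    have h8 : e ^ 8 ≤ e ^ 4 := pow_le_pow_of_le_one he.le heone.le (by norm_num)
    calc C3 * e ^ 8 * ∑' n : ℕ, (e ^ 5) ^ n ≤ C3 * e ^ 8 * 2 :=
          mul_le_mul_of_nonneg_left hg2 (by positivity)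
      _ ≤ C3 * e ^ 4 * 2 := by
          apply mul_le_mul_of_nonneg_right _ (by norm_num)
          exact mul_le_mul_of_nonneg_left h8 hC3.le
      _ = 2 * C3 * e ^ 4 := by ring
  rw [oth_split he heone k hy, oth_split he heone k hy']
  have h4 := h3 y hy hr
  have h4' := h3 y' hy' hr'
  rw [abs_le] at h1 h2 h2' h4 h4' ⊢
  constructor
  · nlinarith [h1.1, h2.1, h2'.2, h4.1, h4'.2]
  · nlinarith [h1.2, h2.2, h2'.1, h4.2, h4'.1]

end P250
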