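import Vale.Agent.Lib.P250.BaseFunA
import Vale.Agent.Lib.P250.ChartsA
import Vale.Agent.Lib.P250.CurveB

/-! # P250 module O3d: the location term on the curve -/

open Complex Metric Set

namespace P250

private theorem othD_vv {e : ℝ} (he : 0 < e) {w : ℂ} (hw : 0 < w.im) :
    ‖vv (sF e w)‖ * ‖w‖ ≤ 2 * e ^ 2 ∧ ‖vv (sF e w)‖ ≤ 2 := by
  have he2 : (0 : ℝ) < e ^ 2 := by positivity
  have hre : (sF e w).re = w.im / e ^ 2 := by
    unfold sF
    rw [Complex.div_ofReal_re]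
    simp
  have hre0 : 0 ≤ (sF e w).re := by
    rw [hre]
    positivity
  have hns : ‖sF e w‖ = ‖w‖ / e ^ 2 := by
    unfold sF
    rw [norm_div, norm_mul, norm_neg, Complex.norm_I, one_mul, Complex.norm_real,
      Real.norm_of_nonneg he2.le]
  have hge : ‖sF e w‖ ≤ ‖1 + sF e w‖ := by
    rw [← sq_le_sq₀ (norm_nonneg _) (norm_nonneg _), ← Complex.normSq_eq_norm_sq,
      ← Complex.normSq_eq_norm_sq, Complex.normSq_apply, Complex.normSq_apply]
    simp only [add_re, add_im, one_re, one_im, zero_add]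
    linarith
  have hge1 : 1 ≤ ‖1 + sF e w‖ := by
    have h1 : (1 + sF e w).re ≤ ‖1 + sF e w‖ := Complex.re_le_norm _
    simp only [add_re, one_re] at h1
    linarith
  have hpos : 0 < ‖1 + sF e w‖ := by linarith
  have hv : ‖vv (sF e w)‖ = 2 / ‖1 + sF e w‖ := by
    unfold vv
    rw [norm_div]
    norm_num
  refine ⟨?_, vv_norm_le_two hre0⟩
  rw [hv, div_mul_eq_mul_div, div_le_iff₀ hpos]
  rw [hns, div_le_iff₀ he2] at hge
  linarith

private theorem othD_q {e B : ℝ} {x : ℂ × ℂ} (h : Adm e B x) {w : ℂ} (hw : w ∈ OmC e B x) :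
    ‖qF (A1 e x) B x.2 w‖ ≤ 5 * ‖w‖ ^ 2 := by
  obtain ⟨-, -, -, hwx, hA, -⟩ := adm_basic h
  have hw1 := OmC_bounded h hw
  have h1 : ‖A1 e x + B * (w - x.2)‖ ≤ 5 := by
    have h2 : ‖A1 e x + B * (w - x.2)‖ ≤ ‖A1 e x‖ + ‖(B : ℂ) * (w - x.2)‖ := norm_add_le _ _
    have h3 : ‖(B : ℂ) * (w - x.2)‖ ≤ 1 / 1000 * (4000 + 8 / 5) := by
      rw [norm_mul, Complex.norm_real, Real.norm_of_nonneg (by linarith [h.hB])]
      refine mul_le_mul h.hB1 ?_ (norm_nonneg _) (by norm_num)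
      exact (norm_sub_le _ _).trans (add_le_add hw1 hwx)
    have h4 : (3 : ℝ) / 4 + 1 / 1000 * (4000 + 8 / 5) ≤ 5 := by norm_num
    linarith
  unfold qF
  rw [norm_mul, norm_pow]
  have h5 : 0 ≤ ‖w‖ ^ 2 := by positivity
  have h6 := mul_le_mul_of_nonneg_left h1 h5
  linarith

private theorem othD_coord {e : ℝ} (b0 : ℤ × ℤ × ℤ) (y : ℂ × ℂ) :
    tc e 0 b0 (unch b0 y) = y.1 / (e : ℂ) ∧ sc e 0 b0 (unch b0 y) = sF e y.2 := by
  have hsg : sg e 0 = 1 := by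
    unfold sg
    simp
  have hscl : ∀ y : ℂ × ℂ, scl (sg e 0) y = y := by
    intro y
    rw [hsg]
    unfold scl
    simp
  constructor
  · unfold tc
    rw [hscl, chZ_unch]
  · unfold sc sF
    rw [hscl, chW_unch]

/-- The location term along the curve is `log |a|²` up to `C e⁶`:
`|Q/P|² = |v|⁸ · 10⁶ · |q|² / e²` and `|w|² ≤ 4 e⁴ / |v|²`. -/
theorem psi_on_curve : ∃ C : ℝ, 0 < C ∧ ∀ (e B : ℝ) (x : ℂ × ℂ), Adm e B x → ∀ w ∈ OmC e B x,
    ∀ b0 : ℤ × ℤ × ℤ,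
    |psi e 0 b0 (unch b0 (zF e B x w, w)) - 2 * Real.log ‖aF e w‖| ≤ C * e ^ 6 := by
  refine ⟨6400000000, by norm_num, ?_⟩
  intro e B x h w hw b0
  have he : 0 < e := h.he
  have heC : (e : ℂ) ≠ 0 := by exact_mod_cast he.ne'
  obtain ⟨ha, -, -⟩ := mem_OmC h hw
  have hq := othD_q h hw
  obtain ⟨hv1, hv2⟩ := othD_vv he hw.1
  obtain ⟨ht, hs⟩ := othD_coord (e := e) b0 (zF e B x w, w)
  have hpsi : psi e 0 b0 (unch b0 (zF e B x w, w)) =
      Real.log (‖aF e w‖ ^ 2 + ‖QQ (zF e B x w / (e : ℂ)) (sF e w)‖ ^ 2) := by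
    unfold psi psi0 aF
    rw [ht, hs]
  have hQ : QQ (zF e B x w / (e : ℂ)) (sF e w) =
      aF e w * (vv (sF e w) ^ 4 * (1000 * qF (A1 e x) B x.2 w / (e : ℂ))) := by
    have h1 : 1000 * PP (sF e w) * (zF e B x w / (e : ℂ)) - 1 =
        aF e w * (1000 * qF (A1 e x) B x.2 w / (e : ℂ)) := by
      show 1000 * aF e w * (zF e B x w / (e : ℂ)) - 1 = _
      unfold zF
      push_cast
      field_simp
      ring
    unfold QQ
    rw [h1]
    ring
  set a : ℝ := ‖aF e w‖ with hadef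
  have ha0 : 0 < a := norm_pos_iff.2 ha
  set m : ℝ := ‖vv (sF e w) ^ 4 * (1000 * qF (A1 e x) B x.2 w / (e : ℂ))‖ with hm
  have hm0 : 0 ≤ m := norm_nonneg _
  have hQn : ‖QQ (zF e B x w / (e : ℂ)) (sF e w)‖ = a * m := by
    rw [hQ, norm_mul]
  have hlog : psi e 0 b0 (unch b0 (zF e B x w, w)) - 2 * Real.log a = Real.log (1 + m ^ 2) := by
    rw [hpsi, hQn]
    have h1 : a ^ 2 + (a * m) ^ 2 = a ^ 2 * (1 + m ^ 2) := by ring
    rw [h1, Real.log_mul (by positivity) (by positivity), Real.log_pow]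
    push_cast
    ring
  rw [hlog]
  have h1 : 0 ≤ Real.log (1 + m ^ 2) := Real.log_nonneg (by nlinarith)
  have h2 : Real.log (1 + m ^ 2) ≤ m ^ 2 := by
    have h3 := Real.log_le_sub_one_of_pos (show (0 : ℝ) < 1 + m ^ 2 by positivity)
    linarith
  rw [abs_of_nonneg h1]
  refine h2.trans ?_
  -- the bound for `m`
  set v : ℝ := ‖vv (sF e w)‖ with hvdef
  have hv0 : 0 ≤ v := norm_nonneg _
  set q : ℝ := ‖qF (A1 e x) B x.2 w‖ with hqdef
  have hq0 : 0 ≤ q := norm_nonneg _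
  have hme : m = v ^ 4 * (1000 * q / e) := by
    have h10 : ‖(1000 : ℂ)‖ = 1000 := by norm_num
    rw [hm, norm_mul, norm_pow, norm_div, norm_mul, Complex.norm_real,
      Real.norm_of_nonneg he.le, h10]
  have h3 : v ^ 2 * q ≤ 20 * e ^ 4 := by
    have h4 : (v * ‖w‖) ^ 2 ≤ (2 * e ^ 2) ^ 2 := pow_le_pow_left₀ (by positivity) hv1 2
    have h5 : v ^ 2 * q ≤ v ^ 2 * (5 * ‖w‖ ^ 2) := mul_le_mul_of_nonneg_left hq (by positivity)
    linarith
  have h4 : v ^ 2 ≤ 4 := by nlinarith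
  have h5 : v ^ 4 * q ≤ 80 * e ^ 4 := by
    have h6 : v ^ 2 * (v ^ 2 * q) ≤ 4 * (20 * e ^ 4) :=
      mul_le_mul h4 h3 (by positivity) (by norm_num)
    linarith
  have h6 : m ≤ 80000 * e ^ 3 := by
    rw [hme]
    have h7 : v ^ 4 * (1000 * q / e) = 1000 * (v ^ 4 * q) / e := by ring
    rw [h7, div_le_iff₀ he]
    linarith
  calc m ^ 2 ≤ (80000 * e ^ 3) ^ 2 := pow_le_pow_left₀ hm0 h6 2
    _ = 6400000000 * e ^ 6 := by ring

end P250
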