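import Mathlib.Analysis.Real.Pi.Bounds
import Vale.Agent.Lib.P250.Harnack

/-! # P250 module O5b: Harnack around the circle -/

open Complex Metric Set

namespace P250

/-- Harnack around the circle of radius `0.48 e²` inside the annulus `(0.11 e², 0.91 e²)`. -/
theorem harnack_circle : ∃ c5 : ℝ, 0 < c5 ∧ ∀ (e M : ℝ) (Ψ : ℂ → ℂ) (c : ℂ), 0 < e →
    DifferentiableOn ℂ Ψ {w | 11 / 100 * e ^ 2 < ‖w - c‖ ∧ ‖w - c‖ < 91 / 100 * e ^ 2} →
    (∀ w, 11 / 100 * e ^ 2 < ‖w - c‖ → ‖w - c‖ < 91 / 100 * e ^ 2 → Ψ w ≠ 0) →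
    (∀ w, 11 / 100 * e ^ 2 < ‖w - c‖ → ‖w - c‖ < 91 / 100 * e ^ 2 → ‖Ψ w‖ ≤ M) →
    ∀ w w' : ℂ, ‖w - c‖ = 48 / 100 * e ^ 2 → ‖w' - c‖ = 48 / 100 * e ^ 2 →
    c5 * (Real.log M - Real.log ‖Ψ w‖) ≤ Real.log M - Real.log ‖Ψ w'‖ := by
  refine ⟨(1 / 3 : ℝ) ^ 9, by positivity, ?_⟩
  intro e M Ψ c he hΨ h0 hM w w' hw hw'
  have he2 : 0 < e ^ 2 := by positivity
  set φ : ℝ := arg ((w' - c) / (w - c)) with hφ
  set Ω : Set ℂ := {w | 11 / 100 * e ^ 2 < ‖w - c‖ ∧ ‖w - c‖ < 91 / 100 * e ^ 2} with hΩ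
  let p : ℕ → ℂ := fun i => c + (w - c) * exp (I * ((i / 9 * φ : ℝ) : ℂ))
  have hnorm : ∀ i, ‖p i - c‖ = 48 / 100 * e ^ 2 := by
    intro i
    have h1 : p i - c = (w - c) * exp (I * ((i / 9 * φ : ℝ) : ℂ)) := by
      simp only [p]
      ring
    rw [h1, norm_mul, mul_comm I, norm_exp_ofReal_mul_I, mul_one, hw]
  have hwc : w - c ≠ 0 := by
    intro h
    rw [h, norm_zero] at hw
    have : 0 < 48 / 100 * e ^ 2 := by positivity
    linarith
  have hp0 : p 0 = w := by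
    simp [p]
  have hp9 : p 9 = w' := by
    have h1 : ‖(w' - c) / (w - c)‖ = 1 := by
      rw [norm_div, hw, hw']
      exact div_self (by positivity)
    have h2 := norm_mul_exp_arg_mul_I ((w' - c) / (w - c))
    rw [h1, ofReal_one, one_mul, ← hφ] at h2
    simp only [p]
    have h3 : (((9 : ℕ) / 9 * φ : ℝ) : ℂ) = (φ : ℂ) := by
      norm_num
    rw [h3, mul_comm I, h2, mul_div_cancel₀ _ hwc]
    ring
  have hball : ∀ i ≤ 9, ball (p i) (36 / 100 * e ^ 2) ⊆ Ω := by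
    intro i _ z hz
    rw [mem_ball, dist_eq_norm] at hz
    have h1 := hnorm i
    have h2 : ‖z - c‖ ≤ ‖z - p i‖ + ‖p i - c‖ := by
      have := norm_add_le (z - p i) (p i - c)
      rwa [sub_add_sub_cancel] at this
    have h3 : ‖p i - c‖ ≤ ‖z - p i‖ + ‖z - c‖ := by
      have := norm_sub_le (z - c) (z - p i)
      rw [sub_sub_sub_cancel_left] at this
      linarith
    constructor <;> linarith
  have hstep : ∀ i < 9, ‖p (i + 1) - p i‖ ≤ 36 / 100 * e ^ 2 / 2 := by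
    intro i _
    have h1 : p (i + 1) - p i = (w - c) * (exp (I * ((i / 9 * φ : ℝ) : ℂ)) *
        (exp (I * ((φ / 9 : ℝ) : ℂ)) - 1)) := by
      simp only [p]
      rw [mul_sub, ← Complex.exp_add, mul_one]
      have h2 : I * (((i + 1 : ℕ) / 9 * φ : ℝ) : ℂ) =
          I * ((i / 9 * φ : ℝ) : ℂ) + I * ((φ / 9 : ℝ) : ℂ) := by
        push_cast
        ring
      rw [h2]
      ring
    rw [h1, norm_mul, norm_mul, mul_comm I ((i / 9 * φ : ℝ) : ℂ), norm_exp_ofReal_mul_I, one_mul,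
      hw]
    have h3 : ‖exp (I * ((φ / 9 : ℝ) : ℂ)) - 1‖ ≤ ‖φ / 9‖ :=
      Real.norm_exp_I_mul_ofReal_sub_one_le
    have h4 : ‖φ / 9‖ ≤ Real.pi / 9 := by
      rw [Real.norm_eq_abs, abs_div, abs_of_pos (by norm_num : (0 : ℝ) < 9)]
      exact div_le_div_of_nonneg_right (abs_arg_le_pi _) (by norm_num)
    have h5 : Real.pi / 9 ≤ 36 / 96 := by
      have := Real.pi_lt_d2
      linarith
    calc 48 / 100 * e ^ 2 * ‖exp (I * ((φ / 9 : ℝ) : ℂ)) - 1‖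
        ≤ 48 / 100 * e ^ 2 * (36 / 96) :=
          mul_le_mul_of_nonneg_left (h3.trans (h4.trans h5)) (by positivity)
      _ = 36 / 100 * e ^ 2 / 2 := by ring
  have hch := harnack_chain (Ψ := Ψ) (Ω := Ω) (M := M) (r := 36 / 100 * e ^ 2) (by positivity) hΨ
    (fun z hz => h0 z hz.1 hz.2) (fun z hz => hM z hz.1 hz.2) p 9 hball hstep
  rw [hp0, hp9] at hch
  exact hch

end P250
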