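import Vale.Agent.Lib.P250.PlaA
import Vale.Agent.Lib.P250.PlaB

/-! # P250 module O5c: planar gain -/

open Complex Metric Set

namespace P250

/-- The planar gain: flux point, Harnack around the circle to `i 1.48 e²`, one Harnack step in the
disc `|w - i/4| < 1/4 - 1.2 e²` to `i/4` (factor `≥ 0.5 e²`), Harnack along the segment to `w_x`. -/
theorem planar_gain : ∃ c4 : ℝ, 0 < c4 ∧ ∀ (e M : ℝ) (N : ℕ) (Ω : Set ℂ) (Ψ ℓ : ℂ → ℂ) (wx : ℂ),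
    0 < e → e ≤ 1 / 10 → 0 < M → ‖wx‖ ≤ 2 → DifferentiableOn ℂ Ψ Ω → (∀ w ∈ Ω, Ψ w ≠ 0) →
    (∀ w ∈ Ω, ‖Ψ w‖ ≤ M) →
    (∀ w, 11 / 100 * e ^ 2 < ‖w - I * ((e ^ 2 : ℝ) : ℂ)‖ →
      ‖w - I * ((e ^ 2 : ℝ) : ℂ)‖ < 91 / 100 * e ^ 2 → w ∈ Ω) →
    (∀ w : ℂ, ‖w - I / 4‖ < 1 / 4 - 6 / 5 * e ^ 2 → w ∈ Ω) →
    (∀ t : ℝ, 0 ≤ t → t ≤ 1 → ∀ w : ℂ, ‖w - (I / 4 + t * (wx - I / 4))‖ < 1 / 100 → w ∈ Ω) →
    DifferentiableOn ℂ ℓ {w | 11 / 100 * e ^ 2 < ‖w - I * ((e ^ 2 : ℝ) : ℂ)‖ ∧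
      ‖w - I * ((e ^ 2 : ℝ) : ℂ)‖ < 91 / 100 * e ^ 2} →
    (∀ w, 11 / 100 * e ^ 2 < ‖w - I * ((e ^ 2 : ℝ) : ℂ)‖ →
      ‖w - I * ((e ^ 2 : ℝ) : ℂ)‖ < 91 / 100 * e ^ 2 →
      Ψ w * (w - I * ((e ^ 2 : ℝ) : ℂ)) ^ N = Complex.exp (ℓ w)) →
    c4 * N * e ^ 2 ≤ Real.log M - Real.log ‖Ψ wx‖ := by
  obtain ⟨c5, hc5, h5⟩ := harnack_circle
  obtain ⟨c6, hc6, h6⟩ := harnack_segment (L := 3) (r := 1 / 100) (by norm_num) (by norm_num)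
  have hlog4 : 0 < Real.log 4 := Real.log_pos (by norm_num)
  refine ⟨c6 * (56 / 100) * c5 * Real.log 4, by positivity, ?_⟩
  intro e M N Ω Ψ ℓ wx he he1 hM hwx hΨ h0 hb hann hdisc hseg hℓ hE
  have he2 : 0 < e ^ 2 := by positivity
  have he2' : e ^ 2 ≤ 1 / 100 := by nlinarith
  have hpos : ∀ w ∈ Ω, 0 ≤ Real.log M - Real.log ‖Ψ w‖ := by
    intro w hw
    have h1 : 0 < ‖Ψ w‖ := norm_pos_iff.mpr (h0 w hw)
    linarith [Real.log_le_log h1 (hb w hw)]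
  -- the flux point
  obtain ⟨w1, hw1, hflux⟩ := flux_point (Ψ := Ψ) (ℓ := ℓ) (c := I * ((e ^ 2 : ℝ) : ℂ))
    (ρ1 := 11 / 100 * e ^ 2) (ρ2 := 91 / 100 * e ^ 2) (r1 := 12 / 100 * e ^ 2) (M := M) (N := N)
    (by positivity) (by nlinarith) (by nlinarith) hM hℓ
    (fun w h1 h2 => hb w (hann w h1 h2)) hE
  have hw1' : ‖w1 - I * ((e ^ 2 : ℝ) : ℂ)‖ = 48 / 100 * e ^ 2 := by rw [hw1]; ring
  -- around the circle
  set w2 : ℂ := I * ((148 / 100 * e ^ 2 : ℝ) : ℂ) with hw2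
  have hw2' : ‖w2 - I * ((e ^ 2 : ℝ) : ℂ)‖ = 48 / 100 * e ^ 2 := by
    have e1 : w2 - I * ((e ^ 2 : ℝ) : ℂ) = I * ((48 / 100 * e ^ 2 : ℝ) : ℂ) := by
      rw [hw2]; push_cast; ring
    rw [e1, norm_mul, Complex.norm_I, one_mul, Complex.norm_real, Real.norm_of_nonneg (by positivity)]
  have hcirc := h5 e M Ψ (I * ((e ^ 2 : ℝ) : ℂ)) he
    (hΨ.mono fun w hw => hann w hw.1 hw.2) (fun w h1 h2 => h0 w (hann w h1 h2))
    (fun w h1 h2 => hb w (hann w h1 h2)) w1 w2 hw1' hw2'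
  -- one step in the disc
  have hw2Ω : w2 ∈ Ω := hann w2 (by rw [hw2']; nlinarith) (by rw [hw2']; nlinarith)
  have hball : ball (I / 4) (1 / 4 - 6 / 5 * e ^ 2) ⊆ Ω := by
    intro w hw
    rw [mem_ball, dist_eq_norm] at hw
    exact hdisc w hw
  have hRpos : 0 < 1 / 4 - 6 / 5 * e ^ 2 := by linarith
  have hw2d : ‖w2 - I / 4‖ ≤ 1 / 4 - 148 / 100 * e ^ 2 := by
    have e1 : w2 - I / 4 = I * ((148 / 100 * e ^ 2 - 1 / 4 : ℝ) : ℂ) := by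
      rw [hw2]; push_cast; ring
    rw [e1, norm_mul, Complex.norm_I, one_mul, Complex.norm_real, Real.norm_eq_abs,
      abs_of_nonpos (by linarith)]
    linarith
  have hdiscH := (harnack hRpos (hΨ.mono hball) (fun w hw => h0 w (hball hw))
    (fun w hw => hb w (hball hw)) hw2d (by linarith)).2
  have hfac : 56 / 100 * e ^ 2 ≤ ((1 / 4 - 6 / 5 * e ^ 2) - (1 / 4 - 148 / 100 * e ^ 2)) /
      ((1 / 4 - 6 / 5 * e ^ 2) + (1 / 4 - 148 / 100 * e ^ 2)) := by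
    rw [le_div_iff₀ (by linarith)]
    nlinarith
  have hdisc2 : 56 / 100 * e ^ 2 * (Real.log M - Real.log ‖Ψ w2‖) ≤
      Real.log M - Real.log ‖Ψ (I / 4)‖ :=
    (mul_le_mul_of_nonneg_right hfac (hpos w2 hw2Ω)).trans hdiscH
  -- along the segment
  have hlen : ‖wx - I / 4‖ ≤ 3 := by
    calc ‖wx - I / 4‖ ≤ ‖wx‖ + ‖I / 4‖ := norm_sub_le _ _
      _ ≤ 2 + 1 / 4 := by
          have : ‖(I / 4 : ℂ)‖ = 1 / 4 := by
            rw [norm_div, Complex.norm_I]; norm_num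
          rw [this]; linarith
      _ ≤ 3 := by norm_num
  have hsegH := h6 Ψ Ω M hΨ h0 hb (I / 4) wx hlen (by
    intro t ht0 ht1 w hw
    rw [mem_ball, dist_eq_norm] at hw
    exact hseg t ht0 ht1 w hw)
  -- assembly
  have s1 : c5 * (N * Real.log 4) ≤ Real.log M - Real.log ‖Ψ w2‖ :=
    (mul_le_mul_of_nonneg_left hflux hc5.le).trans hcirc
  have s2 : 56 / 100 * e ^ 2 * (c5 * (N * Real.log 4)) ≤ Real.log M - Real.log ‖Ψ (I / 4)‖ :=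
    (mul_le_mul_of_nonneg_left s1 (by positivity)).trans hdisc2
  calc c6 * (56 / 100) * c5 * Real.log 4 * N * e ^ 2
      = c6 * (56 / 100 * e ^ 2 * (c5 * (N * Real.log 4))) := by ring
    _ ≤ c6 * (Real.log M - Real.log ‖Ψ (I / 4)‖) := mul_le_mul_of_nonneg_left s2 hc6.le
    _ ≤ _ := hsegH

end P250
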