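import Mathlib.Order.CompletePartialOrder
import Vale.Agent.Lib.P250.Avoid
import Vale.Agent.Lib.P250.OSA
import Vale.Agent.Lib.P250.OSdefs
import Vale.Agent.Lib.P250.OsgC
import Vale.Agent.Lib.P250.OthC
import Vale.Agent.Lib.P250.OthD
import Vale.Agent.Lib.P250.PlaC

/-! # P250 module O7a: one step with explicit errors -/

open Complex Metric Set

namespace P250

noncomputable section

private lemma osb_unch_differentiable (b0 : ℤ × ℤ × ℤ) : Differentiable ℂ (unch b0) := by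
  unfold unch
  fun_prop

private lemma osb_unch_mem {b0 : ℤ × ℤ × ℤ} {y : ℂ × ℂ} (hy : y ∈ U2) : unch b0 y ∈ U2 := by
  change 0 < rho (unch b0 y)
  rw [rho_unch]
  exact hy

private lemma osb_pair_mem {e B : ℝ} {x : ℂ × ℂ} (h : Adm e B x) {w : ℂ} (hw : w ∈ OmC e B x) :
    (zF e B x w, w) ∈ U2 := by
  change 0 < rho (zF e B x w, w)
  have h1 := (mem_OmC h hw).2.2
  have h2 := h.he
  have h3 : 0 < e ^ 10 := by positivity
  linarith

/-- the value of `DD` on the curve -/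
private lemma osb_DD {e δ : ℝ} {N k : ℕ} {J : ℂ × ℂ → ℂ} {y : ℂ × ℂ} {a : ℂ} (ha : a ≠ 0)
    (hJ : J y ≠ 0) :
    DD e δ N (-(k : ℤ)) J y = N * (phi e (-(k : ℤ)) y - 2 * Real.log ‖a‖)
      - 2 * Real.log ‖J y / a ^ N‖ + (3 + N * δ) * (-Real.log (rho y)) := by
  have h1 : Real.log ‖J y / a ^ N‖ = Real.log ‖J y‖ - N * Real.log ‖a‖ := by
    rw [norm_div, norm_pow, Real.log_div (norm_ne_zero_iff.2 hJ)
      (pow_ne_zero _ (norm_ne_zero_iff.2 ha)), Real.log_pow]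
  have h2 : Real.log (‖J y‖ ^ 2) = 2 * Real.log ‖J y‖ := by
    rw [Real.log_pow]
    norm_num
  unfold DD
  rw [h1, h2]
  ring

/-- O7a: one step with explicit errors. Let `b0` be the lattice point near `x'` (`exists_near`),
`x = (chZ b0 x', chW b0 x')`, `B` from `exists_avoid`, `j w = unch b0 (zF w, w)`,
`Ψ w = J (j w) / (aF w)^N`. Then `DD (j w) = -2 log |Ψ w| + O w + (3 + N δ) (-log rho)`, with
`O w = N (phi (j w) - 2 log |aF w|)`, `|O w - O w'| ≤ N C e⁴` on `OmC` (`others_bound` with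
`R = 4000`, `psi_on_curve`, `ch_comp_unch` for the avoidance). On the frontier of `Om` we have
`rho = e^10`, so `-2 log |Ψ| ≥ c - O(w_x) - N C e⁴ - (3 + N δ) 10 log (1/e) =: -2 log M`. Maximum
principle (`Complex.norm_le_of_forall_mem_frontier_norm_le`): `|Ψ| ≤ M` on `Om`. `planar_gain` with
`annulus_log` (`J ∘ unch b0 = exp L`, `exists_holLog`). -/
theorem one_step_err : ∃ c4 C e1 : ℝ, 0 < c4 ∧ 0 < C ∧ 0 < e1 ∧ e1 ≤ 1 / 1000 ∧
    ∀ (e δ : ℝ) (N k : ℕ) (J : ℂ × ℂ → ℂ) (c : ℝ), 0 < e → e ≤ e1 → 0 < δ →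
    DifferentiableOn ℂ J U2 → (∀ y ∈ U2, J y ≠ 0) →
    (∀ y, rho y = e ^ 10 → c ≤ DD e δ N (-(k : ℤ)) J y) →
    ∀ x, rho x = 1 →
      c + 2 * c4 * N * e ^ 2 - N * C * e ^ 4 - (3 + N * δ) * (10 * Real.log (1 / e))
        ≤ DD e δ N (-(k : ℤ)) J x := by
  obtain ⟨c4, hc4, hplan⟩ := planar_gain
  obtain ⟨C1, e2, hC1, he2, he2', hoth⟩ := others_bound 4000
  obtain ⟨C2, hC2, hpsi⟩ := psi_on_curve
  obtain ⟨e3, he3, he3', havoid⟩ := exists_avoid
  refine ⟨c4, C1 + 2 * C2, min e2 e3, hc4, by positivity, lt_min he2 he3,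
    (min_le_right _ _).trans he3', ?_⟩
  intro e δ N k J c he hee hδ hJ hJ0 hc x' hx'
  have hee2 : e ≤ e2 := hee.trans (min_le_left _ _)
  have hee3 : e ≤ e3 := hee.trans (min_le_right _ _)
  obtain ⟨b0, hb1, hb2, hb3⟩ := exists_near x'
  set x : ℂ × ℂ := (chZ b0 x', chW b0 x') with hx
  have hxx' : unch b0 x = x' := unch_ch b0 x'
  have hρx : rho x = 1 := by rw [← rho_unch b0 x, hxx', hx']
  have hx1 : ‖x.1‖ ^ 2 ≤ 1 / 2 := by
    rw [Complex.sq_norm, Complex.normSq_apply]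
    have h1 : x.1.re * x.1.re ≤ 1 / 4 := by
      have := abs_le.1 hb1
      change (chZ b0 x').re * (chZ b0 x').re ≤ 1 / 4
      nlinarith [this.1, this.2]
    have h2 : x.1.im * x.1.im ≤ 1 / 4 := by
      have := abs_le.1 hb2
      change (chZ b0 x').im * (chZ b0 x').im ≤ 1 / 4
      nlinarith [this.1, this.2]
    linarith
  obtain ⟨B, hA, hav⟩ := havoid e he hee3 x hρx hx1 hb3
  -- the curve
  set j : ℂ → ℂ × ℂ := fun w => unch b0 (zF e B x w, w) with hj
  have hjU : ∀ w ∈ OmC e B x, j w ∈ U2 := fun w hw => osb_unch_mem (osb_pair_mem hA hw)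
  have hjx : j x.2 = x' := by
    change unch b0 (zF e B x x.2, x.2) = x'
    rw [zF_x hA]
    exact hxx'
  have hrj : ∀ w, rho (j w) = rho (zF e B x w, w) := fun w => rho_unch b0 _
  have hOmC : Om e B x ⊆ OmC e B x := subset_closure.trans (closure_Om hA)
  have hxOm : x.2 ∈ Om e B x := x_mem_Om hA
  set Ψ : ℂ → ℂ := fun w => J (j w) / aF e w ^ N with hΨ
  set O : ℂ → ℝ := fun w => N * (phi e (-(k : ℤ)) (j w) - 2 * Real.log ‖aF e w‖) with hO
  have hDD : ∀ w ∈ OmC e B x, DD e δ N (-(k : ℤ)) J (j w)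
      = O w - 2 * Real.log ‖Ψ w‖ + (3 + N * δ) * (-Real.log (rho (zF e B x w, w))) := by
    intro w hw
    rw [osb_DD (mem_OmC hA hw).1 (hJ0 _ (hjU w hw)), hrj]
  have hosc : ∀ w ∈ OmC e B x, ∀ w' ∈ OmC e B x, O w - O w' ≤ N * (C1 + 2 * C2) * e ^ 4 := by
    intro w hw w' hw'
    have hz : ∀ w ∈ OmC e B x, ‖chZ b0 (j w)‖ ^ 2 ≤ 4000 ∧ ‖chW b0 (j w)‖ ≤ 4000 := by
      intro w hw
      have h1 := (mem_OmC hA hw).2.1
      have h2 := OmC_bounded hA hw
      have h3 := Complex.abs_im_le_norm w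
      have h4 := le_abs_self w.im
      have h5 : 0 < e ^ 10 := by positivity
      rw [chZ_unch, chW_unch]
      exact ⟨by simp only; linarith, h2⟩
    have hr : ∀ w ∈ OmC e B x, e ^ 10 ≤ rho (j w) := by
      intro w hw
      rw [hrj]
      exact (mem_OmC hA hw).2.2
    have hb : ∀ w ∈ OmC e B x, ∀ b, b ≠ b0 → e ≤ ‖chW b (j w)‖ := by
      intro w hw b hb
      obtain ⟨b'', hb'', h⟩ := ch_comp_unch b b0
      change e ≤ ‖chW b (unch b0 (zF e B x w, w))‖
      rw [(h _).2]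
      exact hav w hw b'' (hb'' hb)
    have h1 := hoth e he hee2 k b0 (j w) (hjU w hw) (j w') (hjU w' hw') (hz w hw).1 (hz w' hw').1
      (hz w hw).2 (hz w' hw').2 (hr w hw) (hr w' hw') (hb w hw) (hb w' hw')
    have h2 := hpsi e B x hA w hw b0
    have h3 := hpsi e B x hA w' hw' b0
    have h4 := (abs_le.1 h1).2
    have h5 := (abs_le.1 h2).2
    have h6 := (abs_le.1 h3).1
    have h7 : e ^ 6 ≤ e ^ 4 := pow_le_pow_of_le_one he.le (by linarith [hA.he1]) (by norm_num)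
    have h8 : C2 * e ^ 6 ≤ C2 * e ^ 4 := mul_le_mul_of_nonneg_left h7 hC2.le
    have h9 : (phi e (-(k : ℤ)) (j w) - 2 * Real.log ‖aF e w‖)
        - (phi e (-(k : ℤ)) (j w') - 2 * Real.log ‖aF e w'‖) ≤ (C1 + 2 * C2) * e ^ 4 := by
      simp only [hj] at h4 ⊢
      linarith
    have hN : (0 : ℝ) ≤ N := Nat.cast_nonneg N
    have h10 := mul_le_mul_of_nonneg_left h9 hN
    simp only [hO]
    linarith
  -- the bound on the frontier
  set S : ℝ := O x.2 + N * (C1 + 2 * C2) * e ^ 4 - c + (3 + N * δ) * (10 * Real.log (1 / e)) with hS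
  set M : ℝ := Real.exp (S / 2) with hM
  have hMpos : 0 < M := Real.exp_pos _
  have hlogM : Real.log M = S / 2 := Real.log_exp _
  have hfr : ∀ w ∈ frontier (Om e B x), ‖Ψ w‖ ≤ M := by
    intro w hw
    obtain ⟨h1, h2⟩ := frontier_Om hA hw
    have h3 := hc (j w) (by rw [hrj, h2])
    rw [hDD w h1, h2] at h3
    have h4 := hosc w h1 x.2 (hOmC hxOm)
    have h5 : Real.log (e ^ 10) = 10 * Real.log e := by
      rw [Real.log_pow]
      norm_num
    have h6 : Real.log (1 / e) = -Real.log e := by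
      rw [one_div, Real.log_inv]
    have h7 : Real.log ‖Ψ w‖ ≤ S / 2 := by
      rw [hS, h6]
      rw [h5] at h3
      linarith
    have h8 : 0 < ‖Ψ w‖ :=
      norm_pos_iff.2 (div_ne_zero (hJ0 _ (hjU w h1)) (pow_ne_zero _ (mem_OmC hA h1).1))
    rw [hM, ← Real.log_le_iff_le_exp h8]
    exact h7
  -- differentiability
  have hdz : ∀ w ∈ OmC e B x, DifferentiableAt ℂ j w ∧ DifferentiableAt ℂ (aF e) w := by
    intro w hw
    obtain ⟨h1, h2⟩ := zF_diff hA hw.1 (mem_OmC hA hw).1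
    exact ⟨(osb_unch_differentiable b0).differentiableAt.comp w (h1.prodMk differentiableAt_id), h2⟩
  have hdΨ : ∀ w ∈ OmC e B x, DifferentiableAt ℂ Ψ w := by
    intro w hw
    obtain ⟨h1, h2⟩ := hdz w hw
    have h3 : DifferentiableAt ℂ J (j w) := hJ.differentiableAt (U2_open.mem_nhds (hjU w hw))
    exact (h3.comp w h1).div (h2.pow N) (pow_ne_zero _ (mem_OmC hA hw).1)
  have hbd : Bornology.IsBounded (Om e B x) := by
    refine isBounded_closedBall.subset (s := Om e B x) (t := closedBall (0 : ℂ) 4000) ?_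
    intro w hw
    rw [mem_closedBall_zero_iff]
    exact OmC_bounded hA (hOmC hw)
  have hdcl : DiffContOnCl ℂ Ψ (Om e B x) :=
    DifferentiableOn.diffContOnCl fun w hw =>
      (hdΨ w (closure_Om hA hw)).differentiableWithinAt
  have hmax : ∀ w ∈ Om e B x, ‖Ψ w‖ ≤ M := fun w hw =>
    Complex.norm_le_of_forall_mem_frontier_norm_le hbd hdcl hfr (subset_closure hw)
  -- logarithm
  obtain ⟨L, hL, hLJ⟩ := exists_holLog U2_open U2_convex ⟨x, by
    change 0 < rho x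
    rw [hρx]
    norm_num⟩ hJ hJ0
  have hL' : DifferentiableOn ℂ (fun y => L (unch b0 y)) U2 :=
    hL.comp (osb_unch_differentiable b0).differentiableOn fun y hy => osb_unch_mem hy
  obtain ⟨ℓ, hℓ, hℓe⟩ := annulus_log hA N hL'
  have hann : ∀ w, 11 / 100 * e ^ 2 < ‖w - I * ((e ^ 2 : ℝ) : ℂ)‖ →
      ‖w - I * ((e ^ 2 : ℝ) : ℂ)‖ < 91 / 100 * e ^ 2 → w ∈ Om e B x :=
    fun w h1 h2 => annulus_Om hA h1 h2
  obtain ⟨-, -, -, hxn, -, -⟩ := adm_basic hA
  have hgain := hplan e M N (Om e B x) Ψ ℓ x.2 he (by linarith [hA.he1]) hMpos (by linarith)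
    (fun w hw => (hdΨ w (hOmC hw)).differentiableWithinAt)
    (fun w hw => div_ne_zero (hJ0 _ (hjU w (hOmC hw))) (pow_ne_zero _ (mem_OmC hA (hOmC hw)).1))
    hmax hann (fun w h1 => disc_Om hA h1) (fun t ht ht1 w h1 => tube_Om hA ht ht1 h1) hℓ
    (fun w h1 h2 => by
      rw [← hℓe w h1 h2]
      have h3 : J (j w) = Complex.exp (L (unch b0 (zF e B x w, w))) :=
        hLJ _ (hjU w (hOmC (hann w h1 h2)))
      simp only [hΨ]
      rw [h3])
  -- conclusion
  have hfin := hDD x.2 (hOmC hxOm)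
  rw [hjx] at hfin
  have h1 : rho (zF e B x x.2, x.2) = 1 := by rw [zF_x hA]; exact hρx
  rw [h1, Real.log_one] at hfin
  rw [hlogM, hS] at hgain
  rw [hfin]
  linarith

end

end P250
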