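import Vale.Agent.Lib.P250.OSB

/-! # P250 module O7b: choice of the parameters -/

open Complex Metric Set

namespace P250

noncomputable section

/-- O7b: choice of the parameters. -/
theorem one_step : ∃ (e δ g : ℝ) (N : ℕ), 0 < e ∧ e < 1 ∧ 0 < δ ∧ 0 < N ∧ 0 < g ∧
    ∀ (k : ℕ) (J : ℂ × ℂ → ℂ) (c : ℝ), DifferentiableOn ℂ J U2 → (∀ y ∈ U2, J y ≠ 0) →
    (∀ y, rho y = e ^ 10 → c ≤ DD e δ N (-(k : ℤ)) J y) →
    ∀ x, rho x = 1 → c + g ≤ DD e δ N (-(k : ℤ)) J x := by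
  obtain ⟨c4, C, e1, hc4, hC, he1, he1', hmain⟩ := one_step_err
  -- choice of `e`
  set e : ℝ := min e1 (min 1 (c4 / C)) with he
  have hq : 0 < c4 / C := div_pos hc4 hC
  have he0 : 0 < e := lt_min he1 (lt_min one_pos hq)
  have hee1 : e ≤ e1 := min_le_left _ _
  have he1e : e < 1 := by linarith
  have heq : e ≤ c4 / C := (min_le_right _ _).trans (min_le_right _ _)
  have he2 : C * e ^ 2 ≤ c4 := by
    have h1 : C * e ≤ c4 := by
      rw [le_div_iff₀ hC] at heq
      linarith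
    have h2 : C * e ^ 2 = (C * e) * e := by ring
    rw [h2]
    have h3 : 0 < C * e := mul_pos hC he0
    nlinarith
  have hlog : 0 ≤ Real.log (1 / e) := by
    apply Real.log_nonneg
    rw [le_div_iff₀ he0]
    linarith
  -- choice of `N`
  obtain ⟨N, hN⟩ := exists_nat_gt ((40 * Real.log (1 / e) + 1) / (c4 * e ^ 2))
  have hce : 0 < c4 * e ^ 2 := by positivity
  have hN0 : (0 : ℝ) < N := lt_of_le_of_lt (div_nonneg (by linarith) hce.le) hN
  have hNpos : 0 < N := by exact_mod_cast hN0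
  rw [div_lt_iff₀ hce] at hN
  refine ⟨e, 1 / N, 1, N, he0, he1e, by positivity, hNpos, one_pos, ?_⟩
  intro k J c hJ hJ0 hc x hx
  have h := hmain e (1 / N) N k J c he0 hee1 (by positivity) hJ hJ0 hc x hx
  refine le_trans ?_ h
  have h1 : (3 : ℝ) + N * (1 / N) = 4 := by
    field_simp
    norm_num
  rw [h1]
  have h2 : (N : ℝ) * C * e ^ 4 ≤ N * c4 * e ^ 2 := by
    have h3 : (N : ℝ) * C * e ^ 4 = N * e ^ 2 * (C * e ^ 2) := by ring
    have h4 : (N : ℝ) * c4 * e ^ 2 = N * e ^ 2 * c4 := by ring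
    rw [h3, h4]
    exact mul_le_mul_of_nonneg_left he2 (by positivity)
  nlinarith

end

end P250
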