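import Mathlib.Algebra.Ring.IsFormallyReal
import Mathlib.Analysis.CStarAlgebra.Classes
import Mathlib.Analysis.Complex.CauchyIntegral

/-! # P250 module O5a: flux point -/

open Complex Metric Set

namespace P250

private theorem plaA_circle (f : ℂ → ℂ) (c : ℂ) {R : ℝ} (hR : 0 < R) :
    (∮ z in C(c, R), (z - c)⁻¹ • f z) = I * ∫ θ in (0 : ℝ)..2 * Real.pi, f (circleMap c R θ) := by
  rw [circleIntegral, ← intervalIntegral.integral_const_mul]
  refine intervalIntegral.integral_congr fun θ _ => ?_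
  have h : circleMap 0 R θ ≠ 0 := by
    rw [← norm_ne_zero_iff, norm_circleMap_zero]
    exact abs_ne_zero.2 hR.ne'
  simp only [deriv_circleMap, smul_eq_mul, circleMap_sub_center]
  field_simp

private theorem plaA_norm (c : ℂ) {R : ℝ} (hR : 0 < R) (θ : ℝ) : ‖circleMap c R θ - c‖ = R := by
  rw [circleMap_sub_center, norm_circleMap_zero, abs_of_pos hR]

/-- If `Ψ (w) (w - c)^N = exp (ℓ w)` on the annulus `ρ1 < |w - c| < ρ2` and `|Ψ| ≤ M` there, then on
the circle of radius `4 r1` (`ρ1 < r1`, `4 r1 < ρ2`) some point has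
`log M - log |Ψ| ≥ N log 4`. (Circle averages: that of `Re ℓ` does not depend on the radius, that
of `log |w - c|` is `log r`.) -/
theorem flux_point {Ψ ℓ : ℂ → ℂ} {c : ℂ} {ρ1 ρ2 r1 M : ℝ} {N : ℕ} (h0 : 0 < ρ1) (h1 : ρ1 < r1)
    (h2 : 4 * r1 < ρ2) (hM0 : 0 < M)
    (hℓ : DifferentiableOn ℂ ℓ {w | ρ1 < ‖w - c‖ ∧ ‖w - c‖ < ρ2})
    (hM : ∀ w, ρ1 < ‖w - c‖ → ‖w - c‖ < ρ2 → ‖Ψ w‖ ≤ M)
    (hE : ∀ w, ρ1 < ‖w - c‖ → ‖w - c‖ < ρ2 → Ψ w * (w - c) ^ N = Complex.exp (ℓ w)) :
    ∃ w : ℂ, ‖w - c‖ = 4 * r1 ∧ N * Real.log 4 ≤ Real.log M - Real.log ‖Ψ w‖ := by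
  have hr1 : 0 < r1 := h0.trans h1
  have h4r1 : 0 < 4 * r1 := by linarith
  set S : Set ℂ := {w | ρ1 < ‖w - c‖ ∧ ‖w - c‖ < ρ2} with hS
  have hSo : IsOpen S := by
    have e1 : IsOpen {w : ℂ | ρ1 < ‖w - c‖} := isOpen_lt continuous_const (by fun_prop)
    have e2 : IsOpen {w : ℂ | ‖w - c‖ < ρ2} := isOpen_lt (by fun_prop) continuous_const
    exact e1.inter e2
  -- membership of circles
  have hmem : ∀ R, ρ1 < R → R < ρ2 → ∀ θ, circleMap c R θ ∈ S := by
    intro R hR1 hR2 θ
    have h := plaA_norm c (h0.trans hR1) θ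
    exact ⟨by rw [h]; exact hR1, by rw [h]; exact hR2⟩
  -- log identity
  have hlog : ∀ R, ρ1 < R → R < ρ2 → ∀ θ,
      (ℓ (circleMap c R θ)).re = Real.log ‖Ψ (circleMap c R θ)‖ + N * Real.log R ∧
        0 < ‖Ψ (circleMap c R θ)‖ := by
    intro R hR1 hR2 θ
    have hR0 : 0 < R := h0.trans hR1
    obtain ⟨e1, e2⟩ := hmem R hR1 hR2 θ
    have h := congrArg norm (hE _ e1 e2)
    rw [norm_mul, norm_pow, plaA_norm c hR0 θ, Complex.norm_exp] at h
    have hpos : 0 < ‖Ψ (circleMap c R θ)‖ := by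
      rcases (norm_nonneg (Ψ (circleMap c R θ))).lt_or_eq with h' | h'
      · exact h'
      · rw [← h', zero_mul] at h
        exact absurd h.symm (Real.exp_pos _).ne'
    refine ⟨?_, hpos⟩
    have h' := congrArg Real.log h
    rw [Real.log_mul hpos.ne' (pow_ne_zero _ hR0.ne'), Real.log_pow, Real.log_exp] at h'
    exact h'.symm
  -- continuity on circles
  have hcont : ∀ R, ρ1 < R → R < ρ2 → Continuous (fun θ : ℝ => ℓ (circleMap c R θ)) := by
    intro R hR1 hR2
    exact hℓ.continuousOn.comp_continuous (continuous_circleMap c R) (hmem R hR1 hR2)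
  have hcre : ∀ R, ρ1 < R → R < ρ2 → Continuous (fun θ : ℝ => (ℓ (circleMap c R θ)).re) :=
    fun R hR1 hR2 => Complex.continuous_re.comp (hcont R hR1 hR2)
  -- circle averages
  have havg : (∫ θ in (0 : ℝ)..2 * Real.pi, ℓ (circleMap c (4 * r1) θ)) =
      ∫ θ in (0 : ℝ)..2 * Real.pi, ℓ (circleMap c r1 θ) := by
    have h := Complex.circleIntegral_sub_center_inv_smul_eq_of_differentiable_on_annulus_off_countable
      (c := c) (r := r1) (R := 4 * r1) hr1 (by linarith) (f := ℓ) (s := ∅) countable_empty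
      (by
        refine hℓ.continuousOn.mono ?_
        rintro w ⟨hw1, hw2⟩
        rw [mem_closedBall, dist_eq_norm] at hw1
        rw [mem_ball, dist_eq_norm, not_lt] at hw2
        exact ⟨by linarith, by linarith⟩)
      (by
        rintro w ⟨⟨hw1, hw2⟩, _⟩
        rw [mem_ball, dist_eq_norm] at hw1
        rw [mem_closedBall, dist_eq_norm, not_le] at hw2
        exact hℓ.differentiableAt (hSo.mem_nhds ⟨by linarith, by linarith⟩))
    rw [plaA_circle ℓ c h4r1, plaA_circle ℓ c hr1] at h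
    exact mul_left_cancel₀ I_ne_zero h
  have hre : ∀ R, ρ1 < R → R < ρ2 → (∫ θ in (0 : ℝ)..2 * Real.pi, ℓ (circleMap c R θ)).re =
      ∫ θ in (0 : ℝ)..2 * Real.pi, (ℓ (circleMap c R θ)).re := by
    intro R hR1 hR2
    exact (Complex.reCLM.intervalIntegral_comp_comm ((hcont R hR1 hR2).intervalIntegrable _ _)).symm
  have havg' := congrArg Complex.re havg
  rw [hre _ (by linarith) h2, hre _ h1 (by linarith)] at havg'
  -- upper bound on the small circle
  have hpi : 0 < 2 * Real.pi := by positivity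
  have hupper : (∫ θ in (0 : ℝ)..2 * Real.pi, (ℓ (circleMap c r1 θ)).re) ≤
      2 * Real.pi * (Real.log M + N * Real.log r1) := by
    have i1 : IntervalIntegrable (fun θ : ℝ => (ℓ (circleMap c r1 θ)).re) MeasureTheory.volume 0
        (2 * Real.pi) := (hcre r1 h1 (by linarith)).intervalIntegrable _ _
    have i2 : IntervalIntegrable (fun _ : ℝ => Real.log M + N * Real.log r1)
        MeasureTheory.volume 0 (2 * Real.pi) := continuous_const.intervalIntegrable _ _
    have h := intervalIntegral.integral_mono_on hpi.le i1 i2 (fun θ _ => by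
        obtain ⟨e1, e2⟩ := hlog r1 h1 (by linarith) θ
        obtain ⟨e3, e4⟩ := hmem r1 h1 (by linarith) θ
        have e5 := Real.log_le_log e2 (hM _ e3 e4)
        rw [e1]
        linarith)
    rw [intervalIntegral.integral_const, sub_zero, smul_eq_mul] at h
    exact h
  -- minimum on the large circle
  obtain ⟨θ0, _, hθ0⟩ := isCompact_Icc.exists_isMinOn (nonempty_Icc.2 hpi.le)
    (hcre (4 * r1) (by linarith) h2).continuousOn
  have hlower : 2 * Real.pi * (ℓ (circleMap c (4 * r1) θ0)).re ≤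
      ∫ θ in (0 : ℝ)..2 * Real.pi, (ℓ (circleMap c (4 * r1) θ)).re := by
    have i1 : IntervalIntegrable (fun _ : ℝ => (ℓ (circleMap c (4 * r1) θ0)).re)
        MeasureTheory.volume 0 (2 * Real.pi) := continuous_const.intervalIntegrable _ _
    have i2 : IntervalIntegrable (fun θ : ℝ => (ℓ (circleMap c (4 * r1) θ)).re)
        MeasureTheory.volume 0 (2 * Real.pi) :=
      (hcre (4 * r1) (by linarith) h2).intervalIntegrable _ _
    have h := intervalIntegral.integral_mono_on hpi.le i1 i2 (fun θ hθ => hθ0 hθ)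
    rw [intervalIntegral.integral_const, sub_zero, smul_eq_mul] at h
    exact h
  refine ⟨circleMap c (4 * r1) θ0, plaA_norm c h4r1 θ0, ?_⟩
  obtain ⟨e1, e2⟩ := hlog (4 * r1) (by linarith) h2 θ0
  have h3 : 2 * Real.pi * (ℓ (circleMap c (4 * r1) θ0)).re ≤
      2 * Real.pi * (Real.log M + N * Real.log r1) := by linarith
  have h4 := le_of_mul_le_mul_left h3 hpi
  rw [e1, Real.log_mul (by norm_num) hr1.ne'] at h4
  linarith

end P250
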